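import Crest.Agent.R238.ExiDefs
import Crest.Agent.R238.AprDefs

/-!
Row 253 (S0391), task T6 (helper505): FROZEN DEFINITIONS of the smooth Brenier map
(port of the existence half of row 238 with a zero order term of the good sign).

`u = |x|²/2 + v`, `∇u : f_lam → γ`,
`(MAb)  log det(1 + D²v) - x·∇v - |∇v|²/2 - lam v = - s P`.
Linearisation `Lb lam b τ h = tr(τ D²h) - x·∇h - b·∇h - lam h`, `b = ∇v`, `τ = (1 + D²v)⁻¹`.
`gm, tauf, Hs, HB, LA, Ell, Tst, ExtS, Apr.Far` are those of row 238.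
-/

set_option autoImplicit false

open Set Filter
open scoped ContDiff Topology

namespace Crest.Agent.R253.Br

open Crest.Agent.R238

variable {n : ℕ}

/-- gradient components -/
noncomputable def gr (v : E n → ℝ) (x : E n) (i : Fin n) : ℝ := fderiv ℝ v x (ee i)

/-- the regularised Monge-Ampere equation -/
def MAb (P : E n → ℝ) (lam s : ℝ) (v : E n → ℝ) : Prop :=
  ∀ x, Real.log (gm v x).det - fderiv ℝ v x x - (∑ i, gr v x i ^ 2) / 2 - lam * v x = - s * P x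

/-- `tr(τ D²h) - x·∇h - b·∇h - lam h` -/
noncomputable def Lb (lam : ℝ) (b : E n → Fin n → ℝ) (τ : E n → Matrix (Fin n) (Fin n) ℝ)
    (h : E n → ℝ) (x : E n) : ℝ := LA τ h x - ∑ i, b x i * gr h x i - lam * h x

/-- `C^{2,a}` class: `v`, `Dv`, `D²v` bounded and `a`-Hölder with constant `M` -/
structure ClsB (a M : ℝ) (v : E n → ℝ) : Prop where
  c2 : ContDiff ℝ 2 v
  h0 : HB a M v
  h1 : ∀ i, HB a M (fun x => gr v x i)
  h2 : ∀ i j, HB a M (fun x => Hs v x i j)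

/-- smooth, all derivatives bounded -/
structure NiceB (f : E n → ℝ) : Prop where
  smooth : ContDiff ℝ ∞ f
  bdd : ∀ k : ℕ, ∃ C : ℝ, ∀ x, ‖iteratedFDeriv ℝ k f x‖ ≤ C

/-- the data: `P ∈ C_c^∞`, `D²(|x|²/2 + P) ≥ 2ε` (NO evenness) -/
structure PDatB (P : E n → ℝ) : Prop where
  tst : Tst P
  conv : ∃ ε > 0, ConvexOn ℝ univ (fun x => ‖x‖ ^ 2 / 2 + P x - ε * ‖x‖ ^ 2)

/-- a priori estimate for `Lb` -/
def AprB (a lam M2 : ℝ) (b : E n → Fin n → ℝ) (τ : E n → Matrix (Fin n) (Fin n) ℝ) : Prop :=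
  ∀ (h : E n → ℝ) (N : ℝ), (∃ B, ClsB a B h) → HB a N (Lb lam b τ h) → ClsB a (M2 * N) h

/-- solvability of `Lb h = f` -/
def SrjB (a lam : ℝ) (b : E n → Fin n → ℝ) (τ : E n → Matrix (Fin n) (Fin n) ℝ) : Prop :=
  ∀ (f : E n → ℝ) (N : ℝ), HB a N f → ∃ h : E n → ℝ, (∃ B, ClsB a B h) ∧ ∀ x, Lb lam b τ h x = f x

/-- **B1**: solution operator of `L₀ - lam` -/
def SolB : Prop := ∀ (n : ℕ) (a lam : ℝ), 0 < a → a < 1 → 0 < lam → ∃ C : ℝ, 0 < C ∧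
  ∀ (r : E n → ℝ) (N : ℝ), HB a N r → ∃ v : E n → ℝ, ClsB a (C * N) v ∧
    ∀ x, LA (fun _ => (1 : Matrix (Fin n) (Fin n) ℝ)) v x - lam * v x = r x

/-- **B3**: Schauder estimate for `Lb` -/
def SchB : Prop := ∀ (n : ℕ) (a lo hi : ℝ), 0 < a → a < 1 → 0 < lo → lo ≤ hi →
  ∃ ε₀ : ℝ, 0 < ε₀ ∧ ∀ lam M R : ℝ, 0 < lam → lam ≤ 1 → ∃ M2 : ℝ, 0 < M2 ∧
    ∀ (τ : E n → Matrix (Fin n) (Fin n) ℝ) (b : E n → Fin n → ℝ), (∀ x, Ell lo hi (τ x)) →
      (∀ i j, HB a M (fun x => τ x i j)) → (∀ i, HB a M (fun x => b x i)) →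
      Apr.Far a ε₀ R τ → AprB a lam M2 b τ

/-- **B4**: the uniform step of the continuity method -/
def StepB : Prop := ∀ (n : ℕ) (a lam lo hi M M2 NP δ : ℝ), 0 < a → a < 1 → 0 < lam → lam ≤ 1 →
  0 < lo → lo ≤ hi → 0 < δ → ∃ t₀ : ℝ, 0 < t₀ ∧ ∀ (P : E n → ℝ), HB a NP P →
    ∀ (s : ℝ) (v : E n → ℝ), ClsB a M v → (∀ x, Ell lo hi (gm v x)) → MAb P lam s v →
      AprB a lam M2 (gr v) (tauf v) → SrjB a lam (gr v) (tauf v) →
      ∀ s' ∈ Icc s (s + t₀), ∃ v' : E n → ℝ, ClsB a (M + δ) v' ∧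
        (∀ i j, HB a δ (fun x => Hs v' x i j - Hs v x i j)) ∧
        (∀ x, Ell (lo / 2) (hi + lo / 2) (gm v' x)) ∧ MAb P lam s' v' ∧
        SrjB a lam (gr v') (tauf v')

/-- `qf v z = D²v(z,z)` as in `R238.MaxP.qf`; `D²(sP)` -/
noncomputable def pmB (P : E n → ℝ) (s : ℝ) (x : E n) : Matrix (Fin n) (Fin n) ℝ :=
  Matrix.of fun i j => s * Hs P x i j

/-- quadratic form of the second derivative -/
noncomputable def qfB (v : E n → ℝ) (z : Fin n → ℝ) (x : E n) : ℝ :=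
  ∑ i, ∑ j, Hs v x i j * z i * z j

/-- **B5**: pointwise identities / inequalities (second derivatives and `log det`) -/
def PwB : Prop := ∀ (n : ℕ) (P v : E n → ℝ) (lam s lo hi : ℝ), ContDiff ℝ ∞ P → ContDiff ℝ ∞ v →
  0 < lo → (∀ x, Ell lo hi (gm v x)) → MAb P lam s v →
    (∀ z x, 2 * qfB v z x - ∑ i, ∑ j, pmB P s x i j * z i * z j ≤ Lb lam (gr v) (tauf v) (qfB v z) x) ∧
    ∀ x, LA (tauf v) (fun y => Real.log (gm v y).det) x
        - ∑ i, gr v x i * gr (fun y => Real.log (gm v y).det) x i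
      = (gm v x).trace - (tauf v x * (1 + pmB P s x)).trace + lam * (n - (tauf v x).trace)



/-- **B8**: regularity of a solution of the class `ClsB` -/
def RegB : Prop := ∀ (n : ℕ) (a lo hi : ℝ), 0 < a → a < 1 → 0 < lo → lo ≤ hi →
  ∃ ε₁ : ℝ, 0 < ε₁ ∧ ∀ (M R : ℝ) (P : E n → ℝ), Tst P → ∀ (lam s : ℝ) (v : E n → ℝ),
    0 < lam → lam ≤ 1 → ClsB a M v → (∀ x, Ell lo hi (gm v x)) → MAb P lam s v →
    ExtS a ε₁ R v → NiceB v


end Crest.Agent.R253.Br
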