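import Crest.Agent.R253.BrDefs_505
import Crest.Agent.R238.AprDat

/-!
Row 253 (S0391), task T6 (helper505): constants of the datum `P` and the UNIFORM versions of the
a priori / existence statements (constants depend only on the constants of the datum; needed for
the normalisation, i.e. for families `A ↦ P_A`).
-/

set_option autoImplicit false

open Set Filter
open scoped ContDiff Topology

namespace Crest.Agent.R253.Br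

open Crest.Agent.R238 Crest.Agent.R238.Apr

variable {n : ℕ}

/-- constants of the datum -/
structure PCB (P : E n → ℝ) (c C2 C3 M0 M1 R0 : ℝ) : Prop where
  pc : Apr.PC P c C2 C3 M0 R0
  tst : Tst P
  grad : ∀ x i, |gr P x i| ≤ M1



/-- **B7a, uniform**: ellipticity, sup bounds, decay -/
def BndU : Prop := ∀ (n : ℕ) (c C2 C3 M0 M1 R0 : ℝ), ∃ lo hi K K1 : ℝ, 0 < lo ∧ lo ≤ hi ∧
  ∀ P : E n → ℝ, PCB P c C2 C3 M0 M1 R0 → ∀ lam s : ℝ, 0 < lam → lam ≤ 1 → 0 ≤ s → s ≤ 1 →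
    ∀ v : E n → ℝ, NiceB v → (∃ lo' hi' : ℝ, 0 < lo' ∧ ∀ x, Ell lo' hi' (gm v x)) →
      MAb P lam s v → (∀ x, Ell lo hi (gm v x)) ∧ (∀ x, lam * |v x| ≤ K) ∧
        (∀ x i, |gr v x i| ≤ K) ∧
        ∀ x i j, |Hs v x i j| ≤ K1 * (1 + ‖x‖ ^ 2) ^ (-(1 / 4) : ℝ)

/-- **B6, uniform** -/
def D3U : Prop := ∀ (n : ℕ) (c C2 C3 M0 M1 R0 lo hi : ℝ), 0 < lo → lo ≤ hi →
  ∃ K : ℝ, ∀ P : E n → ℝ, PCB P c C2 C3 M0 M1 R0 → ∀ lam s : ℝ, 0 < lam → lam ≤ 1 → 0 ≤ s →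
    s ≤ 1 → ∀ v : E n → ℝ, NiceB v → (∀ x, Ell lo hi (gm v x)) → MAb P lam s v →
      ∀ x i j k, |fderiv ℝ (fun y => Hs v y i j) x (ee k)| ≤ K

/-- **B7, uniform** -/
def AprStmtU : Prop := ∀ (n : ℕ) (a : ℝ), 0 < a → a < 1 → ∀ c C2 C3 M0 M1 R0 : ℝ,
  ∃ lo hi K : ℝ, 0 < lo ∧ lo ≤ hi ∧ ∀ lam : ℝ, 0 < lam → lam ≤ 1 →
    ∃ M M2 : ℝ, ∀ ε : ℝ, 0 < ε → ∃ R : ℝ, ∀ P : E n → ℝ, PCB P c C2 C3 M0 M1 R0 →
    ∀ s : ℝ, 0 ≤ s → s ≤ 1 → ∀ v : E n → ℝ, NiceB v →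
      (∃ lo' hi' : ℝ, 0 < lo' ∧ ∀ x, Ell lo' hi' (gm v x)) → MAb P lam s v →
        (∀ x, Ell lo hi (gm v x)) ∧ (∀ x, lam * |v x| ≤ K) ∧ (∀ x i, |gr v x i| ≤ K) ∧
        (∀ x i j k, |fderiv ℝ (fun y => Hs v y i j) x (ee k)| ≤ K) ∧
        ClsB a M v ∧ AprB a lam M2 (gr v) (tauf v) ∧ ExtS a ε R v

/-- **B9, uniform = final existence statement** (x-side) -/
def ExiU (n : ℕ) : Prop := ∀ c C2 C3 M0 M1 R0 : ℝ, ∃ lo hi K : ℝ, 0 < lo ∧ lo ≤ hi ∧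
  ∀ P : E n → ℝ, PCB P c C2 C3 M0 M1 R0 → ∀ lam : ℝ, 0 < lam → lam ≤ 1 →
    ∃ v : E n → ℝ, NiceB v ∧ (∀ x, Ell lo hi (gm v x)) ∧
      (∀ x, lam * |v x| ≤ K) ∧ (∀ x i, |gr v x i| ≤ K) ∧
      (∀ x i j k, |fderiv ℝ (fun y => Hs v y i j) x (ee k)| ≤ K) ∧ MAb P lam 1 v



end Crest.Agent.R253.Br
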