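import Crest.Agent.R238.AprMain
import Crest.Agent.R253.BrDefs_505
import Crest.Agent.R238.ExiAsm
import Crest.Agent.R253.BrPC_505

-- ▼ part R253/AprB_214
section

/-!
Row 253 (S0391), task T6, node B7, second half (helper214): assembly of the uniform a priori
bounds, `BndB → D3B → SchB → AprStmtB` (port of `R238.AprMain`).
-/

set_option autoImplicit false

open Set Filter
open scoped ContDiff Topology

namespace Crest.Agent.R253.Br

open Crest.Agent.R238

variable {n : ℕ}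


theorem hb_monoM {a M M' : ℝ} {f : E n → ℝ} (h : HB a M f) (hM : M ≤ M') : HB a M' f :=
  ⟨fun x => (h.1 x).trans hM, fun x y => (h.2 x y).trans
    (mul_le_mul_of_nonneg_right hM (Real.rpow_nonneg (norm_nonneg _) _))⟩

theorem fderiv_gr {v : E n → ℝ} (hv : ContDiff ℝ 2 v) (i : Fin n) (x : E n) (k : Fin n) :
    fderiv ℝ (fun y => gr v y i) x (ee k) = Hs v x k i := by
  unfold gr Hs
  have h1 : ContDiff ℝ 1 (fderiv ℝ v) := hv.fderiv_right (by norm_num)
  have h2 : DifferentiableAt ℝ (fderiv ℝ v) x := (h1.differentiable (by norm_num)) x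
  rw [fderiv_clm_apply h2 (differentiableAt_const _)]
  simp

theorem differentiable_gr {v : E n → ℝ} (hv : ContDiff ℝ 2 v) (i : Fin n) :
    Differentiable ℝ (fun y => gr v y i) := by
  have h1 : ContDiff ℝ 1 (fderiv ℝ v) := hv.fderiv_right (by norm_num)
  exact ((h1.differentiable (by norm_num)).clm_apply (differentiable_const _))


end Crest.Agent.R253.Br
end

-- ▼ part R253/ExiAsmB_214
section

/-!
Row 253 (S0391), task T6, node B9 (helper214): assembly of the continuity method,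
`SolB → StepB → AprStmtB → RegB → ∀ n, ExiB n` (port of `R238.ExiAsm`).
-/

set_option autoImplicit false

open Set Filter
open scoped ContDiff Topology

namespace Crest.Agent.R253.Br

open Crest.Agent.R238

variable {n : ℕ}

theorem gr_zero (x : E n) (i : Fin n) : gr (fun _ : E n => (0 : ℝ)) x i = 0 := by
  unfold gr
  have h : (fderiv ℝ (fun _ : E n => (0 : ℝ))) = fun _ => 0 := by
    funext y; simp
  rw [h]; simp

theorem niceB_zero : NiceB (fun _ : E n => (0 : ℝ)) := by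
  refine ⟨contDiff_const, fun k => ⟨0, fun x => ?_⟩⟩
  rcases Nat.eq_zero_or_pos k with hk | hk
  · subst hk; simp
  · have : iteratedFDeriv ℝ k (fun _ : E n => (0 : ℝ)) = 0 := by
      rw [iteratedFDeriv_const_of_ne (by omega)]
    rw [this]; simp

/-- the induction hypothesis of the continuity method -/
def HkB (a lam lo hi : ℝ) (P : E n → ℝ) (s : ℝ) : Prop :=
  ∃ v : E n → ℝ, NiceB v ∧ (∀ x, Ell lo hi (gm v x)) ∧ MAb P lam s v ∧
    SrjB a lam (gr v) (tauf v)

theorem exists_startB (hsol : SolB) {a lam : ℝ} (ha : 0 < a) (ha1 : a < 1) (hlam : 0 < lam)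
    (P : E n → ℝ) : HkB a lam 1 1 P 0 := by
  refine ⟨fun _ => 0, niceB_zero, fun x => ?_, fun x => ?_, ?_⟩
  · rw [gm_zero]; exact Ell_one
  · rw [gm_zero]
    simp [gr_zero]
  · intro f N hf
    obtain ⟨C, -, hC⟩ := hsol n a lam ha ha1 hlam
    obtain ⟨v, hv, hveq⟩ := hC f N hf
    refine ⟨v, ⟨C * N, hv⟩, fun x => ?_⟩
    unfold Lb
    rw [tauf_zero, ← hveq x]
    simp [gr_zero]


end Crest.Agent.R253.Br
end

-- ▼ part R253/AprU_214

/-!
Row 253 (S0391), task T6, nodes B7 (second half) and B9, uniform versions (helper214):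
`BndU → D3U → SchB → AprStmtU` and `SolB → StepB → AprStmtU → RegB → ∀ n, ExiU n`.
-/

set_option autoImplicit false

open Set Filter
open scoped ContDiff Topology

namespace Crest.Agent.R253.Br

open Crest.Agent.R238

variable {n : ℕ}

theorem aprStmtU_of (hB : BndU) (hD3 : D3U) (hS : SchB) : AprStmtU := by
  intro n a ha ha1 c C2 C3 M0 M1 R0
  obtain ⟨lo, hi, K, K1, hlo, hlohi, hbnd⟩ := hB n c C2 C3 M0 M1 R0
  have hhi : 0 < hi := hlo.trans_le hlohi
  obtain ⟨K3, hK3⟩ := hD3 n c C2 C3 M0 M1 R0 lo hi hlo hlohi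
  have hn0 : (0 : ℝ) ≤ n := Nat.cast_nonneg n
  set L3 : ℝ := n * |K3| with hL3
  have hL30 : 0 ≤ L3 := by positivity
  have hlip : ∀ P : E n → ℝ, PCB P c C2 C3 M0 M1 R0 →
      ∀ lam s : ℝ, 0 < lam → lam ≤ 1 → 0 ≤ s → s ≤ 1 → ∀ v : E n → ℝ, NiceB v →
      (∀ x, Ell lo hi (gm v x)) → MAb P lam s v →
      ∀ x y i j, |Hs v x i j - Hs v y i j| ≤ L3 * ‖x - y‖ := by
    intro P hP lam s hlam hlam1 hs0 hs1 v hv hell hma x y i j
    have hd : Differentiable ℝ (fun y => Hs v y i j) :=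
      (Apr.contDiff_Hs hv.smooth i j).differentiable (by simp)
    exact ExtSm.lip_of_partials hd
      (fun x k => (hK3 P hP lam s hlam hlam1 hs0 hs1 v hv hell hma x i j k).trans
        (le_abs_self _)) x y
  -- Schauder constants
  have hhilo : (1 : ℝ) / hi ≤ 1 / lo := one_div_le_one_div_of_le hlo hlohi
  obtain ⟨ε₀, hε₀, hcore⟩ := hS n a (1 / hi) (1 / lo) ha ha1 (by positivity) hhilo
  obtain ⟨Rτ, -, -, hRτ⟩ := ExtSm.ext_small (R1 := 0) n ha ha1 hlo hlohi
    (K := |K1|) (K3 := L3) (abs_nonneg _) hL30 hε₀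
  set Mt : ℝ := 2 * (1 / lo) + (n : ℝ) ^ 2 * (1 / lo) ^ 2 * L3 with hMt
  have hMt0 : 0 ≤ Mt := by positivity
  set Mg : ℝ := 2 * |K| + n * (hi + 1) with hMg
  have hMg0 : 0 ≤ Mg := by positivity
  refine ⟨lo, hi, |K| + |K3|, hlo, hlohi, fun lam hlam hlam1 => ?_⟩
  set Mv : ℝ := 2 * (|K| / lam) + n * |K| with hMv
  have hMv0 : 0 ≤ Mv := by positivity
  set Mh : ℝ := 2 * (hi + 1) + L3 with hMh
  have hMh0 : 0 ≤ Mh := by positivity
  obtain ⟨M2, hM2, hM2'⟩ := hcore lam (Mt + Mg) Rτ hlam hlam1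
  refine ⟨Mv + Mg + Mh, M2, fun ε hε => ?_⟩
  obtain ⟨Rε, -, -, hRε⟩ := ExtSm.ext_small (R1 := 0) n ha ha1 hlo hlohi
    (K := |K1|) (K3 := L3) (abs_nonneg _) hL30 hε
  refine ⟨Rε, fun P hP s hs0 hs1 v hv hell' hma => ?_⟩
  obtain ⟨hell, hK0, hKg, hdec0⟩ := hbnd P hP lam s hlam hlam1 hs0 hs1 v hv hell' hma
  have hL := hlip P hP lam s hlam hlam1 hs0 hs1 v hv hell hma
  have hv2 : ContDiff ℝ 2 v := by exact_mod_cast contDiff_infty.1 hv.smooth 2
  have hdec : ∀ x, 0 ≤ ‖x‖ → ∀ i j, |Hs v x i j| ≤ |K1| * (1 + ‖x‖ ^ 2) ^ (-(1 / 4) : ℝ) := by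
    intro x _ i j
    exact (hdec0 x i j).trans (mul_le_mul_of_nonneg_right (le_abs_self _)
      (Real.rpow_nonneg (by positivity) _))
  have hgr : ∀ x i, |gr v x i| ≤ |K| := fun x i => (hKg x i).trans (le_abs_self _)
  have hHBg : ∀ i, HB a Mg (fun x => gr v x i) := by
    intro i
    refine ExtSm.hb_of_lip ha ha1 (abs_nonneg _) (by positivity) (fun x => hgr x i)
      (fun x y => ?_)
    refine ExtSm.lip_of_partials (f := fun y => gr v y i) (differentiable_gr hv2 i)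
      (M := hi + 1) (fun x k => ?_) x y
    rw [fderiv_gr hv2]
    exact ExtSm.Hs_le hlo (hell x) k i
  have hHBv : HB a Mv v := by
    refine ExtSm.hb_of_lip ha ha1 (by positivity) (by positivity) (fun x => ?_) (fun x y => ?_)
    · rw [le_div_iff₀ hlam, mul_comm]
      exact (hK0 x).trans (le_abs_self _)
    · exact ExtSm.lip_of_partials (hv2.differentiable (by norm_num)) (M := |K|)
        (fun x k => hgr x k) x y
  have hHBh : ∀ i j, HB a Mh (fun x => Hs v x i j) := fun i j =>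
    ExtSm.hb_Hs ha ha1 hlo hlohi hL30 hell hL i j
  refine ⟨hell, fun x => ?_, fun x i => ?_, fun x i j k => ?_, ?_, ?_, ?_⟩
  · exact (hK0 x).trans (by linarith [le_abs_self K, abs_nonneg K3])
  · exact (hKg x i).trans (by linarith [le_abs_self K, abs_nonneg K3])
  · exact (hK3 P hP lam s hlam hlam1 hs0 hs1 v hv hell hma x i j k).trans
      (by linarith [le_abs_self K3, abs_nonneg K])
  · exact ⟨hv2, hb_monoM hHBv (by linarith), fun i => hb_monoM (hHBg i) (by linarith),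
      fun i j => hb_monoM (hHBh i j) (by linarith)⟩
  · refine hM2' (tauf v) (gr v) (fun x => ?_) (fun i j => ?_) (fun i => ?_) ?_
    · exact Apr.Ell.inv (hell x) hlo hhi
    · exact hb_monoM (ExtSm.hb_tauf ha ha1 hlo hlohi hL30 hell hL i j) (by linarith)
    · exact hb_monoM (hHBg i) (by linarith)
    · intro x y hx hy i j
      exact (hRτ v hell hdec hL x y hx hy i j).2
  · constructor
    · intro x hx i j
      exact (hRε v hell hdec hL x x hx hx i j).1.1
    · intro x y hx hy i j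
      exact (hRε v hell hdec hL x y hx hy i j).1.2

theorem exiU (hsol : SolB) (hstep : StepB) (hapr : AprStmtU) (hreg : RegB) :
    ∀ n, ExiU n := by
  intro n c C2 C3 M0 M1 R0
  have ha : (0 : ℝ) < 1 / 2 := by norm_num
  have ha1 : (1 / 2 : ℝ) < 1 := by norm_num
  set a : ℝ := 1 / 2 with hadef
  obtain ⟨lo, hi, K, hlo, hlohi, hA0⟩ := hapr n a ha ha1 c C2 C3 M0 M1 R0
  refine ⟨lo, hi, K, hlo, hlohi, fun P hP lam hlam hlam1 => ?_⟩
  obtain ⟨M, M2, hA⟩ := hA0 lam hlam hlam1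
  obtain ⟨ε₁, hε₁, hR⟩ := hreg n a (lo / 2) (hi + lo / 2) ha ha1 (by positivity) (by linarith)
  obtain ⟨R, hR00⟩ := hA (ε₁ / 2) (by positivity)
  have hR0 := hR00 P hP
  obtain ⟨NP, hNP⟩ := hP.tst.hb ha ha1
  obtain ⟨t₀, ht₀, hS⟩ := hstep n a lam lo hi M M2 NP (ε₁ / 2) ha ha1 hlam hlam1 hlo hlohi
    (by positivity)
  -- one step
  have hstep1 : ∀ s : ℝ, 0 ≤ s → s ≤ 1 → HkB a lam lo hi P s → ∀ s' : ℝ, s ≤ s' → s' ≤ s + t₀ →
      s' ≤ 1 → HkB a lam lo hi P s' := by
    rintro s hs0 hs1 ⟨v, hvN, hvE, hvM, hvS⟩ s' h1 h2 h3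
    obtain ⟨-, -, -, -, hCls, hAP, hExt⟩ := hR0 s hs0 hs1 v hvN ⟨lo, hi, hlo, hvE⟩ hvM
    obtain ⟨v', hC', hD', hE', hM', hS'⟩ := hS P hNP s v hCls hvE hvM hAP hvS s' ⟨h1, h2⟩
    have hExt' : ExtS a ε₁ R v' := by
      constructor
      · intro x hx i j
        have h4 := hExt.1 x hx i j
        have h5 := (hD' i j).1 x
        have : Hs v' x i j = Hs v x i j + (Hs v' x i j - Hs v x i j) := by ring
        rw [this]
        exact (abs_add_le _ _).trans (by linarith)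
      · intro x y hx hy i j
        have h4 := hExt.2 x y hx hy i j
        have h5 := (hD' i j).2 x y
        have : Hs v' x i j - Hs v' y i j = (Hs v x i j - Hs v y i j) +
            ((Hs v' x i j - Hs v x i j) - (Hs v' y i j - Hs v y i j)) := by ring
        rw [this]
        refine (abs_add_le _ _).trans ?_
        calc _ ≤ ε₁ / 2 * ‖x - y‖ ^ a + ε₁ / 2 * ‖x - y‖ ^ a := add_le_add h4 h5
          _ = ε₁ * ‖x - y‖ ^ a := by ring
    have hN' : NiceB v' :=
      hR (M + ε₁ / 2) R P hP.tst lam s' v' hlam hlam1 hC' hE' hM' hExt'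
    obtain ⟨hE'', -⟩ := hR0 s' (hs0.trans h1) h3 v' hN'
      ⟨lo / 2, hi + lo / 2, by positivity, hE'⟩ hM'
    exact ⟨v', hN', hE'', hM', hS'⟩
  -- start
  have h0 : HkB a lam lo hi P 0 := by
    obtain ⟨v, hvN, hvE, hvM, hvS⟩ := exists_startB hsol ha ha1 hlam P
    obtain ⟨hE'', -⟩ := hR0 0 le_rfl zero_le_one v hvN ⟨1, 1, one_pos, hvE⟩ hvM
    exact ⟨v, hvN, hE'', hvM, hvS⟩
  -- induction
  have hind : ∀ k : ℕ, HkB a lam lo hi P (min (k * t₀) 1) := by
    intro k
    induction k with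
    | zero => simpa using h0
    | succ k ih =>
      refine hstep1 _ (le_min (by positivity) zero_le_one) (min_le_right _ _) ih _ ?_ ?_
        (min_le_right _ _)
      · refine min_le_min_right _ ?_
        have : (k : ℝ) * t₀ ≤ (k + 1 : ℕ) * t₀ := by
          apply mul_le_mul_of_nonneg_right _ ht₀.le; push_cast; linarith
        exact this
      · have h5 : ((k + 1 : ℕ) : ℝ) * t₀ = k * t₀ + t₀ := by push_cast; ring
        rw [h5]
        rcases le_total ((k : ℝ) * t₀) 1 with h6 | h6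
        · rw [min_eq_left h6]; exact min_le_left _ _
        · rw [min_eq_right h6]
          exact (min_le_right _ _).trans (by linarith)
  obtain ⟨k, hk⟩ := exists_nat_gt (1 / t₀)
  have h1 : HkB a lam lo hi P 1 := by
    have h2 := hind k
    have h3 : 1 ≤ (k : ℝ) * t₀ := by
      rw [div_lt_iff₀ ht₀] at hk; exact hk.le
    rwa [min_eq_right h3] at h2
  obtain ⟨v, hvN, hvE, hvM, hvS⟩ := h1
  obtain ⟨-, hK0, hK1, hK3, -⟩ := hR0 1 zero_le_one le_rfl v hvN ⟨lo, hi, hlo, hvE⟩ hvM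
  exact ⟨v, hvN, hvE, hK0, hK1, hK3, hvM⟩

end Crest.Agent.R253.Br
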