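import Crest.Agent.R253.SpecField_321

/-!
# R253: the Jordan dual field (helper192)

Pure matrix algebra of the dual field `Y_k = sy (v'(ζ) T_k b)` (`sy X = (X + Xᵀ)/2`), with the two
kernels `KT` (trapezoid) and `KL` (left), Hilbert–Schmidt bounds and the field version.
-/

set_option autoImplicit false

open Matrix Set
open scoped ContDiff

noncomputable section

namespace Crest.Agent.R253.Jord192

open Crest.Agent.R253.SpecCalc999 Crest.Agent.R253.Meh74 Crest.Agent.R253.SpecField321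

variable {m n : ℕ}

/-! ### symmetric part -/













/-! ### Hilbert–Schmidt norm -/

lemma hs_transpose (X : Mat m) : hs Xᵀ = hs X := by
  unfold hs
  rw [Finset.sum_comm]
  rfl

lemma hs_smul (c : ℝ) (X : Mat m) : hs (c • X) = c ^ 2 * hs X := by
  unfold hs
  simp only [Matrix.smul_apply, smul_eq_mul, mul_pow, Finset.mul_sum]

lemma hs_neg (X : Mat m) : hs (-X) = hs X := by
  unfold hs; simp only [Matrix.neg_apply, neg_sq]

lemma hs_zero : hs (0 : Mat m) = 0 := by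
  unfold hs; simp

lemma hs_add_le {θ : ℝ} (hθ : 0 < θ) (X Y : Mat m) :
    hs (X + Y) ≤ (1 + θ) * hs X + (1 + θ⁻¹) * hs Y := by
  unfold hs
  rw [Finset.mul_sum, Finset.mul_sum, ← Finset.sum_add_distrib]
  refine Finset.sum_le_sum fun i _ => ?_
  rw [Finset.mul_sum, Finset.mul_sum, ← Finset.sum_add_distrib]
  refine Finset.sum_le_sum fun j _ => ?_
  rw [Matrix.add_apply]
  have h1 : θ * θ⁻¹ = 1 := mul_inv_cancel₀ hθ.ne'
  have h2 : 0 < θ⁻¹ := inv_pos.2 hθ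
  have h3 : 0 ≤ θ⁻¹ * (θ * X i j - Y i j) ^ 2 := mul_nonneg h2.le (sq_nonneg _)
  have h4 : θ⁻¹ * (θ * X i j - Y i j) ^ 2 =
      (θ * θ⁻¹) * θ * X i j ^ 2 - 2 * (θ * θ⁻¹) * (X i j * Y i j) + θ⁻¹ * Y i j ^ 2 := by ring
  rw [h4, h1] at h3
  nlinarith

/-- weighted Cauchy–Schwarz -/
lemma hs_sum_le {ι : Type*} (t : Finset ι) (w : ι → ℝ) (hw : ∀ i ∈ t, 0 < w i) (X : ι → Mat m) :
    hs (∑ i ∈ t, X i) ≤ (∑ i ∈ t, w i) * ∑ i ∈ t, hs (X i) / w i := by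
  have key : ∀ a b, (∑ i ∈ t, X i a b) ^ 2 ≤ (∑ i ∈ t, w i) * ∑ i ∈ t, X i a b ^ 2 / w i := by
    intro a b
    have h := Finset.sum_sq_le_sum_mul_sum_of_sq_le_mul t (r := fun i => X i a b) (f := w)
      (g := fun i => X i a b ^ 2 / w i) (fun i hi => (hw i hi).le)
      (fun i hi => div_nonneg (sq_nonneg _) (hw i hi).le)
      (fun i hi => le_of_eq (by have := (hw i hi).ne'; field_simp))
    exact h
  unfold hs
  calc ∑ a, ∑ b, (∑ i ∈ t, X i) a b ^ 2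
      ≤ ∑ a, ∑ b, (∑ i ∈ t, w i) * ∑ i ∈ t, X i a b ^ 2 / w i := by
        refine Finset.sum_le_sum fun a _ => Finset.sum_le_sum fun b _ => ?_
        rw [Matrix.sum_apply]
        exact key a b
    _ = (∑ i ∈ t, w i) * ∑ i ∈ t, (∑ a, ∑ b, X i a b ^ 2) / w i := by
        simp only [← Finset.mul_sum]
        congr 1
        have e1 : ∀ a, ∑ b, ∑ i ∈ t, X i a b ^ 2 / w i = ∑ i ∈ t, ∑ b, X i a b ^ 2 / w i :=
          fun a => Finset.sum_comm
        simp only [e1]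
        rw [Finset.sum_comm]
        refine Finset.sum_congr rfl fun i _ => ?_
        simp only [Finset.sum_div]


lemma cfc_transpose {A : Mat m} (f : ℝ → ℝ) : (_root_.cfc f A)ᵀ = _root_.cfc f A := by
  have h : IsSelfAdjoint (_root_.cfc f A) := cfc_predicate f A
  have := h.star_eq
  rwa [Matrix.star_eq_conjTranspose, conjTranspose_eq_transpose_of_trivial] at this

lemma conj_mul {U : Mat m} (h : U * Uᵀ = 1) (X Y : Mat m) :
    Uᵀ * (X * Y) * U = (Uᵀ * X * U) * (Uᵀ * Y * U) := by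
  calc Uᵀ * (X * Y) * U = Uᵀ * (X * 1 * Y) * U := by rw [Matrix.mul_one]
    _ = Uᵀ * (X * (U * Uᵀ) * Y) * U := by rw [h]
    _ = _ := by simp only [Matrix.mul_assoc]

/-- `f(A) X` in a frame -/
lemma cfc_mul_frame {A U : Mat m} {s : Fin m → ℝ} (h : Fr A U s) (f : ℝ → ℝ) (X : Mat m)
    (i j : Fin m) :
    (Uᵀ * (_root_.cfc f A * X) * U) i j = f (s i) * (Uᵀ * X * U) i j := by
  rw [conj_mul h.o', h.cfc, Matrix.diagonal_mul]

lemma mul_cfc_frame {A U : Mat m} {s : Fin m → ℝ} (h : Fr A U s) (f : ℝ → ℝ) (X : Mat m)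
    (i j : Fin m) :
    (Uᵀ * (X * _root_.cfc f A) * U) i j = (Uᵀ * X * U) i j * f (s j) := by
  rw [conj_mul h.o', h.cfc, Matrix.mul_diagonal]

lemma hs_le_of_frame {A U : Mat m} {s : Fin m → ℝ} (h : Fr A U s) {X Y : Mat m} {C : ℝ}
    (hC : ∀ i j, |(Uᵀ * Y * U) i j| ≤ C * |(Uᵀ * X * U) i j|) : hs Y ≤ C ^ 2 * hs X := by
  rw [← hs_conj h.o' Y, ← hs_conj h.o' X]
  unfold hs
  rw [Finset.mul_sum]
  refine Finset.sum_le_sum fun i _ => ?_
  rw [Finset.mul_sum]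
  refine Finset.sum_le_sum fun j _ => ?_
  have := pow_le_pow_left₀ (abs_nonneg _) (hC i j) 2
  rwa [sq_abs, mul_pow, sq_abs] at this


lemma hs_mul_cfc_le {A : Mat m} (hA : A.IsHermitian) {f : ℝ → ℝ} {C : ℝ}
    (hC : ∀ a ∈ spectrum ℝ A, |f a| ≤ C) (X : Mat m) :
    hs (X * _root_.cfc f A) ≤ C ^ 2 * hs X := by
  obtain ⟨U, hU⟩ := exists_fr hA
  refine hs_le_of_frame hU fun i j => ?_
  rw [mul_cfc_frame hU, abs_mul, mul_comm]
  exact mul_le_mul_of_nonneg_right (hC _ (hU.mem_spec j)) (abs_nonneg _)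



/-! ### row contraction -/




/-! ### the two kernels -/

/-- trapezoid kernel: `Df(A)[X] − (1/2){f'(A), X}` -/
def KT (f f' : ℝ → ℝ) (A X : Mat m) : Mat m :=
  DK f f' A X - (1 / 2 : ℝ) • (_root_.cfc f' A * X + X * _root_.cfc f' A)

/-- left kernel: `Df(A)[X] − f'(A) X` -/
def KL (f f' : ℝ → ℝ) (A X : Mat m) : Mat m := DK f f' A X - _root_.cfc f' A * X

lemma KT_frame {A U : Mat m} {s : Fin m → ℝ} (h : Fr A U s) (f f' : ℝ → ℝ) (X : Mat m)
    (i j : Fin m) :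
    (Uᵀ * KT f f' A X * U) i j =
      (dd1 f f' (s i) (s j) - (f' (s i) + f' (s j)) / 2) * (Uᵀ * X * U) i j := by
  unfold KT
  rw [Matrix.mul_sub, Matrix.sub_mul, Matrix.sub_apply, DK_frame h, Matrix.mul_smul,
    Matrix.smul_mul, Matrix.smul_apply, Matrix.mul_add, Matrix.add_mul, Matrix.add_apply,
    cfc_mul_frame h, mul_cfc_frame h, smul_eq_mul]
  ring

lemma KL_frame {A U : Mat m} {s : Fin m → ℝ} (h : Fr A U s) (f f' : ℝ → ℝ) (X : Mat m)
    (i j : Fin m) :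
    (Uᵀ * KL f f' A X * U) i j = (dd1 f f' (s i) (s j) - f' (s i)) * (Uᵀ * X * U) i j := by
  unfold KL
  rw [Matrix.mul_sub, Matrix.sub_mul, Matrix.sub_apply, DK_frame h, cfc_mul_frame h]
  ring

lemma hs_KT {A U : Mat m} {s : Fin m → ℝ} (h : Fr A U s) (f f' : ℝ → ℝ) (X : Mat m) :
    hs (KT f f' A X) =
      ∑ i, ∑ j, (dd1 f f' (s i) (s j) - (f' (s i) + f' (s j)) / 2) ^ 2 * (Uᵀ * X * U) i j ^ 2 := by
  rw [← hs_conj h.o']
  unfold hs
  exact Finset.sum_congr rfl fun i _ => Finset.sum_congr rfl fun j _ => by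
    rw [KT_frame h, mul_pow]

lemma hs_KL {A U : Mat m} {s : Fin m → ℝ} (h : Fr A U s) (f f' : ℝ → ℝ) (X : Mat m) :
    hs (KL f f' A X) =
      ∑ i, ∑ j, (dd1 f f' (s i) (s j) - f' (s i)) ^ 2 * (Uᵀ * X * U) i j ^ 2 := by
  rw [← hs_conj h.o']
  unfold hs
  exact Finset.sum_congr rfl fun i _ => Finset.sum_congr rfl fun j _ => by
    rw [KL_frame h, mul_pow]

/-- the slack form of `X` in the frame of `A` : `Σ sl(s_i, s_j) X̃_ij²` -/
def slk (sl : ℝ → ℝ → ℝ) (U : Mat m) (s : Fin m → ℝ) (X : Mat m) : ℝ :=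
  ∑ i, ∑ j, sl (s i) (s j) * (Uᵀ * X * U) i j ^ 2

lemma hs_KT_le {A U : Mat m} {s : Fin m → ℝ} (h : Fr A U s) {f f' : ℝ → ℝ} {sl : ℝ → ℝ → ℝ} {C : ℝ}
    (hk : ∀ a ∈ spectrum ℝ A, ∀ b ∈ spectrum ℝ A,
      (dd1 f f' a b - (f' a + f' b) / 2) ^ 2 ≤ C * sl a b) (X : Mat m) :
    hs (KT f f' A X) ≤ C * slk sl U s X := by
  rw [hs_KT h]
  unfold slk
  rw [Finset.mul_sum]
  refine Finset.sum_le_sum fun i _ => ?_
  rw [Finset.mul_sum]
  refine Finset.sum_le_sum fun j _ => ?_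
  rw [← mul_assoc]
  exact mul_le_mul_of_nonneg_right (hk _ (h.mem_spec i) _ (h.mem_spec j)) (sq_nonneg _)

lemma hs_KL_le {A U : Mat m} {s : Fin m → ℝ} (h : Fr A U s) {f f' : ℝ → ℝ} {sl : ℝ → ℝ → ℝ} {C : ℝ}
    (hk : ∀ a ∈ spectrum ℝ A, ∀ b ∈ spectrum ℝ A, (dd1 f f' a b - f' a) ^ 2 ≤ C * sl a b)
    (X : Mat m) :
    hs (KL f f' A X) ≤ C * slk sl U s X := by
  rw [hs_KL h]
  unfold slk
  rw [Finset.mul_sum]
  refine Finset.sum_le_sum fun i _ => ?_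
  rw [Finset.mul_sum]
  refine Finset.sum_le_sum fun j _ => ?_
  rw [← mul_assoc]
  exact mul_le_mul_of_nonneg_right (hk _ (h.mem_spec i) _ (h.mem_spec j)) (sq_nonneg _)


/-! ### exact formulas -/



end Crest.Agent.R253.Jord192
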