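import Crest.Agent.R253.Spine_973
import Crest.Agent.R253.Chaos_74
import Crest.Agent.R253.Jord_192

-- ▼ part R253/SpineP_973
section

/-!
# R253: the skeleton with weights (helper973)

`spineP`: dual form of `log det X` with the constant matrix `P = Cᵀ C`, multiplier `U (1 - S) U`.
`spineK`: `P = 1 + κ`, `S = κ` (696's form).
-/

set_option autoImplicit false

open MeasureTheory ProbabilityTheory Real Set Filter Topology
open scoped ContDiff

noncomputable section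

namespace Crest.Agent.R253.Meh74

open Crest.Agent.R238.Gap Crest.Agent.R238.GapPoinc Crest.Agent.R238.GapPc

variable {n : ℕ}

/-- left multiplication by a constant matrix -/
def LM (C : Fin n → Fin n → ℝ) (A : Fld n) : Fld n := fun i j x => ∑ p, C i p * A p j x

/-- `tr P A Bᵀ` -/
def wip (P : Fin n → Fin n → ℝ) (A B : Fld n) (x : E n) : ℝ :=
  ∑ p, ∑ q, P p q * ∑ j, A p j x * B q j x

/-- the field of `k`-th derivatives -/
def dk (k : Fin n) (A : Fld n) : Fld n := fun i j => pd k (A i j)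

/-- difference of fields -/
def sbf (A B : Fld n) : Fld n := fun i j x => A i j x - B i j x

/-- `CᵀC` -/
def ctc (C : Fin n → Fin n → ℝ) (p q : Fin n) : ℝ := ∑ i, C i p * C i q

lemma c1_LM {C : Fin n → Fin n → ℝ} {A : Fld n} (hA : ∀ i j, C1 (A i j)) (i j : Fin n) :
    C1 (LM C A i j) := C1.sum fun p _ => (hA p j).smul (C i p)

lemma cg_LM {C : Fin n → Fin n → ℝ} {A : Fld n} (hA : ∀ i j, CG (A i j)) (i j : Fin n) :
    CG (LM C A i j) := CG.sum fun p _ => (hA p j).smul (C i p)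

lemma cg_wip {P : Fin n → Fin n → ℝ} {A B : Fld n} (hA : ∀ i j, CG (A i j))
    (hB : ∀ i j, CG (B i j)) : CG (wip P A B) :=
  CG.sum fun p _ => CG.sum fun q _ => (CG.sum fun j _ => (hA p j).mul (hB q j)).smul (P p q)

lemma ip_LM (C : Fin n → Fin n → ℝ) (A B : Fld n) (x : E n) :
    ip (LM C A) (LM C B) x = wip (ctc C) A B x := by
  unfold ip LM wip ctc
  calc (∑ i, ∑ j, (∑ p, C i p * A p j x) * ∑ q, C i q * B q j x)
      = ∑ i, ∑ j, ∑ p, ∑ q, C i p * C i q * (A p j x * B q j x) := by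
        refine Finset.sum_congr rfl fun i _ => Finset.sum_congr rfl fun j _ => ?_
        rw [Finset.sum_mul_sum]
        exact Finset.sum_congr rfl fun p _ => Finset.sum_congr rfl fun q _ => by ring
    _ = ∑ p, ∑ q, ∑ i, ∑ j, C i p * C i q * (A p j x * B q j x) := by
        rw [Finset.sum_congr rfl fun i _ => Finset.sum_comm]
        rw [Finset.sum_comm]
        refine Finset.sum_congr rfl fun p _ => ?_
        rw [Finset.sum_congr rfl fun i _ => Finset.sum_comm]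
        rw [Finset.sum_comm]
    _ = ∑ p, ∑ q, (∑ i, C i p * C i q) * ∑ j, A p j x * B q j x := by
        refine Finset.sum_congr rfl fun p _ => Finset.sum_congr rfl fun q _ => ?_
        rw [Finset.sum_mul]
        exact Finset.sum_congr rfl fun i _ => by rw [Finset.mul_sum]

lemma hs2_LM (C : Fin n → Fin n → ℝ) (A : Fld n) (x : E n) :
    hs2 (LM C A) x = wip (ctc C) A A x := by
  rw [← ip_LM]
  unfold hs2 ip
  exact Finset.sum_congr rfl fun i _ => Finset.sum_congr rfl fun j _ => by ring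

lemma pd_LM {C : Fin n → Fin n → ℝ} {A : Fld n} (hA : ∀ i j, C1 (A i j)) (k i j : Fin n)
    (x : E n) : pd k (LM C A i j) x = LM C (dk k A) i j x := by
  unfold LM dk
  rw [pd_sum' (f := fun p x => C i p * A p j x) fun p _ => (hA p j).smul (C i p)]
  refine Finset.sum_congr rfl fun p _ => ?_
  rw [C1.pd_mul (c1_const (C i p)) (hA p j)]
  have : pd k (fun _ : E n => C i p) x = 0 := by simp [pd]
  rw [this]; ring

lemma dh2_eq_sum (A : Fld n) (x : E n) : dh2 A x = ∑ k, hs2 (dk k A) x := by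
  unfold dh2 hs2 dk
  rw [Finset.sum_congr rfl fun i _ => Finset.sum_comm]
  rw [Finset.sum_comm]

lemma pf2_eq_sum (U : Fld n) (Y : Fin n → Fld n) (x : E n) :
    pf2 U Y x = ∑ k, hs2 (sbf (dk k U) (Y k)) x := by
  unfold pf2 hs2 dk sbf
  rw [Finset.sum_congr rfl fun i _ => Finset.sum_comm]
  rw [Finset.sum_comm]

lemma LM_sbf (C : Fin n → Fin n → ℝ) (A B : Fld n) (i j : Fin n) (x : E n) :
    LM C (sbf A B) i j x = LM C A i j x - LM C B i j x := by
  unfold LM sbf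
  rw [← Finset.sum_sub_distrib]
  exact Finset.sum_congr rfl fun p _ => by ring

lemma dh2_LM {C : Fin n → Fin n → ℝ} {A : Fld n} (hA : ∀ i j, C1 (A i j)) (x : E n) :
    dh2 (LM C A) x = ∑ k, wip (ctc C) (dk k A) (dk k A) x := by
  rw [dh2_eq_sum]
  refine Finset.sum_congr rfl fun k _ => ?_
  rw [← hs2_LM]
  unfold hs2
  refine Finset.sum_congr rfl fun i _ => Finset.sum_congr rfl fun j _ => ?_
  rw [← pd_LM hA]
  rfl

lemma pf2_LM {C : Fin n → Fin n → ℝ} {U : Fld n} {Y : Fin n → Fld n}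
    (hU : ∀ i j, C1 (U i j)) (x : E n) :
    pf2 (LM C U) (fun k => LM C (Y k)) x =
      ∑ k, wip (ctc C) (sbf (dk k U) (Y k)) (sbf (dk k U) (Y k)) x := by
  rw [pf2_eq_sum]
  refine Finset.sum_congr rfl fun k _ => ?_
  rw [← hs2_LM]
  unfold hs2
  refine Finset.sum_congr rfl fun i _ => Finset.sum_congr rfl fun j _ => ?_
  rw [LM_sbf, ← pd_LM hU]
  rfl


lemma trX_LM {C : Fin n → Fin n → ℝ} {G : Fin n → E n → ℝ} {M : Fld n} (hd : HD G M) :
    trX (LM C M) = ((Matrix.of C) * covM G * (Matrix.of C).transpose).trace := by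
  have e1 : ∀ i j : Fin n, EE (fun x => LM C M i j x * Rs (LM C M i j) x) =
      ∑ p, ∑ q, C i p * C i q * EE (fun x => M p j x * Rs (M q j) x) := by
    intro i j
    have hR : ∀ x, Rs (LM C M i j) x = ∑ q, C i q * Rs (M q j) x := by
      intro x
      unfold Rs LM
      have h := Rw_sum Real.continuous_sin sin_b Finset.univ
        (g := fun q x => C i q * M q j x) (fun q _ => ((hd.m q j).smul (C i q)).cont)
        (fun q _ => ((hd.m q j).smul (C i q)).g) x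
      rw [h]
      exact Finset.sum_congr rfl fun q _ => Rw_smul _ _ _ _
    simp_rw [hR]
    have hp : ∀ p q, CG (fun x => C i p * C i q * (M p j x * Rs (M q j) x)) := fun p q =>
      ((hd.m p j).cg.mul (c1_Rs (hd.m q j)).cg).smul _
    have : (fun x => LM C M i j x * ∑ q, C i q * Rs (M q j) x) = fun x =>
        ∑ p, ∑ q, C i p * C i q * (M p j x * Rs (M q j) x) := by
      funext x
      unfold LM
      rw [Finset.sum_mul_sum]
      exact Finset.sum_congr rfl fun p _ => Finset.sum_congr rfl fun q _ => by ring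
    rw [this, EE_sum fun p _ => CG.sum fun q _ => hp p q]
    refine Finset.sum_congr rfl fun p _ => ?_
    rw [EE_sum fun q _ => hp p q]
    exact Finset.sum_congr rfl fun q _ => EE_smul _ _
  have e2 : ∀ p q : Fin n, covM G p q = ∑ j, EE (fun x => M p j x * Rs (M q j) x) := fun p q => by
    have := hd.cov p q
    exact this
  unfold trX
  simp_rw [e1]
  rw [Matrix.trace]
  refine Finset.sum_congr rfl fun i _ => ?_
  simp only [Matrix.diag_apply, Matrix.mul_apply, Matrix.of_apply, Matrix.transpose_apply]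
  calc (∑ j, ∑ p, ∑ q, C i p * C i q * EE (fun x => M p j x * Rs (M q j) x))
      = ∑ p, ∑ q, ∑ j, C i p * C i q * EE (fun x => M p j x * Rs (M q j) x) := by
        rw [Finset.sum_comm]
        exact Finset.sum_congr rfl fun p _ => Finset.sum_comm
    _ = ∑ p, ∑ q, C i p * covM G p q * C i q := by
        refine Finset.sum_congr rfl fun p _ => Finset.sum_congr rfl fun q _ => ?_
        rw [← Finset.mul_sum, ← e2]; ring
    _ = ∑ q, (∑ p, C i p * covM G p q) * C i q := by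
        rw [Finset.sum_comm]
        exact Finset.sum_congr rfl fun q _ => by rw [Finset.sum_mul]

/-- the dual form of `log det` -/
lemma neg_logdet_ge {X C : Matrix (Fin n) (Fin n) ℝ} (hX : X.PosDef) (hC : C.det ≠ 0) :
    n + Real.log ((C.transpose * C).det) - (C * X * C.transpose).trace ≤ -Real.log X.det := by
  have h1 : (C * X * C.transpose).PosDef := by
    have hi : Function.Injective C.transpose.mulVec := by
      apply Matrix.mulVec_injective_of_isUnit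
      rw [Matrix.isUnit_iff_isUnit_det, Matrix.det_transpose]
      exact isUnit_iff_ne_zero.mpr hC
    have he : (fun v => Matrix.vecMul v C) = C.transpose.mulVec := by
      funext v; rw [Matrix.mulVec_transpose]
    have := hX.mul_mul_conjTranspose_same (B := C) (by rw [he]; exact hi)
    rwa [Matrix.conjTranspose_eq_transpose_of_trivial] at this
  have h2 := Psi_nonneg h1
  unfold Psi at h2
  have hd : 0 < X.det := hX.det_pos
  have h3 : (C * X * C.transpose).det = (C.transpose * C).det * X.det := by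
    rw [Matrix.det_mul, Matrix.det_mul, Matrix.det_mul, Matrix.det_transpose]; ring
  have h4 : (C.transpose * C).det ≠ 0 := by
    rw [Matrix.det_mul, Matrix.det_transpose]; exact mul_ne_zero hC hC
  rw [h3, Real.log_mul h4 hd.ne'] at h2
  linarith

section
variable {G : Fin n → E n → ℝ} {M N : Fld n} {V : E n → ℝ}


end


lemma wip_add_weight (K L : Fin n → Fin n → ℝ) (A B : Fld n) (x : E n) :
    wip (fun p q => K p q + L p q) A B x = wip K A B x + wip L A B x := by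
  unfold wip
  simp_rw [add_mul, Finset.sum_add_distrib]

lemma wip_dl (A B : Fld n) (x : E n) : wip dl A B x = ip A B x := by
  unfold wip ip dl
  simp only [ite_mul, one_mul, zero_mul, Finset.sum_ite_eq, Finset.mem_univ, if_true]

lemma ip_self (A : Fld n) (x : E n) : ip A A x = hs2 A x := by
  unfold hs2 ip
  exact Finset.sum_congr rfl fun i _ => Finset.sum_congr rfl fun j _ => by ring

lemma cg_dk {A : Fld n} (hA : ∀ i j, C1 (A i j)) (k i j : Fin n) : CG (dk k A i j) :=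
  (hA i j).cgp k



section
variable {G : Fin n → E n → ℝ} {M N : Fld n} {V : E n → ℝ}


end

end Crest.Agent.R253.Meh74
end
end

-- ▼ part R253/ResEta_74
section

/-!
# R253: weak dual fields and the centred resolvent device (helper74)

`Wk M U Y G`: `M = U + D*Y + G` in the weak sense.  The variational bound for `⟨M, (1+N)⁻¹ M⟩`
holds for weak fields, so the field `D (Rη)` may be used although `Rη` is only `C¹`.
-/

set_option autoImplicit false

open MeasureTheory ProbabilityTheory Real Set Filter Topology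
open scoped ContDiff

noncomputable section

namespace Crest.Agent.R253.Meh74

open Crest.Agent.R238.Gap Crest.Agent.R238.GapPoinc Crest.Agent.R238.GapPc

variable {n : ℕ}

/-- continuous of polynomial growth -/
structure C0 (f : E n → ℝ) : Prop where
  c : Continuous f
  g : PG f

lemma C1.c0 {f : E n → ℝ} (hf : C1 f) : C0 f := ⟨hf.cont, hf.g⟩
lemma C1.p0 {f : E n → ℝ} (hf : C1 f) (i : Fin n) : C0 (pd i f) := ⟨hf.contp i, hf.p i⟩
lemma C0.add {f g : E n → ℝ} (hf : C0 f) (hg : C0 g) : C0 (fun x => f x + g x) :=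
  ⟨hf.c.add hg.c, hf.g.add hg.g⟩
lemma C0.mul {f g : E n → ℝ} (hf : C0 f) (hg : C0 g) : C0 (fun x => f x * g x) :=
  ⟨hf.c.mul hg.c, hf.g.mul hg.g⟩
lemma C0.const (c : ℝ) : C0 (fun _ : E n => c) := ⟨continuous_const, pg_const c⟩
lemma C0.smul {f : E n → ℝ} (c : ℝ) (hf : C0 f) : C0 (fun x => c * f x) := (C0.const c).mul hf
lemma C0.neg {f : E n → ℝ} (hf : C0 f) : C0 (fun x => -f x) := by
  have := hf.smul (-1); simpa using this
lemma C0.sub {f g : E n → ℝ} (hf : C0 f) (hg : C0 g) : C0 (fun x => f x - g x) := by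
  have := hf.add hg.neg; simpa [sub_eq_add_neg] using this
lemma C0.pow2 {f : E n → ℝ} (hf : C0 f) : C0 (fun x => f x ^ 2) :=
  ⟨hf.c.pow 2, PG_sq hf.g⟩
lemma C0.int {f : E n → ℝ} (hf : C0 f) : Integrable f (gam n) := integrable_of_PG hf.c hf.g
lemma C0.sum {ι : Type*} {s : Finset ι} {f : ι → E n → ℝ} (hf : ∀ i ∈ s, C0 (f i)) :
    C0 (fun x => ∑ i ∈ s, f i x) := by
  classical
  induction s using Finset.induction_on with
  | empty => simpa using C0.const (n := n) 0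
  | insert a s ha ih =>
    have h1 := (hf a (Finset.mem_insert_self a s)).add
      (ih fun i hi => hf i (Finset.mem_insert_of_mem hi))
    refine (iff_of_eq (congrArg _ ?_)).mp h1
    funext x
    rw [Finset.sum_insert ha]

/-- `M = U + D*Y + G` weakly -/
def Wk (M U : E n → ℝ) (Y : Fin n → E n → ℝ) (G : E n → ℝ) : Prop :=
  ∀ φ : E n → ℝ, C1 φ → ∫ x, M x * φ x ∂(gam n) = (∫ x, U x * φ x ∂(gam n)) +
    (∑ k, ∫ x, Y k x * pd k φ x ∂(gam n)) + ∫ x, G x * φ x ∂(gam n)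

/-- strong fields are weak fields -/
theorem Wk.of_c1 {M U : E n → ℝ} {Y : Fin n → E n → ℝ} (hM : C0 M) (hU : C0 U)
    (hY : ∀ k, C1 (Y k)) :
    Wk M U Y (fun x => M x - U x + ∑ k, (pd k (Y k) x - x k * Y k x)) := by
  intro φ hφ
  have hd : ∀ k, C0 fun x : E n => pd k (Y k) x - x k * Y k x := fun k =>
    ((hY k).p0 k).sub ((c1_coord k).c0.mul (hY k).c0)
  have e1 : ∀ k, ∫ x, Y k x * pd k φ x ∂(gam n) =
      -∫ x, φ x * (pd k (Y k) x - x k * Y k x) ∂(gam n) := fun k => by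
    have := ibp_prod hφ (hY k) k
    rw [this, neg_neg]
    refine integral_congr_ae (ae_of_all _ fun x => ?_)
    simp only; ring
  have i1 : Integrable (fun x => M x * φ x) (gam n) := (hM.mul hφ.c0).int
  have i2 : Integrable (fun x => U x * φ x) (gam n) := (hU.mul hφ.c0).int
  have i3 : ∀ k, Integrable (fun x => φ x * (pd k (Y k) x - x k * Y k x)) (gam n) := fun k =>
    (hφ.c0.mul (hd k)).int
  have i12 : Integrable (fun x => M x * φ x - U x * φ x) (gam n) := i1.sub i2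
  have e2 : ∀ x, (M x - U x + ∑ k, (pd k (Y k) x - x k * Y k x)) * φ x =
      (M x * φ x - U x * φ x) + ∑ k, φ x * (pd k (Y k) x - x k * Y k x) := fun x => by
    rw [add_mul, Finset.sum_mul, sub_mul]
    congr 1
    exact Finset.sum_congr rfl fun k _ => by ring
  simp_rw [e2]
  rw [integral_add i12 (integrable_finsetSum _ fun k _ => i3 k), integral_sub i1 i2,
    integral_finsetSum _ fun k _ => i3 k]
  simp_rw [e1]
  rw [Finset.sum_neg_distrib]
  ring

/-- adding a multiple of `D (R f)` to the field -/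
theorem Wk.add_res {M U : E n → ℝ} {Y : Fin n → E n → ℝ} {G : E n → ℝ} (hY : ∀ k, C0 (Y k))
    (hG : C0 G) (h : Wk M U Y G) {f : E n → ℝ} (hf : C1 f) (a : ℝ) :
    Wk M U (fun k x => Y k x + a * pd k (Rs f) x) (fun x => G x - a * (f x - Rs f x)) := by
  intro φ hφ
  have cr : C1 (Rs f) := c1_Rs hf
  have hr := resolvent_eq hφ hf
  have i1 : ∀ k, Integrable (fun x => Y k x * pd k φ x) (gam n) := fun k =>
    ((hY k).mul (hφ.p0 k)).int
  have i2 : ∀ k, Integrable (fun x => pd k φ x * pd k (Rs f) x) (gam n) := fun k =>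
    ((hφ.p0 k).mul (cr.p0 k)).int
  have i3 : Integrable (fun x => G x * φ x) (gam n) := (hG.mul hφ.c0).int
  have i4 : Integrable (fun x => φ x * f x) (gam n) := (hφ.c0.mul hf.c0).int
  have i5 : Integrable (fun x => φ x * Rs f x) (gam n) := (hφ.c0.mul cr.c0).int
  have e1 : ∀ k, ∫ x, (Y k x + a * pd k (Rs f) x) * pd k φ x ∂(gam n) =
      (∫ x, Y k x * pd k φ x ∂(gam n)) + a * ∫ x, pd k φ x * pd k (Rs f) x ∂(gam n) := fun k => by
    have : ∀ x, (Y k x + a * pd k (Rs f) x) * pd k φ x =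
        Y k x * pd k φ x + a * (pd k φ x * pd k (Rs f) x) := fun x => by ring
    simp_rw [this]
    rw [integral_add (i1 k) ((i2 k).const_mul a), integral_const_mul]
  have e2 : ∫ x, (G x - a * (f x - Rs f x)) * φ x ∂(gam n) =
      (∫ x, G x * φ x ∂(gam n)) - a * ((∫ x, φ x * f x ∂(gam n)) -
        ∫ x, φ x * Rs f x ∂(gam n)) := by
    have : ∀ x, (G x - a * (f x - Rs f x)) * φ x =
        G x * φ x - a * (φ x * f x - φ x * Rs f x) := fun x => by ring
    simp_rw [this]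
    have i6 : Integrable (fun x => φ x * f x - φ x * Rs f x) (gam n) := i4.sub i5
    rw [integral_sub i3 (i6.const_mul a), integral_const_mul, integral_sub i4 i5]
  rw [h φ hφ]
  simp_rw [e1]
  rw [e2, Finset.sum_add_distrib, ← Finset.mul_sum]
  have h2 : ∑ k, ∫ x, pd k φ x * pd k (Rs f) x ∂(gam n) =
      (∫ x, φ x * f x ∂(gam n)) - ∫ x, φ x * Rs f x ∂(gam n) := by linarith
  rw [h2]
  ring

/-- **the variational bound with a weak field** -/
theorem res_le_weak {M U : E n → ℝ} {Y : Fin n → E n → ℝ} {G : E n → ℝ} (hM : C1 M) (hU : C1 U)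
    (hY : ∀ k, C0 (Y k)) (hG : C0 G) (h : Wk M U Y G) :
    ∫ x, M x * Rs M x ∂(gam n) ≤ 2 * (∫ x, U x * M x ∂(gam n)) - (∫ x, U x ^ 2 ∂(gam n)) -
      (∑ k, ∫ x, pd k U x ^ 2 ∂(gam n)) + (∑ k, ∫ x, (pd k U x - Y k x) ^ 2 ∂(gam n)) +
      ∫ x, G x ^ 2 ∂(gam n) := by
  set r := Rs M with hr
  have cr : C1 r := c1_Rs hM
  set d : E n → ℝ := fun x => r x - U x with hd
  have cd : C1 d := cr.sub hU
  -- `H1` products
  have r1 := resolvent_eq cd hM
  rw [← hr] at r1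
  have w1 := h d cd
  -- abbreviations
  have pdd : ∀ k x, pd k d x = pd k r x - pd k U x := fun k x => by
    have e : d = fun x => r x + (-1) * U x := by funext y; simp only [hd]; ring
    have hneg : ∀ y, pd k (fun x => (-1) * U x) y = - pd k U y := fun y => by
      rw [(c1_const (n := n) (-1)).pd_mul hU]
      simp [pd]
    rw [e, cr.pd_add (hU.smul (-1)), hneg]
    ring
  have i0 : Integrable (fun x => d x ^ 2) (gam n) := cd.c0.pow2.int
  have ik : ∀ k, Integrable (fun x => pd k d x ^ 2) (gam n) := fun k => (cd.p0 k).pow2.int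
  have iUd : Integrable (fun x => U x * d x) (gam n) := (hU.c0.mul cd.c0).int
  have iGd : Integrable (fun x => G x * d x) (gam n) := (hG.mul cd.c0).int
  have iGG : Integrable (fun x => G x ^ 2) (gam n) := hG.pow2.int
  have iYd : ∀ k, Integrable (fun x => Y k x * pd k d x) (gam n) := fun k =>
    ((hY k).mul (cd.p0 k)).int
  have iPd : ∀ k, Integrable (fun x => pd k U x * pd k d x) (gam n) := fun k =>
    ((hU.p0 k).mul (cd.p0 k)).int
  -- `|d|² = ⟨G, d⟩ - ⟨DU - Y, Dd⟩`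
  have e1 : ∫ x, d x * r x ∂(gam n) = (∫ x, d x ^ 2 ∂(gam n)) + ∫ x, U x * d x ∂(gam n) := by
    rw [← integral_add i0 iUd]
    refine integral_congr_ae (ae_of_all _ fun x => ?_)
    simp only [hd]; ring
  have e2 : ∀ k, ∫ x, pd k d x * pd k r x ∂(gam n) = (∫ x, pd k d x ^ 2 ∂(gam n)) +
      ∫ x, pd k U x * pd k d x ∂(gam n) := fun k => by
    rw [← integral_add (ik k) (iPd k)]
    refine integral_congr_ae (ae_of_all _ fun x => ?_)
    simp only [pdd]; ring
  have e3 : ∫ x, d x * M x ∂(gam n) = ∫ x, M x * d x ∂(gam n) := by simp only [mul_comm]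
  rw [e1, e3, w1] at r1
  simp_rw [e2] at r1
  rw [Finset.sum_add_distrib] at r1
  -- the squares
  have q0 : 0 ≤ ∫ x, (G x - d x) ^ 2 ∂(gam n) := integral_nonneg fun x => sq_nonneg _
  have q0' : ∫ x, (G x - d x) ^ 2 ∂(gam n) = (∫ x, G x ^ 2 ∂(gam n)) -
      2 * (∫ x, G x * d x ∂(gam n)) + ∫ x, d x ^ 2 ∂(gam n) := by
    have : ∀ x, (G x - d x) ^ 2 = G x ^ 2 - 2 * (G x * d x) + d x ^ 2 := fun x => by ring
    simp_rw [this]
    exact int_expand iGG iGd i0
  have iP2 : ∀ k, Integrable (fun x => (pd k U x - Y k x) ^ 2) (gam n) := fun k =>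
    ((hU.p0 k).sub (hY k)).pow2.int
  have iPdd : ∀ k, Integrable (fun x => -((pd k U x - Y k x) * pd k d x)) (gam n) := fun k =>
    (((hU.p0 k).sub (hY k)).mul (cd.p0 k)).neg.int
  have qk : ∀ k, 0 ≤ ∫ x, (pd k U x - Y k x + pd k d x) ^ 2 ∂(gam n) := fun k =>
    integral_nonneg fun x => sq_nonneg _
  have qk' : ∀ k, ∫ x, (pd k U x - Y k x + pd k d x) ^ 2 ∂(gam n) =
      (∫ x, (pd k U x - Y k x) ^ 2 ∂(gam n)) + 2 * ((∫ x, pd k U x * pd k d x ∂(gam n)) -
        ∫ x, Y k x * pd k d x ∂(gam n)) + ∫ x, pd k d x ^ 2 ∂(gam n) := fun k => by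
    have : ∀ x, (pd k U x - Y k x + pd k d x) ^ 2 = (pd k U x - Y k x) ^ 2 -
        2 * (-((pd k U x - Y k x) * pd k d x)) + pd k d x ^ 2 := fun x => by ring
    simp_rw [this]
    rw [int_expand (iP2 k) (iPdd k) (ik k), integral_neg]
    have : ∫ x, (pd k U x - Y k x) * pd k d x ∂(gam n) = (∫ x, pd k U x * pd k d x ∂(gam n)) -
        ∫ x, Y k x * pd k d x ∂(gam n) := by
      rw [← integral_sub (iPd k) (iYd k)]
      refine integral_congr_ae (ae_of_all _ fun x => ?_)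
      simp only; ring
    rw [this]
    ring
  have qs : 0 ≤ ∑ k, ∫ x, (pd k U x - Y k x + pd k d x) ^ 2 ∂(gam n) :=
    Finset.sum_nonneg fun k _ => qk k
  simp_rw [qk'] at qs
  rw [Finset.sum_add_distrib, Finset.sum_add_distrib, ← Finset.mul_sum, Finset.sum_sub_distrib]
    at qs
  rw [q0'] at q0
  -- hence `|d|²_{H1} ≤ |G|² + |DU - Y|²`
  set D0 := ∫ x, d x ^ 2 ∂(gam n) with hD0
  set D1 := ∑ k, ∫ x, pd k d x ^ 2 ∂(gam n) with hD1
  have hH : D0 + D1 ≤ (∑ k, ∫ x, (pd k U x - Y k x) ^ 2 ∂(gam n)) + ∫ x, G x ^ 2 ∂(gam n) := by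
    nlinarith
  -- `⟨M, r⟩`
  have iMU : Integrable (fun x => M x * U x) (gam n) := (hM.c0.mul hU.c0).int
  have iMd : Integrable (fun x => M x * d x) (gam n) := (hM.c0.mul cd.c0).int
  have m1 : ∫ x, M x * r x ∂(gam n) = (∫ x, M x * U x ∂(gam n)) + ∫ x, M x * d x ∂(gam n) := by
    rw [← integral_add iMU iMd]
    refine integral_congr_ae (ae_of_all _ fun x => ?_)
    simp only [hd]; ring
  have r2 := resolvent_eq hU hM
  rw [← hr] at r2
  have iUU : Integrable (fun x => U x ^ 2) (gam n) := hU.c0.pow2.int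
  have ikU : ∀ k, Integrable (fun x => pd k U x ^ 2) (gam n) := fun k => (hU.p0 k).pow2.int
  have m2 : ∫ x, U x * r x ∂(gam n) = (∫ x, U x ^ 2 ∂(gam n)) + ∫ x, U x * d x ∂(gam n) := by
    rw [← integral_add iUU iUd]
    refine integral_congr_ae (ae_of_all _ fun x => ?_)
    simp only [hd]; ring
  have m3 : ∀ k, ∫ x, pd k U x * pd k r x ∂(gam n) = (∫ x, pd k U x ^ 2 ∂(gam n)) +
      ∫ x, pd k U x * pd k d x ∂(gam n) := fun k => by
    rw [← integral_add (ikU k) (iPd k)]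
    refine integral_congr_ae (ae_of_all _ fun x => ?_)
    simp only [pdd]; ring
  rw [m2] at r2
  simp_rw [m3] at r2
  rw [Finset.sum_add_distrib] at r2
  have m4 : ∫ x, M x * U x ∂(gam n) = ∫ x, U x * M x ∂(gam n) := by simp only [mul_comm]
  rw [m1, m4, w1]
  linarith

/-! ### the resolvent on the second chaos and above -/

/-- `⟨f, Rf⟩ = E (Rf)² + E |D Rf|²` -/
lemma res_self {f : E n → ℝ} (hf : C1 f) : ∫ x, f x * Rs f x ∂(gam n) =
    (∫ x, Rs f x ^ 2 ∂(gam n)) + ∑ k, ∫ x, pd k (Rs f) x ^ 2 ∂(gam n) := by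
  have cr : C1 (Rs f) := c1_Rs hf
  have h := resolvent_eq cr hf
  have e1 : ∫ x, Rs f x * Rs f x ∂(gam n) = ∫ x, Rs f x ^ 2 ∂(gam n) := by simp only [sq]
  have e2 : ∀ k, ∫ x, pd k (Rs f) x * pd k (Rs f) x ∂(gam n) = ∫ x, pd k (Rs f) x ^ 2 ∂(gam n) :=
    fun k => by simp only [sq]
  have e3 : ∫ x, Rs f x * f x ∂(gam n) = ∫ x, f x * Rs f x ∂(gam n) := by simp only [mul_comm]
  rw [e1, e3] at h
  simp_rw [e2] at h
  linarith

/-- `⟨Df, D Rf⟩ = E f² - ⟨f, Rf⟩` -/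
lemma res_grad {f : E n → ℝ} (hf : C1 f) : ∑ k, ∫ x, pd k f x * pd k (Rs f) x ∂(gam n) =
    (∫ x, f x ^ 2 ∂(gam n)) - ∫ x, f x * Rs f x ∂(gam n) := by
  have h := resolvent_eq hf hf
  have e1 : ∫ x, f x * f x ∂(gam n) = ∫ x, f x ^ 2 ∂(gam n) := by simp only [sq]
  rw [e1] at h
  linarith

lemma res_mean {f : E n → ℝ} (hf : C1 f) : ∫ x, Rs f x ∂(gam n) = ∫ x, f x ∂(gam n) := by
  have h := resolvent_eq (c1_const (n := n) 1) hf
  have e : ∀ k, ∫ x, pd k (fun _ : E n => (1 : ℝ)) x * pd k (Rs f) x ∂(gam n) = 0 := fun k => by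
    simp [pd_const_c]
  simp_rw [e] at h
  simpa using h

lemma res_grad_mean {f : E n → ℝ} (hf : C1 f) (i : Fin n) :
    2 * ∫ x, pd i (Rs f) x ∂(gam n) = ∫ x, pd i f x ∂(gam n) := by
  have cr : C1 (Rs f) := c1_Rs hf
  have h := resolvent_eq (c1_coord (n := n) i) hf
  have e : ∀ k, ∫ x, pd k (fun x : E n => x i) x * pd k (Rs f) x ∂(gam n) =
      if i = k then ∫ x, pd k (Rs f) x ∂(gam n) else 0 := fun k => by
    simp_rw [pd_coord]
    split_ifs <;> simp
  simp_rw [e] at h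
  simp only [Finset.sum_ite_eq, Finset.mem_univ, if_true] at h
  have e1 : ∫ x : E n, x i * Rs f x ∂(gam n) = ∫ x, pd i (Rs f) x ∂(gam n) := by
    have := ibp_gam cr.c cr.g i (cr.p i)
    rw [← this]
    simp only [mul_comm]
  have e2 : ∫ x : E n, x i * f x ∂(gam n) = ∫ x, pd i f x ∂(gam n) := by
    have := ibp_gam hf.c hf.g i (hf.p i)
    rw [← this]
    simp only [mul_comm]
  rw [e1, e2] at h
  linarith

/-- `⟨f, Rf⟩ ≤ (1/3) E f²` on the chaoses `≥ 2` -/
theorem res_third {f : E n → ℝ} (hf : C1 f) (h0 : ∫ x, f x ∂(gam n) = 0)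
    (h1 : ∀ i, ∫ x, pd i f x ∂(gam n) = 0) :
    3 * ∫ x, f x * Rs f x ∂(gam n) ≤ ∫ x, f x ^ 2 ∂(gam n) := by
  have cr : C1 (Rs f) := c1_Rs hf
  have h2 := poincare2 cr (by rw [res_mean hf, h0]) (fun i => by
    have := res_grad_mean hf i; rw [h1 i] at this; linarith)
  have h3 := res_self hf
  -- `3 E (Rf)² ≤ ⟨f, Rf⟩`, and `0 ≤ E (f - 3 Rf)²`
  have h4 : 0 ≤ ∫ x, (f x - 3 * Rs f x) ^ 2 ∂(gam n) := integral_nonneg fun x => sq_nonneg _
  have i1 : Integrable (fun x => f x ^ 2) (gam n) := hf.c0.pow2.int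
  have i2 : Integrable (fun x => 3 * (f x * Rs f x)) (gam n) :=
    ((hf.c0.mul cr.c0).smul 3).int
  have i3 : Integrable (fun x => 9 * Rs f x ^ 2) (gam n) := (cr.c0.pow2.smul 9).int
  have h5 : ∫ x, (f x - 3 * Rs f x) ^ 2 ∂(gam n) = (∫ x, f x ^ 2 ∂(gam n)) -
      2 * (3 * ∫ x, f x * Rs f x ∂(gam n)) + 9 * ∫ x, Rs f x ^ 2 ∂(gam n) := by
    have : ∀ x, (f x - 3 * Rs f x) ^ 2 = f x ^ 2 - 2 * (3 * (f x * Rs f x)) + 9 * Rs f x ^ 2 :=
      fun x => by ring
    simp_rw [this]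
    rw [int_expand i1 i2 i3, integral_const_mul, integral_const_mul]
  rw [h5] at h4
  linarith

/-- **`|Df - 2 D Rf|² + |f - 2 Rf|² ≤ |Df|² - (5/3) |f|²`** -/
theorem res_eta {f : E n → ℝ} (hf : C1 f) (h0 : ∫ x, f x ∂(gam n) = 0)
    (h1 : ∀ i, ∫ x, pd i f x ∂(gam n) = 0) :
    (∑ k, ∫ x, (pd k f x - 2 * pd k (Rs f) x) ^ 2 ∂(gam n)) +
      ∫ x, (f x - 2 * Rs f x) ^ 2 ∂(gam n) ≤
    (∑ k, ∫ x, pd k f x ^ 2 ∂(gam n)) - 5 / 3 * ∫ x, f x ^ 2 ∂(gam n) := by
  have cr : C1 (Rs f) := c1_Rs hf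
  have i1 : Integrable (fun x => f x ^ 2) (gam n) := hf.c0.pow2.int
  have i2 : Integrable (fun x => 2 * (f x * Rs f x)) (gam n) := ((hf.c0.mul cr.c0).smul 2).int
  have i3 : Integrable (fun x => 4 * Rs f x ^ 2) (gam n) := (cr.c0.pow2.smul 4).int
  have h5 : ∫ x, (f x - 2 * Rs f x) ^ 2 ∂(gam n) = (∫ x, f x ^ 2 ∂(gam n)) -
      2 * (2 * ∫ x, f x * Rs f x ∂(gam n)) + 4 * ∫ x, Rs f x ^ 2 ∂(gam n) := by
    have : ∀ x, (f x - 2 * Rs f x) ^ 2 = f x ^ 2 - 2 * (2 * (f x * Rs f x)) + 4 * Rs f x ^ 2 :=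
      fun x => by ring
    simp_rw [this]
    rw [int_expand i1 i2 i3, integral_const_mul, integral_const_mul]
  have h6 : ∀ k, ∫ x, (pd k f x - 2 * pd k (Rs f) x) ^ 2 ∂(gam n) =
      (∫ x, pd k f x ^ 2 ∂(gam n)) - 2 * (2 * ∫ x, pd k f x * pd k (Rs f) x ∂(gam n)) +
        4 * ∫ x, pd k (Rs f) x ^ 2 ∂(gam n) := fun k => by
    have j1 : Integrable (fun x => pd k f x ^ 2) (gam n) := (hf.p0 k).pow2.int
    have j2 : Integrable (fun x => 2 * (pd k f x * pd k (Rs f) x)) (gam n) :=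
      (((hf.p0 k).mul (cr.p0 k)).smul 2).int
    have j3 : Integrable (fun x => 4 * pd k (Rs f) x ^ 2) (gam n) := ((cr.p0 k).pow2.smul 4).int
    have : ∀ x, (pd k f x - 2 * pd k (Rs f) x) ^ 2 = pd k f x ^ 2 -
        2 * (2 * (pd k f x * pd k (Rs f) x)) + 4 * pd k (Rs f) x ^ 2 := fun x => by ring
    simp_rw [this]
    rw [int_expand j1 j2 j3, integral_const_mul, integral_const_mul]
  simp_rw [h6]
  rw [h5, Finset.sum_add_distrib, Finset.sum_sub_distrib, ← Finset.mul_sum, ← Finset.mul_sum,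
    ← Finset.mul_sum]
  have h7 := res_self hf
  have h8 := res_grad hf
  have h9 := res_third hf h0 h1
  rw [h8]
  linarith

lemma sq_add_le (a b : ℝ) : (a + b) ^ 2 ≤ 4 / 3 * a ^ 2 + 4 * b ^ 2 := by
  nlinarith [sq_nonneg (a - 3 * b)]

/-- **the centred device** (949): exact constant `1/3` -/
theorem cen_le {ι : Type*} [Fintype ι] {f : ι → E n → ℝ} (hf : ∀ i, C1 (f i))
    (h0 : ∀ i, ∫ x, f i x ∂(gam n) = 0) (h1 : ∀ i k, ∫ x, pd k (f i) x ∂(gam n) = 0)
    {A : ι → Fin n → E n → ℝ} {B : ι → E n → ℝ} (cA : ∀ i k, C0 (A i k)) (cB : ∀ i, C0 (B i))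
    (hA : ∀ k x, ∑ i, A i k x ^ 2 ≤ 1 / 16 * ∑ i, pd k (f i) x ^ 2)
    (hB : ∀ x, ∑ i, B i x ^ 2 ≤ 1 / 16 * ∑ i, f i x ^ 2) :
    (∑ i, ∑ k, ∫ x, (A i k x + 1 / 4 * (pd k (f i) x - 2 * pd k (Rs (f i)) x)) ^ 2 ∂(gam n)) +
      ∑ i, ∫ x, (B i x - 1 / 4 * (f i x - 2 * Rs (f i) x)) ^ 2 ∂(gam n) ≤
    1 / 3 * ((∑ i, ∑ k, ∫ x, pd k (f i) x ^ 2 ∂(gam n)) - ∑ i, ∫ x, f i x ^ 2 ∂(gam n)) := by
  have cr : ∀ i, C1 (Rs (f i)) := fun i => c1_Rs (hf i)
  have cp : ∀ i k, C0 (fun x => pd k (f i) x - 2 * pd k (Rs (f i)) x) := fun i k =>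
    ((hf i).p0 k).sub (((cr i).p0 k).smul 2)
  have cq : ∀ i, C0 (fun x => f i x - 2 * Rs (f i) x) := fun i =>
    (hf i).c0.sub ((cr i).c0.smul 2)
  have a1 : ∀ i k, ∫ x, (A i k x + 1 / 4 * (pd k (f i) x - 2 * pd k (Rs (f i)) x)) ^ 2 ∂(gam n) ≤
      4 / 3 * (∫ x, A i k x ^ 2 ∂(gam n)) +
        1 / 4 * ∫ x, (pd k (f i) x - 2 * pd k (Rs (f i)) x) ^ 2 ∂(gam n) := fun i k => by
    have j1 : Integrable (fun x => 4 / 3 * A i k x ^ 2) (gam n) := ((cA i k).pow2.smul _).int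
    have j2 : Integrable (fun x => 1 / 4 * (pd k (f i) x - 2 * pd k (Rs (f i)) x) ^ 2) (gam n) :=
      ((cp i k).pow2.smul _).int
    rw [← integral_const_mul, ← integral_const_mul, ← integral_add j1 j2]
    refine integral_mono ((cA i k).add ((cp i k).smul _)).pow2.int (j1.add j2) fun x => ?_
    have := sq_add_le (A i k x) (1 / 4 * (pd k (f i) x - 2 * pd k (Rs (f i)) x))
    simp only
    linarith [this, mul_pow (1 / 4 : ℝ) (pd k (f i) x - 2 * pd k (Rs (f i)) x) 2]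
  have a2 : ∀ i, ∫ x, (B i x - 1 / 4 * (f i x - 2 * Rs (f i) x)) ^ 2 ∂(gam n) ≤
      4 / 3 * (∫ x, B i x ^ 2 ∂(gam n)) +
        1 / 4 * ∫ x, (f i x - 2 * Rs (f i) x) ^ 2 ∂(gam n) := fun i => by
    have j1 : Integrable (fun x => 4 / 3 * B i x ^ 2) (gam n) := ((cB i).pow2.smul _).int
    have j2 : Integrable (fun x => 1 / 4 * (f i x - 2 * Rs (f i) x) ^ 2) (gam n) :=
      ((cq i).pow2.smul _).int
    rw [← integral_const_mul, ← integral_const_mul, ← integral_add j1 j2]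
    refine integral_mono ((cB i).sub ((cq i).smul _)).pow2.int (j1.add j2) fun x => ?_
    have := sq_add_le (B i x) (-(1 / 4 * (f i x - 2 * Rs (f i) x)))
    simp only
    nlinarith [this]
  -- the pointwise bounds integrated
  have b1 : ∀ k, ∑ i, ∫ x, A i k x ^ 2 ∂(gam n) ≤ 1 / 16 * ∑ i, ∫ x, pd k (f i) x ^ 2 ∂(gam n) :=
    fun k => by
    rw [← integral_finsetSum _ fun i _ => (cA i k).pow2.int,
      ← integral_finsetSum _ fun i _ => ((hf i).p0 k).pow2.int, ← integral_const_mul]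
    refine integral_mono (C0.sum fun i _ => (cA i k).pow2).int
      ((C0.sum fun i _ => ((hf i).p0 k).pow2).smul _).int fun x => hA k x
  have b2 : ∑ i, ∫ x, B i x ^ 2 ∂(gam n) ≤ 1 / 16 * ∑ i, ∫ x, f i x ^ 2 ∂(gam n) := by
    rw [← integral_finsetSum _ fun i _ => (cB i).pow2.int,
      ← integral_finsetSum _ fun i _ => (hf i).c0.pow2.int, ← integral_const_mul]
    refine integral_mono (C0.sum fun i _ => (cB i).pow2).int
      ((C0.sum fun i _ => (hf i).c0.pow2).smul _).int fun x => hB x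
  have b1' : ∑ i, ∑ k, ∫ x, A i k x ^ 2 ∂(gam n) ≤
      1 / 16 * ∑ i, ∑ k, ∫ x, pd k (f i) x ^ 2 ∂(gam n) := by
    rw [Finset.sum_comm, Finset.sum_comm (f := fun i k => ∫ x, pd k (f i) x ^ 2 ∂(gam n)),
      Finset.mul_sum]
    exact Finset.sum_le_sum fun k _ => b1 k
  -- the resolvent part
  have c1 : (∑ i, ∑ k, ∫ x, (pd k (f i) x - 2 * pd k (Rs (f i)) x) ^ 2 ∂(gam n)) +
      ∑ i, ∫ x, (f i x - 2 * Rs (f i) x) ^ 2 ∂(gam n) ≤
      (∑ i, ∑ k, ∫ x, pd k (f i) x ^ 2 ∂(gam n)) - 5 / 3 * ∑ i, ∫ x, f i x ^ 2 ∂(gam n) := by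
    rw [← Finset.sum_add_distrib, Finset.mul_sum, ← Finset.sum_sub_distrib]
    exact Finset.sum_le_sum fun i _ => res_eta (hf i) (h0 i) (h1 i)
  have d1 : (∑ i, ∑ k, ∫ x, (A i k x + 1 / 4 * (pd k (f i) x - 2 * pd k (Rs (f i)) x)) ^ 2
      ∂(gam n)) ≤ 4 / 3 * (∑ i, ∑ k, ∫ x, A i k x ^ 2 ∂(gam n)) +
        1 / 4 * ∑ i, ∑ k, ∫ x, (pd k (f i) x - 2 * pd k (Rs (f i)) x) ^ 2 ∂(gam n) := by
    rw [Finset.mul_sum, Finset.mul_sum, ← Finset.sum_add_distrib]
    refine Finset.sum_le_sum fun i _ => ?_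
    rw [Finset.mul_sum, Finset.mul_sum, ← Finset.sum_add_distrib]
    exact Finset.sum_le_sum fun k _ => a1 i k
  have d2 : ∑ i, ∫ x, (B i x - 1 / 4 * (f i x - 2 * Rs (f i) x)) ^ 2 ∂(gam n) ≤
      4 / 3 * (∑ i, ∫ x, B i x ^ 2 ∂(gam n)) +
        1 / 4 * ∑ i, ∫ x, (f i x - 2 * Rs (f i) x) ^ 2 ∂(gam n) := by
    rw [Finset.mul_sum, Finset.mul_sum, ← Finset.sum_add_distrib]
    exact Finset.sum_le_sum fun i _ => a2 i
  linarith

end Crest.Agent.R253.Meh74
end
end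

-- ▼ part R253/SpineW_973
section

/-!
# R253: the weighted skeleton with weak fields, B-form (helper973)
-/

set_option autoImplicit false

open MeasureTheory ProbabilityTheory Real Set Filter Topology
open scoped ContDiff

noncomputable section

namespace Crest.Agent.R253.Meh74

open Crest.Agent.R238.Gap Crest.Agent.R238.GapPoinc Crest.Agent.R238.GapPc

variable {n : ℕ}

lemma CG.c0 {f : E n → ℝ} (h : CG f) : C0 f := ⟨h.c, h.g⟩
lemma C0.cg {f : E n → ℝ} (h : C0 f) : CG f := ⟨h.c, h.g⟩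

/-- the weak identity `M = U + D*Y + G` for matrix fields -/
def WkF (M U : Fld n) (Y : Fin n → Fld n) (Gf : Fld n) : Prop :=
  ∀ i j, Wk (M i j) (U i j) (fun k => Y k i j) (Gf i j)

theorem trX_le_weak {M U : Fld n} (hM : ∀ i j, C1 (M i j)) (hU : ∀ i j, C1 (U i j))
    {Y : Fin n → Fld n} {Gf : Fld n} (hY : ∀ k i j, CG (Y k i j)) (hG : ∀ i j, CG (Gf i j))
    (hW : WkF M U Y Gf) :
    trX M ≤ 2 * EE (ip U M) - EE (hs2 U) - EE (dh2 U) + EE (pf2 U Y) + EE (hs2 Gf) := by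
  have h : ∀ i j, EE (fun x => M i j x * Rs (M i j) x) ≤ 2 * EE (fun x => U i j x * M i j x) -
      EE (fun x => U i j x ^ 2) - (∑ k, EE (fun x => pd k (U i j) x ^ 2)) +
      (∑ k, EE (fun x => (pd k (U i j) x - Y k i j x) ^ 2)) +
      EE (fun x => Gf i j x ^ 2) := fun i j =>
    res_le_weak (hM i j) (hU i j) (fun k => (hY k i j).c0) (hG i j).c0 (hW i j)
  have h2 := Finset.sum_le_sum fun i (_ : i ∈ Finset.univ) =>
    Finset.sum_le_sum fun j (_ : j ∈ Finset.univ) => h i j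
  unfold trX
  refine h2.trans (le_of_eq ?_)
  simp only [Finset.sum_add_distrib, Finset.sum_sub_distrib, ← Finset.mul_sum]
  have a1 : EE (ip U M) = ∑ i, ∑ j, EE (fun x => U i j x * M i j x) :=
    EE_sum2 fun i j => (hU i j).cg.mul (hM i j).cg
  have a2 : EE (hs2 U) = ∑ i, ∑ j, EE (fun x => U i j x ^ 2) :=
    EE_sum2 fun i j => (hU i j).cg.sq
  have a3 : EE (dh2 U) = ∑ i, ∑ j, ∑ k, EE (fun x => pd k (U i j) x ^ 2) := by
    have := EE_sum2 (f := fun i j x => ∑ k, pd k (U i j) x ^ 2) fun i j =>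
      CG.sum fun k _ => ((hU i j).cgp k).sq
    refine this.trans ?_
    exact Finset.sum_congr rfl fun i _ => Finset.sum_congr rfl fun j _ =>
      EE_sum fun k _ => ((hU i j).cgp k).sq
  have a4 : EE (pf2 U Y) = ∑ i, ∑ j, ∑ k, EE (fun x => (pd k (U i j) x - Y k i j x) ^ 2) := by
    have := EE_sum2 (f := fun i j x => ∑ k, (pd k (U i j) x - Y k i j x) ^ 2) fun i j =>
      CG.sum fun k _ => (((hU i j).cgp k).sub (hY k i j)).sq
    refine this.trans ?_
    exact Finset.sum_congr rfl fun i _ => Finset.sum_congr rfl fun j _ =>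
      EE_sum fun k _ => (((hU i j).cgp k).sub (hY k i j)).sq
  have a5 : EE (hs2 Gf) = ∑ i, ∑ j, EE (fun x => Gf i j x ^ 2) :=
    EE_sum2 fun i j => (hG i j).sq
  rw [a1, a2, a3, a4, a5]

/-- finite sums of weak identities -/
lemma Wk.lin {ι : Type*} (s : Finset ι) (c : ι → ℝ) {M U G : ι → E n → ℝ}
    {Y : ι → Fin n → E n → ℝ} (hM : ∀ p, C0 (M p)) (hU : ∀ p, C0 (U p)) (hG : ∀ p, C0 (G p))
    (hY : ∀ p k, C0 (Y p k)) (h : ∀ p, Wk (M p) (U p) (Y p) (G p)) :
    Wk (fun x => ∑ p ∈ s, c p * M p x) (fun x => ∑ p ∈ s, c p * U p x)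
      (fun k x => ∑ p ∈ s, c p * Y p k x) (fun x => ∑ p ∈ s, c p * G p x) := by
  intro φ hφ
  have e : ∀ F : ι → E n → ℝ, (∀ p, C0 (F p)) → ∀ ψ : E n → ℝ, C0 ψ →
      ∫ x, (∑ p ∈ s, c p * F p x) * ψ x ∂(gam n) = ∑ p ∈ s, c p * ∫ x, F p x * ψ x ∂(gam n) := by
    intro F hF ψ hψ
    have e1 : ∀ x, (∑ p ∈ s, c p * F p x) * ψ x = ∑ p ∈ s, c p * (F p x * ψ x) := fun x => by
      rw [Finset.sum_mul]
      exact Finset.sum_congr rfl fun p _ => by ring
    simp_rw [e1]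
    rw [integral_finsetSum _ fun p _ => (((hF p).mul hψ).int).const_mul (c p)]
    exact Finset.sum_congr rfl fun p _ => integral_const_mul _ _
  rw [e M hM φ hφ.c0, e U hU φ hφ.c0, e G hG φ hφ.c0]
  have e2 : ∀ k, ∫ x, (∑ p ∈ s, c p * Y p k x) * pd k φ x ∂(gam n) =
      ∑ p ∈ s, c p * ∫ x, Y p k x * pd k φ x ∂(gam n) := fun k =>
    e (fun p => Y p k) (fun p => hY p k) (pd k φ) (hφ.p0 k)
  simp_rw [e2]
  rw [Finset.sum_comm, ← Finset.sum_add_distrib, ← Finset.sum_add_distrib]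
  refine Finset.sum_congr rfl fun p _ => ?_
  rw [h p φ hφ, ← Finset.mul_sum]
  ring

lemma WkF.LM {M U : Fld n} {Y : Fin n → Fld n} {Gf : Fld n} (hM : ∀ i j, CG (M i j))
    (hU : ∀ i j, CG (U i j)) (hY : ∀ k i j, CG (Y k i j)) (hG : ∀ i j, CG (Gf i j))
    (hW : WkF M U Y Gf) (C : Fin n → Fin n → ℝ) :
    WkF (LM C M) (LM C U) (fun k => LM C (Y k)) (LM C Gf) := fun i j =>
  Wk.lin Finset.univ (C i) (M := fun p => M p j) (U := fun p => U p j) (G := fun p => Gf p j)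
    (Y := fun p k => Y k p j) (fun p => (hM p j).c0) (fun p => (hU p j).c0)
    (fun p => (hG p j).c0) (fun p k => (hY k p j).c0) fun p => hW p j

section
variable {G : Fin n → E n → ℝ} {M N : Fld n} {V : E n → ℝ}

/-- **the weighted skeleton with weak fields** -/
theorem spinePW (h : MA G M N V) {U Z : Fld n} (hU : ∀ i j, C1 (U i j))
    (hs : ∀ i j, U i j = U j i) (hZ : ∀ i j, C1 (Z i j))
    {Y : Fin n → Fld n} {Gf : Fld n} (hY : ∀ k i j, CG (Y k i j)) (hG : ∀ i j, CG (Gf i j))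
    (hW : WkF M U Y Gf)
    {S : Fin n → Fin n → ℝ} (hS : (Matrix.of fun p q => dl p q - S p q).PosSemidef)
    {C : Fin n → Fin n → ℝ} (hC : (Matrix.of C).det ≠ 0) (hX : (covM G).PosDef)
    (hV : ∀ y, (Matrix.of fun k l => pd l (pd k V) y).PosSemidef)
    (hlog : ∀ x, 2 * Real.log (mt M x).det = 2 * ip U M x - hs2 Z x - n * Real.log (2 * π)) :
    Real.log (((Matrix.of C).transpose * Matrix.of C).det) +
      2 * EE (ip U M) - EE (hs2 Z) - 2 * EE (wip (ctc C) U M) + EE (wip (ctc C) U U) +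
      EE (fun x => ∑ k, wip (ctc C) (dk k U) (dk k U) x) -
      EE (fun x => ∑ k, wip (ctc C) (sbf (dk k U) (Y k)) (sbf (dk k U) (Y k)) x) -
      EE (wip (ctc C) Gf Gf) +
      (EE (trK U S) + (EE (RR M N U dl) - EE (RR M N U S)) - EE (hs2 U)) ≤ DFun G M := by
  have h1 := hs2_ge h hU hs hS hV
  have h2 := trX_le_weak (M := LM C M) (U := LM C U) (Y := fun k => LM C (Y k))
    (Gf := LM C Gf) (fun i j => c1_LM h.hd.m i j) (fun i j => c1_LM hU i j)
    (fun k i j => cg_LM (hY k) i j) (fun i j => cg_LM hG i j)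
    (hW.LM (fun i j => (h.hd.m i j).cg) (fun i j => (hU i j).cg) hY hG C)
  rw [trX_LM h.hd] at h2
  have g1 : EE (ip (LM C U) (LM C M)) = EE (wip (ctc C) U M) := EE_congr fun x => ip_LM C U M x
  have g2 : EE (hs2 (LM C U)) = EE (wip (ctc C) U U) := EE_congr fun x => hs2_LM C U x
  have g3 : EE (dh2 (LM C U)) = EE (fun x => ∑ k, wip (ctc C) (dk k U) (dk k U) x) :=
    EE_congr fun x => dh2_LM hU x
  have g4 : EE (pf2 (LM C U) fun k => LM C (Y k)) =
      EE (fun x => ∑ k, wip (ctc C) (sbf (dk k U) (Y k)) (sbf (dk k U) (Y k)) x) :=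
    EE_congr fun x => pf2_LM hU x
  have g5 : EE (hs2 (LM C Gf)) = EE (wip (ctc C) Gf Gf) := EE_congr fun x => hs2_LM C Gf x
  rw [g1, g2, g3, g4, g5] at h2
  have h3 := neg_logdet_ge hX hC
  have cU : CG (ip U M) := cg_ip (fun i j => (hU i j).cg) fun i j => (h.hd.m i j).cg
  have cZ : CG (hs2 Z) := cg_hs2 fun i j => (hZ i j).cg
  have h4 : 2 * EE (fun x => Real.log (mt M x).det) =
      2 * EE (ip U M) - EE (hs2 Z) - n * Real.log (2 * π) := by
    rw [← EE_smul, ← EE_smul, ← EE_sub (cU.smul 2) cZ]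
    have : n * Real.log (2 * π) = EE (fun _ : E n => n * Real.log (2 * π)) := (EE_const _).symm
    rw [this, ← EE_sub ((cU.smul 2).sub cZ) (cg_const _)]
    exact EE_congr hlog
  unfold DFun
  rw [h4]
  linarith

/-- **the B-form (723)**: multiplier `U²`, dual matrix `1 + B = CᵀC` -/
theorem spineB (h : MA G M N V) {U Z : Fld n} (hU : ∀ i j, C1 (U i j))
    (hs : ∀ i j, U i j = U j i) (hZ : ∀ i j, C1 (Z i j))
    {Y : Fin n → Fld n} {Gf : Fld n} (hY : ∀ k i j, CG (Y k i j)) (hG : ∀ i j, CG (Gf i j))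
    (hW : WkF M U Y Gf)
    {B C : Fin n → Fin n → ℝ} (hC : (Matrix.of C).det ≠ 0)
    (hCB : ∀ p q, ctc C p q = dl p q + B p q) (hX : (covM G).PosDef)
    (hV : ∀ y, (Matrix.of fun k l => pd l (pd k V) y).PosSemidef)
    (hlog : ∀ x, 2 * Real.log (mt M x).det = 2 * ip U M x - hs2 Z x - n * Real.log (2 * π)) :
    (Real.log (((Matrix.of C).transpose * Matrix.of C).det) -
        EE (fun x => 2 * wip B U M x - wip B U U x - ∑ k, wip B (dk k U) (dk k U) x)) +
      EE (fun x => RR M N U dl x - dh2 Z x + dh2 U x) +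
      (EE (dh2 Z) - EE (hs2 Z)) -
      EE (fun x => ∑ k, wip (ctc C) (sbf (dk k U) (Y k)) (sbf (dk k U) (Y k)) x) -
      EE (wip (ctc C) Gf Gf) ≤ DFun G M := by
  have hS0 : (Matrix.of fun p q : Fin n => dl p q - (fun _ _ => (0 : ℝ)) p q).PosSemidef := by
    have : (Matrix.of fun p q : Fin n => dl p q - (fun _ _ => (0 : ℝ)) p q) =
        (1 : Matrix (Fin n) (Fin n) ℝ) := by
      ext p q; simp [dl, Matrix.one_apply]
    rw [this]; exact Matrix.PosSemidef.one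
  have h1 := spinePW h hU hs hZ hY hG hW hS0 hC hX hV hlog
  refine le_trans (le_of_eq ?_) h1
  have hc : ctc C = fun p q => dl p q + B p q := by funext p q; exact hCB p q
  have cU : ∀ i j, CG (U i j) := fun i j => (hU i j).cg
  have cM : ∀ i j, CG (M i j) := fun i j => (h.hd.m i j).cg
  have cdU : ∀ k i j, CG (dk k U i j) := fun k => cg_dk hU k
  have cR : CG (RR M N U dl) := cg_RR h hU dl
  have a0 : EE (trK U fun _ _ => 0) = 0 := by
    have : ∀ x, trK U (fun _ _ => (0 : ℝ)) x = 0 := fun x => by simp [trK, UKU]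
    rw [EE_congr this, EE_const]
  have a00 : EE (RR M N U fun _ _ => 0) = 0 := by
    have : ∀ x, RR M N U (fun _ _ => (0 : ℝ)) x = 0 := fun x => by
      have h0 := RR_sub (M := M) (N := N) hU dl dl x
      simp only [sub_self] at h0
      exact h0
    rw [EE_congr this, EE_const]
  have a1 : EE (wip (ctc C) U M) = EE (ip U M) + EE (wip B U M) := by
    rw [← EE_add (cg_ip cU cM) (cg_wip cU cM), hc]
    exact EE_congr fun x => by rw [wip_add_weight, wip_dl]
  have a2 : EE (wip (ctc C) U U) = EE (hs2 U) + EE (wip B U U) := by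
    rw [← EE_add (cg_hs2 cU) (cg_wip cU cU), hc]
    exact EE_congr fun x => by rw [wip_add_weight, wip_dl, ip_self]
  have cWk : CG (fun x => ∑ k, wip B (dk k U) (dk k U) x) :=
    CG.sum fun k _ => cg_wip (cdU k) (cdU k)
  have a3 : EE (fun x => ∑ k, wip (ctc C) (dk k U) (dk k U) x) =
      EE (dh2 U) + EE (fun x => ∑ k, wip B (dk k U) (dk k U) x) := by
    rw [← EE_add (cg_dh2 hU) cWk, hc]
    refine EE_congr fun x => ?_
    rw [dh2_eq_sum, ← Finset.sum_add_distrib]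
    exact Finset.sum_congr rfl fun k _ => by rw [wip_add_weight, wip_dl, ip_self]
  have a4 : EE (fun x => 2 * wip B U M x - wip B U U x - ∑ k, wip B (dk k U) (dk k U) x) =
      2 * EE (wip B U M) - EE (wip B U U) - EE (fun x => ∑ k, wip B (dk k U) (dk k U) x) := by
    rw [EE_sub (((cg_wip cU cM).smul 2).sub (cg_wip cU cU)) cWk,
      EE_sub ((cg_wip cU cM).smul 2) (cg_wip cU cU), EE_smul]
  have a5 : EE (fun x => RR M N U dl x - dh2 Z x + dh2 U x) =
      EE (RR M N U dl) - EE (dh2 Z) + EE (dh2 U) := by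
    rw [EE_add (cR.sub (cg_dh2 hZ)) (cg_dh2 hU), EE_sub cR (cg_dh2 hZ)]
  rw [a0, a00, a1, a2, a3, a4, a5]
  ring

end

end Crest.Agent.R253.Meh74
end
end

-- ▼ part R253/DualP_973
section

/-!
# R253: the weighted dual bound with the one-sided field (helper973)

`Y_k = ¼ T_k + b T_k w(ζ) + ½ ∂_k R η`, constants on the left, functions of `ζ` on the right,
weight `P = CᵀC` on the left.
-/

set_option autoImplicit false

open MeasureTheory ProbabilityTheory Real Set Filter Topology Matrix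
open scoped ContDiff

noncomputable section

namespace Crest.Agent.R253.DualP973

open Crest.Agent.R238.Gap Crest.Agent.R238.GapPoinc Crest.Agent.R238.GapPc
open Crest.Agent.R253.SpecCalc999 Crest.Agent.R253.Meh74 Crest.Agent.R253.SpecField321
open Crest.Agent.R253.Jord192

variable {n : ℕ}

/-! ### matrix valued functions of polynomial growth -/

/-- entries continuous of polynomial growth -/
def CM (F : E n → Mat n) : Prop := ∀ i j, CG (fun x => F x i j)

lemma CM.add {F G : E n → Mat n} (hF : CM F) (hG : CM G) : CM (fun x => F x + G x) :=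
  fun i j => (hF i j).add (hG i j)
lemma CM.sub {F G : E n → Mat n} (hF : CM F) (hG : CM G) : CM (fun x => F x - G x) :=
  fun i j => (hF i j).sub (hG i j)
lemma CM.smul {F : E n → Mat n} (c : ℝ) (hF : CM F) : CM (fun x => c • F x) :=
  fun i j => (hF i j).smul c
lemma CM.fsmul {f : E n → ℝ} {F : E n → Mat n} (hf : CG f) (hF : CM F) :
    CM (fun x => f x • F x) := fun i j => hf.mul (hF i j)
lemma CM.const (A : Mat n) : CM (fun _ : E n => A) := fun i j => cg_const (A i j)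
lemma CM.mul {F G : E n → Mat n} (hF : CM F) (hG : CM G) : CM (fun x => F x * G x) := by
  intro i j
  have : (fun x => (F x * G x) i j) = fun x => ∑ k, F x i k * G x k j := by
    funext x; exact Matrix.mul_apply
  rw [this]
  exact CG.sum fun k _ => (hF i k).mul (hG k j)
lemma CM.cmul {F : E n → Mat n} (A : Mat n) (hF : CM F) : CM (fun x => A * F x) :=
  (CM.const A).mul hF
lemma CM.sum {ι : Type*} {s : Finset ι} {F : ι → E n → Mat n} (hF : ∀ i ∈ s, CM (F i)) :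
    CM (fun x => ∑ i ∈ s, F i x) := by
  intro i j
  have : (fun x => (∑ k ∈ s, F k x) i j) = fun x => ∑ k ∈ s, F k x i j := by
    funext x; rw [Matrix.sum_apply]
  rw [this]
  exact CG.sum fun k hk => hF k hk i j
lemma CM.hs {F : E n → Mat n} (hF : CM F) : CG (fun x => hs (F x)) :=
  CG.sum fun i _ => CG.sum fun j _ => (hF i j).sq
lemma CM.mx {A : Fld n} (hA : ∀ i j, CG (A i j)) : CM (fun x => Mx A x) := fun i j => hA i j


lemma wip_eq (C : Mat n) (A : Fld n) (x : E n) :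
    wip (ctc fun i j => C i j) A A x = hs (C * Mx A x) := by
  rw [← hs2_LM]
  unfold hs2 hs LM Mx
  simp only [Matrix.mul_apply, Matrix.of_apply]

/-! ### the right kernel -/

/-- right kernel `Df(A)[X] − X f'(A)` -/
def KR (f f' : ℝ → ℝ) (A X : Mat n) : Mat n := DK f f' A X - X * _root_.cfc f' A

lemma KR_frame {A U : Mat n} {s : Fin n → ℝ} (h : Fr A U s) (f f' : ℝ → ℝ) (X : Mat n)
    (i j : Fin n) :
    (Uᵀ * KR f f' A X * U) i j = (dd1 f f' (s i) (s j) - f' (s j)) * (Uᵀ * X * U) i j := by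
  unfold KR
  rw [Matrix.mul_sub, Matrix.sub_mul, Matrix.sub_apply, DK_frame h, mul_cfc_frame h]
  ring

lemma hs_KR_le {A U : Mat n} {s : Fin n → ℝ} (h : Fr A U s) {f f' : ℝ → ℝ} {sl : ℝ → ℝ → ℝ} {C : ℝ}
    (hk : ∀ a ∈ spectrum ℝ A, ∀ b ∈ spectrum ℝ A, (dd1 f f' a b - f' b) ^ 2 ≤ C * sl a b)
    (X : Mat n) :
    hs (KR f f' A X) ≤ C * slk sl U s X := by
  rw [← hs_conj h.o']
  unfold hs slk
  rw [Finset.mul_sum]
  refine Finset.sum_le_sum fun i _ => ?_
  rw [Finset.mul_sum]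
  refine Finset.sum_le_sum fun j _ => ?_
  rw [KR_frame h, mul_pow, ← mul_assoc]
  exact mul_le_mul_of_nonneg_right (hk _ (h.mem_spec i) _ (h.mem_spec j)) (sq_nonneg _)

lemma cfc_add_const {A : Mat n} (hA : A.IsHermitian) (w : ℝ → ℝ) (c : ℝ) :
    _root_.cfc (fun t => w t + c) A = _root_.cfc w A + c • (1 : Mat n) := by
  obtain ⟨U, hU⟩ := exists_fr hA
  refine conj_inj hU.o' ?_
  rw [hU.cfc, Matrix.mul_add, Matrix.add_mul, hU.cfc, Matrix.mul_smul, Matrix.smul_mul,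
    Matrix.mul_one, hU.o]
  ext i j
  by_cases h : i = j
  · subst h; simp
  · simp [h]

/-! ### the exact formula for the defect -/

theorem exact_GR {A C V V2 W L η b MT : Mat n} {T p X D : Fin n → Mat n} {t : Fin n → ℝ}
    (hX : ∀ k, X k = T k + p k) (hL : L = ∑ k, t k • T k) (hA : A = L + η)
    (hMT : MT = ∑ k, T k * T k)
    (hc : C - V = A * (W + (1 / 4 : ℝ) • 1) - V2) :
    C - V + ∑ k, (b * T k * D k - t k • ((1 / 4 : ℝ) • T k + b * T k * W)) =
      (η * W + (1 / 4 : ℝ) • η) + b * (∑ k, T k * (D k - X k * V2)) + (1 - b) * L * W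
      - (1 - b * MT) * V2 + b * (∑ k, T k * p k) * V2 := by
  have e1 : ∑ k, (b * T k * D k - t k • ((1 / 4 : ℝ) • T k + b * T k * W)) =
      b * (∑ k, T k * (D k - X k * V2)) + b * MT * V2 + b * (∑ k, T k * p k) * V2 -
        ((1 / 4 : ℝ) • L + b * L * W) := by
    have a1 : ∀ k, b * T k * D k - t k • ((1 / 4 : ℝ) • T k + b * T k * W) =
        (b * (T k * (D k - X k * V2)) + b * (T k * T k) * V2 + b * (T k * p k) * V2) -
          ((1 / 4 : ℝ) • (t k • T k) + b * (t k • T k) * W) := fun k => by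
      rw [hX k, smul_add, smul_comm (t k) (1 / 4 : ℝ)]
      simp only [Matrix.mul_sub, Matrix.add_mul, Matrix.mul_add, Matrix.mul_smul,
        Matrix.smul_mul, Matrix.mul_assoc]
      abel
    rw [Finset.sum_congr rfl fun k _ => a1 k, Finset.sum_sub_distrib, Finset.sum_add_distrib,
      Finset.sum_add_distrib, Finset.sum_add_distrib, ← Finset.mul_sum, ← Finset.smul_sum, ← hL,
      ← Finset.sum_mul, ← Finset.mul_sum, ← hMT, ← Finset.sum_mul, ← Finset.mul_sum,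
      ← Finset.sum_mul, ← Finset.mul_sum, ← hL]
  rw [e1, hc, hA]
  simp only [Matrix.mul_add, Matrix.add_mul, Matrix.sub_mul, Matrix.one_mul, Matrix.mul_smul,
    Matrix.mul_one, smul_add, Matrix.mul_assoc]
  abel

/-! ### the field -/

section field

/-- `T_k = E ∂_k ζ` -/
def Tm (ζ : Fld n) (k : Fin n) : Mat n := Matrix.of fun i j => EE (pd k (ζ i j))
/-- `η = ζ - E ζ - Σ x_k T_k` -/
def ef (ζ : Fld n) : Fld n := fun i j => eta (ζ i j)
/-- `R η` -/
def Rf (A : Fld n) : Fld n := fun i j => Rs (A i j)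
/-- `L = Σ x_k T_k` -/
def Lx (ζ : Fld n) (x : E n) : Mat n := ∑ k, (x k) • Tm ζ k
/-- `M_T` -/
def MTm (ζ : Fld n) : Mat n := ∑ k, Tm ζ k * Tm ζ k

/-- the one-sided field without the resolvent part -/
def Y0 (ζ : Fld n) (w : ℝ → ℝ) (b : Mat n) (k : Fin n) : Fld n := fun i j x =>
  ((1 / 4 : ℝ) • Tm ζ k + b * Tm ζ k * _root_.cfc w (Mx ζ x)) i j

/-- the one-sided field -/
def Yf (ζ : Fld n) (w : ℝ → ℝ) (b : Mat n) (k : Fin n) : Fld n := fun i j x =>
  Y0 ζ w b k i j x + 1 / 2 * pd k (Rs (ef ζ i j)) x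

/-- the defect without the resolvent part -/
def G0 (ζ : Fld n) (w v2 : ℝ → ℝ) (b : Mat n) (x : E n) : Mat n :=
  (Mx (ef ζ) x * _root_.cfc w (Mx ζ x) + (1 / 4 : ℝ) • Mx (ef ζ) x) +
    b * (∑ k, Tm ζ k * (DK w v2 (Mx ζ x) (Mx (dk k ζ) x) - Mx (dk k ζ) x * _root_.cfc v2 (Mx ζ x))) +
    (1 - b) * Lx ζ x * _root_.cfc w (Mx ζ x) - (1 - b * MTm ζ) * _root_.cfc v2 (Mx ζ x) +
    b * (∑ k, Tm ζ k * Mx (dk k (ef ζ)) x) * _root_.cfc v2 (Mx ζ x)

/-- the defect -/
def Gf (ζ : Fld n) (w v2 : ℝ → ℝ) (b : Mat n) : Fld n := fun i j x =>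
  G0 ζ w v2 b x i j - 1 / 2 * (ef ζ i j x - Rs (ef ζ i j) x)

variable {ζ : Fld n} {lo hi : ℝ} {v w v2 : ℝ → ℝ}

lemma c1_ef (hζ : MF ζ lo hi) (i j : Fin n) : C1 (ef ζ i j) := c1_eta (hζ.c i j)

lemma c1_Y0 (hζ : MF ζ lo hi) (hw : ∀ x ∈ Icc lo hi, HasDerivAt w (v2 x) x)
    (cv2 : ContinuousOn v2 (Icc lo hi)) (b : Mat n) (k i j : Fin n) : C1 (Y0 ζ w b k i j) := by
  have e : Y0 ζ w b k i j = fun x => ((1 / 4 : ℝ) • Tm ζ k) i j +
      ∑ q, (b * Tm ζ k) i q * _root_.cfc w (Mx ζ x) q j := by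
    funext x
    unfold Y0
    rw [Matrix.add_apply, Matrix.mul_apply]
  rw [e]
  exact (c1_const _).add (C1.sum fun q _ => (_root_.Crest.Agent.R253.SpecField321.c1_cfc hζ hw cv2 q j).smul _)

lemma pd_Y0 (hζ : MF ζ lo hi) (hw : ∀ x ∈ Icc lo hi, HasDerivAt w (v2 x) x)
    (cv2 : ContinuousOn v2 (Icc lo hi)) (b : Mat n) (k i j : Fin n) (x : E n) :
    pd k (Y0 ζ w b k i j) x =
      (b * Tm ζ k * DK w v2 (Mx ζ x) (Mx (dk k ζ) x)) i j := by
  have e : Y0 ζ w b k i j = fun x => ((1 / 4 : ℝ) • Tm ζ k) i j +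
      ∑ q, (b * Tm ζ k) i q * _root_.cfc w (Mx ζ x) q j := by
    funext x
    unfold Y0
    rw [Matrix.add_apply, Matrix.mul_apply]
  have hc : ∀ q, C1 (fun x => (b * Tm ζ k) i q * _root_.cfc w (Mx ζ x) q j) := fun q =>
    (_root_.Crest.Agent.R253.SpecField321.c1_cfc hζ hw cv2 q j).smul _
  rw [e, (c1_const _).pd_add (C1.sum fun q _ => hc q), pd_const_c,
    pd_sum' (f := fun q x => (b * Tm ζ k) i q * _root_.cfc w (Mx ζ x) q j) fun q _ => hc q,
    zero_add, Matrix.mul_apply]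
  refine Finset.sum_congr rfl fun q _ => ?_
  rw [(c1_const _).pd_mul (_root_.Crest.Agent.R253.SpecField321.c1_cfc hζ hw cv2 q j), pd_const_c, _root_.Crest.Agent.R253.SpecField321.pd_cfc hζ hw x q j k]
  simp only [zero_mul, zero_add]
  rfl

lemma Mx_eq (h0 : ∀ i j, EE (ζ i j) = 0) (x : E n) : Mx ζ x = Lx ζ x + Mx (ef ζ) x := by
  ext i j
  unfold Lx
  rw [Matrix.add_apply, Matrix.sum_apply]
  simp only [Mx, ef, Matrix.of_apply, Matrix.smul_apply, smul_eq_mul, Tm]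
  have : eta (ζ i j) x = ζ i j x - EE (ζ i j) - ∑ k, EE (pd k (ζ i j)) * x k := rfl
  rw [this, h0 i j]
  have : ∑ k, x k * EE (pd k (ζ i j)) = ∑ k, EE (pd k (ζ i j)) * x k :=
    Finset.sum_congr rfl fun k _ => mul_comm _ _
  rw [this]; ring

lemma dk_eq (hζ : MF ζ lo hi) (k : Fin n) (x : E n) :
    Mx (dk k ζ) x = Tm ζ k + Mx (dk k (ef ζ)) x := by
  ext i j
  rw [Matrix.add_apply]
  simp only [Mx, ef, Matrix.of_apply, Tm, dk]
  rw [pd_eta (hζ.c i j)]
  unfold EE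
  ring

/-- **the weak identity** `M = U + D*Y + G` -/
theorem wkf {M U : Fld n} (hζ : MF ζ lo hi) (h0 : ∀ i j, EE (ζ i j) = 0)
    (hw : ∀ x ∈ Icc lo hi, HasDerivAt w (v2 x) x) (cv2 : ContinuousOn v2 (Icc lo hi))
    (hM : ∀ i j, CG (M i j)) (hU : ∀ i j, CG (U i j))
    (hMU : ∀ x, Mx M x - Mx U x = Mx ζ x * (_root_.cfc w (Mx ζ x) + (1 / 4 : ℝ) • 1) -
      _root_.cfc v2 (Mx ζ x)) (b : Mat n) :
    WkF M U (Yf ζ w b) (Gf ζ w v2 b) := by
  intro i j
  have c0 : ∀ k, C1 (Y0 ζ w b k i j) := fun k => c1_Y0 hζ hw cv2 b k i j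
  have h1 := Wk.of_c1 (hM i j).c0 (hU i j).c0 c0
  have hG0 : ∀ x, M i j x - U i j x + ∑ k, (pd k (Y0 ζ w b k i j) x - x k * Y0 ζ w b k i j x) =
      G0 ζ w v2 b x i j := by
    intro x
    have h2 := exact_GR (A := Mx ζ x) (C := Mx M x) (V := Mx U x)
      (V2 := _root_.cfc v2 (Mx ζ x)) (W := _root_.cfc w (Mx ζ x)) (L := Lx ζ x)
      (η := Mx (ef ζ) x) (b := b) (MT := MTm ζ) (T := Tm ζ) (p := fun k => Mx (dk k (ef ζ)) x)
      (X := fun k => Mx (dk k ζ) x) (D := fun k => DK w v2 (Mx ζ x) (Mx (dk k ζ) x))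
      (t := fun k => x k) (fun k => dk_eq hζ k x) rfl (Mx_eq h0 x) rfl (hMU x)
    have h3 := congrFun (congrFun h2 i) j
    unfold G0
    rw [← h3, Matrix.add_apply, Matrix.sub_apply, Matrix.sum_apply]
    congr 1
    refine Finset.sum_congr rfl fun k _ => ?_
    rw [pd_Y0 hζ hw cv2]
    rfl
  have e1 : (fun x => M i j x - U i j x + ∑ k, (pd k (Y0 ζ w b k i j) x -
      x k * Y0 ζ w b k i j x)) = fun x => G0 ζ w v2 b x i j := funext hG0
  rw [e1] at h1
  have cG0 : C0 (fun x => G0 ζ w v2 b x i j) := by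
    rw [← e1]
    exact (((hM i j).sub (hU i j)).add (CG.sum fun k _ => ((c0 k).cgp k).sub
      ((cg_coord k).mul (c0 k).cg))).c0
  exact h1.add_res (fun k => (c0 k).c0) cG0 (c1_ef hζ i j) (1 / 2)

end field

end Crest.Agent.R253.DualP973
end
end

-- ▼ part R253/DualPB_973

/-!
# R253: the weighted dual bound with the one-sided field, the estimate (helper973)
-/

set_option autoImplicit false

open MeasureTheory ProbabilityTheory Real Set Filter Topology Matrix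
open scoped ContDiff

noncomputable section

namespace Crest.Agent.R253.DualP973

open Crest.Agent.R238.Gap Crest.Agent.R238.GapPoinc Crest.Agent.R238.GapPc
open Crest.Agent.R253.SpecCalc999 Crest.Agent.R253.Meh74 Crest.Agent.R253.SpecField321
open Crest.Agent.R253.Jord192

variable {n : ℕ}


lemma EE_sum' {ι : Type*} (s : Finset ι) {f : ι → E n → ℝ} (hf : ∀ i, CG (f i)) :
    EE (fun x => ∑ i ∈ s, f i x) = ∑ i ∈ s, EE (f i) := EE_sum fun i _ => hf i

/-- `Σ_q Σ_k ∫ g² = Σ_k E hs` -/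
lemma sum_pair_eq {F : Fin n → E n → Mat n} (hF : ∀ k, CM (F k)) :
    ∑ q : Fin n × Fin n, ∑ k, EE (fun x => F k x q.1 q.2 ^ 2) = EE (fun x => ∑ k, hs (F k x)) := by
  rw [EE_sum' _ fun k => (hF k).hs, Finset.sum_comm]
  refine Finset.sum_congr rfl fun k _ => ?_
  have h1 : EE (fun x => hs (F k x)) = ∑ i, ∑ j, EE (fun x => F k x i j ^ 2) :=
    EE_sum2 (f := fun i j x => F k x i j ^ 2) fun i j => (hF k i j).sq
  rw [h1, Fintype.sum_prod_type]

lemma sum_pair_eq1 {F : E n → Mat n} (hF : CM F) :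
    ∑ q : Fin n × Fin n, EE (fun x => F x q.1 q.2 ^ 2) = EE (fun x => hs (F x)) := by
  have h1 : EE (fun x => hs (F x)) = ∑ i, ∑ j, EE (fun x => F x i j ^ 2) :=
    EE_sum2 (f := fun i j x => F x i j ^ 2) fun i j => (hF i j).sq
  rw [h1, Fintype.sum_prod_type]

lemma EE_xx (j k : Fin n) : EE (fun x : E n => x j * x k) = if j = k then 1 else 0 := by
  unfold EE
  rw [ibp_gam (c1_coord j).c (pg_coord j) k ((c1_coord j).p k)]
  simp_rw [pd_coord]
  simp

/-- `E |Σ x_k A_k|² = Σ |A_k|²` -/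
lemma EE_hs_lin (A : Fin n → Mat n) :
    EE (fun x : E n => hs (∑ k, x k • A k)) = ∑ k, hs (A k) := by
  have h1 : EE (fun x : E n => hs (∑ k, x k • A k)) =
      ∑ i, ∑ j, EE (fun x : E n => (∑ k, x k * A k i j) ^ 2) := by
    have := EE_sum2 (f := fun i j (x : E n) => (∑ k, x k * A k i j) ^ 2) fun i j =>
      (CG.sum fun k _ => (cg_coord k).mulc (A k i j)).sq
    rw [← this]
    refine EE_congr fun x => ?_
    unfold hs
    refine Finset.sum_congr rfl fun i _ => Finset.sum_congr rfl fun j _ => ?_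
    rw [Matrix.sum_apply]
    rfl
  have h2 : ∀ i j, EE (fun x : E n => (∑ k, x k * A k i j) ^ 2) = ∑ k, A k i j ^ 2 := by
    intro i j
    have e1 : ∀ x : E n, (∑ k, x k * A k i j) ^ 2 =
        ∑ k, ∑ l, A k i j * A l i j * (x k * x l) := fun x => by
      rw [sq, Finset.sum_mul_sum]
      exact Finset.sum_congr rfl fun k _ => Finset.sum_congr rfl fun l _ => by ring
    rw [EE_congr e1, EE_sum' _ fun k => CG.sum fun l _ =>
      ((cg_coord k).mul (cg_coord l)).smul _]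
    refine Finset.sum_congr rfl fun k _ => ?_
    rw [EE_sum' _ fun l => ((cg_coord k).mul (cg_coord l)).smul _]
    simp_rw [EE_smul, EE_xx]
    simp [sq]
  rw [h1]
  simp_rw [h2]
  unfold hs
  rw [Finset.sum_congr rfl fun i _ => Finset.sum_comm, Finset.sum_comm]

section field

variable {ζ : Fld n} {lo hi : ℝ} {v w v2 : ℝ → ℝ}

lemma cg_cfc (hζ : MF ζ lo hi) {f : ℝ → ℝ} (hf : ContinuousOn f (Icc lo hi)) :
    CM (fun x => _root_.cfc f (Mx ζ x)) := by
  intro i j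
  have hc : Continuous (fun x => _root_.cfc f (Mx ζ x) i j) := by
    rw [continuous_iff_continuousAt]
    intro x0
    exact tendsto_cfc_entry isCompact_Icc hf (Eventually.of_forall fun x => ⟨hζ.h x, hζ.s x⟩)
      (hζ.h x0) (hζ.s x0) (fun a b => (hζ.c a b).cont.continuousAt) i j
  obtain ⟨K, hK⟩ := isCompact_Icc.exists_bound_of_continuousOn hf
  refine ⟨hc, PG.of_bdd (K := K) fun x => ?_⟩
  exact abs_cfc_entry_le (hζ.h x) (hζ.s x) (fun t ht => by simpa using hK t ht) i j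

lemma hs_mulW (hζ : MF ζ lo hi) {f : ℝ → ℝ} {a : ℝ} (hf : ∀ x ∈ Icc lo hi, |f x| ≤ a) (X : Mat n)
    (x : E n) : hs (X * _root_.cfc f (Mx ζ x)) ≤ a ^ 2 * hs X :=
  hs_mul_cfc_le (hζ.h x) (fun t ht => hf t (hζ.s x ht)) X

/-- **main part**: centred device with weights -/
theorem main_le (hζ : MF ζ lo hi) (h0 : ∀ i j, EE (ζ i j) = 0)
    (cw : ContinuousOn w (Icc lo hi)) (bw : ∀ x ∈ Icc lo hi, |w x| ≤ 1 / 4) (C : Mat n) :
    EE (fun x => ∑ k, hs (C * (Mx (dk k (ef ζ)) x * _root_.cfc w (Mx ζ x)) +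
        (1 / 4 : ℝ) • (C * (Mx (dk k (ef ζ)) x - (2 : ℝ) • Mx (dk k (Rf (ef ζ))) x)))) +
      EE (fun x => hs (C * (Mx (ef ζ) x * _root_.cfc w (Mx ζ x)) -
        (1 / 4 : ℝ) • (C * (Mx (ef ζ) x - (2 : ℝ) • Mx (Rf (ef ζ)) x)))) ≤
    1 / 3 * (EE (fun x => ∑ k, hs (C * Mx (dk k (ef ζ)) x)) -
      EE (fun x => hs (C * Mx (ef ζ) x))) := by
  have c1e : ∀ i j, C1 (ef ζ i j) := fun i j => c1_ef hζ i j
  have c1r : ∀ i j, C1 (Rf (ef ζ) i j) := fun i j => c1_Rs (c1e i j)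
  have cW : CM (fun x => _root_.cfc w (Mx ζ x)) := cg_cfc hζ cw
  have cp : ∀ k, CM (fun x => Mx (dk k (ef ζ)) x) := fun k => CM.mx fun i j => (c1e i j).cgp k
  have ce : CM (fun x => Mx (ef ζ) x) := CM.mx fun i j => (c1e i j).cg
  have crk : ∀ k, CM (fun x => Mx (dk k (Rf (ef ζ))) x) := fun k =>
    CM.mx fun i j => (c1r i j).cgp k
  have cr : CM (fun x => Mx (Rf (ef ζ)) x) := CM.mx fun i j => (c1r i j).cg
  -- the scalar functions
  set f : Fin n × Fin n → E n → ℝ := fun q x => ∑ p, C q.1 p * ef ζ p q.2 x with hf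
  have hf1 : ∀ q, C1 (f q) := fun q => C1.sum fun p _ => (c1e p q.2).smul _
  have hfm : ∀ q x, f q x = (C * Mx (ef ζ) x) q.1 q.2 := fun q x => by
    rw [Matrix.mul_apply]; rfl
  have hfd : ∀ q k x, pd k (f q) x = (C * Mx (dk k (ef ζ)) x) q.1 q.2 := fun q k x => by
    rw [hf, pd_sum' (f := fun p x => C q.1 p * ef ζ p q.2 x) fun p _ => (c1e p q.2).smul _,
      Matrix.mul_apply]
    refine Finset.sum_congr rfl fun p _ => ?_
    rw [(c1_const _).pd_mul (c1e p q.2), pd_const_c]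
    simp only [zero_mul, zero_add]
    rfl
  have hfR : ∀ q x, Rs (f q) x = (C * Mx (Rf (ef ζ)) x) q.1 q.2 := fun q x => by
    unfold Rs
    have h := Rw_sum Real.continuous_sin sin_b Finset.univ
      (g := fun p x => C q.1 p * ef ζ p q.2 x) (fun p _ => ((c1e p q.2).smul _).cont)
      (fun p _ => ((c1e p q.2).smul _).g) x
    rw [hf, h, Matrix.mul_apply]
    exact Finset.sum_congr rfl fun p _ => Rw_smul _ _ _ _
  have hfRd : ∀ q k x, pd k (Rs (f q)) x = (C * Mx (dk k (Rf (ef ζ))) x) q.1 q.2 := fun q k x => by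
    have e : Rs (f q) = fun x => ∑ p, C q.1 p * Rf (ef ζ) p q.2 x := by
      funext y; rw [hfR q y, Matrix.mul_apply]; rfl
    rw [e, pd_sum' (f := fun p x => C q.1 p * Rf (ef ζ) p q.2 x) fun p _ => (c1r p q.2).smul _,
      Matrix.mul_apply]
    refine Finset.sum_congr rfl fun p _ => ?_
    rw [(c1_const _).pd_mul (c1r p q.2), pd_const_c]
    simp only [zero_mul, zero_add]
    rfl
  have i0 : ∀ q, ∫ x, f q x ∂(gam n) = 0 := fun q => by
    have : EE (f q) = ∑ p, EE (fun x => C q.1 p * ef ζ p q.2 x) :=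
      EE_sum' _ fun p => ((c1e p q.2).smul _).cg
    refine this.trans (Finset.sum_eq_zero fun p _ => ?_)
    rw [EE_smul]
    have : EE (ef ζ p q.2) = 0 := integral_eta (hζ.c p q.2)
    rw [this, mul_zero]
  have i1 : ∀ q k, ∫ x, pd k (f q) x ∂(gam n) = 0 := fun q k => by
    have e : ∀ x, pd k (f q) x = ∑ p, C q.1 p * pd k (ef ζ p q.2) x := fun x => by
      rw [hfd, Matrix.mul_apply]; rfl
    have : EE (pd k (f q)) = ∑ p, EE (fun x => C q.1 p * pd k (ef ζ p q.2) x) := by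
      rw [EE_congr e]
      exact EE_sum' _ fun p => ((c1e p q.2).cgp k).smul _
    refine this.trans (Finset.sum_eq_zero fun p _ => ?_)
    rw [EE_smul]
    have : EE (pd k (ef ζ p q.2)) = 0 := integral_pd_eta (hζ.c p q.2) k
    rw [this, mul_zero]
  set A : Fin n × Fin n → Fin n → E n → ℝ := fun q k x =>
    (C * (Mx (dk k (ef ζ)) x * _root_.cfc w (Mx ζ x))) q.1 q.2 with hA
  set B : Fin n × Fin n → E n → ℝ := fun q x =>
    (C * (Mx (ef ζ) x * _root_.cfc w (Mx ζ x))) q.1 q.2 with hB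
  have cA : ∀ q k, C0 (A q k) := fun q k => (((cp k).mul cW).cmul C q.1 q.2).c0
  have cB : ∀ q, C0 (B q) := fun q => ((ce.mul cW).cmul C q.1 q.2).c0
  have sp : ∀ X : Mat n, ∑ q : Fin n × Fin n, X q.1 q.2 ^ 2 = hs X := fun X => by
    rw [Fintype.sum_prod_type]; rfl
  have hAl : ∀ k x, ∑ q, A q k x ^ 2 ≤ 1 / 16 * ∑ q, pd k (f q) x ^ 2 := fun k x => by
    have e1 : ∑ q, A q k x ^ 2 = hs ((C * Mx (dk k (ef ζ)) x) * _root_.cfc w (Mx ζ x)) := by
      rw [← sp]
      exact Finset.sum_congr rfl fun q _ => by rw [Matrix.mul_assoc]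
    have e2 : ∑ q, pd k (f q) x ^ 2 = hs (C * Mx (dk k (ef ζ)) x) := by
      rw [← sp]
      exact Finset.sum_congr rfl fun q _ => by rw [hfd]
    rw [e1, e2]
    have := hs_mulW hζ bw (C * Mx (dk k (ef ζ)) x) x
    have h16 : ((1 : ℝ) / 4) ^ 2 = 1 / 16 := by norm_num
    rwa [h16] at this
  have hBl : ∀ x, ∑ q, B q x ^ 2 ≤ 1 / 16 * ∑ q, f q x ^ 2 := fun x => by
    have e1 : ∑ q, B q x ^ 2 = hs ((C * Mx (ef ζ) x) * _root_.cfc w (Mx ζ x)) := by
      rw [← sp]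
      exact Finset.sum_congr rfl fun q _ => by rw [Matrix.mul_assoc]
    have e2 : ∑ q, f q x ^ 2 = hs (C * Mx (ef ζ) x) := by
      rw [← sp]
      exact Finset.sum_congr rfl fun q _ => by rw [hfm]
    rw [e1, e2]
    have := hs_mulW hζ bw (C * Mx (ef ζ) x) x
    have h16 : ((1 : ℝ) / 4) ^ 2 = 1 / 16 := by norm_num
    rwa [h16] at this
  have key := cen_le hf1 i0 i1 cA cB hAl hBl
  have F1 : ∀ k, CM (fun x => C * (Mx (dk k (ef ζ)) x * _root_.cfc w (Mx ζ x)) +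
        (1 / 4 : ℝ) • (C * (Mx (dk k (ef ζ)) x - (2 : ℝ) • Mx (dk k (Rf (ef ζ))) x))) := fun k =>
    (((cp k).mul cW).cmul C).add ((((cp k).sub ((crk k).smul 2)).cmul C).smul _)
  have F2 : CM (fun x => C * (Mx (ef ζ) x * _root_.cfc w (Mx ζ x)) -
        (1 / 4 : ℝ) • (C * (Mx (ef ζ) x - (2 : ℝ) • Mx (Rf (ef ζ)) x))) :=
    ((ce.mul cW).cmul C).sub (((ce.sub (cr.smul 2)).cmul C).smul _)
  have k1 := sum_pair_eq F1
  have k2 := sum_pair_eq1 F2
  have k3 := sum_pair_eq (fun k => (cp k).cmul C)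
  have k4 := sum_pair_eq1 (ce.cmul C)
  rw [← k1, ← k2, ← k3, ← k4]
  refine le_trans (le_of_eq ?_) (key.trans (le_of_eq ?_))
  · congr 1
    · refine Finset.sum_congr rfl fun q _ => Finset.sum_congr rfl fun k _ => ?_
      refine EE_congr fun x => ?_
      rw [Matrix.add_apply, Matrix.smul_apply, Matrix.mul_sub, Matrix.sub_apply,
        Matrix.mul_smul, Matrix.smul_apply, hfd, hfRd]
      rfl
    · refine Finset.sum_congr rfl fun q _ => ?_
      refine EE_congr fun x => ?_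
      rw [Matrix.sub_apply, Matrix.smul_apply, Matrix.mul_sub, Matrix.sub_apply,
        Matrix.mul_smul, Matrix.smul_apply, hfm, hfR]
      rfl
  · have g1 : (∑ q, ∑ k, ∫ x, pd k (f q) x ^ 2 ∂(gam n)) =
        ∑ q : Fin n × Fin n, ∑ k, EE (fun x => (C * Mx (dk k (ef ζ)) x) q.1 q.2 ^ 2) :=
      Finset.sum_congr rfl fun q _ => Finset.sum_congr rfl fun k _ =>
        EE_congr fun x => by rw [hfd]
    have g2 : (∑ q, ∫ x, f q x ^ 2 ∂(gam n)) =
        ∑ q : Fin n × Fin n, EE (fun x => (C * Mx (ef ζ) x) q.1 q.2 ^ 2) :=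
      Finset.sum_congr rfl fun q _ => EE_congr fun x => by rw [hfm]
    rw [g1, g2]

lemma split_Y (hζ : MF ζ lo hi) (hv : ∀ x ∈ Icc lo hi, HasDerivAt v (w x + 1 / 4) x)
    {U : Fld n} (hU : ∀ i j x, U i j x = _root_.cfc v (Mx ζ x) i j) (C b : Mat n) (k : Fin n)
    (x : E n) :
    C * (Mx (dk k U) x - Mx (Yf ζ w b k) x) =
      (C * (Mx (dk k (ef ζ)) x * _root_.cfc w (Mx ζ x)) +
        (1 / 4 : ℝ) • (C * (Mx (dk k (ef ζ)) x - (2 : ℝ) • Mx (dk k (Rf (ef ζ))) x))) +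
      C * KR v (fun t => w t + 1 / 4) (Mx ζ x) (Mx (dk k ζ) x) +
      C * ((1 - b) * Tm ζ k) * _root_.cfc w (Mx ζ x) := by
  have e1 : Mx (dk k U) x = DK v (fun t => w t + 1 / 4) (Mx ζ x) (Mx (dk k ζ) x) := by
    ext i j
    have hUf : U i j = fun x => _root_.cfc v (Mx ζ x) i j := funext (hU i j)
    simp only [Mx, Matrix.of_apply, dk]
    rw [hUf]
    exact _root_.Crest.Agent.R253.SpecField321.pd_cfc hζ hv x i j k
  have e2 : Mx (Yf ζ w b k) x = (1 / 4 : ℝ) • Tm ζ k + b * Tm ζ k * _root_.cfc w (Mx ζ x) +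
      (1 / 2 : ℝ) • Mx (dk k (Rf (ef ζ))) x := by
    ext i j
    rw [Matrix.add_apply, Matrix.smul_apply]
    rfl
  have e3 : KR v (fun t => w t + 1 / 4) (Mx ζ x) (Mx (dk k ζ) x) =
      DK v (fun t => w t + 1 / 4) (Mx ζ x) (Mx (dk k ζ) x) -
        Mx (dk k ζ) x * (_root_.cfc w (Mx ζ x) + (1 / 4 : ℝ) • 1) := by
    unfold KR
    rw [cfc_add_const (hζ.h x)]
  rw [e3, e1, e2, dk_eq hζ]
  set W := _root_.cfc w (Mx ζ x)
  set D := DK v (fun t => w t + 1 / 4) (Mx ζ x) (Tm ζ k + Mx (dk k (ef ζ)) x)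
  set p := Mx (dk k (ef ζ)) x
  set r := Mx (dk k (Rf (ef ζ))) x
  set T := Tm ζ k
  have h2 : (1 / 4 : ℝ) • (C * (p - (2 : ℝ) • r)) = (1 / 4 : ℝ) • (C * p) - (1 / 2 : ℝ) • (C * r) := by
    rw [Matrix.mul_sub, Matrix.mul_smul, smul_sub, smul_smul]; norm_num
  rw [h2]
  simp only [Matrix.mul_add, Matrix.add_mul, Matrix.mul_sub, Matrix.sub_mul, Matrix.one_mul,
    Matrix.mul_smul, Matrix.smul_mul, Matrix.mul_one, smul_add, Matrix.mul_assoc]
  abel

lemma split_G (C b : Mat n) (x : E n) :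
    C * Mx (Gf ζ w v2 b) x =
      (C * (Mx (ef ζ) x * _root_.cfc w (Mx ζ x)) -
        (1 / 4 : ℝ) • (C * (Mx (ef ζ) x - (2 : ℝ) • Mx (Rf (ef ζ)) x))) +
      (∑ k, C * b * Tm ζ k * KR w v2 (Mx ζ x) (Mx (dk k ζ) x)) +
      C * ((1 - b) * Lx ζ x) * _root_.cfc w (Mx ζ x) +
      (-(C * (1 - b * MTm ζ))) * _root_.cfc v2 (Mx ζ x) +
      (∑ k, C * b * Tm ζ k * Mx (dk k (ef ζ)) x) * _root_.cfc v2 (Mx ζ x) := by
  have e1 : Mx (Gf ζ w v2 b) x = G0 ζ w v2 b x -
      (1 / 2 : ℝ) • (Mx (ef ζ) x - Mx (Rf (ef ζ)) x) := by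
    ext i j
    rw [Matrix.sub_apply, Matrix.smul_apply, Matrix.sub_apply]
    rfl
  have s1 : ∀ X : Fin n → Mat n, ∑ k, C * b * Tm ζ k * X k = C * (b * ∑ k, Tm ζ k * X k) := by
    intro X
    rw [Finset.mul_sum, Finset.mul_sum]
    exact Finset.sum_congr rfl fun k _ => by simp only [Matrix.mul_assoc]
  rw [e1, s1, s1]
  unfold G0 KR
  set W := _root_.cfc w (Mx ζ x)
  set V2 := _root_.cfc v2 (Mx ζ x)
  set A := ∑ k, Tm ζ k * (DK w v2 (Mx ζ x) (Mx (dk k ζ) x) - Mx (dk k ζ) x * V2)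
  set B := ∑ k, Tm ζ k * Mx (dk k (ef ζ)) x
  set η := Mx (ef ζ) x
  set r := Mx (Rf (ef ζ)) x
  set L := Lx ζ x
  have h2 : (1 / 4 : ℝ) • (C * (η - (2 : ℝ) • r)) = (1 / 4 : ℝ) • (C * η) - (1 / 2 : ℝ) • (C * r) := by
    rw [Matrix.mul_sub, Matrix.mul_smul, smul_sub, smul_smul]; norm_num
  have h3 : (1 / 2 : ℝ) • (C * η) = (1 / 4 : ℝ) • (C * η) + (1 / 4 : ℝ) • (C * η) := by
    rw [← add_smul]; norm_num
  rw [h2]
  simp only [Matrix.mul_add, Matrix.add_mul, Matrix.mul_sub, Matrix.sub_mul, Matrix.one_mul,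
    Matrix.mul_smul, Matrix.smul_mul, Matrix.mul_one, smul_add, smul_sub, Matrix.mul_assoc,
    Matrix.neg_mul, neg_sub]
  rw [h3]
  abel


end field

end Crest.Agent.R253.DualP973
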