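import Mathlib
import Crest.Prelude.Def_Isotropic
import Crest.Agent.Lib.PrekopaLeindler

-- ▼ part R253/CptA_435
section

/-!
# R253: compactness of log-concave densities, part A (helper435)

`LogC f` : log-concavity of a real function on `Fin m → ℝ` (multiplicative form).
`LCD f`  : log-concave probability density.
Results: positive on a ball, bounded, superlevel sets bounded.
-/

set_option autoImplicit false
open MeasureTheory Set Filter Topology
open scoped ENNReal NNReal

namespace Crest.Agent.R253.Cpt435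

variable {m : ℕ}

/-- multiplicative log-concavity -/
def LogC (f : (Fin m → ℝ) → ℝ) : Prop :=
  ∀ (x y : Fin m → ℝ) (s t : ℝ), 0 < s → 0 < t → s + t = 1 →
    f x ^ s * f y ^ t ≤ f (s • x + t • y)

/-- log-concave probability density -/
structure LCD (f : (Fin m → ℝ) → ℝ) : Prop where
  meas : Measurable f
  nonneg : ∀ x, 0 ≤ f x
  logc : LogC f
  int1 : ∫ x, f x = 1

/-- the hypotheses of S0391 give `LCD` -/
theorem LCD.of_S0391 (f : (Fin m → ℝ) → ℝ) (hf : Measurable f) (hf0 : ∀ x, 0 ≤ f x)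
    (hf1 : ∫ x, f x = 1)
    (hfc : Convex ℝ {x | 0 < f x}) (hfl : ConcaveOn ℝ {x | 0 < f x} (fun x => Real.log (f x))) :
    LCD f := by
  refine ⟨hf, hf0, ?_, hf1⟩
  intro x y s t hs ht hst
  rcases (hf0 x).lt_or_eq with hx | hx
  · rcases (hf0 y).lt_or_eq with hy | hy
    · have h1 := hfl.2 hx hy hs.le ht.le hst
      have h2 : 0 < f (s • x + t • y) := hfc hx hy hs.le ht.le hst
      simp only [smul_eq_mul] at h1
      rw [Real.rpow_def_of_pos hx, Real.rpow_def_of_pos hy, ← Real.exp_add]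
      calc Real.exp (Real.log (f x) * s + Real.log (f y) * t)
          ≤ Real.exp (Real.log (f (s • x + t • y))) := by
            apply Real.exp_le_exp.mpr; linarith
        _ = f (s • x + t • y) := Real.exp_log h2
    · rw [← hy, Real.zero_rpow ht.ne', mul_zero]; exact hf0 _
  · rw [← hx, Real.zero_rpow hs.ne', zero_mul]; exact hf0 _

namespace LogC

variable {f : (Fin m → ℝ) → ℝ}

/-- superlevel sets are convex -/
theorem convex_superlevel (h : LogC f) {c : ℝ} (hc : 0 < c) : Convex ℝ {x | c ≤ f x} := by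
  rw [convex_iff_forall_pos]
  intro x hx y hy s t hs ht hst
  simp only [mem_ofPred_eq] at *
  calc c = c ^ s * c ^ t := by rw [← Real.rpow_add hc, hst, Real.rpow_one]
    _ ≤ f x ^ s * f y ^ t := by
        apply mul_le_mul
        · exact Real.rpow_le_rpow hc.le hx hs.le
        · exact Real.rpow_le_rpow hc.le hy ht.le
        · exact (Real.rpow_pos_of_pos hc _).le
        · exact Real.rpow_nonneg (hc.le.trans hx) _
    _ ≤ _ := h x y s t hs ht hst

/-- the positivity set is convex -/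
theorem convex_pos (h : LogC f) : Convex ℝ {x | 0 < f x} := by
  rw [convex_iff_forall_pos]
  intro x hx y hy s t hs ht hst
  simp only [mem_ofPred_eq] at *
  exact lt_of_lt_of_le (mul_pos (Real.rpow_pos_of_pos hx _) (Real.rpow_pos_of_pos hy _))
    (h x y s t hs ht hst)

/-- converse of `LCD.of_S0391` -/
theorem concaveOn_log (h : LogC f) :
    ConcaveOn ℝ {x | 0 < f x} (fun x => Real.log (f x)) := by
  refine ⟨h.convex_pos, ?_⟩
  intro x hx y hy s t hs ht hst
  simp only [mem_ofPred_eq] at *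
  rcases hs.lt_or_eq with hs | hs
  · rcases ht.lt_or_eq with ht | ht
    · have h1 := h x y s t hs ht hst
      have h2 : 0 < f x ^ s * f y ^ t :=
        mul_pos (Real.rpow_pos_of_pos hx _) (Real.rpow_pos_of_pos hy _)
      have h3 := Real.log_le_log h2 h1
      rw [Real.log_mul (Real.rpow_pos_of_pos hx _).ne' (Real.rpow_pos_of_pos hy _).ne',
        Real.log_rpow hx, Real.log_rpow hy] at h3
      simpa [smul_eq_mul] using h3
    · have : s = 1 := by linarith
      subst this; rw [← ht]; simp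
  · have : t = 1 := by linarith
    subst this; rw [← hs]; simp


theorem mul {g : (Fin m → ℝ) → ℝ} (hf0 : ∀ x, 0 ≤ f x) (hg0 : ∀ x, 0 ≤ g x)
    (hf : LogC f) (hg : LogC g) : LogC (fun x => f x * g x) := by
  intro x y s t hs ht hst
  simp only
  rw [Real.mul_rpow (hf0 x) (hg0 x), Real.mul_rpow (hf0 y) (hg0 y)]
  calc f x ^ s * g x ^ s * (f y ^ t * g y ^ t)
      = (f x ^ s * f y ^ t) * (g x ^ s * g y ^ t) := by ring
    _ ≤ _ := by
      apply mul_le_mul (hf x y s t hs ht hst) (hg x y s t hs ht hst)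
      · exact mul_nonneg (Real.rpow_nonneg (hg0 _) _) (Real.rpow_nonneg (hg0 _) _)
      · exact hf0 _

theorem const_mul {c : ℝ} (hc : 0 ≤ c) (hf0 : ∀ x, 0 ≤ f x)
    (hf : LogC f) : LogC (fun x => c * f x) := by
  rcases hc.lt_or_eq with hc | hc
  · intro x y s t hs ht hst
    simp only
    rw [Real.mul_rpow hc.le (hf0 x), Real.mul_rpow hc.le (hf0 y)]
    calc c ^ s * f x ^ s * (c ^ t * f y ^ t)
        = (c ^ s * c ^ t) * (f x ^ s * f y ^ t) := by ring
      _ = c * (f x ^ s * f y ^ t) := by rw [← Real.rpow_add hc, hst, Real.rpow_one]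
      _ ≤ _ := by gcongr; exact hf x y s t hs ht hst
  · intro x y s t hs ht hst
    simp only [← hc, zero_mul]
    rw [Real.zero_rpow hs.ne', zero_mul]

/-- affine change of variables -/
theorem comp_affine {n : ℕ} (hf : LogC f) (T : (Fin n → ℝ) →ₗ[ℝ] (Fin m → ℝ)) (b : Fin m → ℝ) :
    LogC (fun u => f (b + T u)) := by
  intro x y s t hs ht hst
  simp only
  have : b + T (s • x + t • y) = s • (b + T x) + t • (b + T y) := by
    rw [map_add, map_smul, map_smul, smul_add, smul_add]
    have : b = s • b + t • b := by rw [← add_smul, hst, one_smul]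
    nth_rewrite 1 [this]; abel
  rw [this]
  exact hf _ _ s t hs ht hst



end LogC

namespace LCD

variable {f : (Fin m → ℝ) → ℝ}

theorem integrable (hf : LCD f) : Integrable f := by
  by_contra h
  have := hf.int1
  rw [integral_undef h] at this
  exact zero_ne_one this

/-- a log-concave density is bounded below on some ball -/
theorem exists_ball (hf : LCD f) :
    ∃ (z : Fin m → ℝ) (r δ : ℝ), 0 < r ∧ 0 < δ ∧ ∀ x ∈ Metric.ball z r, δ ≤ f x := by
  -- some superlevel set has positive measure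
  have h1 : ∃ n : ℕ, volume {x | (1 / ((n : ℝ) + 1)) ≤ f x} ≠ 0 := by
    by_contra hcon
    push Not at hcon
    have h2 : volume {x | 0 < f x} = 0 := by
      have : {x | 0 < f x} ⊆ ⋃ n : ℕ, {x | (1 / ((n : ℝ) + 1)) ≤ f x} := by
        intro x hx
        obtain ⟨n, hn⟩ := exists_nat_one_div_lt (show (0 : ℝ) < f x from hx)
        exact mem_iUnion.mpr ⟨n, hn.le⟩
      exact measure_mono_null this (measure_iUnion_null hcon)
    have h3 : f =ᵐ[volume] 0 := by
      have : ∀ᵐ x, ¬ (0 < f x) := by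
        rw [ae_iff]; simpa using h2
      filter_upwards [this] with x hx
      exact le_antisymm (not_lt.mp hx) (hf.nonneg x)
    have h4 := hf.int1
    rw [integral_congr_ae h3] at h4
    simp at h4
  obtain ⟨n, hn⟩ := h1
  set δ : ℝ := 1 / ((n : ℝ) + 1) with hδ
  have hδ0 : 0 < δ := by positivity
  have hconv := hf.logc.convex_superlevel hδ0
  have hint : (interior {x | δ ≤ f x}).Nonempty := by
    by_contra hemp
    rw [not_nonempty_iff_eq_empty] at hemp
    apply hn
    have : {x | δ ≤ f x} ⊆ frontier {x | δ ≤ f x} := by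
      intro x hx
      rw [frontier, hemp, sdiff_empty]
      exact subset_closure hx
    exact measure_mono_null this (hconv.addHaar_frontier _)
  obtain ⟨z, hz⟩ := hint
  obtain ⟨r, hr, hb⟩ := Metric.isOpen_iff.mp isOpen_interior z hz
  refine ⟨z, r, δ, hr, hδ0, fun x hx => ?_⟩
  have h9 : x ∈ {x | δ ≤ f x} := interior_subset (hb hx)
  exact h9

/-- superlevel sets have finite measure -/
theorem measure_superlevel_lt_top (hf : LCD f) {c : ℝ} (hc : 0 < c) :
    volume {x | c ≤ f x} < ∞ := by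
  have := hf.integrable.measure_norm_ge_lt_top hc
  refine lt_of_le_of_lt (measure_mono ?_) this
  intro x hx
  simp only [mem_ofPred_eq, Real.norm_eq_abs] at *
  exact hx.trans (le_abs_self _)

/-- Markov : `c * vol{f ≥ c} ≤ 1` -/
theorem mul_measure_superlevel (hf : LCD f) {c : ℝ} (hc : 0 < c) {S : Set (Fin m → ℝ)}
    (hS : MeasurableSet S) (h : ∀ x ∈ S, c ≤ f x) : c * (volume S).toReal ≤ 1 := by
  have hfin : volume S < ∞ :=
    lt_of_le_of_lt (measure_mono fun x hx => h x hx) (hf.measure_superlevel_lt_top hc)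
  calc c * (volume S).toReal = ∫ _x in S, c := by
        rw [setIntegral_const, smul_eq_mul, mul_comm]; rfl
    _ ≤ ∫ x in S, f x := by
        apply setIntegral_mono_on (integrableOn_const hfin.ne) hf.integrable.integrableOn hS h
    _ ≤ ∫ x, f x := setIntegral_le_integral hf.integrable (ae_of_all _ hf.nonneg)
    _ = 1 := hf.int1

/-- a log-concave density is bounded -/
theorem bddAbove (hf : LCD f) : ∃ M : ℝ, 0 < M ∧ ∀ x, f x ≤ M := by
  obtain ⟨z, r, δ, hr, hδ, hb⟩ := hf.exists_ball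
  set v : ℝ := (volume (Metric.ball (0 : Fin m → ℝ) (r / 2))).toReal with hv
  have hv0 : 0 < v := by
    rw [hv]
    apply ENNReal.toReal_pos
    · exact (Metric.measure_ball_pos _ _ (by positivity)).ne'
    · exact measure_ball_lt_top.ne
  refine ⟨1 / (δ * v ^ 2), by positivity, fun x => ?_⟩
  rcases (hf.nonneg x).lt_or_eq with hx | hx
  swap
  · rw [← hx]; positivity
  have h1 : ∀ y ∈ Metric.ball ((1 / 2 : ℝ) • x + (1 / 2 : ℝ) • z) (r / 2),
      Real.sqrt (f x) * Real.sqrt δ ≤ f y := by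
    intro y hy
    have h2 : y = (1 / 2 : ℝ) • x + (1 / 2 : ℝ) • ((2 : ℝ) • y - x) := by
      rw [smul_sub, smul_smul]; norm_num
    have h3 : (2 : ℝ) • y - x ∈ Metric.ball z r := by
      rw [mem_ball_iff_norm] at hy ⊢
      have : (2 : ℝ) • y - x - z = (2 : ℝ) • (y - ((1 / 2 : ℝ) • x + (1 / 2 : ℝ) • z)) := by
        rw [smul_sub, smul_add, smul_smul, smul_smul]; norm_num; abel
      rw [this, norm_smul, Real.norm_eq_abs, abs_two]
      linarith
    have h4 := hf.logc x ((2 : ℝ) • y - x) (1 / 2) (1 / 2) (by norm_num) (by norm_num) (by norm_num)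
    rw [← h2] at h4
    refine le_trans ?_ h4
    rw [Real.sqrt_eq_rpow, Real.sqrt_eq_rpow]
    apply mul_le_mul_of_nonneg_left _ (Real.rpow_nonneg hx.le _)
    exact Real.rpow_le_rpow hδ.le (hb _ h3) (by norm_num)
  have h5 := hf.mul_measure_superlevel (c := Real.sqrt (f x) * Real.sqrt δ) (by positivity)
    measurableSet_ball h1
  rw [Measure.addHaar_ball_center] at h5
  have h6 : (Real.sqrt (f x) * Real.sqrt δ * v) ^ 2 ≤ 1 := by
    apply pow_le_one₀ (by positivity) h5
  rw [mul_pow, mul_pow, Real.sq_sqrt hx.le, Real.sq_sqrt hδ.le] at h6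
  rw [le_div_iff₀ (by positivity)]
  linarith

end LCD

/-- a convex set of finite measure containing a ball is bounded -/
theorem isBounded_of_convex_of_measure_lt_top {s : Set (Fin m → ℝ)} (hs : Convex ℝ s)
    {z : Fin m → ℝ} {r : ℝ} (hr : 0 < r) (hb : Metric.ball z r ⊆ s) (hfin : volume s < ∞) :
    Bornology.IsBounded s := by
  by_contra hunb
  -- points far away
  have h1 : ∀ n : ℕ, ∃ x ∈ s, (n : ℝ) < ‖x‖ := by
    intro n
    by_contra hcon
    push Not at hcon
    exact hunb (isBounded_iff_forall_norm_le.mpr ⟨n, hcon⟩)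
  choose x hxs hxn using h1
  -- the tail sets
  let A : ℕ → Set (Fin m → ℝ) := fun n => s ∩ {y | (n : ℝ) ≤ 2 * ‖y‖ + ‖z‖ + r}
  have hA : Tendsto (fun n => volume (A n)) atTop (𝓝 (volume (⋂ n, A n))) := by
    apply tendsto_measure_iInter_atTop
    · intro n
      apply NullMeasurableSet.inter
      · exact hs.nullMeasurableSet _
      · apply MeasurableSet.nullMeasurableSet
        apply measurableSet_le <;> fun_prop
    · intro a b hab y hy
      refine ⟨hy.1, ?_⟩
      have := hy.2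
      simp only [mem_ofPred_eq] at *
      have : (a : ℝ) ≤ b := by exact_mod_cast hab
      linarith
    · exact ⟨0, (lt_of_le_of_lt (measure_mono inter_subset_left) hfin).ne⟩
  have hA2 : (⋂ n, A n) = ∅ := by
    rw [eq_empty_iff_forall_notMem]
    intro y hy
    obtain ⟨n, hn⟩ := exists_nat_gt (2 * ‖y‖ + ‖z‖ + r)
    have := (mem_iInter.mp hy n).2
    simp only [mem_ofPred_eq] at this
    linarith
  rw [hA2, measure_empty] at hA
  have hpos : 0 < volume (Metric.ball (0 : Fin m → ℝ) (r / 2)) :=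
    Metric.measure_ball_pos _ _ (by positivity)
  have h2 := (hA.eventually (gt_mem_nhds hpos)).exists
  obtain ⟨n, hn⟩ := h2
  have h3 : Metric.ball ((1 / 2 : ℝ) • x n + (1 / 2 : ℝ) • z) (r / 2) ⊆ A n := by
    intro y hy
    have h2 : y = (1 / 2 : ℝ) • x n + (1 / 2 : ℝ) • ((2 : ℝ) • y - x n) := by
      rw [smul_sub, smul_smul]; norm_num
    have h3 : (2 : ℝ) • y - x n ∈ Metric.ball z r := by
      rw [mem_ball_iff_norm] at hy ⊢
      have : (2 : ℝ) • y - x n - z = (2 : ℝ) • (y - ((1 / 2 : ℝ) • x n + (1 / 2 : ℝ) • z)) := by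
        rw [smul_sub, smul_add, smul_smul, smul_smul]; norm_num; abel
      rw [this, norm_smul, Real.norm_eq_abs, abs_two]
      linarith
    refine ⟨?_, ?_⟩
    · rw [h2]
      exact hs (hxs n) (hb h3) (by norm_num) (by norm_num) (by norm_num)
    · simp only [mem_ofPred_eq]
      have h4 := mem_ball_iff_norm.mp h3
      have h5 := hxn n
      have h6 : ‖x n‖ ≤ ‖(2 : ℝ) • y‖ + ‖(2 : ℝ) • y - x n - z‖ + ‖z‖ := by
        calc ‖x n‖ = ‖(2 : ℝ) • y - ((2 : ℝ) • y - x n - z) - z‖ := by congr 1; abel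
          _ ≤ ‖(2 : ℝ) • y - ((2 : ℝ) • y - x n - z)‖ + ‖z‖ := norm_sub_le _ _
          _ ≤ _ := by gcongr; exact norm_sub_le _ _
      rw [norm_smul, Real.norm_eq_abs, abs_two] at h6
      linarith
  have h4 := measure_mono (μ := volume) h3
  rw [Measure.addHaar_ball_center] at h4
  exact absurd (lt_of_le_of_lt h4 hn) (lt_irrefl _)

end Crest.Agent.R253.Cpt435
end

-- ▼ part R253/CptB_435
section

/-!
# R253: compactness of log-concave densities, part B (helper435)

The normal form: every log-concave probability density `f` on `Fin m → ℝ` is affinely equivalent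
to a density `g` with `kap m ≤ g` on the open standard simplex and `g u ≤ Cup m * exp (-‖u‖/6)`.
-/

set_option autoImplicit false
open MeasureTheory Set Filter Topology Matrix
open scoped ENNReal NNReal

namespace Crest.Agent.R253.Cpt435

variable {m : ℕ}

/-! ### integrability of `exp (-c ‖u‖)` -/

theorem pow_mul_exp_neg_le (n : ℕ) {c : ℝ} (hc : 0 < c) (t : ℝ) (ht : 0 ≤ t) :
    (1 + t) ^ n * Real.exp (-c * t) ≤ Real.exp c * (n.factorial : ℝ) / c ^ n := by
  have h1 := Real.pow_div_factorial_le_exp (x := c * (1 + t)) (by positivity) n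
  have hn : (0 : ℝ) < n.factorial := by exact_mod_cast n.factorial_pos
  rw [div_le_iff₀ hn, mul_pow] at h1
  rw [le_div_iff₀ (by positivity)]
  have h2 : Real.exp (-c * t) * Real.exp (c * (1 + t)) = Real.exp c := by
    rw [← Real.exp_add]; ring_nf
  calc (1 + t) ^ n * Real.exp (-c * t) * c ^ n
      = Real.exp (-c * t) * (c ^ n * (1 + t) ^ n) := by ring
    _ ≤ Real.exp (-c * t) * (Real.exp (c * (1 + t)) * n.factorial) := by gcongr
    _ = (Real.exp (-c * t) * Real.exp (c * (1 + t))) * n.factorial := by ring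
    _ = _ := by rw [h2]

theorem integrable_exp_neg_norm {c : ℝ} (hc : 0 < c) :
    Integrable (fun u : Fin m → ℝ => Real.exp (-c * ‖u‖)) := by
  have h1 : Integrable (fun x : Fin m → ℝ => (1 + ‖x‖) ^ (-((m : ℝ) + 1))) := by
    apply integrable_one_add_norm
    simp
  set K : ℝ := Real.exp c * ((m + 1).factorial : ℝ) / c ^ (m + 1) with hK
  refine (h1.const_mul K).mono' (by fun_prop) (ae_of_all _ fun u => ?_)
  have h2 := pow_mul_exp_neg_le (m + 1) hc ‖u‖ (norm_nonneg _)
  rw [Real.norm_eq_abs, abs_of_pos (Real.exp_pos _)]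
  have h3 : (0 : ℝ) < 1 + ‖u‖ := by positivity
  rw [Real.rpow_neg h3.le, ← div_eq_mul_inv, le_div_iff₀ (by positivity)]
  have h4 : (1 + ‖u‖) ^ ((m : ℝ) + 1) = (1 + ‖u‖) ^ (m + 1) := by
    rw [← Real.rpow_natCast]; push_cast; rfl
  rw [h4, mul_comm]
  exact h2


/-! ### the normal form -/

/-- open standard simplex -/
def oSimplex (m : ℕ) : Set (Fin m → ℝ) := {u | (∀ i, 0 < u i) ∧ ∑ i, u i < 1}

theorem isOpen_oSimplex : IsOpen (oSimplex m) := by
  have h1 : oSimplex m = (⋂ i, {u : Fin m → ℝ | 0 < u i}) ∩ {u | ∑ i, u i < 1} := by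
    ext u; simp [oSimplex]
  rw [h1]
  refine IsOpen.inter (isOpen_iInter_of_finite fun i => ?_) ?_
  · exact isOpen_lt continuous_const (continuous_apply i)
  · exact isOpen_lt (by fun_prop) continuous_const

theorem oSimplex_nonempty : (oSimplex m).Nonempty := by
  refine ⟨fun _ => 1 / ((m : ℝ) + 1), fun i => by positivity, ?_⟩
  rw [Finset.sum_const, Finset.card_univ, Fintype.card_fin, nsmul_eq_mul, mul_one_div,
    div_lt_one (by positivity)]
  linarith

theorem oSimplex_subset : oSimplex m ⊆ Metric.closedBall 0 1 := by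
  intro u hu
  rw [mem_closedBall_zero_iff, pi_norm_le_iff_of_nonneg zero_le_one]
  intro i
  rw [Real.norm_eq_abs, abs_of_pos (hu.1 i)]
  refine le_trans ?_ hu.2.le
  exact Finset.single_le_sum (fun j _ => (hu.1 j).le) (Finset.mem_univ i)

theorem volume_oSimplex_pos : 0 < (volume (oSimplex m)).toReal := by
  apply ENNReal.toReal_pos
  · exact (isOpen_oSimplex.measure_pos _ oSimplex_nonempty).ne'
  · exact (lt_of_le_of_lt (measure_mono oSimplex_subset) measure_closedBall_lt_top).ne

/-- total mass of the majorant -/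
noncomputable def Iup (m : ℕ) : ℝ := ∫ u : Fin m → ℝ, Real.exp (-(1 / 6) * ‖u‖)

theorem Iup_pos : 0 < Iup m := by
  unfold Iup
  apply integral_exp_pos
  exact integrable_exp_neg_norm (by norm_num)

/-- lower constant -/
noncomputable def kap (m : ℕ) : ℝ := 1 / (Real.exp (3 / 2) * Iup m)

/-- upper constant -/
noncomputable def Cup (m : ℕ) : ℝ := Real.exp (3 / 2) / (volume (oSimplex m)).toReal


theorem Cup_pos : 0 < Cup m := by
  have := volume_oSimplex_pos (m := m)
  unfold Cup; positivity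

/-- densities in normal form -/
structure NF (g : (Fin m → ℝ) → ℝ) : Prop extends LCD g where
  lower : ∀ u ∈ oSimplex m, kap m ≤ g u
  upper : ∀ u, g u ≤ Cup m * Real.exp (-(1 / 6) * ‖u‖)

/-! ### change of variables -/

theorem integral_comp_affine (f : (Fin m → ℝ) → ℝ) (hf : Measurable f)
    (T : Matrix (Fin m) (Fin m) ℝ) (hT : T.det ≠ 0)
    (b : Fin m → ℝ) : ∫ u, |T.det| * f (b + T.mulVec u) = ∫ x, f x := by
  have h1 := Real.map_matrix_volume_pi_eq_smul_volume_pi hT
  have h2 : ∫ x, f (b + x) ∂(Measure.map (toLin' T) volume) = ∫ u, f (b + T.mulVec u) := by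
    rw [integral_map]
    · simp
    · exact (LinearMap.continuous_of_finiteDimensional (toLin' T)).measurable.aemeasurable
    · exact (hf.comp (measurable_const_add b)).aestronglyMeasurable
  rw [h1, integral_smul_measure, integral_add_left_eq_self] at h2
  rw [integral_const_mul, ← h2, smul_eq_mul, ENNReal.toReal_ofReal (abs_nonneg _), ← mul_assoc,
    ← abs_mul, mul_inv_cancel₀ hT, abs_one, one_mul]

namespace LCD

variable {f : (Fin m → ℝ) → ℝ}

/-- affine images of log-concave densities -/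
theorem comp_affine (hf : LCD f) (T : Matrix (Fin m) (Fin m) ℝ) (hT : T.det ≠ 0)
    (b : Fin m → ℝ) : LCD (fun u => |T.det| * f (b + T.mulVec u)) where
  meas := by
    have h1 : Measurable fun u : Fin m → ℝ => b + T.mulVec u := by
      have : Continuous fun u : Fin m → ℝ => b + T.mulVec u := by fun_prop
      exact this.measurable
    exact (hf.meas.comp h1).const_mul _
  nonneg u := mul_nonneg (abs_nonneg _) (hf.nonneg _)
  logc := by
    apply LogC.const_mul (abs_nonneg _) (fun u => hf.nonneg _)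
    exact hf.logc.comp_affine (toLin' T) b
  int1 := by rw [integral_comp_affine f hf.meas T hT b, hf.int1]

end LCD

/-- scalar computation for the decay -/
theorem decay_scalar {M F0 Fu Fy τ : ℝ} (hM : 0 < M) (hτ : 0 < τ) (hτ1 : τ < 1)
    (h0 : M * Real.exp (-(1 / 2)) ≤ F0) (hy : Fy < M * Real.exp (-1)) (hu : 0 ≤ Fu)
    (h : F0 ^ (1 - τ) * Fu ^ τ ≤ Fy) : Fu ≤ M * Real.exp (-(1 / (2 * τ))) := by
  rcases hu.lt_or_eq with hu | hu
  swap
  · rw [← hu]; positivity
  have hF0 : 0 < F0 := lt_of_lt_of_le (by positivity) h0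
  have h1 : 0 < F0 ^ (1 - τ) * Fu ^ τ := by positivity
  have h2 := Real.log_lt_log h1 (lt_of_le_of_lt h hy)
  have h3 := Real.log_le_log (by positivity) h0
  rw [Real.log_mul (by positivity) (by positivity), Real.log_rpow hF0, Real.log_rpow hu,
    Real.log_mul hM.ne' (Real.exp_pos _).ne', Real.log_exp] at h2
  rw [Real.log_mul hM.ne' (Real.exp_pos _).ne', Real.log_exp] at h3
  have h4 : (1 - τ) * (Real.log M + -(1 / 2)) ≤ (1 - τ) * Real.log F0 :=
    mul_le_mul_of_nonneg_left h3 (by linarith)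
  have h5 : τ * (Real.log Fu - Real.log M) ≤ -(1 / 2) := by nlinarith
  have h6 : Real.log Fu - Real.log M ≤ -(1 / (2 * τ)) := by
    have : -(1 / (2 * τ)) = -(1 / 2) / τ := by field_simp
    rw [this, le_div_iff₀ hτ]
    linarith
  calc Fu = Real.exp (Real.log Fu) := (Real.exp_log hu).symm
    _ ≤ Real.exp (Real.log M + -(1 / (2 * τ))) := by
        apply Real.exp_le_exp.mpr; linarith
    _ = _ := by rw [Real.exp_add, Real.exp_log hM]

/-- some `ρ ∈ (0, r)` makes `ρ I + a 1ᵀ` invertible -/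
theorem exists_det_ne_zero (a : Fin m → ℝ) {r : ℝ} (hr : 0 < r) :
    ∃ ρ : ℝ, 0 < ρ ∧ ρ < r ∧
      (Matrix.of fun i j : Fin m => a i + if i = j then ρ else 0).det ≠ 0 := by
  set B : Matrix (Fin m) (Fin m) ℝ := -(Matrix.of fun i _ => a i) with hB
  have h1 : B.charpoly ≠ 0 := B.charpoly_monic.ne_zero
  have h2 : {x | B.charpoly.IsRoot x}.Finite := Polynomial.finite_setOf_isRoot h1
  have h3 : (Ioo 0 r).Infinite := Ioo_infinite hr
  obtain ⟨ρ, hρ, hρ2⟩ := h3.exists_notMem_finite h2
  refine ⟨ρ, hρ.1, hρ.2, ?_⟩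
  have h4 : B.charpoly.eval ρ ≠ 0 := hρ2
  rw [Matrix.eval_charpoly] at h4
  convert h4 using 2
  ext i j
  simp only [hB, Matrix.of_apply, Matrix.sub_apply, Matrix.neg_apply, Matrix.scalar_apply,
    Matrix.diagonal_apply]
  ring

/-- **Normal form theorem**: every log-concave density is affinely equivalent to one in `NF`. -/
theorem LCD.exists_normal_form {f : (Fin m → ℝ) → ℝ} (hf : LCD f) :
    ∃ (T : Matrix (Fin m) (Fin m) ℝ) (b : Fin m → ℝ), T.det ≠ 0 ∧
      NF (fun u => |T.det| * f (b + T.mulVec u)) := by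
  classical
  -- the sup
  obtain ⟨M0, hM0, hfM0⟩ := hf.bddAbove
  have hbdd : BddAbove (range f) := ⟨M0, by rintro _ ⟨x, rfl⟩; exact hfM0 x⟩
  set M : ℝ := sSup (range f) with hMdef
  have hfM : ∀ x, f x ≤ M := fun x => le_csSup hbdd ⟨x, rfl⟩
  obtain ⟨z, r, δ, hr, hδ, hball⟩ := hf.exists_ball
  have hM : 0 < M := by
    have h1 := hball z (Metric.mem_ball_self hr)
    linarith [hfM z]
  -- near maximum point
  obtain ⟨z0, hz0⟩ : ∃ z0, M * Real.exp (-(1 / 2)) < f z0 := by
    have : M * Real.exp (-(1 / 2)) < sSup (range f) := by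
      rw [← hMdef]
      have : Real.exp (-(1 / 2)) < 1 := by
        rw [Real.exp_lt_one_iff]; norm_num
      nlinarith
    obtain ⟨_, ⟨x, rfl⟩, hx⟩ := exists_lt_of_lt_csSup (range_nonempty f) this
    exact ⟨x, hx⟩
  have he : Real.exp (-1) < Real.exp (-(1 / 2)) := Real.exp_lt_exp.mpr (by norm_num)
  set K : Set (Fin m → ℝ) := {x | M * Real.exp (-1) ≤ f x} with hKdef
  have hc0 : 0 < M * Real.exp (-1) := by positivity
  have hz0K : z0 ∈ K := by
    have : M * Real.exp (-1) ≤ M * Real.exp (-(1 / 2)) := by gcongr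
    exact this.trans hz0.le
  have hKconv : Convex ℝ K := hf.logc.convex_superlevel hc0
  have hKfin : volume K < ∞ := hf.measure_superlevel_lt_top hc0
  -- K contains a ball
  obtain ⟨z', r', hr', hball'⟩ : ∃ z' r', 0 < r' ∧ Metric.ball z' r' ⊆ K := by
    have hlim : Tendsto (fun t : ℝ => (M * Real.exp (-(1 / 2))) ^ (1 - t) * δ ^ t) (𝓝[>] 0)
        (𝓝 (M * Real.exp (-(1 / 2)))) := by
      have h1 : ContinuousAt (fun t : ℝ => (M * Real.exp (-(1 / 2))) ^ (1 - t) * δ ^ t) 0 := by
        apply ContinuousAt.mul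
        · apply ContinuousAt.rpow
          · exact continuousAt_const
          · fun_prop
          · left; positivity
        · apply ContinuousAt.rpow
          · exact continuousAt_const
          · fun_prop
          · left; exact hδ.ne'
      have h2 := h1.tendsto
      simp only [sub_zero, Real.rpow_one, Real.rpow_zero, mul_one] at h2
      exact h2.mono_left nhdsWithin_le_nhds
    have h1 : ∀ᶠ t in 𝓝[>] (0 : ℝ), M * Real.exp (-1) <
        (M * Real.exp (-(1 / 2))) ^ (1 - t) * δ ^ t :=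
      hlim.eventually (lt_mem_nhds (by gcongr))
    have h2 : ∀ᶠ t in 𝓝[>] (0 : ℝ), t ∈ Ioo (0 : ℝ) 1 :=
      Ioo_mem_nhdsGT (by norm_num)
    obtain ⟨t, ht1, ht0, ht1'⟩ := (h1.and h2).exists
    refine ⟨(1 - t) • z0 + t • z, t * r, by positivity, ?_⟩
    intro y hy
    have h3 : y = (1 - t) • z0 + t • (t⁻¹ • (y - (1 - t) • z0)) := by
      rw [smul_smul, mul_inv_cancel₀ ht0.ne', one_smul]; abel
    have h4 : t⁻¹ • (y - (1 - t) • z0) ∈ Metric.ball z r := by
      rw [mem_ball_iff_norm] at hy ⊢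
      have h5 : t⁻¹ • (y - (1 - t) • z0) - z = t⁻¹ • (y - ((1 - t) • z0 + t • z)) := by
        rw [smul_sub, smul_sub, smul_add, smul_smul t⁻¹ t, inv_mul_cancel₀ ht0.ne', one_smul]
        abel
      rw [h5, norm_smul, norm_inv, Real.norm_eq_abs, abs_of_pos ht0, inv_mul_lt_iff₀ ht0]
      exact hy
    have h6 := hf.logc z0 (t⁻¹ • (y - (1 - t) • z0)) (1 - t) t (by linarith) ht0 (by ring)
    rw [← h3] at h6
    have h7 : (M * Real.exp (-(1 / 2))) ^ (1 - t) * δ ^ t ≤
        f z0 ^ (1 - t) * f (t⁻¹ • (y - (1 - t) • z0)) ^ t := by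
      apply mul_le_mul
      · exact Real.rpow_le_rpow (by positivity) hz0.le (by linarith)
      · exact Real.rpow_le_rpow hδ.le (hball _ h4) ht0.le
      · positivity
      · exact Real.rpow_nonneg (hf.nonneg _) _
    exact (ht1.le.trans h7).trans h6
  have hKbdd : Bornology.IsBounded K :=
    isBounded_of_convex_of_measure_lt_top hKconv hr' hball' hKfin
  obtain ⟨R, hR⟩ := isBounded_iff_forall_norm_le.mp hKbdd
  -- the determinant functional
  let D : (Fin m → Fin m → ℝ) → ℝ := fun w => |(Matrix.of fun i j => w j i).det|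
  let S : Set (Fin m → Fin m → ℝ) := {w | ∀ j, z0 + w j ∈ K}
  have hDcont : Continuous D := by
    apply Continuous.abs
    apply Continuous.matrix_det
    fun_prop
  have hSbdd : BddAbove (D '' S) := by
    have hcomp : IsCompact (Metric.closedBall (0 : Fin m → Fin m → ℝ) (R + ‖z0‖)) :=
      isCompact_closedBall _ _
    have h1 := hcomp.bddAbove_image hDcont.continuousOn
    refine h1.mono (image_mono ?_)
    intro w hw
    have hR0 : 0 ≤ R := (norm_nonneg _).trans (hR z0 hz0K)
    rw [mem_closedBall_zero_iff, pi_norm_le_iff_of_nonneg (by positivity)]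
    intro j
    have h2 := hR _ (hw j)
    calc ‖w j‖ = ‖(z0 + w j) - z0‖ := by congr 1; abel
      _ ≤ ‖z0 + w j‖ + ‖z0‖ := norm_sub_le _ _
      _ ≤ R + ‖z0‖ := by linarith
  obtain ⟨w1, hw1S, hw1⟩ : ∃ w1 ∈ S, 0 < D w1 := by
    obtain ⟨ρ, hρ0, hρr, hρ⟩ := exists_det_ne_zero (z' - z0) hr'
    refine ⟨fun j i => (z' - z0) i + if i = j then ρ else 0, ?_, ?_⟩
    · intro j
      apply hball'
      rw [mem_ball_iff_norm]
      have h1 : z0 + (fun i => (z' - z0) i + if i = j then ρ else 0) - z' =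
          fun i => if i = j then ρ else 0 := by
        ext i; simp only [Pi.add_apply, Pi.sub_apply]; ring
      rw [h1]
      refine lt_of_le_of_lt ?_ hρr
      rw [pi_norm_le_iff_of_nonneg hρ0.le]
      intro i
      split_ifs
      · rw [Real.norm_eq_abs, abs_of_pos hρ0]
      · simpa using hρ0.le
    · exact abs_pos.mpr hρ
  have hSne : (D '' S).Nonempty := ⟨_, mem_image_of_mem _ hw1S⟩
  set sS : ℝ := sSup (D '' S) with hsS
  have hsS0 : 0 < sS := lt_of_lt_of_le hw1 (le_csSup hSbdd (mem_image_of_mem _ hw1S))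
  obtain ⟨w, hwS, hw⟩ : ∃ w ∈ S, sS / 2 < D w := by
    have : sS / 2 < sSup (D '' S) := by rw [← hsS]; linarith
    obtain ⟨_, ⟨w, hwS, rfl⟩, hw⟩ := exists_lt_of_lt_csSup hSne this
    exact ⟨w, hwS, hw⟩
  set T : Matrix (Fin m) (Fin m) ℝ := Matrix.of fun i j => w j i with hT
  have hDT : D w = |T.det| := rfl
  have hTdet : 0 < |T.det| := by rw [← hDT]; linarith
  have hTdet0 : T.det ≠ 0 := abs_pos.mp hTdet
  -- Cramer
  have hcoord : ∀ u : Fin m → ℝ, z0 + T.mulVec u ∈ K → ‖u‖ ≤ 2 := by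
    intro u hu
    rw [pi_norm_le_iff_of_nonneg (by norm_num)]
    intro i
    have h1 : T.det • T⁻¹ *ᵥ (T.mulVec u) = cramer T (T.mulVec u) :=
      det_smul_inv_mulVec_eq_cramer T _ (isUnit_iff_ne_zero.mpr hTdet0)
    rw [mulVec_mulVec, nonsing_inv_mul _ (isUnit_iff_ne_zero.mpr hTdet0), one_mulVec] at h1
    have h2 := congrFun h1 i
    rw [cramer_apply] at h2
    have h3 : (T.updateCol i (T.mulVec u)) =
        Matrix.of fun a b => (Function.update w i (T.mulVec u)) b a := by
      ext a b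
      rw [updateCol_apply, of_apply, Function.update_apply]
      by_cases hb : b = i
      · simp [hb]
      · simp [hb, hT]
    have h4 : Function.update w i (T.mulVec u) ∈ S := by
      intro j
      by_cases hj : j = i
      · subst hj; simpa using hu
      · rw [Function.update_of_ne hj]; exact hwS j
    have h5 : D (Function.update w i (T.mulVec u)) ≤ sS :=
      le_csSup hSbdd (mem_image_of_mem _ h4)
    have h6 : |T.det| * |u i| ≤ sS := by
      rw [← abs_mul]
      have : T.det * u i = (T.updateCol i (T.mulVec u)).det := by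
        rw [← h2]; simp
      rw [this, h3]
      exact h5
    rw [Real.norm_eq_abs]
    have h7 : |T.det| * |u i| < 2 * |T.det| := by
      rw [← hDT] at h6 ⊢; linarith
    nlinarith [abs_nonneg (u i)]
  -- F
  set F : (Fin m → ℝ) → ℝ := fun u => f (z0 + T.mulVec u) with hF
  have hFlogc : LogC F := hf.logc.comp_affine (toLin' T) z0
  have hF0 : M * Real.exp (-(1 / 2)) ≤ F 0 := by
    simp only [hF, mulVec_zero, add_zero]; exact hz0.le
  have hFnn : ∀ u, 0 ≤ F u := fun u => hf.nonneg _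
  have hFdecay : ∀ u, F u ≤ M * Real.exp (1 / 2) * Real.exp (-(1 / 6) * ‖u‖) := by
    intro u
    rcases le_or_gt ‖u‖ 3 with hu | hu
    · calc F u ≤ M * 1 := by rw [mul_one]; exact hfM _
        _ ≤ M * Real.exp (1 / 2 + -(1 / 6) * ‖u‖) := by
            gcongr
            apply Real.one_le_exp; linarith
        _ = _ := by rw [Real.exp_add, mul_assoc]
    · set τ : ℝ := 3 / ‖u‖ with hτ
      have hu0 : 0 < ‖u‖ := by linarith
      have hτ0 : 0 < τ := by positivity
      have hτ1 : τ < 1 := by rw [hτ, div_lt_one hu0]; exact hu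
      have h1 := hFlogc 0 u (1 - τ) τ (by linarith) hτ0 (by ring)
      rw [smul_zero, zero_add] at h1
      have h2 : F (τ • u) < M * Real.exp (-1) := by
        by_contra hcon
        push Not at hcon
        have h3 := hcoord (τ • u) hcon
        rw [norm_smul, Real.norm_eq_abs, abs_of_pos hτ0, hτ, div_mul_cancel₀ _ hu0.ne'] at h3
        linarith
      have h3 := decay_scalar hM hτ0 hτ1 hF0 h2 (hFnn u) h1
      refine h3.trans ?_
      rw [mul_assoc, ← Real.exp_add]
      gcongr
      have : -(1 / (2 * τ)) = -(1 / 6) * ‖u‖ := by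
        rw [hτ]; field_simp; norm_num
      rw [this]; linarith
  have hFlower : ∀ u ∈ oSimplex m, M * Real.exp (-1) ≤ F u := by
    intro u hu
    have hconvF : Convex ℝ {u | M * Real.exp (-1) ≤ F u} := hFlogc.convex_superlevel hc0
    have h0mem : (0 : Fin m → ℝ) ∈ {u | M * Real.exp (-1) ≤ F u} := by
      refine le_trans ?_ hF0
      gcongr
    have hemem : ∀ j, (Pi.single j (1 : ℝ)) ∈ {u | M * Real.exp (-1) ≤ F u} := by
      intro j
      have h1 : T.mulVec (Pi.single j (1 : ℝ)) = w j := by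
        rw [mulVec_single_one]; ext i; simp [hT]
      have h2 : F (Pi.single j 1) = f (z0 + w j) := by
        simp only [hF]; rw [h1]
      change M * Real.exp (-1) ≤ F (Pi.single j 1)
      rw [h2]; exact hwS j
    let pts : Option (Fin m) → (Fin m → ℝ) := fun o => o.elim 0 (fun j => Pi.single j 1)
    let wts : Option (Fin m) → ℝ := fun o => o.elim (1 - ∑ i, u i) u
    have h1 : ∑ o, wts o • pts o = u := by
      rw [Fintype.sum_option]
      simp only [wts, pts, Option.elim, smul_zero, zero_add]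
      ext i
      simp [Finset.sum_apply, Pi.single_apply]
    have h2 : ∑ o, wts o • pts o ∈ {u | M * Real.exp (-1) ≤ F u} := by
      apply hconvF.sum_mem
      · intro o _
        rcases o with _ | j
        · simp only [wts, Option.elim]; linarith [hu.2]
        · simp only [wts, Option.elim]; exact (hu.1 j).le
      · rw [Fintype.sum_option]; simp [wts]
      · intro o _
        rcases o with _ | j
        · exact h0mem
        · exact hemem j
    rw [h1] at h2
    exact h2
  -- conclusion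
  have hg : LCD (fun u => |T.det| * f (z0 + T.mulVec u)) := hf.comp_affine T hTdet0 z0
  set κ : ℝ := |T.det| * (M * Real.exp (-1)) with hκ
  have hκ0 : 0 < κ := by positivity
  have hup1 : ∀ u, |T.det| * f (z0 + T.mulVec u) ≤
      κ * Real.exp (3 / 2) * Real.exp (-(1 / 6) * ‖u‖) := by
    intro u
    have h1 := hFdecay u
    have h2 : κ * Real.exp (3 / 2) = |T.det| * (M * Real.exp (1 / 2)) := by
      rw [hκ, mul_assoc, mul_assoc, ← Real.exp_add]; norm_num
    rw [h2, mul_assoc]
    exact mul_le_mul_of_nonneg_left h1 (abs_nonneg _)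
  have hlow1 : ∀ u ∈ oSimplex m, κ ≤ |T.det| * f (z0 + T.mulVec u) := by
    intro u hu
    exact mul_le_mul_of_nonneg_left (hFlower u hu) (abs_nonneg _)
  have hκ1 : κ * (volume (oSimplex m)).toReal ≤ 1 :=
    hg.mul_measure_superlevel hκ0 isOpen_oSimplex.measurableSet hlow1
  have hκ2 : 1 ≤ κ * Real.exp (3 / 2) * Iup m := by
    rw [← hg.int1, Iup, ← integral_const_mul]
    apply integral_mono hg.integrable
    · exact (integrable_exp_neg_norm (by norm_num)).const_mul _
    · intro u; exact hup1 u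
  refine ⟨T, z0, hTdet0, ⟨hg, ?_, ?_⟩⟩
  · intro u hu
    refine le_trans ?_ (hlow1 u hu)
    have h1 := Iup_pos (m := m)
    rw [kap, div_le_iff₀ (by positivity)]
    linarith
  · intro u
    refine (hup1 u).trans ?_
    have h1 := volume_oSimplex_pos (m := m)
    have h2 : κ * Real.exp (3 / 2) ≤ Cup m := by
      rw [Cup, le_div_iff₀ h1]
      calc κ * Real.exp (3 / 2) * (volume (oSimplex m)).toReal
          = Real.exp (3 / 2) * (κ * (volume (oSimplex m)).toReal) := by ring
        _ ≤ Real.exp (3 / 2) * 1 := by gcongr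
        _ = _ := mul_one _
    gcongr

end Crest.Agent.R253.Cpt435
end

-- ▼ part R253/CptD_435
section

/-!
# R253: compactness of log-concave densities, part D (helper435)

* `PB ψ` polynomially bounded, `EB f` exponentially decaying; `LCD f → EB f`;
* convergence of integrals and of the entropy along the selection theorem;
* the curve `t ↦ ∫ ψ f exp (t l - t²/2 q)` and its derivative.
-/

set_option autoImplicit false
open MeasureTheory Set Filter Topology Matrix
open scoped ENNReal NNReal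

namespace Crest.Agent.R253.Cpt435

variable {m : ℕ}

/-- polynomially bounded measurable functions -/
structure PB (ψ : (Fin m → ℝ) → ℝ) : Prop where
  meas : Measurable ψ
  bound : ∃ (K : ℝ) (n : ℕ), 0 ≤ K ∧ ∀ x, |ψ x| ≤ K * (1 + ‖x‖) ^ n

/-- measurable functions with exponential decay -/
structure EB (f : (Fin m → ℝ) → ℝ) : Prop where
  meas : Measurable f
  bound : ∃ (C c : ℝ), 0 ≤ C ∧ 0 < c ∧ ∀ x, |f x| ≤ C * Real.exp (-c * ‖x‖)

namespace PB

variable {ψ χ : (Fin m → ℝ) → ℝ}

theorem mul (h1 : PB ψ) (h2 : PB χ) : PB (fun x => ψ x * χ x) := by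
  obtain ⟨K1, n1, hK1, hb1⟩ := h1.bound
  obtain ⟨K2, n2, hK2, hb2⟩ := h2.bound
  refine ⟨h1.meas.mul h2.meas, K1 * K2, n1 + n2, by positivity, fun x => ?_⟩
  rw [abs_mul, pow_add]
  calc |ψ x| * |χ x| ≤ (K1 * (1 + ‖x‖) ^ n1) * (K2 * (1 + ‖x‖) ^ n2) :=
        mul_le_mul (hb1 x) (hb2 x) (abs_nonneg _) (by positivity)
    _ = _ := by ring

theorem add (h1 : PB ψ) (h2 : PB χ) : PB (fun x => ψ x + χ x) := by
  obtain ⟨K1, n1, hK1, hb1⟩ := h1.bound
  obtain ⟨K2, n2, hK2, hb2⟩ := h2.bound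
  refine ⟨h1.meas.add h2.meas, K1 + K2, max n1 n2, by positivity, fun x => ?_⟩
  have h3 : (1 : ℝ) ≤ 1 + ‖x‖ := by linarith [norm_nonneg x]
  calc |ψ x + χ x| ≤ |ψ x| + |χ x| := abs_add_le _ _
    _ ≤ K1 * (1 + ‖x‖) ^ n1 + K2 * (1 + ‖x‖) ^ n2 := add_le_add (hb1 x) (hb2 x)
    _ ≤ K1 * (1 + ‖x‖) ^ (max n1 n2) + K2 * (1 + ‖x‖) ^ (max n1 n2) := by
        gcongr
        · exact le_max_left _ _
        · exact le_max_right _ _
    _ = _ := by ring

theorem const (c : ℝ) : PB (fun _ : Fin m → ℝ => c) :=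
  ⟨measurable_const, |c|, 0, abs_nonneg _, fun x => by simp⟩

theorem neg (h1 : PB ψ) : PB (fun x => -ψ x) := by
  have := (const (m := m) (-1)).mul h1
  simpa using this

theorem sub (h1 : PB ψ) (h2 : PB χ) : PB (fun x => ψ x - χ x) := by
  simpa [sub_eq_add_neg] using h1.add h2.neg

theorem const_mul (c : ℝ) (h1 : PB ψ) : PB (fun x => c * ψ x) := (const c).mul h1

theorem mul_const (c : ℝ) (h1 : PB ψ) : PB (fun x => ψ x * c) := h1.mul (const c)

theorem pow (h1 : PB ψ) (n : ℕ) : PB (fun x => ψ x ^ n) := by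
  induction n with
  | zero => simpa using const (m := m) 1
  | succ n ih => simpa [pow_succ] using ih.mul h1

theorem coord (i : Fin m) : PB (fun x : Fin m → ℝ => x i) := by
  refine ⟨measurable_pi_apply i, 1, 1, zero_le_one, fun x => ?_⟩
  have := norm_le_pi_norm x i
  rw [Real.norm_eq_abs] at this
  rw [pow_one, one_mul]; linarith

theorem sum {ι : Type*} (s : Finset ι) {F : ι → (Fin m → ℝ) → ℝ} (h : ∀ i ∈ s, PB (F i)) :
    PB (fun x => ∑ i ∈ s, F i x) := by
  classical
  induction s using Finset.induction_on with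
  | empty => simpa using const (m := m) 0
  | insert a s ha ih =>
    simp only [Finset.sum_insert ha]
    exact (h a (Finset.mem_insert_self _ _)).add
      (ih fun i hi => h i (Finset.mem_insert_of_mem hi))



/-- polynomial growth is dominated by any exponential -/
theorem exp_bound (h : PB ψ) {c : ℝ} (hc : 0 < c) :
    ∃ K, 0 ≤ K ∧ ∀ x, |ψ x| ≤ K * Real.exp (c * ‖x‖) := by
  obtain ⟨K, n, hK, hb⟩ := h.bound
  refine ⟨K * (Real.exp c * (n.factorial : ℝ) / c ^ n), by positivity, fun x => ?_⟩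
  have h1 := pow_mul_exp_neg_le n hc ‖x‖ (norm_nonneg _)
  refine (hb x).trans ?_
  rw [mul_assoc]
  gcongr
  have h2 : Real.exp (-c * ‖x‖) * Real.exp (c * ‖x‖) = 1 := by
    rw [← Real.exp_add]; simp
  calc (1 + ‖x‖) ^ n = (1 + ‖x‖) ^ n * (Real.exp (-c * ‖x‖) * Real.exp (c * ‖x‖)) := by
        rw [h2, mul_one]
    _ = ((1 + ‖x‖) ^ n * Real.exp (-c * ‖x‖)) * Real.exp (c * ‖x‖) := by ring
    _ ≤ _ := by gcongr

end PB

namespace EB

variable {ψ f : (Fin m → ℝ) → ℝ}

theorem mul_PB (hf : EB f) (hψ : PB ψ) : EB (fun x => ψ x * f x) := by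
  obtain ⟨C, c, hC, hc, hb⟩ := hf.bound
  obtain ⟨K, hK, hKb⟩ := hψ.exp_bound (half_pos hc)
  refine ⟨hψ.meas.mul hf.meas, K * C, c / 2, by positivity, half_pos hc, fun x => ?_⟩
  rw [abs_mul]
  calc |ψ x| * |f x| ≤ (K * Real.exp (c / 2 * ‖x‖)) * (C * Real.exp (-c * ‖x‖)) :=
        mul_le_mul (hKb x) (hb x) (abs_nonneg _) (by positivity)
    _ = K * C * (Real.exp (c / 2 * ‖x‖) * Real.exp (-c * ‖x‖)) := by ring
    _ = _ := by rw [← Real.exp_add]; ring_nf

theorem integrable (hf : EB f) : Integrable f := by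
  obtain ⟨C, c, hC, hc, hb⟩ := hf.bound
  exact ((integrable_exp_neg_norm hc).const_mul C).mono' hf.meas.aestronglyMeasurable
    (ae_of_all _ hb)

theorem integrable_mul (hf : EB f) (hψ : PB ψ) : Integrable (fun x => ψ x * f x) :=
  (hf.mul_PB hψ).integrable

theorem of_le {g : (Fin m → ℝ) → ℝ} (hg : EB g) (hf : Measurable f) (h : ∀ x, |f x| ≤ |g x|) :
    EB f := by
  obtain ⟨C, c, hC, hc, hb⟩ := hg.bound
  exact ⟨hf, C, c, hC, hc, fun x => (h x).trans (hb x)⟩

end EB

theorem NF.eb {g : (Fin m → ℝ) → ℝ} (hg : NF g) : EB g :=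
  ⟨hg.meas, Cup m, 1 / 6, Cup_pos.le, by norm_num, fun x => by
    rw [abs_of_nonneg (hg.nonneg x)]; exact hg.upper x⟩

/-- every log-concave density decays exponentially -/
theorem LCD.eb {f : (Fin m → ℝ) → ℝ} (hf : LCD f) : EB f := by
  obtain ⟨T, b, hT, hg⟩ := hf.exists_normal_form
  refine ⟨hf.meas, ?_⟩
  have hunit : IsUnit T.det := isUnit_iff_ne_zero.mpr hT
  -- operator bound for T
  obtain ⟨L, hL0, hL⟩ : ∃ L, 0 < L ∧ ∀ u, ‖T.mulVec u‖ ≤ L * ‖u‖ := by
    have h1 := (LinearMap.toContinuousLinearMap (toLin' T)).le_opNorm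
    refine ⟨‖LinearMap.toContinuousLinearMap (toLin' T)‖ + 1, by positivity, fun u => ?_⟩
    have h2 := h1 u
    have h3 : (LinearMap.toContinuousLinearMap (toLin' T)) u = T.mulVec u := by simp
    rw [h3] at h2
    refine h2.trans ?_
    gcongr
    linarith
  refine ⟨|T.det|⁻¹ * Cup m * Real.exp (1 / (6 * L) * ‖b‖), 1 / (6 * L), ?_, by positivity,
    fun x => ?_⟩
  · have := Cup_pos (m := m); positivity
  · set u := T⁻¹.mulVec (x - b) with hu
    have hx : x = b + T.mulVec u := by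
      rw [hu, mulVec_mulVec, mul_nonsing_inv _ hunit, one_mulVec]; abel
    have h1 := hg.upper u
    have h2 : ‖x‖ ≤ ‖b‖ + L * ‖u‖ := by
      conv_lhs => rw [hx]
      exact (norm_add_le _ _).trans (add_le_add le_rfl (hL u))
    have h3 : 0 < |T.det| := abs_pos.mpr hT
    rw [abs_of_nonneg (hf.nonneg x)]
    have h4 : f x ≤ |T.det|⁻¹ * (Cup m * Real.exp (-(1 / 6) * ‖u‖)) := by
      rw [inv_mul_eq_div, le_div_iff₀ h3, mul_comm]
      conv_lhs => rw [hx]
      exact h1
    refine h4.trans ?_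
    rw [mul_assoc, mul_assoc, ← Real.exp_add]
    have := Cup_pos (m := m)
    gcongr
    have h5 : ‖x‖ / L ≤ ‖b‖ / L + ‖u‖ := by
      rw [div_add' _ _ _ hL0.ne', div_le_div_iff_of_pos_right hL0]
      linarith
    have h6 : 1 / (6 * L) * ‖b‖ + -(1 / (6 * L)) * ‖x‖ = (1 / 6) * (‖b‖ / L - ‖x‖ / L) := by
      field_simp
      ring
    rw [h6]
    linarith

theorem LCD.integrable_mul {f ψ : (Fin m → ℝ) → ℝ} (hf : LCD f) (hψ : PB ψ) :
    Integrable (fun x => ψ x * f x) := hf.eb.integrable_mul hψ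

/-! ### convergence of integrals -/

/-- dominated convergence along a.e. convergent sequences in `NF` -/
theorem NF.tendsto_integral {g : ℕ → (Fin m → ℝ) → ℝ} {f : (Fin m → ℝ) → ℝ}
    (hg : ∀ k, NF (g k)) (hae : ∀ᵐ x, Tendsto (fun k => g k x) atTop (𝓝 (f x)))
    {ψ : ℕ → (Fin m → ℝ) → ℝ} {χ : (Fin m → ℝ) → ℝ} (hψm : ∀ k, Measurable (ψ k))
    {K c : ℝ} (hc : c < 1 / 6) (hψ : ∀ k x, |ψ k x| ≤ K * Real.exp (c * ‖x‖))
    (hlim : ∀ᵐ x, Tendsto (fun k => ψ k x) atTop (𝓝 (χ x))) :
    Tendsto (fun k => ∫ x, ψ k x * g k x) atTop (𝓝 (∫ x, χ x * f x)) := by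
  refine tendsto_integral_of_dominated_convergence
    (fun x => K * Cup m * Real.exp (-(1 / 6 - c) * ‖x‖)) ?_ ?_ ?_ ?_
  · intro k; exact ((hψm k).mul (hg k).meas).aestronglyMeasurable
  · exact (integrable_exp_neg_norm (by linarith)).const_mul _
  · intro k
    refine ae_of_all _ fun x => ?_
    rw [Real.norm_eq_abs, abs_mul]
    have h1 := (hg k).upper x
    rw [← abs_of_nonneg ((hg k).nonneg x)] at h1
    have hK : 0 ≤ K * Real.exp (c * ‖x‖) := (abs_nonneg _).trans (hψ k x)
    calc |ψ k x| * |g k x| ≤ (K * Real.exp (c * ‖x‖)) * (Cup m * Real.exp (-(1 / 6) * ‖x‖)) :=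
          mul_le_mul (hψ k x) h1 (abs_nonneg _) hK
      _ = K * Cup m * (Real.exp (c * ‖x‖) * Real.exp (-(1 / 6) * ‖x‖)) := by ring
      _ = _ := by rw [← Real.exp_add]; ring_nf
  · filter_upwards [hae, hlim] with x h1 h2
    exact h2.mul h1

/-- convergence of polynomial moments -/
theorem NF.tendsto_integral_PB {g : ℕ → (Fin m → ℝ) → ℝ} {f : (Fin m → ℝ) → ℝ}
    (hg : ∀ k, NF (g k)) (hae : ∀ᵐ x, Tendsto (fun k => g k x) atTop (𝓝 (f x)))
    {ψ : (Fin m → ℝ) → ℝ} (hψ : PB ψ) :
    Tendsto (fun k => ∫ x, ψ x * g k x) atTop (𝓝 (∫ x, ψ x * f x)) := by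
  obtain ⟨K, _, hK⟩ := hψ.exp_bound (c := 1 / 12) (by norm_num)
  exact NF.tendsto_integral hg hae (fun _ => hψ.meas) (by norm_num) (fun _ => hK)
    (ae_of_all _ fun x => tendsto_const_nhds)

/-- scalar entropy bound -/
theorem abs_mul_log_le {u C : ℝ} (hu : 0 ≤ u) (huC : u ≤ C) :
    |u * Real.log u| ≤ 2 * (1 + C) * Real.sqrt u := by
  rcases hu.lt_or_eq with hu | hu
  swap
  · rw [← hu]; simp
  have hC : 0 < C := lt_of_lt_of_le hu huC
  set s := Real.sqrt u with hs
  have hs0 : 0 < s := Real.sqrt_pos.mpr hu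
  have hus : u = s * s := (Real.mul_self_sqrt hu.le).symm
  have hlog : Real.log u = 2 * Real.log s := by
    rw [hus, Real.log_mul hs0.ne' hs0.ne']; ring
  rw [abs_mul, abs_of_pos hu, hlog, abs_mul, abs_two]
  have h1 : Real.log s ≤ s - 1 := Real.log_le_sub_one_of_pos hs0
  have h2 : -Real.log s ≤ s⁻¹ - 1 := by
    rw [← Real.log_inv]; exact Real.log_le_sub_one_of_pos (inv_pos.mpr hs0)
  have h3 : |Real.log s| ≤ s + s⁻¹ := by
    rw [abs_le]
    have : 0 < s⁻¹ := inv_pos.mpr hs0
    constructor <;> linarith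
  calc u * (2 * |Real.log s|) ≤ u * (2 * (s + s⁻¹)) := by gcongr
    _ = 2 * (u + 1) * s := by
        have : u * s⁻¹ = s := by rw [hus]; field_simp
        calc u * (2 * (s + s⁻¹)) = 2 * (u * s + u * s⁻¹) := by ring
          _ = 2 * (u * s + s) := by rw [this]
          _ = _ := by ring
    _ ≤ 2 * (1 + C) * s := by
        have : u + 1 ≤ 1 + C := by linarith
        gcongr

theorem EB.entropy {f : (Fin m → ℝ) → ℝ} (hf : EB f) (h0 : ∀ x, 0 ≤ f x) :
    EB (fun x => f x * Real.log (f x)) := by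
  obtain ⟨C, c, hC, hc, hb⟩ := hf.bound
  refine ⟨hf.meas.mul (Real.measurable_log.comp hf.meas), 2 * (1 + C) * Real.sqrt C, c / 2,
    by positivity, half_pos hc, fun x => ?_⟩
  have h1 : f x ≤ C * Real.exp (-c * ‖x‖) := by
    rw [← abs_of_nonneg (h0 x)]; exact hb x
  have h2 : f x ≤ C := h1.trans (by
    have : Real.exp (-c * ‖x‖) ≤ 1 := by
      rw [Real.exp_le_one_iff]; have := norm_nonneg x; nlinarith
    nlinarith)
  refine (abs_mul_log_le (h0 x) h2).trans ?_
  rw [mul_assoc (2 * (1 + C))]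
  gcongr
  calc Real.sqrt (f x) ≤ Real.sqrt (C * Real.exp (-c * ‖x‖)) := Real.sqrt_le_sqrt h1
    _ = _ := by
      rw [Real.sqrt_mul hC, Real.sqrt_eq_rpow (Real.exp _), ← Real.exp_mul]; ring_nf

/-- continuity of the entropy -/
theorem NF.tendsto_entropy {g : ℕ → (Fin m → ℝ) → ℝ} {f : (Fin m → ℝ) → ℝ}
    (hg : ∀ k, NF (g k)) (hae : ∀ᵐ x, Tendsto (fun k => g k x) atTop (𝓝 (f x))) :
    Tendsto (fun k => ∫ x, g k x * Real.log (g k x)) atTop (𝓝 (∫ x, f x * Real.log (f x))) := by
  have hC := Cup_pos (m := m)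
  refine tendsto_integral_of_dominated_convergence
    (fun x => 2 * (1 + Cup m) * Real.sqrt (Cup m) * Real.exp (-(1 / 12) * ‖x‖)) ?_ ?_ ?_ ?_
  · intro k
    exact ((hg k).meas.mul (Real.measurable_log.comp (hg k).meas)).aestronglyMeasurable
  · exact (integrable_exp_neg_norm (by norm_num)).const_mul _
  · intro k
    refine ae_of_all _ fun x => ?_
    rw [Real.norm_eq_abs]
    have h1 := (hg k).upper x
    have h2 : g k x ≤ Cup m := h1.trans (by
      have : Real.exp (-(1 / 6) * ‖x‖) ≤ 1 := by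
        rw [Real.exp_le_one_iff]; have := norm_nonneg x; linarith
      nlinarith)
    refine (abs_mul_log_le ((hg k).nonneg x) h2).trans ?_
    rw [mul_assoc (2 * (1 + Cup m))]
    gcongr
    calc Real.sqrt (g k x) ≤ Real.sqrt (Cup m * Real.exp (-(1 / 6) * ‖x‖)) := Real.sqrt_le_sqrt h1
      _ = _ := by
        rw [Real.sqrt_mul hC.le, Real.sqrt_eq_rpow (Real.exp _), ← Real.exp_mul]; ring_nf
  · filter_upwards [hae] with x h1
    exact (Real.continuous_mul_log.tendsto (f x)).comp h1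

/-! ### the tilt curve -/

/-- unnormalised moments along the curve `f * exp (t l - t²/2 q)` -/
noncomputable def curveI (f l q ψ : (Fin m → ℝ) → ℝ) (t : ℝ) : ℝ :=
  ∫ x, ψ x * (f x * Real.exp (t * l x - t ^ 2 / 2 * q x))

theorem curveI_zero (f l q ψ : (Fin m → ℝ) → ℝ) : curveI f l q ψ 0 = ∫ x, ψ x * f x := by
  simp [curveI]

/-- integrability and derivative of the curve near `0` -/
theorem exists_curve_deriv {f l q : (Fin m → ℝ) → ℝ} (hf : EB f) (hl : Measurable l)
    {L : ℝ} (hL0 : 0 ≤ L) (hL : ∀ x, |l x| ≤ L * (1 + ‖x‖)) (hq : PB q) (hq0 : ∀ x, 0 ≤ q x) :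
    ∃ δ > 0, ∀ ψ : (Fin m → ℝ) → ℝ, PB ψ → ∀ t : ℝ, |t| < δ →
      EB (fun x => f x * Real.exp (t * l x - t ^ 2 / 2 * q x)) ∧
      HasDerivAt (curveI f l q ψ)
        (curveI f l q (fun x => ψ x * l x) t - t * curveI f l q (fun x => ψ x * q x) t) t := by
  obtain ⟨C, c, hC, hc, hb⟩ := hf.bound
  set δ : ℝ := c / (2 * (L + 1)) with hδ
  have hδ0 : 0 < δ := by positivity
  have hlPB : PB l := ⟨hl, L, 1, hL0, fun x => by rw [pow_one]; exact hL x⟩
  -- uniform bound
  have hexp : ∀ t : ℝ, |t| < δ → ∀ x, |f x * Real.exp (t * l x - t ^ 2 / 2 * q x)| ≤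
      (C * Real.exp (c / 2)) * Real.exp (-(c / 2) * ‖x‖) := by
    intro t ht x
    have h1 : t * l x - t ^ 2 / 2 * q x ≤ c / 2 * (1 + ‖x‖) := by
      have h2 : t * l x ≤ |t| * (L * (1 + ‖x‖)) := by
        calc t * l x ≤ |t * l x| := le_abs_self _
          _ = |t| * |l x| := abs_mul _ _
          _ ≤ _ := by gcongr; exact hL x
      have h3 : |t| * (L * (1 + ‖x‖)) ≤ δ * ((L + 1) * (1 + ‖x‖)) := by
        gcongr
        linarith
      have h4 : δ * ((L + 1) * (1 + ‖x‖)) = c / 2 * (1 + ‖x‖) := by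
        rw [hδ]; field_simp
      have h5 : 0 ≤ t ^ 2 / 2 * q x := mul_nonneg (by positivity) (hq0 x)
      linarith
    rw [abs_mul, abs_of_pos (Real.exp_pos _)]
    calc |f x| * Real.exp (t * l x - t ^ 2 / 2 * q x)
        ≤ (C * Real.exp (-c * ‖x‖)) * Real.exp (c / 2 * (1 + ‖x‖)) := by
          gcongr
          exact hb x
      _ = C * (Real.exp (-c * ‖x‖) * Real.exp (c / 2 * (1 + ‖x‖))) := by ring
      _ = C * (Real.exp (c / 2) * Real.exp (-(c / 2) * ‖x‖)) := by
          rw [← Real.exp_add, ← Real.exp_add]; ring_nf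
      _ = _ := by ring
  have hEB : ∀ t : ℝ, |t| < δ → EB (fun x => f x * Real.exp (t * l x - t ^ 2 / 2 * q x)) := by
    intro t ht
    refine ⟨?_, C * Real.exp (c / 2), c / 2, by positivity, by positivity, hexp t ht⟩
    exact hf.meas.mul (Real.measurable_exp.comp ((hl.const_mul t).sub (hq.meas.const_mul _)))
  refine ⟨δ, hδ0, fun ψ hψ t ht => ⟨hEB t ht, ?_⟩⟩
  -- derivative
  have hP : PB (fun x => |ψ x| * (|l x| + δ * |q x|)) := by
    refine ⟨?_, ?_⟩
    · exact (hψ.meas.abs).mul ((hl.abs).add (hq.meas.abs.const_mul _))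
    · obtain ⟨K1, n1, hK1, h1⟩ := hψ.bound
      obtain ⟨K2, n2, hK2, h2⟩ := hlPB.bound
      obtain ⟨K3, n3, hK3, h3⟩ := hq.bound
      refine ⟨K1 * (K2 + δ * K3), n1 + max n2 n3, by positivity, fun x => ?_⟩
      have hx1 : (1 : ℝ) ≤ 1 + ‖x‖ := by linarith [norm_nonneg x]
      rw [abs_of_nonneg (by positivity), pow_add]
      calc |ψ x| * (|l x| + δ * |q x|)
          ≤ (K1 * (1 + ‖x‖) ^ n1) * (K2 * (1 + ‖x‖) ^ n2 + δ * (K3 * (1 + ‖x‖) ^ n3)) := by
            gcongr
            · exact h1 x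
            · exact h2 x
            · exact h3 x
        _ ≤ (K1 * (1 + ‖x‖) ^ n1) * (K2 * (1 + ‖x‖) ^ (max n2 n3) +
              δ * (K3 * (1 + ‖x‖) ^ (max n2 n3))) := by
            gcongr
            · exact le_max_left _ _
            · exact le_max_right _ _
        _ = _ := by ring
  have hbd : Integrable (fun x => (|ψ x| * (|l x| + δ * |q x|)) *
      ((C * Real.exp (c / 2)) * Real.exp (-(c / 2) * ‖x‖))) := by
    have hE : EB (fun x : Fin m → ℝ => (C * Real.exp (c / 2)) * Real.exp (-(c / 2) * ‖x‖)) := by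
      refine ⟨by fun_prop, C * Real.exp (c / 2), c / 2, by positivity, by positivity,
        fun x => ?_⟩
      rw [abs_of_nonneg (by positivity)]
    exact hE.integrable_mul hP
  have hnb : Ioo (-δ) δ ∈ 𝓝 t := Ioo_mem_nhds (abs_lt.mp ht).1 (abs_lt.mp ht).2
  have key := hasDerivAt_integral_of_dominated_loc_of_deriv_le
    (F := fun t x => ψ x * (f x * Real.exp (t * l x - t ^ 2 / 2 * q x)))
    (F' := fun t x => ψ x * (f x * (Real.exp (t * l x - t ^ 2 / 2 * q x) * (l x - t * q x))))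
    (x₀ := t) (μ := (volume : Measure (Fin m → ℝ)))
    (bound := fun x => (|ψ x| * (|l x| + δ * |q x|)) *
      ((C * Real.exp (c / 2)) * Real.exp (-(c / 2) * ‖x‖)))
    hnb ?_ ?_ ?_ ?_ hbd ?_
  · have h1 := key.2
    have h2 : (∫ x, ψ x * (f x * (Real.exp (t * l x - t ^ 2 / 2 * q x) * (l x - t * q x)))) =
        curveI f l q (fun x => ψ x * l x) t - t * curveI f l q (fun x => ψ x * q x) t := by
      unfold curveI
      rw [← integral_const_mul, ← integral_sub]
      · congr 1; funext x; ring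
      · exact (hEB t ht).integrable_mul (hψ.mul hlPB)
      · exact ((hEB t ht).integrable_mul (hψ.mul hq)).const_mul t
    rw [h2] at h1
    exact h1
  · filter_upwards [hnb] with s hs
    exact ((hEB s (abs_lt.mpr hs)).integrable_mul hψ).aestronglyMeasurable
  · exact (hEB t ht).integrable_mul hψ
  · apply Measurable.aestronglyMeasurable
    have h1 : Measurable fun x => Real.exp (t * l x - t ^ 2 / 2 * q x) :=
      Real.measurable_exp.comp ((hl.const_mul t).sub (hq.meas.const_mul _))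
    exact hψ.meas.mul (hf.meas.mul (h1.mul (hl.sub (hq.meas.const_mul _))))
  · refine ae_of_all _ fun x s hs => ?_
    have hs' : |s| < δ := abs_lt.mpr hs
    have h1 := hexp s hs' x
    rw [Real.norm_eq_abs]
    calc |ψ x * (f x * (Real.exp (s * l x - s ^ 2 / 2 * q x) * (l x - s * q x)))|
        = |ψ x| * |l x - s * q x| * |f x * Real.exp (s * l x - s ^ 2 / 2 * q x)| := by
          rw [← abs_mul, ← abs_mul]; congr 1; ring
      _ ≤ |ψ x| * (|l x| + δ * |q x|) *
          ((C * Real.exp (c / 2)) * Real.exp (-(c / 2) * ‖x‖)) := by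
          gcongr
          calc |l x - s * q x| ≤ |l x| + |s * q x| := abs_sub _ _
            _ = |l x| + |s| * |q x| := by rw [abs_mul]
            _ ≤ _ := by gcongr
  · refine ae_of_all _ fun x s _ => ?_
    have h1 : HasDerivAt (fun s : ℝ => s * l x - s ^ 2 / 2 * q x) (l x - s * q x) s := by
      have h2 := (hasDerivAt_id s).mul_const (l x)
      have h3 := (((hasDerivAt_pow 2 s).div_const 2).mul_const (q x))
      refine (h2.sub h3).congr_deriv ?_
      simp
    have h2 := h1.exp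
    have h3 := (h2.const_mul (f x)).const_mul (ψ x)
    exact h3

end Crest.Agent.R253.Cpt435
end

-- ▼ part R253/CptE_435
section

/-!
# R253, part E (helper435): the class of states `(f, G)`

* affine covariance of mean, covariance, third central moment, entropy;
* `SLC f G` : `f` log-concave density, `G ≥ 0`, `f * exp (⟨G x, x⟩ / 2)` log-concave;
* boundedness of `G` in normal form; selection theorem for `(f_k, G_k)`.
-/

set_option autoImplicit false
open MeasureTheory Set Filter Topology Matrix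
open Crest.GeometryTopology.Isotropic
open scoped ENNReal NNReal

namespace Crest.Agent.R253.Cpt435

variable {m : ℕ}

/-! ### change of variables for densities -/

/-- the affine image of `f` -/
noncomputable def aff (f : (Fin m → ℝ) → ℝ) (T : Matrix (Fin m) (Fin m) ℝ) (b : Fin m → ℝ) :
    (Fin m → ℝ) → ℝ := fun u => |T.det| * f (b + T.mulVec u)

theorem integral_mul_aff (f ψ : (Fin m → ℝ) → ℝ) (hf : Measurable f) (hψ : Measurable ψ)
    (T : Matrix (Fin m) (Fin m) ℝ) (hT : T.det ≠ 0) (b : Fin m → ℝ) :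
    ∫ u, ψ (b + T.mulVec u) * aff f T b u = ∫ x, ψ x * f x := by
  rw [← integral_comp_affine (fun x => ψ x * f x) (hψ.mul hf) T hT b]
  congr 1; funext u; simp only [aff]; ring

/-- expectation notation -/
noncomputable def ex (f ψ : (Fin m → ℝ) → ℝ) : ℝ := ∫ x, ψ x * f x

theorem ex_aff {f ψ : (Fin m → ℝ) → ℝ} (hf : Measurable f) (hψ : Measurable ψ)
    {T : Matrix (Fin m) (Fin m) ℝ} (hT : T.det ≠ 0) (b : Fin m → ℝ) :
    ex (aff f T b) (fun u => ψ (b + T.mulVec u)) = ex f ψ :=
  integral_mul_aff f ψ hf hψ T hT b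

section exlin

variable {f ψ χ : (Fin m → ℝ) → ℝ}

theorem ex_add (hf : EB f) (h1 : PB ψ) (h2 : PB χ) :
    ex f (fun x => ψ x + χ x) = ex f ψ + ex f χ := by
  unfold ex
  rw [← integral_add (hf.integrable_mul h1) (hf.integrable_mul h2)]
  congr 1; funext x; ring

theorem ex_sub (hf : EB f) (h1 : PB ψ) (h2 : PB χ) :
    ex f (fun x => ψ x - χ x) = ex f ψ - ex f χ := by
  unfold ex
  rw [← integral_sub (hf.integrable_mul h1) (hf.integrable_mul h2)]
  congr 1; funext x; ring

theorem ex_const_mul (c : ℝ) : ex f (fun x => c * ψ x) = c * ex f ψ := by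
  unfold ex
  rw [← integral_const_mul]
  congr 1; funext x; ring


theorem ex_sum {ι : Type*} (s : Finset ι) (hf : EB f) {F : ι → (Fin m → ℝ) → ℝ}
    (h : ∀ i ∈ s, PB (F i)) :
    ex f (fun x => ∑ i ∈ s, F i x) = ∑ i ∈ s, ex f (F i) := by
  unfold ex
  rw [← integral_finsetSum s (fun i hi => hf.integrable_mul (h i hi))]
  congr 1; funext x; rw [Finset.sum_mul]

theorem LCD.ex_const (hf : LCD f) (c : ℝ) : ex f (fun _ => c) = c := by
  unfold ex
  rw [integral_const_mul, hf.int1, mul_one]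

end exlin

theorem densMean_eq (f : (Fin m → ℝ) → ℝ) (i : Fin m) : densMean f i = ex f (fun x => x i) := rfl

theorem densCov_eq (f : (Fin m → ℝ) → ℝ) (i j : Fin m) :
    densCov f i j = ex f (fun x => (x i - densMean f i) * (x j - densMean f j)) := rfl


/-- centred linear form -/
noncomputable def cl (f : (Fin m → ℝ) → ℝ) (u : Fin m → ℝ) (x : Fin m → ℝ) : ℝ :=
  ∑ i, u i * (x i - densMean f i)

theorem PB.cl (f : (Fin m → ℝ) → ℝ) (u : Fin m → ℝ) : PB (cl f u) := by
  unfold Cpt435.cl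
  exact PB.sum _ fun i _ => (PB.const_mul _ ((PB.coord i).sub (PB.const _)))

theorem cl_single (f : (Fin m → ℝ) → ℝ) (i : Fin m) (x : Fin m → ℝ) :
    cl f (Pi.single i 1) x = x i - densMean f i := by
  simp [cl, Pi.single_apply]

/-- affine covariance of the mean -/
theorem densMean_aff {f : (Fin m → ℝ) → ℝ} (hf : LCD f) {T : Matrix (Fin m) (Fin m) ℝ}
    (hT : T.det ≠ 0) (b : Fin m → ℝ) :
    densMean f = b + T.mulVec (densMean (aff f T b)) := by
  have hg : LCD (aff f T b) := hf.comp_affine T hT b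
  ext i
  rw [densMean_eq, ← ex_aff hf.meas (measurable_pi_apply i) hT b]
  have h1 : (fun u : Fin m → ℝ => (b + T.mulVec u) i) =
      fun u => b i + ∑ j, T i j * u j := by
    funext u; simp [mulVec, dotProduct]
  rw [h1, ex_add hg.eb (PB.const _) (PB.sum _ fun j _ => (PB.coord j).const_mul _), hg.ex_const,
    ex_sum _ hg.eb (fun j _ => (PB.coord j).const_mul _)]
  simp only [Pi.add_apply, mulVec, dotProduct]
  congr 1
  refine Finset.sum_congr rfl fun j _ => ?_
  rw [ex_const_mul, densMean_eq]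

theorem cl_aff {f : (Fin m → ℝ) → ℝ} (hf : LCD f) {T : Matrix (Fin m) (Fin m) ℝ}
    (hT : T.det ≠ 0) (b : Fin m → ℝ) (u : Fin m → ℝ) (v : Fin m → ℝ) :
    cl f u (b + T.mulVec v) = cl (aff f T b) (Tᵀ.mulVec u) v := by
  have h1 := densMean_aff hf hT b
  unfold cl
  conv_lhs => rw [h1]
  simp only [Pi.add_apply, add_sub_add_left_eq_sub, mulVec, dotProduct, transpose_apply]
  simp_rw [← Finset.sum_sub_distrib, Finset.sum_mul, Finset.mul_sum]
  rw [Finset.sum_comm]
  refine Finset.sum_congr rfl fun j _ => Finset.sum_congr rfl fun i _ => ?_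
  ring

/-- second central moments as a bilinear form -/
theorem ex_cl_cl {f : (Fin m → ℝ) → ℝ} (hf : EB f) (u v : Fin m → ℝ) :
    ex f (fun x => cl f u x * cl f v x) = ∑ i, ∑ j, u i * v j * densCov f i j := by
  have h1 : (fun x => cl f u x * cl f v x) = fun x => ∑ i, ∑ j,
      (u i * v j) * ((x i - densMean f i) * (x j - densMean f j)) := by
    funext x
    unfold cl
    rw [Finset.sum_mul_sum]
    refine Finset.sum_congr rfl fun i _ => Finset.sum_congr rfl fun j _ => ?_
    ring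
  rw [h1, ex_sum _ hf]
  · refine Finset.sum_congr rfl fun i _ => ?_
    rw [ex_sum _ hf]
    · refine Finset.sum_congr rfl fun j _ => ?_
      rw [ex_const_mul, densCov_eq]
    · intro j _
      exact PB.const_mul _ (((PB.coord i).sub (PB.const _)).mul ((PB.coord j).sub (PB.const _)))
  · intro i _
    refine PB.sum _ fun j _ => ?_
    exact PB.const_mul _ (((PB.coord i).sub (PB.const _)).mul ((PB.coord j).sub (PB.const _)))

theorem ex_cl_cl' {f : (Fin m → ℝ) → ℝ} (hf : EB f) (u v : Fin m → ℝ) :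
    ex f (fun x => cl f u x * cl f v x) = u ⬝ᵥ (densCov f).mulVec v := by
  rw [ex_cl_cl hf]
  simp only [dotProduct, mulVec, Finset.mul_sum]
  refine Finset.sum_congr rfl fun i _ => Finset.sum_congr rfl fun j _ => ?_
  ring


/-- affine covariance of the covariance matrix -/
theorem densCov_aff {f : (Fin m → ℝ) → ℝ} (hf : LCD f) {T : Matrix (Fin m) (Fin m) ℝ}
    (hT : T.det ≠ 0) (b : Fin m → ℝ) :
    densCov f = T * densCov (aff f T b) * Tᵀ := by
  have hg : LCD (aff f T b) := hf.comp_affine T hT b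
  ext i j
  have h1 : densCov f i j = ex f (fun x => cl f (Pi.single i 1) x * cl f (Pi.single j 1) x) := by
    rw [densCov_eq]; simp only [cl_single]
  rw [h1, ← ex_aff hf.meas (((PB.cl f _).mul (PB.cl f _)).meas) hT b]
  simp only [cl_aff hf hT b]
  rw [ex_cl_cl hg.eb]
  simp only [mul_apply, transpose_apply, mulVec_single_one, col_apply, Finset.sum_mul]
  rw [Finset.sum_comm]
  refine Finset.sum_congr rfl fun l _ => Finset.sum_congr rfl fun k _ => ?_
  ring


/-- affine covariance of the entropy -/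
theorem diffEntropy_aff {f : (Fin m → ℝ) → ℝ} (hf : LCD f) {T : Matrix (Fin m) (Fin m) ℝ}
    (hT : T.det ≠ 0) (b : Fin m → ℝ) :
    diffEntropy f = diffEntropy (aff f T b) + Real.log |T.det| := by
  have hg : LCD (aff f T b) := hf.comp_affine T hT b
  have hdet : 0 < |T.det| := abs_pos.mpr hT
  have h1 : ∫ x, f x * Real.log (f x) =
      ∫ u, (aff f T b u * Real.log (aff f T b u) - Real.log |T.det| * aff f T b u) := by
    rw [← integral_comp_affine (fun x => f x * Real.log (f x))
      (hf.meas.mul (Real.measurable_log.comp hf.meas)) T hT b]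
    congr 1; funext u
    simp only [aff]
    rcases (hf.nonneg (b + T.mulVec u)).lt_or_eq with h | h
    · rw [Real.log_mul hdet.ne' h.ne']; ring
    · rw [← h]; simp
  have h2 : ∫ u, (aff f T b u * Real.log (aff f T b u) - Real.log |T.det| * aff f T b u) =
      (∫ u, aff f T b u * Real.log (aff f T b u)) - Real.log |T.det| := by
    rw [integral_sub (hg.eb.entropy hg.nonneg).integrable (hg.integrable.const_mul _),
      integral_const_mul, hg.int1, mul_one]
  unfold diffEntropy
  rw [h1, h2]; ring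

/-! ### states -/

/-- quadratic form -/
def qf (G : Matrix (Fin m) (Fin m) ℝ) (x : Fin m → ℝ) : ℝ := x ⬝ᵥ G.mulVec x


/-- the state space: `f` a log-concave density, `G ≥ 0`, `f * exp (⟨G x, x⟩/2)` log-concave -/
structure SLC (f : (Fin m → ℝ) → ℝ) (G : Matrix (Fin m) (Fin m) ℝ) : Prop extends LCD f where
  psd : G.PosSemidef
  slc : LogC (fun x => f x * Real.exp (qf G x / 2))


theorem qf_add {G : Matrix (Fin m) (Fin m) ℝ} (hG : G.IsHermitian) (x y : Fin m → ℝ) :
    qf G (x + y) = qf G x + 2 * (x ⬝ᵥ G.mulVec y) + qf G y := by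
  have h1 : y ⬝ᵥ G.mulVec x = x ⬝ᵥ G.mulVec y := by
    have hT : Gᵀ = G := by
      rw [← conjTranspose_eq_transpose_of_trivial]; exact hG
    rw [dotProduct_mulVec, ← mulVec_transpose, hT, dotProduct_comm]
  simp only [qf, mulVec_add, dotProduct_add, add_dotProduct, h1]
  ring


theorem qf_mulVec (G T : Matrix (Fin m) (Fin m) ℝ) (x : Fin m → ℝ) :
    qf G (T.mulVec x) = qf (Tᵀ * G * T) x := by
  simp only [qf]
  rw [← mulVec_mulVec, ← mulVec_mulVec, dotProduct_mulVec x Tᵀ, vecMul_transpose]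

theorem qf_nonneg {G : Matrix (Fin m) (Fin m) ℝ} (hG : G.PosSemidef) (x : Fin m → ℝ) :
    0 ≤ qf G x := by
  have := hG.dotProduct_mulVec_nonneg x
  simpa [qf] using this

/-- log-affine factor -/
theorem LogC.exp_affine (L : (Fin m → ℝ) →ₗ[ℝ] ℝ) (c : ℝ) :
    LogC (fun x : Fin m → ℝ => Real.exp (L x + c)) := by
  intro x y s t hs ht hst
  simp only
  rw [← Real.exp_mul, ← Real.exp_mul, ← Real.exp_add, map_add, map_smul, map_smul]
  apply le_of_eq; congr 1; simp only [smul_eq_mul]
  have : c = s * c + t * c := by rw [← add_mul, hst, one_mul]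
  nth_rewrite 3 [this]
  ring

/-- affine covariance of the class -/
theorem SLC.aff {f : (Fin m → ℝ) → ℝ} {G : Matrix (Fin m) (Fin m) ℝ} (hf : SLC f G)
    {T : Matrix (Fin m) (Fin m) ℝ} (hT : T.det ≠ 0) (b : Fin m → ℝ) :
    SLC (aff f T b) (Tᵀ * G * T) where
  toLCD := hf.toLCD.comp_affine T hT b
  psd := by
    have := hf.psd.conjTranspose_mul_mul_same T
    rwa [conjTranspose_eq_transpose_of_trivial] at this
  slc := by
    have h1 : LogC (fun u => f (b + T.mulVec u) * Real.exp (qf G (b + T.mulVec u) / 2)) :=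
      hf.slc.comp_affine (toLin' T) b
    have h2 : LogC (fun u : Fin m → ℝ =>
        Real.exp ((-(LinearMap.comp (dotProductBilin ℝ ℝ (b ᵥ* G)) (toLin' T))) u +
          (-(qf G b / 2)))) := LogC.exp_affine _ _
    have h3 : LogC (fun u => |T.det| * ((f (b + T.mulVec u) *
        Real.exp (qf G (b + T.mulVec u) / 2)) *
        Real.exp ((-(LinearMap.comp (dotProductBilin ℝ ℝ (b ᵥ* G)) (toLin' T))) u +
          (-(qf G b / 2))))) := by
      apply LogC.const_mul (abs_nonneg _)
      · intro x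
        exact mul_nonneg (mul_nonneg (hf.nonneg _) (Real.exp_pos _).le) (Real.exp_pos _).le
      · apply LogC.mul _ _ h1 h2
        · intro x; exact mul_nonneg (hf.nonneg _) (Real.exp_pos _).le
        · intro x; exact (Real.exp_pos _).le
    convert h3 using 2 with u
    simp only [Cpt435.aff]
    rw [mul_assoc |T.det|, mul_assoc (f _) (Real.exp _) (Real.exp _), ← Real.exp_add]
    congr 3
    rw [qf_add hf.psd.isHermitian, qf_mulVec]
    simp only [LinearMap.neg_apply, LinearMap.comp_apply, toLin'_apply, dotProductBilin_apply_apply,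
      dotProduct_mulVec]
    ring

end Crest.Agent.R253.Cpt435
end

-- ▼ part R253/CptT_435
section

/-!
# R253: second order expansions at `0` (helper435)

`T2 φ a b c` : `φ t = a + b t + c t² + o(t²)` as `t → 0`.
-/

set_option autoImplicit false
open Filter Topology Asymptotics

namespace Crest.Agent.R253.Cpt435

/-- second-order expansion at `0` -/
def T2 (φ : ℝ → ℝ) (a b c : ℝ) : Prop :=
  (fun t => φ t - (a + b * t + c * t ^ 2)) =o[𝓝 0] (fun t : ℝ => t ^ 2)

/-- second-order expansion of `F` at `a` within `I` -/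
def P2 (F : ℝ → ℝ) (I : Set ℝ) (a F1 F2 : ℝ) : Prop :=
  (fun x => F x - (F a + F1 * (x - a) + F2 * (x - a) ^ 2)) =o[𝓝[I] a] (fun x => (x - a) ^ 2)

namespace T2

variable {φ ψ : ℝ → ℝ} {a b c a' b' c' : ℝ}

theorem val (h : T2 φ a b c) : φ 0 = a := by
  have h2 : ∃ C, ∀ᶠ t in 𝓝 (0 : ℝ), ‖φ t - (a + b * t + c * t ^ 2)‖ ≤ C * ‖(t : ℝ) ^ 2‖ :=
    isBigO_iff.mp h.isBigO
  obtain ⟨C, hC⟩ := h2
  have h3 := hC.self_of_nhds
  simp at h3
  linarith

theorem congr (h : T2 φ a b c) (he : φ =ᶠ[𝓝 0] ψ) : T2 ψ a b c := by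
  refine IsLittleO.congr' h ?_ (EventuallyEq.refl _ _)
  filter_upwards [he] with t ht
  rw [ht]

theorem congr_coef (h : T2 φ a b c) (ha : a = a') (hb : b = b') (hc : c = c') :
    T2 φ a' b' c' := by
  subst ha hb hc; exact h

theorem const (a : ℝ) : T2 (fun _ => a) a 0 0 := by
  unfold T2
  simp

theorem id : T2 (fun t => t) 0 1 0 := by
  unfold T2
  simp

theorem add (h : T2 φ a b c) (h' : T2 ψ a' b' c') :
    T2 (fun t => φ t + ψ t) (a + a') (b + b') (c + c') := by
  refine (IsLittleO.add h h').congr_left fun t => ?_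
  ring

theorem const_mul (k : ℝ) (h : T2 φ a b c) : T2 (fun t => k * φ t) (k * a) (k * b) (k * c) := by
  refine (IsLittleO.const_mul_left h k).congr_left fun t => ?_
  ring

theorem neg (h : T2 φ a b c) : T2 (fun t => -φ t) (-a) (-b) (-c) := by
  refine (IsLittleO.neg_left h).congr_left fun t => ?_
  ring

theorem sub (h : T2 φ a b c) (h' : T2 ψ a' b' c') :
    T2 (fun t => φ t - ψ t) (a - a') (b - b') (c - c') := by
  refine (IsLittleO.sub h h').congr_left fun t => ?_
  ring

theorem sum {ι : Type*} (s : Finset ι) {Φ : ι → ℝ → ℝ} {A B C : ι → ℝ}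
    (h : ∀ i ∈ s, T2 (Φ i) (A i) (B i) (C i)) :
    T2 (fun t => ∑ i ∈ s, Φ i t) (∑ i ∈ s, A i) (∑ i ∈ s, B i) (∑ i ∈ s, C i) := by
  classical
  induction s using Finset.induction_on with
  | empty => simpa using const 0
  | insert x s hx ih =>
    simp only [Finset.sum_insert hx]
    exact (h x (Finset.mem_insert_self _ _)).add (ih fun i hi => h i (Finset.mem_insert_of_mem hi))


theorem sq_isLittleO : (fun t : ℝ => t ^ 2) =o[𝓝 0] (fun t : ℝ => t) := by
  have h : (fun t : ℝ => t * t) =o[𝓝 0] (fun t : ℝ => 1 * t) := by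
    apply IsLittleO.mul_isBigO
    · rw [isLittleO_one_iff]; exact tendsto_id
    · exact isBigO_refl _ _
  simpa [sq] using h

/-- `φ t - a = O(t)` -/
theorem isBigO_sub (h : T2 φ a b c) : (fun t => φ t - a) =O[𝓝 0] (fun t : ℝ => t) := by
  have h1 : (fun t => φ t - (a + b * t + c * t ^ 2)) =O[𝓝 0] (fun t : ℝ => t) :=
    (IsLittleO.trans h sq_isLittleO).isBigO
  have h2 : (fun t : ℝ => b * t) =O[𝓝 0] (fun t : ℝ => t) := isBigO_const_mul_self _ _ _
  have h3 : (fun t : ℝ => c * t ^ 2) =O[𝓝 0] (fun t : ℝ => t) :=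
    (isBigO_const_mul_self _ _ _).trans sq_isLittleO.isBigO
  refine ((h1.add h2).add h3).congr_left fun t => ?_
  ring

theorem tendsto (h : T2 φ a b c) : Tendsto φ (𝓝 0) (𝓝 a) := by
  have h1 : Tendsto (fun t => φ t - a) (𝓝 0) (𝓝 0) := h.isBigO_sub.trans_tendsto tendsto_id
  simpa using h1.add_const a

/-- `φ t = a + b t + o(t)` -/
theorem isLittleO_lin (h : T2 φ a b c) :
    (fun t => φ t - a - b * t) =o[𝓝 0] (fun t : ℝ => t) := by
  have h1 : (fun t => φ t - (a + b * t + c * t ^ 2)) =o[𝓝 0] (fun t : ℝ => t) :=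
    IsLittleO.trans h sq_isLittleO
  have h3 : (fun t : ℝ => c * t ^ 2) =o[𝓝 0] (fun t : ℝ => t) := sq_isLittleO.const_mul_left c
  refine (h1.add h3).congr_left fun t => ?_
  ring


theorem mul (h : T2 φ a b c) (h' : T2 ψ a' b' c') :
    T2 (fun t => φ t * ψ t) (a * a') (a * b' + b * a') (a * c' + b * b' + c * a') := by
  -- φ ψ - poly = (φ - p) ψ + p (ψ - q) + (p q - poly)
  have e1 : (fun t => (φ t - (a + b * t + c * t ^ 2)) * ψ t) =o[𝓝 0] (fun t : ℝ => t ^ 2 * 1) := by
    apply IsLittleO.mul_isBigO h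
    exact h'.tendsto.isBigO_one ℝ
  have e2 : (fun t => (a + b * t + c * t ^ 2) * (ψ t - (a' + b' * t + c' * t ^ 2))) =o[𝓝 0]
      (fun t : ℝ => 1 * t ^ 2) := by
    apply IsBigO.mul_isLittleO _ h'
    have : Continuous fun t : ℝ => a + b * t + c * t ^ 2 := by fun_prop
    exact (this.tendsto 0).isBigO_one ℝ
  have e3 : (fun t : ℝ => ((b * c' + c * b') + c * c' * t) * t ^ 3) =o[𝓝 0]
      (fun t : ℝ => 1 * t ^ 2) := by
    apply IsBigO.mul_isLittleO
    · have : Continuous fun t : ℝ => (b * c' + c * b') + c * c' * t := by fun_prop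
      exact (this.tendsto 0).isBigO_one ℝ
    · have h1 : (fun t : ℝ => t * t ^ 2) =o[𝓝 0] (fun t : ℝ => 1 * t ^ 2) := by
        apply IsLittleO.mul_isBigO
        · rw [isLittleO_one_iff]; exact tendsto_id
        · exact isBigO_refl _ _
      simpa [pow_succ, mul_comm, mul_left_comm] using h1
  simp only [mul_one] at e1
  simp only [one_mul] at e2 e3
  refine ((e1.add e2).add e3).congr_left fun t => ?_
  ring

theorem pow_two (h : T2 φ a b c) : T2 (fun t => φ t ^ 2) (a ^ 2) (2 * a * b) (2 * a * c + b ^ 2) := by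
  have := h.mul h
  refine (this.congr (Eventually.of_forall fun t => by ring)).congr_coef ?_ ?_ ?_ <;> ring

theorem mul_const (k : ℝ) (h : T2 φ a b c) : T2 (fun t => φ t * k) (a * k) (b * k) (c * k) := by
  refine ((h.const_mul k).congr (Eventually.of_forall fun t => by ring)).congr_coef ?_ ?_ ?_ <;>
    ring

/-- composition -/
theorem comp {F : ℝ → ℝ} {I : Set ℝ} {F1 F2 : ℝ} (hF : P2 F I a F1 F2) (h : T2 φ a b c)
    (hI : ∀ᶠ t in 𝓝 (0 : ℝ), φ t ∈ I) :
    T2 (fun t => F (φ t)) (F a) (F1 * b) (F1 * c + F2 * b ^ 2) := by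
  have ht : Tendsto φ (𝓝 0) (𝓝[I] a) := tendsto_nhdsWithin_iff.mpr ⟨h.tendsto, hI⟩
  have e1 : (fun t => F (φ t) - (F a + F1 * (φ t - a) + F2 * (φ t - a) ^ 2)) =o[𝓝 0]
      (fun t : ℝ => t ^ 2) := by
    refine (hF.comp_tendsto ht).trans_isBigO ?_
    exact h.isBigO_sub.pow 2
  have e2 : T2 (fun t => F a + F1 * (φ t - a) + F2 * (φ t - a) ^ 2) (F a) (F1 * b)
      (F1 * c + F2 * b ^ 2) := by
    have h1 : T2 (fun t => φ t - a) 0 b c := (h.sub (const a)).congr_coef (by ring) (by ring) (by ring)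
    have h2 := ((const (F a)).add (h1.const_mul F1)).add (h1.pow_two.const_mul F2)
    exact h2.congr_coef (by ring) (by ring) (by ring)
  refine (e1.add e2).congr_left fun t => ?_
  ring

/-- comparison of second coefficients -/
theorem le_of_le (h : T2 φ a b c) (h' : T2 ψ a b c') (hle : ∀ᶠ t in 𝓝 (0 : ℝ), φ t ≤ ψ t) :
    c ≤ c' := by
  have h1 : T2 (fun t => ψ t - φ t) 0 0 (c' - c) :=
    (h'.sub h).congr_coef (by ring) (by ring) (by ring)
  by_contra hcon
  push Not at hcon
  set δ := c - c' with hδ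
  have hδ0 : 0 < δ := by linarith
  have h2 : ∀ᶠ t in 𝓝 (0 : ℝ), ‖(ψ t - φ t) - (0 + 0 * t + (c' - c) * t ^ 2)‖ ≤
      (δ / 2) * ‖t ^ 2‖ := (isLittleO_iff.mp h1) (half_pos hδ0)
  have h3 : ∀ᶠ t in 𝓝[>] (0 : ℝ), False := by
    filter_upwards [nhdsWithin_le_nhds h2, nhdsWithin_le_nhds hle, self_mem_nhdsWithin] with t h4 h5 h6
    have h7 : (0 : ℝ) < t ^ 2 := by
      have : (0 : ℝ) < t := h6
      positivity
    rw [Real.norm_eq_abs, Real.norm_eq_abs, abs_of_pos h7] at h4
    have h8 := (abs_le.mp h4).2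
    nlinarith
  exact h3.exists.elim fun _ h => h

/-- uniqueness of the expansion -/
theorem unique (h : T2 φ a b c) (h' : T2 φ a' b' c') : a = a' ∧ b = b' ∧ c = c' := by
  have ha : a = a' := by rw [← h.val, ← h'.val]
  subst ha
  have hb : b = b' := by
    have h1 : (fun t : ℝ => (b - b') * t) =o[𝓝 0] (fun t : ℝ => t) := by
      refine (h'.isLittleO_lin.sub h.isLittleO_lin).congr_left fun t => ?_
      ring
    by_contra hne
    have hne' : b - b' ≠ 0 := sub_ne_zero.mpr hne
    have h2 : (fun t : ℝ => t) =o[𝓝 0] (fun t : ℝ => t) := by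
      have := h1.const_mul_left (b - b')⁻¹
      refine this.congr_left fun t => ?_
      field_simp
    have h3 := (isLittleO_irrefl' (l := 𝓝 (0 : ℝ)) (f' := fun t : ℝ => t) ?_) h2
    · exact h3
    · have : ∃ᶠ t in 𝓝[>] (0 : ℝ), ‖t‖ ≠ 0 := by
        apply Eventually.frequently
        filter_upwards [self_mem_nhdsWithin] with t ht
        exact norm_ne_zero_iff.mpr (ne_of_gt ht)
      exact this.filter_mono nhdsWithin_le_nhds
  subst hb
  refine ⟨rfl, rfl, le_antisymm ?_ ?_⟩
  · exact le_of_le h h' (Eventually.of_forall fun t => le_rfl)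
  · exact le_of_le h' h (Eventually.of_forall fun t => le_rfl)

/-- first order condition at a local maximum (one constant suffices) -/
theorem max (h : T2 φ a b c) (hmax : ∀ᶠ t in 𝓝 (0 : ℝ), φ t ≤ a) : b = 0 ∧ c ≤ 0 := by
  have hb : b = 0 := by
    by_contra hne
    have h1 := h.isLittleO_lin
    have h2 : ∀ᶠ t in 𝓝 (0 : ℝ), ‖φ t - a - b * t‖ ≤ (|b| / 2) * ‖t‖ :=
      (isLittleO_iff.mp h1) (by positivity)
    rcases lt_or_gt_of_ne hne with hb | hb
    · have h3 : ∀ᶠ t in 𝓝[<] (0 : ℝ), False := by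
        filter_upwards [nhdsWithin_le_nhds h2, nhdsWithin_le_nhds hmax, self_mem_nhdsWithin]
          with t h4 h5 h6
        have h7 : t < 0 := h6
        rw [Real.norm_eq_abs, Real.norm_eq_abs, abs_of_neg h7, abs_of_neg hb] at h4
        have h8 := (abs_le.mp h4).1
        nlinarith
      exact h3.exists.elim fun _ h => h
    · have h3 : ∀ᶠ t in 𝓝[>] (0 : ℝ), False := by
        filter_upwards [nhdsWithin_le_nhds h2, nhdsWithin_le_nhds hmax, self_mem_nhdsWithin]
          with t h4 h5 h6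
        have h7 : 0 < t := h6
        rw [Real.norm_eq_abs, Real.norm_eq_abs, abs_of_pos h7, abs_of_pos hb] at h4
        have h8 := (abs_le.mp h4).1
        nlinarith
      exact h3.exists.elim fun _ h => h
  subst hb
  refine ⟨rfl, ?_⟩
  exact le_of_le h (const a) hmax

/-- a minimum -/
theorem min (h : T2 φ a b c) (hmin : ∀ᶠ t in 𝓝 (0 : ℝ), a ≤ φ t) : b = 0 ∧ 0 ≤ c := by
  have := h.neg.max (by filter_upwards [hmin] with t ht; linarith)
  constructor <;> linarith [this.1, this.2]

/-- Taylor–Young from two derivatives -/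
theorem of_hasDerivAt {φ1 : ℝ → ℝ} {c2 : ℝ} (h1 : ∀ᶠ t in 𝓝 (0 : ℝ), HasDerivAt φ (φ1 t) t)
    (h2 : HasDerivAt φ1 c2 0) : T2 φ (φ 0) (φ1 0) (c2 / 2) := by
  unfold T2
  rw [isLittleO_iff]
  intro ε hε
  have h3 : ∀ᶠ t in 𝓝 (0 : ℝ), ‖φ1 t - φ1 0 - c2 * t‖ ≤ ε * ‖t‖ := by
    have := (hasDerivAt_iff_isLittleO_nhds_zero.mp h2)
    have h4 := (isLittleO_iff.mp this) hε
    filter_upwards [h4] with t ht
    simpa [mul_comm] using ht
  obtain ⟨δ, hδ, hball⟩ := Metric.eventually_nhds_iff.mp (h1.and h3)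
  rw [Metric.eventually_nhds_iff]
  refine ⟨δ, hδ, fun t ht => ?_⟩
  rw [Real.dist_eq, sub_zero] at ht
  -- mean value inequality on segment [0, t]
  set H : ℝ → ℝ := fun s => φ s - φ1 0 * s - c2 / 2 * s ^ 2 with hH
  have hder : ∀ s ∈ Set.uIcc (0 : ℝ) t, HasDerivWithinAt H (φ1 s - φ1 0 - c2 * s)
      (Set.uIcc (0 : ℝ) t) s := by
    intro s hs
    have hs' : |s| ≤ |t| := by
      rcases le_total 0 t with h0 | h0
      · rw [Set.uIcc_of_le h0] at hs
        rw [abs_of_nonneg hs.1, abs_of_nonneg h0]; exact hs.2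
      · rw [Set.uIcc_of_ge h0] at hs
        rw [abs_of_nonpos hs.2, abs_of_nonpos h0]; linarith [hs.1]
    have h5 := (hball (y := s) (by rw [Real.dist_eq, sub_zero]; linarith)).1
    have h6 : HasDerivAt H (φ1 s - φ1 0 - c2 * s) s := by
      have h7 := (h5.sub ((hasDerivAt_id s).const_mul (φ1 0))).sub
        ((hasDerivAt_pow 2 s).const_mul (c2 / 2))
      refine h7.congr_deriv ?_
      simp; ring
    exact h6.hasDerivWithinAt
  have hbound : ∀ s ∈ Set.uIcc (0 : ℝ) t, ‖φ1 s - φ1 0 - c2 * s‖ ≤ ε * |t| := by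
    intro s hs
    have hs' : |s| ≤ |t| := by
      rcases le_total 0 t with h0 | h0
      · rw [Set.uIcc_of_le h0] at hs
        rw [abs_of_nonneg hs.1, abs_of_nonneg h0]; exact hs.2
      · rw [Set.uIcc_of_ge h0] at hs
        rw [abs_of_nonpos hs.2, abs_of_nonpos h0]; linarith [hs.1]
    have h5 := (hball (y := s) (by rw [Real.dist_eq, sub_zero]; linarith)).2
    refine h5.trans ?_
    rw [Real.norm_eq_abs]; gcongr
  have h8 := Convex.norm_image_sub_le_of_norm_hasDerivWithin_le (𝕜 := ℝ) hder hbound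
    (convex_uIcc 0 t) Set.left_mem_uIcc Set.right_mem_uIcc
  simp only [hH] at h8
  rw [Real.norm_eq_abs] at h8 ⊢
  rw [Real.norm_eq_abs, abs_of_nonneg (sq_nonneg t)]
  rw [Real.norm_eq_abs, sub_zero] at h8
  calc |φ t - (φ 0 + φ1 0 * t + c2 / 2 * t ^ 2)|
      = |φ t - φ1 0 * t - c2 / 2 * t ^ 2 - (φ 0 - φ1 0 * 0 - c2 / 2 * 0 ^ 2)| := by
        congr 1; ring
    _ ≤ ε * |t| * |t| := h8
    _ = ε * t ^ 2 := by rw [mul_assoc, abs_mul_abs_self, sq]

end T2

/-- `P2` for functions with two derivatives -/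
theorem P2.of_hasDerivAt {F F1 : ℝ → ℝ} {a c2 : ℝ} {I : Set ℝ}
    (h1 : ∀ᶠ t in 𝓝 a, HasDerivAt F (F1 t) t) (h2 : HasDerivAt F1 c2 a) :
    P2 F I a (F1 a) (c2 / 2) := by
  have h3 : T2 (fun t => F (a + t)) (F a) (F1 a) (c2 / 2) := by
    have h4 : ∀ᶠ t in 𝓝 (0 : ℝ), HasDerivAt (fun t => F (a + t)) (F1 (a + t)) t := by
      have : Tendsto (fun t : ℝ => a + t) (𝓝 0) (𝓝 a) := by
        have : Continuous fun t : ℝ => a + t := by fun_prop
        simpa using this.tendsto 0
      filter_upwards [this.eventually h1] with t ht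
      exact HasDerivAt.comp_const_add a t ht
    have h5 : HasDerivAt (fun t => F1 (a + t)) c2 0 := by
      apply HasDerivAt.comp_const_add
      simpa using h2
    have := T2.of_hasDerivAt h4 h5
    simpa using this
  have ht : Tendsto (fun x : ℝ => x - a) (𝓝[I] a) (𝓝 0) := by
    have : Continuous fun x : ℝ => x - a := by fun_prop
    have := this.tendsto a
    rw [sub_self] at this
    exact this.mono_left nhdsWithin_le_nhds
  have h4 := IsLittleO.comp_tendsto h3 ht
  refine h4.congr_left fun x => ?_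
  simp

theorem P2.inv {a : ℝ} (ha : a ≠ 0) : P2 (fun x => x⁻¹) Set.univ a (-(a ^ 2)⁻¹) ((a ^ 3)⁻¹) := by
  have h1 : ∀ᶠ t in 𝓝 a, HasDerivAt (fun x : ℝ => x⁻¹) (-(t ^ 2)⁻¹) t := by
    filter_upwards [isOpen_ne.mem_nhds ha] with t ht
    exact hasDerivAt_inv ht
  have h2 : HasDerivAt (fun t : ℝ => -(t ^ 2)⁻¹) (2 * (a ^ 3)⁻¹) a := by
    have h3 := ((hasDerivAt_pow 2 a).inv (pow_ne_zero 2 ha)).neg
    refine h3.congr_deriv ?_
    field_simp
    norm_num
    ring
  have h3 := P2.of_hasDerivAt (I := Set.univ) h1 h2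
  have : 2 * (a ^ 3)⁻¹ / 2 = (a ^ 3)⁻¹ := by ring
  rwa [this] at h3

theorem T2.inv {φ : ℝ → ℝ} {a b c : ℝ} (h : T2 φ a b c) (ha : a ≠ 0) :
    T2 (fun t => (φ t)⁻¹) a⁻¹ (-(a ^ 2)⁻¹ * b) (-(a ^ 2)⁻¹ * c + (a ^ 3)⁻¹ * b ^ 2) :=
  T2.comp (P2.inv ha) h (Eventually.of_forall fun _ => Set.mem_univ _)

/-- inverse of a function with expansion `1 + 0 t + 0 t²` -/
theorem T2.inv_one {φ : ℝ → ℝ} (h : T2 φ 1 0 0) : T2 (fun t => (φ t)⁻¹) 1 0 0 := by
  have := h.inv one_ne_zero
  exact this.congr_coef (by norm_num) (by ring) (by ring)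

theorem P2.log {a : ℝ} (ha : a ≠ 0) : P2 Real.log Set.univ a a⁻¹ (-(a ^ 2)⁻¹ / 2) := by
  have h1 : ∀ᶠ t in 𝓝 a, HasDerivAt Real.log (t⁻¹) t := by
    filter_upwards [isOpen_ne.mem_nhds ha] with t ht
    exact Real.hasDerivAt_log ht
  exact P2.of_hasDerivAt h1 (hasDerivAt_inv ha)

theorem P2.exp (a : ℝ) : P2 Real.exp Set.univ a (Real.exp a) (Real.exp a / 2) :=
  P2.of_hasDerivAt (Eventually.of_forall fun t => Real.hasDerivAt_exp t) (Real.hasDerivAt_exp a)

theorem T2.log {φ : ℝ → ℝ} {a b c : ℝ} (h : T2 φ a b c) (ha : a ≠ 0) :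
    T2 (fun t => Real.log (φ t)) (Real.log a) (a⁻¹ * b) (a⁻¹ * c + -(a ^ 2)⁻¹ / 2 * b ^ 2) :=
  T2.comp (P2.log ha) h (Eventually.of_forall fun _ => Set.mem_univ _)

theorem T2.exp {φ : ℝ → ℝ} {a b c : ℝ} (h : T2 φ a b c) :
    T2 (fun t => Real.exp (φ t)) (Real.exp a) (Real.exp a * b)
      (Real.exp a * c + Real.exp a / 2 * b ^ 2) :=
  T2.comp (P2.exp a) h (Eventually.of_forall fun _ => Set.mem_univ _)

end Crest.Agent.R253.Cpt435
end

-- ▼ part R253/CptF_435

/-!
# R253, part F (helper435)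

* raw moment formulas for `densCov`, `densM3`; continuity along a.e. convergence in `NF`;
* `densCov f` is positive definite;
* bound for `G` in normal form; selection theorem for states.
-/

set_option autoImplicit false
open MeasureTheory Set Filter Topology Matrix
open Crest.GeometryTopology.Isotropic
open scoped ENNReal NNReal

namespace Crest.Agent.R253.Cpt435

variable {m : ℕ}

/-! ### raw moments -/

theorem densCov_raw {f : (Fin m → ℝ) → ℝ} (hf : LCD f) (i j : Fin m) :
    densCov f i j = ex f (fun x => x i * x j) - densMean f i * densMean f j := by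
  rw [densCov_eq]
  have h1 : (fun x : Fin m → ℝ => (x i - densMean f i) * (x j - densMean f j)) =
      fun x => (x i * x j - (densMean f i * x j + densMean f j * x i)) +
        densMean f i * densMean f j := by
    funext x; ring
  rw [h1, ex_add hf.eb _ (PB.const _), hf.ex_const,
    ex_sub hf.eb ((PB.coord i).mul (PB.coord j))
      (((PB.coord j).const_mul _).add ((PB.coord i).const_mul _)),
    ex_add hf.eb ((PB.coord j).const_mul _) ((PB.coord i).const_mul _), ex_const_mul, ex_const_mul,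
    ← densMean_eq, ← densMean_eq]
  · ring
  · exact ((PB.coord i).mul (PB.coord j)).sub
      (((PB.coord j).const_mul _).add ((PB.coord i).const_mul _))


section limits

variable {g : ℕ → (Fin m → ℝ) → ℝ} {f : (Fin m → ℝ) → ℝ}

theorem NF.tendsto_ex (hg : ∀ k, NF (g k)) (hae : ∀ᵐ x, Tendsto (fun k => g k x) atTop (𝓝 (f x)))
    {ψ : (Fin m → ℝ) → ℝ} (hψ : PB ψ) :
    Tendsto (fun k => ex (g k) ψ) atTop (𝓝 (ex f ψ)) := NF.tendsto_integral_PB hg hae hψ

theorem NF.tendsto_densMean (hg : ∀ k, NF (g k))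
    (hae : ∀ᵐ x, Tendsto (fun k => g k x) atTop (𝓝 (f x))) (i : Fin m) :
    Tendsto (fun k => densMean (g k) i) atTop (𝓝 (densMean f i)) :=
  NF.tendsto_ex hg hae (PB.coord i)

theorem NF.tendsto_densCov (hg : ∀ k, NF (g k)) (hf : LCD f)
    (hae : ∀ᵐ x, Tendsto (fun k => g k x) atTop (𝓝 (f x))) (i j : Fin m) :
    Tendsto (fun k => densCov (g k) i j) atTop (𝓝 (densCov f i j)) := by
  rw [densCov_raw hf]
  simp only [fun k => densCov_raw (hg k).toLCD i j]
  exact (NF.tendsto_ex hg hae ((PB.coord i).mul (PB.coord j))).sub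
    ((NF.tendsto_densMean hg hae i).mul (NF.tendsto_densMean hg hae j))



end limits

/-! ### positive definiteness of the covariance -/

theorem densCov_symm (f : (Fin m → ℝ) → ℝ) : (densCov f).IsHermitian := by
  ext i j
  rw [conjTranspose_apply, star_trivial, densCov_eq, densCov_eq]
  congr 1; funext x; ring

theorem LCD.qf_densCov_pos {f : (Fin m → ℝ) → ℝ} (hf : LCD f) {u : Fin m → ℝ} (hu : u ≠ 0) :
    0 < qf (densCov f) u := by
  unfold qf
  rw [← ex_cl_cl' hf.eb]
  have hPB := (PB.cl f u).mul (PB.cl f u)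
  have hnn : ∀ x, 0 ≤ cl f u x * cl f u x * f x :=
    fun x => mul_nonneg (mul_self_nonneg _) (hf.nonneg x)
  have h0 : 0 ≤ ex f (fun x => cl f u x * cl f u x) := integral_nonneg hnn
  rcases h0.lt_or_eq with h | h
  · exact h
  exfalso
  have h1 : (fun x => cl f u x * cl f u x * f x) =ᵐ[volume] 0 :=
    (integral_eq_zero_iff_of_nonneg hnn (hf.integrable_mul hPB)).mp h.symm
  obtain ⟨z, r, δ, hr, hδ, hball⟩ := hf.exists_ball
  have hcont : Continuous (cl f u) := by
    unfold cl; fun_prop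
  have h2 : ∀ x ∈ Metric.ball z r, cl f u x = 0 := by
    by_contra hcon
    push Not at hcon
    obtain ⟨x, hx, hxne⟩ := hcon
    have hopen : IsOpen (Metric.ball z r ∩ {x | cl f u x ≠ 0}) :=
      Metric.isOpen_ball.inter (isOpen_ne_fun hcont continuous_const)
    have hpos : 0 < volume (Metric.ball z r ∩ {x | cl f u x ≠ 0}) :=
      hopen.measure_pos _ ⟨x, hx, hxne⟩
    have hnull : volume (Metric.ball z r ∩ {x | cl f u x ≠ 0}) = 0 := by
      refine measure_mono_null ?_ (ae_iff.mp h1)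
      intro y hy
      simp only [mem_ofPred_eq, Pi.zero_apply]
      have h3 : 0 < f y := lt_of_lt_of_le hδ (hball y hy.1)
      have h4 : cl f u y ≠ 0 := hy.2
      exact mul_ne_zero (mul_self_ne_zero.mpr h4) h3.ne'
    exact hpos.ne' hnull
  -- two points
  have h3 := h2 z (Metric.mem_ball_self hr)
  have hun : 0 < ‖u‖ := norm_pos_iff.mpr hu
  have h4 := h2 (z + (r / (2 * ‖u‖)) • u) (by
    rw [mem_ball_iff_norm, add_sub_cancel_left, norm_smul, Real.norm_eq_abs,
      abs_of_pos (by positivity)]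
    have : r / (2 * ‖u‖) * ‖u‖ = r / 2 := by field_simp
    rw [this]; linarith)
  have h5 : cl f u (z + (r / (2 * ‖u‖)) • u) = cl f u z + (r / (2 * ‖u‖)) * ∑ i, u i * u i := by
    unfold cl
    rw [Finset.mul_sum, ← Finset.sum_add_distrib]
    refine Finset.sum_congr rfl fun i _ => ?_
    simp only [Pi.add_apply, Pi.smul_apply, smul_eq_mul]; ring
  rw [h3, h4] at h5
  have h6 : 0 < ∑ i, u i * u i := by
    obtain ⟨i, hi⟩ := Function.ne_iff.mp hu
    apply Finset.sum_pos' (fun j _ => mul_self_nonneg _)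
    exact ⟨i, Finset.mem_univ i, by
      have : u i ≠ 0 := hi
      exact mul_self_pos.mpr this⟩
  have h7 : 0 < r / (2 * ‖u‖) * ∑ i, u i * u i := by positivity
  linarith

theorem LCD.densCov_posDef {f : (Fin m → ℝ) → ℝ} (hf : LCD f) : (densCov f).PosDef := by
  refine Matrix.PosDef.of_dotProduct_mulVec_pos (densCov_symm f) ?_
  intro x hx
  have := hf.qf_densCov_pos hx
  simpa [qf] using this

theorem LCD.densCov_det_pos {f : (Fin m → ℝ) → ℝ} (hf : LCD f) : 0 < (densCov f).det :=
  hf.densCov_posDef.det_pos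

/-! ### bound for `G` in normal form -/







/-! ### closedness and selection for states -/





end Crest.Agent.R253.Cpt435
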