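import Crest.Agent.R253.MAI_74
import Crest.Agent.R253.CptF_435

/-!
# R253: change of variables, binding with the frozen `diffEntropy`, `densCov` (helper56)

`G : E n → E n` with Jacobian `M = DG` symmetric, `lo ≤ M`, and `f (G t) det M(t) = gd t`
(the standard Gaussian density), `f` a probability density on `Fin n → ℝ`.  Then the law of `G`
under the Gaussian is `f dx`, `diffEntropy f = n/2 log (2πe) + E log det M`,
`densCov f = Cov (G_i, G_j)`.
-/

set_option autoImplicit false

open MeasureTheory ProbabilityTheory Real Set Filter Topology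
open scoped ContDiff

noncomputable section

namespace Crest.Agent.R253.ChVar56

open Crest.Agent.R238.Gap Crest.Agent.R238.GapPoinc Crest.Agent.R238.GapPc
open Crest.Agent.R253.Meh74
open Crest.GeometryTopology.Isotropic

variable {n : ℕ}

/-- the point of `Fin n → ℝ` -/
def Gp (G : Fin n → E n → ℝ) (x : E n) : Fin n → ℝ := fun i => G i x

/-- the Jacobian matrix -/
def Mx (M : Fin n → Fin n → E n → ℝ) (x : E n) : Matrix (Fin n) (Fin n) ℝ :=
  Matrix.of fun i j => M i j x

/-- the standard Gaussian density -/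
def gd (x : E n) : ℝ := (2 * π) ^ (-(n : ℝ) / 2) * rexp (-(‖x‖ ^ 2 / 2))

lemma gd_pos (x : E n) : 0 < gd x := by unfold gd; positivity

theorem integral_gam (g : E n → ℝ) : ∫ x, g x ∂(gam n) = ∫ x, g x * gd x := by
  rw [integral_stdGaussian_mul, ← integral_const_mul]
  refine integral_congr_ae (ae_of_all _ fun x => ?_)
  simp only [gd, finrank_euclideanSpace, Fintype.card_fin]
  ring


lemma integral_gd : ∫ x : E n, gd x = 1 := by
  have h := integral_gam (n := n) (fun _ => (1 : ℝ))
  simp only [one_mul, integral_const, smul_eq_mul, mul_one] at h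
  rw [← h]; simp

/-- the data: `G` pushes the Gaussian to the density `f` -/
structure Push (G : Fin n → E n → ℝ) (M : Fin n → Fin n → E n → ℝ) (f : (Fin n → ℝ) → ℝ) :
    Prop where
  hd : HD G M
  lo : ∃ lo : ℝ, 0 < lo ∧ ∀ x (v : Fin n → ℝ), lo * ∑ i, v i ^ 2 ≤ ∑ i, ∑ j, M i j x * v i * v j
  f0 : ∀ x, 0 ≤ f x
  fm : Measurable f
  fi : ∫ x, f x = 1
  ch : ∀ t, f (Gp G t) * (Mx M t).det = gd t

/-- the derivative of `Gv G` -/
def DG (G : Fin n → E n → ℝ) (x : E n) : E n →L[ℝ] E n :=
  ∑ i, (fderiv ℝ (G i) x).smulRight (e i : E n)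

lemma hasFDerivAt_Gv {G : Fin n → E n → ℝ} (hG : ∀ i, Differentiable ℝ (G i)) (x : E n) :
    HasFDerivAt (Gv G) (DG G x) x := by
  have : HasFDerivAt (fun x => ∑ i, G i x • (e i : E n))
      (∑ i, (fderiv ℝ (G i) x).smulRight (e i : E n)) x :=
    HasFDerivAt.fun_sum fun i _ => ((hG i x).hasFDerivAt).smul_const (e i : E n)
  exact this

lemma DG_apply (G : Fin n → E n → ℝ) (x v : E n) (i : Fin n) :
    DG G x v i = fderiv ℝ (G i) x v := by
  unfold DG
  simp [Finset.sum_apply, Pi.single_apply]

lemma det_DG {G : Fin n → E n → ℝ} {M : Fin n → Fin n → E n → ℝ}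
    (hd : ∀ i j, pd j (G i) = M i j) (x : E n) : (DG G x).det = (Mx M x).det := by
  have h1 : LinearMap.toMatrix (EuclideanSpace.basisFun (Fin n) ℝ).toBasis
      (EuclideanSpace.basisFun (Fin n) ℝ).toBasis (DG G x : E n →ₗ[ℝ] E n) = Mx M x := by
    ext i j
    rw [LinearMap.toMatrix_apply]
    simp only [OrthonormalBasis.coe_toBasis, EuclideanSpace.basisFun_apply,
      OrthonormalBasis.coe_toBasis_repr_apply, EuclideanSpace.basisFun_repr,
      ContinuousLinearMap.coe_coe]
    rw [DG_apply, Mx, Matrix.of_apply, ← hd i j]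
    rfl
  rw [← h1, LinearMap.det_toMatrix]

namespace Push

variable {G : Fin n → E n → ℝ} {M : Fin n → Fin n → E n → ℝ} {f : (Fin n → ℝ) → ℝ}

lemma diff (h : Push G M f) (i : Fin n) : Differentiable ℝ (G i) :=
  (h.hd.g i).c.differentiable (by norm_num)

lemma cont (h : Push G M f) : Continuous (Gv G) :=
  continuous_iff_continuousAt.mpr fun x => (hasFDerivAt_Gv h.diff x).continuousAt

/-- strong monotonicity -/
lemma mono (h : Push G M f) : ∃ lo : ℝ, 0 < lo ∧ ∀ x y : E n,
    lo * ∑ i, (x i - y i) ^ 2 ≤ ∑ i, (x i - y i) * (G i x - G i y) := by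
  obtain ⟨lo, hlo, hl⟩ := h.lo
  refine ⟨lo, hlo, fun x y => ?_⟩
  set w : E n := x - y with hw
  let φ : ℝ → ℝ := fun s => ∑ i, w i * G i (y + s • w)
  have hφ : ∀ s, HasDerivAt φ (∑ i, w i * ∑ j, w j * M i j (y + s • w)) s := by
    intro s
    refine HasDerivAt.fun_sum fun i _ => ?_
    have h1 : HasDerivAt (fun s : ℝ => y + s • w) w s := by
      have := ((hasDerivAt_id s).smul_const w).const_add y
      simpa using this
    have h2 : HasDerivAt (fun s : ℝ => G i (y + s • w)) (fderiv ℝ (G i) (y + s • w) w) s :=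
      ((h.diff i) (y + s • w)).hasFDerivAt.comp_hasDerivAt s h1
    have h3 : fderiv ℝ (G i) (y + s • w) w = ∑ j, w j * M i j (y + s • w) := by
      rw [fderiv_apply_eq_sum]
      refine Finset.sum_congr rfl fun j _ => ?_
      rw [← h.hd.d i j]
    rw [h3] at h2
    exact h2.const_mul (w i)
  obtain ⟨c, -, hc⟩ := exists_hasDerivAt_eq_slope φ
    (fun s => ∑ i, w i * ∑ j, w j * M i j (y + s • w)) (zero_lt_one)
    (fun s _ => (hφ s).continuousAt.continuousWithinAt) (fun s _ => hφ s)
  have h4 : φ 1 - φ 0 = ∑ i, (x i - y i) * (G i x - G i y) := by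
    simp only [φ, one_smul, zero_smul, add_zero, hw, add_sub_cancel]
    rw [← Finset.sum_sub_distrib]
    refine Finset.sum_congr rfl fun i _ => ?_
    simp only [PiLp.sub_apply]
    ring
  have h5 := hl (y + c • w) (fun i => w i)
  have h6 : ∑ i, w i * ∑ j, w j * M i j (y + c • w) =
      ∑ i, ∑ j, M i j (y + c • w) * w i * w j := by
    refine Finset.sum_congr rfl fun i _ => ?_
    rw [Finset.mul_sum]
    exact Finset.sum_congr rfl fun j _ => by ring
  rw [h6, sub_zero, div_one, h4] at hc
  rw [← hc]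
  refine le_trans (le_of_eq ?_) h5
  simp [hw]

lemma inj (h : Push G M f) : Function.Injective (Gv G) := by
  obtain ⟨lo, hlo, hl⟩ := h.mono
  intro x y hxy
  have h1 := hl x y
  have h2 : ∀ i, G i x = G i y := fun i => by
    rw [← Gv_apply G x i, ← Gv_apply G y i, hxy]
  have h3 : ∑ i, (x i - y i) * (G i x - G i y) = 0 :=
    Finset.sum_eq_zero fun i _ => by rw [h2 i, sub_self, mul_zero]
  rw [h3] at h1
  have h4 : ∑ i, (x i - y i) ^ 2 = 0 :=
    le_antisymm (by nlinarith) (Finset.sum_nonneg fun i _ => sq_nonneg _)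
  ext i
  have h5 := (Finset.sum_eq_zero_iff_of_nonneg (fun i _ => sq_nonneg (x i - y i))).mp h4 i
    (Finset.mem_univ i)
  have h6 := pow_eq_zero_iff (two_ne_zero) |>.mp h5
  linarith

lemma posDef (h : Push G M f) (x : E n) : (Mx M x).PosDef := by
  obtain ⟨lo, hlo, hl⟩ := h.lo
  refine Matrix.PosDef.of_dotProduct_mulVec_pos ?_ ?_
  · ext i j
    simp [Mx, Matrix.conjTranspose_apply, h.hd.s i j]
  · intro v hv
    have h1 := hl x v
    have h2 : 0 < ∑ i, v i ^ 2 := by
      obtain ⟨i, hi⟩ := Function.ne_iff.mp hv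
      exact Finset.sum_pos' (fun i _ => sq_nonneg _) ⟨i, Finset.mem_univ i, by
        have : v i ≠ 0 := hi
        positivity⟩
    have h3 : star v ⬝ᵥ (Mx M x).mulVec v = ∑ i, ∑ j, M i j x * v i * v j := by
      simp only [dotProduct, Matrix.mulVec, Mx, Matrix.of_apply, Pi.star_apply, star_trivial]
      refine Finset.sum_congr rfl fun i _ => ?_
      rw [Finset.mul_sum]
      exact Finset.sum_congr rfl fun j _ => by ring
    rw [h3]
    exact lt_of_lt_of_le (mul_pos hlo h2) h1

lemma det_pos (h : Push G M f) (x : E n) : 0 < (Mx M x).det := (h.posDef x).det_pos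

lemma fG (h : Push G M f) (t : E n) : f (Gp G t) = gd t / (Mx M t).det := by
  rw [eq_div_iff (h.det_pos t).ne']
  exact h.ch t

lemma integrable_f (h : Push G M f) : Integrable f := by
  by_contra hh
  have := integral_undef hh
  rw [h.fi] at this
  exact one_ne_zero this


lemma integral_ofLp (g : (Fin n → ℝ) → ℝ) : ∫ x : E n, g (WithLp.ofLp x) = ∫ x, g x :=
  (PiLp.volume_preserving_ofLp (Fin n)).integral_comp
    (MeasurableEquiv.toLp 2 (Fin n → ℝ)).symm.measurableEmbedding g

lemma integrable_ofLp (g : (Fin n → ℝ) → ℝ) :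
    Integrable (fun x : E n => g (WithLp.ofLp x)) ↔ Integrable g :=
  (PiLp.volume_preserving_ofLp (Fin n)).integrable_comp_emb
    (MeasurableEquiv.toLp 2 (Fin n → ℝ)).symm.measurableEmbedding

lemma ofLp_Gv (G : Fin n → E n → ℝ) (t : E n) : WithLp.ofLp (Gv G t) = Gp G t := by
  funext i
  exact Gv_apply G t i

lemma setIntegral_range (h : Push G M f) (ψ : (Fin n → ℝ) → ℝ) :
    ∫ x in Set.range (Gv G), ψ (WithLp.ofLp x) * f (WithLp.ofLp x) =
      ∫ t, ψ (Gp G t) ∂(gam n) := by
  rw [← Set.image_univ, integral_image_eq_integral_abs_det_fderiv_smul volume MeasurableSet.univ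
    (f' := DG G) (fun x _ => (hasFDerivAt_Gv h.diff x).hasFDerivWithinAt) h.inj.injOn,
    integral_gam, setIntegral_univ]
  refine integral_congr_ae (ae_of_all _ fun t => ?_)
  simp only [smul_eq_mul]
  rw [det_DG h.hd.d, ofLp_Gv, abs_of_pos (h.det_pos t), ← h.ch t]
  ring


lemma measurableSet_range (h : Push G M f) : MeasurableSet (Set.range (Gv G)) :=
  (h.cont.measurableEmbedding h.inj).measurableSet_range

/-- `f` vanishes a.e. off the range -/
lemma ae_off (h : Push G M f) :
    ∀ᵐ x : E n, x ∉ Set.range (Gv G) → f (WithLp.ofLp x) = 0 := by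
  have h1 := h.setIntegral_range (fun _ => (1 : ℝ))
  simp only [one_mul, integral_const, smul_eq_mul, mul_one] at h1
  have h2 : ∫ x : E n, f (WithLp.ofLp x) = 1 := by rw [integral_ofLp, h.fi]
  have hi : Integrable (fun x : E n => f (WithLp.ofLp x)) := (integrable_ofLp f).mpr h.integrable_f
  have h3 := integral_add_compl h.measurableSet_range hi
  have h4 : ∫ x in (Set.range (Gv G))ᶜ, f (WithLp.ofLp x) = 0 := by
    rw [h1, h2] at h3
    simpa using h3
  have h5 := (setIntegral_eq_zero_iff_of_nonneg_ae (ae_of_all _ fun x => h.f0 _)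
    hi.integrableOn).mp h4
  have h6 := (ae_restrict_iff' h.measurableSet_range.compl).mp h5
  filter_upwards [h6] with x hx hx'
  exact hx hx'

/-- **change of variables** -/
theorem integral (h : Push G M f) (ψ : (Fin n → ℝ) → ℝ) :
    ∫ x, ψ x * f x = ∫ t, ψ (Gp G t) ∂(gam n) := by
  rw [← h.setIntegral_range ψ, ← integral_ofLp (fun x => ψ x * f x)]
  refine (setIntegral_eq_integral_of_ae_compl_eq_zero ?_).symm
  filter_upwards [h.ae_off] with x hx hx'
  rw [hx hx', mul_zero]


end Push

/-! ### the log-determinant -/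

/-- a quadratic-form lower bound gives a determinant lower bound -/
lemma pow_le_det {A : Matrix (Fin n) (Fin n) ℝ} (hA : A.PosDef) {lo : ℝ} (hlo : 0 < lo)
    (h : ∀ v : Fin n → ℝ, lo * ∑ i, v i ^ 2 ≤ ∑ i, ∑ j, A i j * v i * v j) :
    lo ^ n ≤ A.det := by
  have hev : ∀ i, lo ≤ hA.isHermitian.eigenvalues i := by
    intro i
    have h1 := hA.isHermitian.eigenvalues_eq i
    set v : Fin n → ℝ := fun j => hA.isHermitian.eigenvectorBasis i j with hv
    have h2 : star v ⬝ᵥ A.mulVec v = ∑ i, ∑ j, A i j * v i * v j := by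
      simp only [dotProduct, Matrix.mulVec, Pi.star_apply, star_trivial]
      refine Finset.sum_congr rfl fun i _ => ?_
      rw [Finset.mul_sum]
      exact Finset.sum_congr rfl fun j _ => by ring
    have h3 : ∑ j, v j ^ 2 = 1 := by
      have h4 := hA.isHermitian.eigenvectorBasis.orthonormal.norm_eq_one i
      have h5 := EuclideanSpace.norm_sq_eq (hA.isHermitian.eigenvectorBasis i)
      rw [h4] at h5
      simp only [Real.norm_eq_abs, sq_abs] at h5
      rw [hv]
      linarith
    have h6 := h v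
    rw [h3, mul_one, ← h2] at h6
    rw [h1]
    exact h6
  rw [hA.isHermitian.det_eq_prod_eigenvalues]
  calc lo ^ n = ∏ _i : Fin n, lo := by simp
    _ ≤ ∏ i, ((hA.isHermitian.eigenvalues i : ℝ)) :=
        Finset.prod_le_prod (fun i _ => hlo.le) fun i _ => hev i
    _ = _ := by simp

lemma PG.prod {ι : Type*} (s : Finset ι) {g : ι → E n → ℝ} (hg : ∀ i ∈ s, PG (g i)) :
    PG (fun x => ∏ i ∈ s, g i x) := by
  classical
  induction s using Finset.induction_on with
  | empty => simpa using pg_const (n := n) 1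
  | insert a s ha ih =>
    have h1 := (hg a (Finset.mem_insert_self a s)).mul
      (ih fun i hi => hg i (Finset.mem_insert_of_mem hi))
    simpa [Finset.prod_insert ha] using h1

lemma pg_det {M : Fin n → Fin n → E n → ℝ} (hM : ∀ i j, PG (M i j)) :
    PG (fun x => (Mx M x).det) := by
  have h : (fun x => (Mx M x).det) = fun x =>
      ∑ σ : Equiv.Perm (Fin n), ((Equiv.Perm.sign σ : ℤ) : ℝ) * ∏ i, M (σ i) i x := by
    funext x
    rw [Matrix.det_apply']
    rfl
  rw [h]
  exact PG.sum _ fun σ _ => (pg_const _).mul (PG.prod _ fun i _ => hM _ _)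

lemma continuous_det {M : Fin n → Fin n → E n → ℝ} (hM : ∀ i j, Continuous (M i j)) :
    Continuous (fun x => (Mx M x).det) := by
  refine Continuous.matrix_det ?_
  refine continuous_matrix fun i j => ?_
  exact hM i j

namespace Push

variable {G : Fin n → E n → ℝ} {M : Fin n → Fin n → E n → ℝ} {f : (Fin n → ℝ) → ℝ}

lemma cont_logdet (h : Push G M f) : Continuous fun x => Real.log (Mx M x).det :=
  (continuous_det fun i j => (h.hd.m i j).cont).log fun x => (h.det_pos x).ne'

lemma pg_logdet (h : Push G M f) : PG fun x => Real.log (Mx M x).det := by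
  obtain ⟨lo, hlo, hl⟩ := h.lo
  have h1 : PG (fun x => |(Mx M x).det| + |Real.log (lo ^ n)|) :=
    (pg_det fun i j => (h.hd.m i j).g).abs.add (pg_const _)
  refine h1.mono fun x => ?_
  have h2 : lo ^ n ≤ (Mx M x).det := pow_le_det (h.posDef x) hlo (hl x)
  have h3 := h.det_pos x
  have h4 : Real.log (lo ^ n) ≤ Real.log (Mx M x).det := Real.log_le_log (by positivity) h2
  have h5 := Real.log_le_sub_one_of_pos h3
  rw [abs_of_nonneg (a := |(Mx M x).det| + |Real.log (lo ^ n)|) (by positivity), abs_le]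
  constructor
  · have := neg_abs_le (Real.log (lo ^ n)); have := abs_nonneg (Mx M x).det; linarith
  · have := le_abs_self (Mx M x).det; have := abs_nonneg (Real.log (lo ^ n)); linarith

end Push

/-- `E |t|² = n` -/
lemma integral_norm_sq : ∫ x : E n, ‖x‖ ^ 2 ∂(gam n) = n := by
  have h1 : ∀ x : E n, ‖x‖ ^ 2 = ∑ i, x i * x i := by
    intro x
    rw [EuclideanSpace.norm_sq_eq]
    exact Finset.sum_congr rfl fun i _ => by rw [Real.norm_eq_abs, sq_abs]; ring
  simp only [h1]
  have h0 : ∀ i ∈ (Finset.univ : Finset (Fin n)),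
      Integrable (fun x : E n => x i * x i) (gam n) := fun i _ => integrable_of_PG
    ((c1_coord i).cont.mul (c1_coord i).cont) ((pg_coord i).mul (pg_coord i))
  rw [integral_finsetSum _ h0]
  have h2 : ∀ i : Fin n, ∫ x : E n, x i * x i ∂(gam n) = 1 := by
    intro i
    rw [ibp_gam (c1_coord i).c (c1_coord i).g i ((c1_coord i).p i)]
    simp [pd_coord]
  simp [h2]

lemma log_gd (x : E n) : Real.log (gd x) = -(n / 2 * Real.log (2 * π)) - ‖x‖ ^ 2 / 2 := by
  unfold gd
  rw [Real.log_mul (by positivity) (Real.exp_pos _).ne', Real.log_rpow (by positivity),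
    Real.log_exp]
  ring

namespace Push

variable {G : Fin n → E n → ℝ} {M : Fin n → Fin n → E n → ℝ} {f : (Fin n → ℝ) → ℝ}

/-- **the entropy** -/
theorem diffEntropy_eq (h : Push G M f) :
    diffEntropy f = n / 2 * (Real.log (2 * π) + 1) + ∫ t, Real.log (Mx M t).det ∂(gam n) := by
  have h1 : ∫ x, f x * Real.log (f x) = ∫ x, Real.log (f x) * f x :=
    integral_congr_ae (ae_of_all _ fun x => mul_comm _ _)
  unfold diffEntropy
  rw [h1, h.integral fun x => Real.log (f x)]
  have h2 : ∀ t, Real.log (f (Gp G t)) =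
      -(n / 2 * Real.log (2 * π)) - ‖t‖ ^ 2 / 2 - Real.log (Mx M t).det := by
    intro t
    rw [h.fG, Real.log_div (gd_pos t).ne' (h.det_pos t).ne', log_gd]
  simp only [h2]
  have i1 : Integrable (fun t : E n => ‖t‖ ^ 2 / 2) (gam n) :=
    (integrable_of_PG (by fun_prop) (pg_norm.pow 2)).div_const 2
  have i2 : Integrable (fun t : E n => Real.log (Mx M t).det) (gam n) :=
    integrable_of_PG h.cont_logdet h.pg_logdet
  have i3 : Integrable (fun t : E n => -(n / 2 * Real.log (2 * π)) - ‖t‖ ^ 2 / 2) (gam n) :=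
    (integrable_const _).sub i1
  rw [integral_sub i3 i2, integral_sub (integrable_const _) i1,
    integral_div, integral_norm_sq]
  simp
  ring

/-- **the mean** -/
theorem densMean_eq (h : Push G M f) (i : Fin n) : densMean f i = ∫ t, G i t ∂(gam n) := by
  unfold densMean
  exact h.integral fun x => x i

/-- **the covariance** -/
theorem densCov_eq (h : Push G M f) (i j : Fin n) :
    densCov f i j = (∫ t, G i t * G j t ∂(gam n)) -
      (∫ t, G i t ∂(gam n)) * ∫ t, G j t ∂(gam n) := by
  have h1 : densCov f i j = ∫ x, (x i - densMean f i) * (x j - densMean f j) * f x := rfl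
  rw [h1, h.integral fun x => (x i - densMean f i) * (x j - densMean f j), h.densMean_eq,
    h.densMean_eq]
  have ig : ∀ i, Integrable (G i) (gam n) := fun i =>
    integrable_of_PG (h.hd.g i).cont (h.hd.g i).g
  have igg : Integrable (fun t => G i t * G j t) (gam n) :=
    integrable_of_PG ((h.hd.g i).cont.mul (h.hd.g j).cont) ((h.hd.g i).g.mul (h.hd.g j).g)
  set a := ∫ t, G i t ∂(gam n)
  set b := ∫ t, G j t ∂(gam n)
  have h2 : ∀ t, (Gp G t i - a) * (Gp G t j - b) =
      G i t * G j t - a * G j t - b * G i t + a * b := fun t => by unfold Gp; ring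
  simp only [h2]
  have i1 : Integrable (fun t => a * G j t) (gam n) := (ig j).const_mul a
  have i2 : Integrable (fun t => b * G i t) (gam n) := (ig i).const_mul b
  have i3 : Integrable (fun t => G i t * G j t - a * G j t) (gam n) := igg.sub i1
  have i4 : Integrable (fun t => G i t * G j t - a * G j t - b * G i t) (gam n) := i3.sub i2
  rw [integral_add i4 (integrable_const _), integral_sub i3 i2,
    integral_sub igg i1, integral_const_mul, integral_const_mul]
  simp
  ring


/-- the covariance matrix of the map `G` -/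
def CovG (G : Fin n → E n → ℝ) : Matrix (Fin n) (Fin n) ℝ :=
  Matrix.of fun i j => (∫ t, G i t * G j t ∂(gam n)) -
      (∫ t, G i t ∂(gam n)) * ∫ t, G j t ∂(gam n)

theorem densCov_CovG (h : Push G M f) : densCov f = CovG G := by
  ext i j
  exact h.densCov_eq i j

/-- **the functional `2 (h - n) - log det Cov` of `f` in terms of `G`, `M`** -/
theorem D_eq (h : Push G M f) :
    2 * diffEntropy f - 2 * n - Real.log (densCov f).det =
      n * (Real.log (2 * π) - 1) + 2 * ∫ t, Real.log (Mx M t).det ∂(gam n) -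
        Real.log (CovG G).det := by
  rw [h.diffEntropy_eq, h.densCov_CovG]
  ring


end Push

end Crest.Agent.R253.ChVar56
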