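import Mathlib
import Crest.Agent.R253.Dual_441
import Crest.Agent.R253.ChVar_56
import Crest.Agent.R253.BrPC_505

-- ▼ part R253/Diffeo_626
section

/-!
# R253 / T6 / B10: global inverse of a strongly monotone `C^k` map (helper626)

`E` a finite dimensional real inner product space, `F : E → E` with `c |w|² ≤ ⟪DF(x) w, w⟫`, `c > 0`.
Then `F` is a homeomorphism `hom`, its inverse is `C^k`, `D(F⁻¹)(t) = (DF(F⁻¹ t))⁻¹`,
the inverse is `1/c`-Lipschitz; symmetry and two sided bounds pass to the inverse derivative.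
-/

set_option autoImplicit false

open Topology Filter Set
open scoped RealInnerProductSpace ContDiff NNReal

noncomputable section

namespace Crest.Agent.R253.Diffeo626

variable {E : Type*} [NormedAddCommGroup E] [InnerProductSpace ℝ E] [FiniteDimensional ℝ E]

/-! ### linear part -/

omit [FiniteDimensional ℝ E] in
lemma inj_of_lower {A : E →L[ℝ] E} {c : ℝ} (hc : 0 < c) (h : ∀ w, c * ‖w‖ ^ 2 ≤ ⟪A w, w⟫) :
    Function.Injective (A : E →ₗ[ℝ] E) := by
  rw [← LinearMap.ker_eq_bot, LinearMap.ker_eq_bot']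
  intro w hw
  have h1 := h w
  have hw' : A w = 0 := hw
  rw [hw', inner_zero_left] at h1
  have h2 : ‖w‖ ^ 2 ≤ 0 := by
    by_contra h3
    push Not at h3
    have := mul_pos hc h3
    linarith
  have h3 : ‖w‖ = 0 := by
    have := sq_nonneg ‖w‖
    have h4 : ‖w‖ ^ 2 = 0 := le_antisymm h2 this
    simpa using h4
  exact norm_eq_zero.mp h3

/-- a coercive endomorphism as a continuous linear equivalence -/
def eqv (A : E →L[ℝ] E) {c : ℝ} (hc : 0 < c) (h : ∀ w, c * ‖w‖ ^ 2 ≤ ⟪A w, w⟫) : E ≃L[ℝ] E :=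
  (LinearEquiv.ofInjectiveEndo (A : E →ₗ[ℝ] E) (inj_of_lower hc h)).toContinuousLinearEquiv

@[simp] lemma eqv_apply (A : E →L[ℝ] E) {c : ℝ} (hc : 0 < c)
    (h : ∀ w, c * ‖w‖ ^ 2 ≤ ⟪A w, w⟫) (w : E) : eqv A hc h w = A w := rfl

@[simp] lemma coe_eqv (A : E →L[ℝ] E) {c : ℝ} (hc : 0 < c)
    (h : ∀ w, c * ‖w‖ ^ 2 ≤ ⟪A w, w⟫) : (eqv A hc h : E →L[ℝ] E) = A := by
  ext w; rfl





/-! ### monotone maps -/

/-- strongly monotone -/
def SMon (c : ℝ) (F : E → E) : Prop := ∀ x y, c * ‖x - y‖ ^ 2 ≤ ⟪F x - F y, x - y⟫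

omit [FiniteDimensional ℝ E] in
lemma SMon.anti {c : ℝ} {F : E → E} (h : SMon c F) (x y : E) :
    c * ‖x - y‖ ≤ ‖F x - F y‖ := by
  rcases (norm_nonneg (x - y)).eq_or_lt with h0 | h0
  · rw [← h0]; simp
  · have h1 := h x y
    have h2 : ⟪F x - F y, x - y⟫ ≤ ‖F x - F y‖ * ‖x - y‖ := real_inner_le_norm _ _
    have : c * ‖x - y‖ * ‖x - y‖ ≤ ‖F x - F y‖ * ‖x - y‖ := by nlinarith
    exact le_of_mul_le_mul_right this h0

omit [FiniteDimensional ℝ E] in
lemma SMon.antilipschitz {c : ℝ} (hc : 0 < c) {F : E → E} (h : SMon c F) :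
    AntilipschitzWith (Real.toNNReal c⁻¹) F := by
  refine AntilipschitzWith.of_le_mul_dist fun x y => ?_
  rw [dist_eq_norm, dist_eq_norm, Real.coe_toNNReal _ (by positivity), inv_mul_eq_div,
    le_div_iff₀ hc]
  linarith [h.anti x y]

omit [FiniteDimensional ℝ E] in
/-- the derivative criterion -/
theorem smon_of_deriv {c : ℝ} {F : E → E} {F' : E → E →L[ℝ] E}
    (hF : ∀ x, HasFDerivAt F (F' x) x) (h : ∀ x w, c * ‖w‖ ^ 2 ≤ ⟪F' x w, w⟫) : SMon c F := by
  intro x y
  set w := x - y with hw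
  have hd : ∀ t : ℝ, HasDerivAt (fun t : ℝ => ⟪F (y + t • w), w⟫ - t * (c * ‖w‖ ^ 2))
      (⟪F' (y + t • w) w, w⟫ - c * ‖w‖ ^ 2) t := by
    intro t
    have h1 : HasDerivAt (fun t : ℝ => y + t • w) w t := by
      simpa using ((hasDerivAt_id t).smul_const w).const_add y
    have h2 : HasDerivAt (fun t : ℝ => F (y + t • w)) (F' (y + t • w) w) t :=
      (hF (y + t • w)).comp_hasDerivAt t h1
    have h3 : HasDerivAt (fun t : ℝ => ⟪F (y + t • w), w⟫) ⟪F' (y + t • w) w, w⟫ t := by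
      have := h2.inner ℝ (hasDerivAt_const t w)
      simpa using this
    have h4 : HasDerivAt (fun t : ℝ => t * (c * ‖w‖ ^ 2)) (c * ‖w‖ ^ 2) t := by
      simpa using (hasDerivAt_id t).mul_const (c * ‖w‖ ^ 2)
    exact h3.sub h4
  have hm : Monotone (fun t : ℝ => ⟪F (y + t • w), w⟫ - t * (c * ‖w‖ ^ 2)) := by
    refine monotone_of_deriv_nonneg (fun t => (hd t).differentiableAt) fun t => ?_
    rw [(hd t).deriv]
    linarith [h (y + t • w) w]
  have h01 := hm (zero_le_one (α := ℝ))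
  simp only [zero_smul, add_zero, zero_mul, sub_zero, one_smul, one_mul] at h01
  have hx : y + w = x := by rw [hw]; abel
  rw [hx] at h01
  rw [inner_sub_left]
  linarith

/-- bundled data: `F` is `C^k`, `k ≥ 1`, with `c |w|² ≤ ⟪DF(x) w, w⟫` -/
structure Dat (k : WithTop ℕ∞) (c : ℝ) (F : E → E) : Prop where
  hk : 1 ≤ k
  hc : 0 < c
  hF : ContDiff ℝ k F
  low : ∀ x w, c * ‖w‖ ^ 2 ≤ ⟪fderiv ℝ F x w, w⟫

namespace Dat

variable {k : WithTop ℕ∞} {c : ℝ} {F : E → E}

omit [FiniteDimensional ℝ E] in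
lemma kne (d : Dat k c F) : k ≠ 0 := by
  intro h
  have := d.hk
  rw [h] at this
  exact absurd this (by simp)

omit [FiniteDimensional ℝ E] in
lemma diff (d : Dat k c F) : Differentiable ℝ F := d.hF.differentiable d.kne

omit [FiniteDimensional ℝ E] in
lemma hd (d : Dat k c F) (x : E) : HasFDerivAt F (fderiv ℝ F x) x :=
  (d.diff x).hasFDerivAt

/-- `DF(x)` as an equivalence -/
def J (d : Dat k c F) (x : E) : E ≃L[ℝ] E := eqv (fderiv ℝ F x) d.hc (d.low x)

lemma coe_J (d : Dat k c F) (x : E) : (d.J x : E →L[ℝ] E) = fderiv ℝ F x := coe_eqv _ _ _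


lemma hdJ (d : Dat k c F) (x : E) : HasFDerivAt F (d.J x : E →L[ℝ] E) x := by
  rw [coe_J]; exact d.hd x

lemma strict (d : Dat k c F) (x : E) : HasStrictFDerivAt F (d.J x : E →L[ℝ] E) x :=
  (d.hF.contDiffAt).hasStrictFDerivAt' (d.hdJ x) d.kne

omit [FiniteDimensional ℝ E] in
lemma smon (d : Dat k c F) : SMon c F := smon_of_deriv d.hd d.low

omit [FiniteDimensional ℝ E] in
lemma inj (d : Dat k c F) : Function.Injective F := (d.smon.antilipschitz d.hc).injective

lemma openMap (d : Dat k c F) : IsOpenMap F :=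
  isOpenMap_of_hasStrictFDerivAt_equiv (f' := d.J) d.strict

lemma proper (d : Dat k c F) : IsProperMap F := by
  rw [isProperMap_iff_tendsto_cocompact]
  refine ⟨d.hF.continuous, ?_⟩
  have := (d.smon.antilipschitz d.hc).tendsto_cobounded
  rwa [Metric.cobounded_eq_cocompact, ] at this

lemma surj (d : Dat k c F) : Function.Surjective F := by
  rw [← Set.range_eq_univ]
  exact IsClopen.eq_univ ⟨d.proper.isClosedMap.isClosed_range, d.openMap.isOpen_range⟩
    (range_nonempty F)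

lemma bij (d : Dat k c F) : Function.Bijective F := ⟨d.inj, d.surj⟩

/-- `F` as a homeomorphism -/
def hom (d : Dat k c F) : E ≃ₜ E :=
  (Equiv.ofBijective F d.bij).toHomeomorphOfContinuousOpen d.hF.continuous d.openMap

@[simp] lemma hom_apply (d : Dat k c F) (x : E) : d.hom x = F x := rfl

lemma coe_hom (d : Dat k c F) : (d.hom : E → E) = F := rfl

/-- the inverse map -/
def G (d : Dat k c F) : E → E := d.hom.symm

lemma F_G (d : Dat k c F) (t : E) : F (d.G t) = t := d.hom.apply_symm_apply t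

@[simp] lemma G_F (d : Dat k c F) (x : E) : d.G (F x) = x := d.hom.symm_apply_apply x




theorem G_contDiff (d : Dat k c F) : ContDiff ℝ k d.G :=
  d.hom.contDiff_symm (f₀' := d.J) (fun a => d.hdJ a) (by rw [coe_hom]; exact d.hF)












/-- positivity of the determinant -/
theorem det_pos (d : Dat k c F) (x : E) : 0 < (fderiv ℝ F x).det := by
  -- homotopy `(1 - s) id + s DF`
  have hne : ∀ s ∈ Set.Icc (0 : ℝ) 1,
      ((1 - s) • ContinuousLinearMap.id ℝ E + s • fderiv ℝ F x).det ≠ 0 := by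
    intro s hs
    set A := (1 - s) • ContinuousLinearMap.id ℝ E + s • fderiv ℝ F x with hA
    set c' := (1 - s) + s * c with hc'
    have hc0 : 0 < c' := by
      rcases hs.1.eq_or_lt with h0 | h0
      · rw [hc', ← h0]; norm_num
      · have := mul_pos h0 d.hc
        have := hs.2
        rw [hc']; linarith
    have hlow : ∀ w, c' * ‖w‖ ^ 2 ≤ ⟪A w, w⟫ := by
      intro w
      have h1 := d.low x w
      have h2 : ⟪A w, w⟫ = (1 - s) * ‖w‖ ^ 2 + s * ⟪fderiv ℝ F x w, w⟫ := by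
        simp only [hA, add_apply, smul_apply,
          ContinuousLinearMap.id_apply, inner_add_left, inner_smul_left, RCLike.conj_to_real,
          real_inner_self_eq_norm_sq]
      rw [h2, hc']
      have := mul_le_mul_of_nonneg_left h1 hs.1
      nlinarith
    have h3 := (eqv A hc0 hlow).toLinearEquiv.isUnit_det'
    have h4 : ((eqv A hc0 hlow).toLinearEquiv : E →ₗ[ℝ] E) = (A : E →ₗ[ℝ] E) := by
      ext w; rfl
    rw [h4] at h3
    exact h3.ne_zero
  have hcont : Continuous fun s : ℝ =>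
      ((1 - s) • ContinuousLinearMap.id ℝ E + s • fderiv ℝ F x).det := by
    have h1 : Continuous fun A : E →L[ℝ] E => A.det := ContinuousLinearMap.continuous_det
    exact h1.comp (by fun_prop)
  by_contra hneg
  push Not at hneg
  have h0 : (0 : ℝ) ∈ (fun s : ℝ =>
      ((1 - s) • ContinuousLinearMap.id ℝ E + s • fderiv ℝ F x).det) '' Set.Icc (0 : ℝ) 1 := by
    have hiv := intermediate_value_Icc' (zero_le_one (α := ℝ)) hcont.continuousOn
    apply hiv
    constructor
    · simpa using hneg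
    · have : ((1 - (0 : ℝ)) • ContinuousLinearMap.id ℝ E + (0 : ℝ) • fderiv ℝ F x).det = 1 := by
        simp [ContinuousLinearMap.det]
      rw [this]; exact zero_le_one
  obtain ⟨s, hs, h⟩ := h0
  exact hne s hs h




end Dat

end Crest.Agent.R253.Diffeo626
end
end

-- ▼ part R253/Bind_441

/-!
# R253, B10: binding of the t-side data with the existence theorem (helper441)

`G = (x + Dv)⁻¹` exists (`exists_isInv`), `f = (2π)^{-n/2} e^{-V_lam}` is a probability density,
`Push (Gi G) (Mi v G) f`, and `W = M V_lam'' M ≥ 0` for `lam * hi ≤ c`.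
-/

set_option autoImplicit false

open MeasureTheory Real Set Filter Topology
open scoped ContDiff InnerProductSpace

noncomputable section

namespace Crest.Agent.R253.Dual441

open Crest.Agent.R238.Gap Crest.Agent.R238.GapPoinc Crest.Agent.R238.GapPc
open Crest.Agent.R253.Meh74 Crest.Agent.R253.ChVar56

variable {n : ℕ}

lemma Bk.of_niceB {v : E n → ℝ} (hv : Crest.Agent.R253.Br.NiceB v) : Bk 2 v :=
  ⟨hv.smooth, fun k _ => hv.bdd k⟩

/-- `F = x + Dv(x)` -/
def Fg (v : E n → ℝ) (x : E n) : E n := x + ∑ i, pd i v x • (e i : E n)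

lemma Fg_apply (v : E n → ℝ) (x : E n) (i : Fin n) : Fg v x i = x i + pd i v x := by
  unfold Fg
  simp [Finset.sum_apply, Pi.single_apply]

section
variable {v : E n → ℝ} {G : E n → E n} {lo hi : ℝ}

lemma contDiff_Fg (hv : ContDiff ℝ ∞ v) : ContDiff ℝ ∞ (Fg v) :=
  contDiff_id.add (ContDiff.sum fun i _ => (contDiff_pdi hv i).smul contDiff_const)

lemma inner_eq (a b : E n) : ⟪a, b⟫_ℝ = ∑ i, a i * b i := by
  rw [PiLp.inner_apply]
  exact Finset.sum_congr rfl fun i _ => by simp [mul_comm]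

lemma fderiv_Fg (hv : ContDiff ℝ ∞ v) (x w : E n) (i : Fin n) :
    (fderiv ℝ (Fg v) x w) i = ∑ j, Crest.Agent.R238.gm v x i j * w j := by
  have hd : HasFDerivAt (Fg v) (fderiv ℝ (Fg v) x) x :=
    ((contDiff_Fg hv).differentiable (by simp) x).hasFDerivAt
  have h3 : HasFDerivAt (fun y => Fg v y i) ((EuclideanSpace.proj i : E n →L[ℝ] ℝ).comp
      (fderiv ℝ (Fg v) x)) x :=
    (EuclideanSpace.proj i : E n →L[ℝ] ℝ).hasFDerivAt.comp x hd
  have h4 : (fderiv ℝ (Fg v) x w) i = fderiv ℝ (fun y => Fg v y i) x w := by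
    rw [h3.fderiv]; rfl
  have h5 : (fun y => Fg v y i) = fun y : E n => y i + pd i v y := by
    funext y; exact Fg_apply v y i
  have hv2 : ContDiff ℝ 2 v := contDiff_infty.1 hv 2
  rw [h4, h5, fderiv_apply_eq_sum]
  refine Finset.sum_congr rfl fun j _ => ?_
  rw [Crest.Agent.R238.Gap.pd_add ((c1_coord i).diff x)
    (((contDiff_pdi hv i).differentiable (by simp)) x), pd_coord, gm_eq hv2, ← H_eq_pd hv2,
    ← H_eq_pd hv2, H_symm hv2]
  ring

lemma dat (hv : ContDiff ℝ ∞ v) (hlo : 0 < lo)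
    (hell : ∀ x, Crest.Agent.R238.Ell lo hi (Crest.Agent.R238.gm v x)) :
    Diffeo626.Dat ∞ lo (Fg v) where
  hk := by norm_num
  hc := hlo
  hF := contDiff_Fg hv
  low := fun x w => by
    have h := ((hell x).2 (fun i => w i)).1
    rw [inner_eq]
    have e1 : ‖w‖ ^ 2 = ∑ i, w i ^ 2 := by
      rw [EuclideanSpace.norm_sq_eq]
      exact Finset.sum_congr rfl fun i _ => by rw [Real.norm_eq_abs, sq_abs]
    have e2 : ∑ i, (fderiv ℝ (Fg v) x w) i * w i =
        ∑ i, ∑ j, Crest.Agent.R238.gm v x i j * w i * w j := by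
      refine Finset.sum_congr rfl fun i _ => ?_
      rw [fderiv_Fg hv, Finset.sum_mul]
      exact Finset.sum_congr rfl fun j _ => by ring
    rw [e1, e2]
    exact h

/-- existence of the inverse -/
theorem exists_isInv (hv : ContDiff ℝ ∞ v) (hlo : 0 < lo)
    (hell : ∀ x, Crest.Agent.R238.Ell lo hi (Crest.Agent.R238.gm v x)) :
    ∃ G : E n → E n, IsInv v G ∧ (∀ x, G (Fg v x) = x) ∧ (∀ t, Fg v (G t) = t) := by
  have d := dat hv hlo hell
  refine ⟨d.G, ⟨d.G_contDiff, fun t i => ?_⟩, d.G_F, d.F_G⟩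
  rw [← Fg_apply, d.F_G]

lemma IsInv.F_G (hG : IsInv v G) (t : E n) : Fg v (G t) = t := by
  ext i
  rw [Fg_apply, hG.eq]

lemma IsInv.G_F (hG : IsInv v G) (hv : ContDiff ℝ ∞ v) (hlo : 0 < lo)
    (hell : ∀ x, Crest.Agent.R238.Ell lo hi (Crest.Agent.R238.gm v x)) (x : E n) :
    G (Fg v x) = x := (dat hv hlo hell).inj (hG.F_G _)

/-- uniqueness of the inverse -/
theorem IsInv.unique {G' : E n → E n} (hG : IsInv v G) (hG' : IsInv v G')
    (hv : ContDiff ℝ ∞ v) (hlo : 0 < lo)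
    (hell : ∀ x, Crest.Agent.R238.Ell lo hi (Crest.Agent.R238.gm v x)) : G = G' := by
  funext t
  exact (dat hv hlo hell).inj ((hG.F_G t).trans (hG'.F_G t).symm)

lemma Mi_lower (hlo : 0 < lo) (hlohi : lo ≤ hi)
    (hell : ∀ x, Crest.Agent.R238.Ell lo hi (Crest.Agent.R238.gm v x)) (t : E n)
    (z : Fin n → ℝ) : 1 / hi * ∑ i, z i ^ 2 ≤ ∑ i, ∑ j, Mi v G i j t * z i * z j :=
  (((hell (G t)).inv hlo hlohi).2 z).1

lemma Mi_upper (hlo : 0 < lo) (hlohi : lo ≤ hi)
    (hell : ∀ x, Crest.Agent.R238.Ell lo hi (Crest.Agent.R238.gm v x)) (t : E n)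
    (z : Fin n → ℝ) : ∑ i, ∑ j, Mi v G i j t * z i * z j ≤ 1 / lo * ∑ i, z i ^ 2 :=
  (((hell (G t)).inv hlo hlohi).2 z).2

/-- the density `(2π)^{-n/2} e^{-V_lam}` -/
def den (P v : E n → ℝ) (lam : ℝ) (x : Fin n → ℝ) : ℝ :=
  (2 * π) ^ (-(n : ℝ) / 2) * rexp (-Vl P v lam (WithLp.toLp 2 x))

lemma den_pos (P v : E n → ℝ) (lam : ℝ) (x : Fin n → ℝ) : 0 < den P v lam x := by
  unfold den; positivity

lemma continuous_den {P : E n → ℝ} (hP : Continuous P) (hv : Continuous v) (lam : ℝ) :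
    Continuous (den P v lam) := by
  unfold den Vl
  have h1 : Continuous fun x : Fin n → ℝ => (WithLp.toLp 2 x : E n) :=
    PiLp.continuous_toLp 2 _
  exact continuous_const.mul (Real.continuous_exp.comp
    ((((((continuous_norm.comp h1).pow 2).div_const 2).add (hP.comp h1)).sub
      (continuous_const.mul (hv.comp h1))).neg))

lemma Mx_eq (t : E n) : Mx (Mi v G) t = (Crest.Agent.R238.gm v (G t))⁻¹ := by
  ext i j; rfl

/-- the change of variables identity -/
lemma ch_eq {P : E n → ℝ} {lam : ℝ} (hG : IsInv v G) (hlo : 0 < lo)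
    (hell : ∀ x, Crest.Agent.R238.Ell lo hi (Crest.Agent.R238.gm v x))
    (hma : Crest.Agent.R253.Br.MAb P lam 1 v) (t : E n) :
    den P v lam (Gp (Gi G) t) * (Mx (Mi v G) t).det = gd t := by
  have h1 := logdet_eq hG hma t
  have hpos := (hell (G t)).det_pos hlo
  have h2 : (WithLp.toLp 2 (Gp (Gi G) t) : E n) = G t := by
    ext i; rfl
  unfold den gd
  rw [h2, Mx_eq, Matrix.det_nonsing_inv, Ring.inverse_eq_inv', mul_assoc]
  congr 1
  have h3 : -(‖t‖ ^ 2 / 2) = -Real.log (Crest.Agent.R238.gm v (G t)).det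
      - Vl P v lam (G t) := by linarith
  rw [h3, Real.exp_sub, Real.exp_neg (Real.log _), Real.exp_log hpos, Real.exp_neg]
  field_simp

/-- total mass one -/
lemma int_den {P : E n → ℝ} {lam : ℝ} (hv : Bk 2 v) (hG : IsInv v G)
    (hlo : 0 < lo) (hell : ∀ x, Crest.Agent.R238.Ell lo hi (Crest.Agent.R238.gm v x))
    (hma : Crest.Agent.R253.Br.MAb P lam 1 v) : ∫ x, den P v lam x = 1 := by
  have hsurj : range (Gv (Gi G)) = univ := by
    rw [range_eq_univ]
    intro x
    exact ⟨Fg v x, by rw [Gv_Gi]; exact hG.G_F hv.sm hlo hell x⟩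
  have hinj : Function.Injective (Gv (Gi G)) := by
    intro s t h
    rw [Gv_Gi, Gv_Gi] at h
    rw [← hG.F_G s, ← hG.F_G t, h]
  have hdiff : ∀ i, Differentiable ℝ (Gi G i) := fun i =>
    (contDiff_Gi hG.sm i).differentiable (by simp)
  have h1 : ∫ x in range (Gv (Gi G)), den P v lam (WithLp.ofLp x) = ∫ t : E n, gd t := by
    rw [← Set.image_univ, integral_image_eq_integral_abs_det_fderiv_smul volume
      MeasurableSet.univ (f' := DG (Gi G))
      (fun x _ => (hasFDerivAt_Gv hdiff x).hasFDerivWithinAt) hinj.injOn, setIntegral_univ]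
    refine integral_congr_ae (ae_of_all _ fun t => ?_)
    simp only [smul_eq_mul]
    have hdet : (DG (Gi G) t).det = (Mx (Mi v G) t).det := det_DG (jac_inv hv.sm hG) t
    have hp : 0 < (Mx (Mi v G) t).det := by
      rw [Mx_eq, Matrix.det_nonsing_inv, Ring.inverse_eq_inv']
      exact inv_pos.2 ((hell (G t)).det_pos hlo)
    rw [hdet, Push.ofLp_Gv, abs_of_pos hp, ← ch_eq hG hlo hell hma t]
    ring
  rw [hsurj, setIntegral_univ, Push.integral_ofLp, integral_gd] at h1
  exact h1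

/-- **56's structure** -/
theorem push {P : E n → ℝ} {lam : ℝ} (hP : Continuous P) (hv : Bk 2 v) (hG : IsInv v G)
    (hlo : 0 < lo) (hlohi : lo ≤ hi)
    (hell : ∀ x, Crest.Agent.R238.Ell lo hi (Crest.Agent.R238.gm v x))
    (hma : Crest.Agent.R253.Br.MAb P lam 1 v) :
    Push (Gi G) (Mi v G) (den P v lam) where
  hd := hd hv hG hlo hell
  lo := ⟨1 / hi, by have := hlo.trans_le hlohi; positivity, fun x z =>
    Mi_lower hlo hlohi hell x z⟩
  f0 := fun x => (den_pos P v lam x).le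
  fm := (continuous_den hP hv.sm.continuous lam).measurable
  fi := int_den hv hG hlo hell hma
  ch := ch_eq hG hlo hell hma

/-! ### positivity of `W` -/

lemma pd_pd_Vl {P : E n → ℝ} (hP : ContDiff ℝ ∞ P) (hv : ContDiff ℝ ∞ v) (lam : ℝ) (x : E n)
    (k l : Fin n) : pd l (pd k (Vl P v lam)) x =
      (if k = l then 1 else 0) + Crest.Agent.R238.Hs P x k l
        - lam * Crest.Agent.R238.Hs v x k l := by
  have hP2 : ContDiff ℝ 2 P := contDiff_infty.1 hP 2
  have hv2 : ContDiff ℝ 2 v := contDiff_infty.1 hv 2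
  have h1 : pd k (Vl P v lam) = fun y => (y k + pd k P y) - lam * pd k v y := by
    funext y
    have hdP := (hP.differentiable (by simp)) y
    have hdv := (hv.differentiable (by simp)) y
    have h5 : HasFDerivAt (fun y : E n => ‖y‖ ^ 2) (2 • (innerSL ℝ y)) y :=
      (hasStrictFDerivAt_norm_sq y).hasFDerivAt
    have h6 : pd k (fun y : E n => ‖y‖ ^ 2) y = 2 * y k := pd_norm_sq k y
    have h7 : HasFDerivAt (Vl P v lam) ((1 / 2 : ℝ) • (fderiv ℝ (fun y : E n => ‖y‖ ^ 2) y)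
        + fderiv ℝ P y - lam • fderiv ℝ v y) y := by
      have h8 : HasFDerivAt (fun y : E n => ‖y‖ ^ 2) (fderiv ℝ (fun y : E n => ‖y‖ ^ 2) y) y :=
        h5.differentiableAt.hasFDerivAt
      have h9 := ((h8.const_mul (1 / 2 : ℝ)).add hdP.hasFDerivAt).sub
        (hdv.hasFDerivAt.const_mul lam)
      refine h9.congr_of_eventuallyEq (Eventually.of_forall fun z => ?_)
      simp only [Vl, Pi.add_apply, Pi.sub_apply]
      ring
    show fderiv ℝ (Vl P v lam) y (e k) = _
    rw [h7.fderiv]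
    simp only [_root_.sub_apply, _root_.add_apply, _root_.smul_apply, smul_eq_mul]
    show 1 / 2 * pd k (fun y : E n => ‖y‖ ^ 2) y + pd k P y - lam * pd k v y = _
    rw [h6]; ring
  rw [h1]
  have e1 : DifferentiableAt ℝ (fun y : E n => y k + pd k P y) x :=
    ((c1_coord k).diff x).add ((contDiff_pdi hP k).differentiable (by simp) x)
  have e2 : DifferentiableAt ℝ (fun y : E n => -lam * pd k v y) x :=
    ((contDiff_pdi hv k).differentiable (by simp) x).const_mul _
  have e3 : (fun y : E n => (y k + pd k P y) - lam * pd k v y) =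
      fun y => (y k + pd k P y) + (-lam * pd k v y) := by funext y; ring
  rw [e3, Crest.Agent.R238.Gap.pd_add e1 e2, Crest.Agent.R238.Gap.pd_add ((c1_coord k).diff x)
    ((contDiff_pdi hP k).differentiable (by simp) x), pd_coord]
  have e4 : pd l (fun y : E n => -lam * pd k v y) x = -lam * pd l (pd k v) x := by
    unfold pd
    have := (((contDiff_pdi hv k).differentiable (by simp) x).hasFDerivAt.const_mul (-lam)).fderiv
    unfold pd at this
    rw [this]
    simp
  have e5 : ∀ (f : E n → ℝ), ContDiff ℝ 2 f → pd l (pd k f) x = Crest.Agent.R238.Hs f x k l := by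
    intro f hf
    rw [← H_eq_pd hf, H_symm hf]
    rfl
  rw [e4, e5 P hP2, e5 v hv2]
  ring

/-- `D²V_lam ≥ 0` for `lam * hi ≤ c` -/
lemma hess_nonneg {P : E n → ℝ} {lam c C2 C3 M0 M1 R0 : ℝ}
    (hP : Crest.Agent.R253.Br.PCB P c C2 C3 M0 M1 R0) (hv : ContDiff ℝ ∞ v)
    (hell : ∀ x, Crest.Agent.R238.Ell lo hi (Crest.Agent.R238.gm v x)) (hlam : 0 ≤ lam)
    (hl : lam * hi ≤ c) (x : E n) (z : Fin n → ℝ) :
    0 ≤ ∑ k, ∑ l, pd l (pd k (Vl P v lam)) x * z k * z l := by
  have h1 := hP.pc.lower 1 zero_le_one le_rfl x z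
  have h2 := ((hell x).2 z).2
  have h3 : ∑ k, ∑ l, pd l (pd k (Vl P v lam)) x * z k * z l =
      (∑ i, z i ^ 2 + 1 * ∑ i, ∑ j, Crest.Agent.R238.Hs P x i j * z i * z j)
      - lam * (∑ i, ∑ j, Crest.Agent.R238.gm v x i j * z i * z j) + lam * ∑ i, z i ^ 2 := by
    have e1 : ∑ i, ∑ j, Crest.Agent.R238.gm v x i j * z i * z j =
        ∑ i, z i ^ 2 + ∑ i, ∑ j, Crest.Agent.R238.Hs v x i j * z i * z j := by
      rw [← Finset.sum_add_distrib]
      refine Finset.sum_congr rfl fun i _ => ?_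
      have : ∀ j, Crest.Agent.R238.gm v x i j * z i * z j =
          (if i = j then z i * z j else 0) + Crest.Agent.R238.Hs v x i j * z i * z j := by
        intro j
        show ((1 : Matrix (Fin n) (Fin n) ℝ) i j + Crest.Agent.R238.Hs v x i j) * z i * z j = _
        rw [Matrix.one_apply]
        split_ifs <;> ring
      simp only [this, Finset.sum_add_distrib, Finset.sum_ite_eq, Finset.mem_univ, if_true]
      ring
    have e2 : ∑ k, ∑ l, pd l (pd k (Vl P v lam)) x * z k * z l =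
        ∑ i, z i ^ 2 + ∑ i, ∑ j, Crest.Agent.R238.Hs P x i j * z i * z j
        - lam * ∑ i, ∑ j, Crest.Agent.R238.Hs v x i j * z i * z j := by
      rw [Finset.mul_sum, ← Finset.sum_add_distrib, ← Finset.sum_sub_distrib]
      refine Finset.sum_congr rfl fun i _ => ?_
      have : ∀ l, pd l (pd i (Vl P v lam)) x * z i * z l =
          (if i = l then z i * z l else 0) + Crest.Agent.R238.Hs P x i l * z i * z l
          - lam * (Crest.Agent.R238.Hs v x i l * z i * z l) := by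
        intro l
        rw [pd_pd_Vl hP.tst.smooth hv]
        split_ifs <;> ring
      simp only [this, Finset.sum_sub_distrib, Finset.sum_add_distrib, Finset.sum_ite_eq,
        Finset.mem_univ, if_true, Finset.mul_sum]
      ring
    rw [e2, e1]
    ring
  rw [h3]
  have hS : 0 ≤ ∑ i, z i ^ 2 := Finset.sum_nonneg fun i _ => sq_nonneg _
  have h4 : lam * (∑ i, ∑ j, Crest.Agent.R238.gm v x i j * z i * z j) ≤
      lam * (hi * ∑ i, z i ^ 2) := mul_le_mul_of_nonneg_left h2 hlam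
  have h5 : lam * (hi * ∑ i, z i ^ 2) ≤ c * ∑ i, z i ^ 2 := by
    rw [← mul_assoc]; exact mul_le_mul_of_nonneg_right hl hS
  have h6 : 0 ≤ lam * ∑ i, z i ^ 2 := mul_nonneg hlam hS
  linarith

lemma sum4 (f : Fin n → Fin n → Fin n → Fin n → ℝ) :
    ∑ i, ∑ j, ∑ k, ∑ l, f i j k l = ∑ k, ∑ l, ∑ i, ∑ j, f i j k l := by
  calc ∑ i, ∑ j, ∑ k, ∑ l, f i j k l = ∑ i, ∑ k, ∑ j, ∑ l, f i j k l :=
        Finset.sum_congr rfl fun i _ => Finset.sum_comm
    _ = ∑ k, ∑ i, ∑ j, ∑ l, f i j k l := Finset.sum_comm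
    _ = ∑ k, ∑ i, ∑ l, ∑ j, f i j k l :=
        Finset.sum_congr rfl fun k _ => Finset.sum_congr rfl fun i _ => Finset.sum_comm
    _ = ∑ k, ∑ l, ∑ i, ∑ j, f i j k l := Finset.sum_congr rfl fun k _ => Finset.sum_comm

/-- `W = M V'' M` is positive semidefinite -/
theorem W_nonneg {P : E n → ℝ} {lam c C2 C3 M0 M1 R0 : ℝ}
    (hP : Crest.Agent.R253.Br.PCB P c C2 C3 M0 M1 R0) (hv : ContDiff ℝ ∞ v) (hlo : 0 < lo)
    (hell : ∀ x, Crest.Agent.R238.Ell lo hi (Crest.Agent.R238.gm v x)) (hlam : 0 ≤ lam)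
    (hl : lam * hi ≤ c) (x : E n) (z : Fin n → ℝ) :
    0 ≤ ∑ i, ∑ j, MA.W (Gi G) (Mi v G) (Vl P v lam) i j x * z i * z j := by
  have h := hess_nonneg hP hv hell hlam hl (G x) (fun k => ∑ i, Mi v G k i x * z i)
  refine h.trans_eq ?_
  have hL : ∀ k l, pd l (pd k (Vl P v lam)) (G x) * (∑ i, Mi v G k i x * z i) *
      (∑ i, Mi v G l i x * z i) = ∑ i, ∑ j, Mi v G i k x * pd l (pd k (Vl P v lam)) (G x) *
        Mi v G l j x * z i * z j := by
    intro k l
    rw [mul_assoc, Finset.sum_mul_sum, Finset.mul_sum]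
    refine Finset.sum_congr rfl fun i _ => ?_
    rw [Finset.mul_sum]
    refine Finset.sum_congr rfl fun j _ => ?_
    rw [Mi_symm hlo hell i k]
    ring
  simp only [hL]
  rw [← sum4 (fun i j k l => Mi v G i k x * pd l (pd k (Vl P v lam)) (G x) *
        Mi v G l j x * z i * z j)]
  refine Finset.sum_congr rfl fun i _ => Finset.sum_congr rfl fun j _ => ?_
  unfold MA.W
  rw [Gv_Gi]
  simp only [Finset.sum_mul]

end

/-- **B10, packed**: the complete t-side data from a solution of `(MAb)` -/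
theorem bind {P v : E n → ℝ} {lo hi lam c C2 C3 M0 M1 R0 : ℝ}
    (hP : Crest.Agent.R253.Br.PCB P c C2 C3 M0 M1 R0) (hv : Crest.Agent.R253.Br.NiceB v)
    (hlo : 0 < lo) (hlohi : lo ≤ hi)
    (hell : ∀ x, Crest.Agent.R238.Ell lo hi (Crest.Agent.R238.gm v x)) (hlam : 0 ≤ lam)
    (hl : lam * hi ≤ c) (hma : Crest.Agent.R253.Br.MAb P lam 1 v) :
    ∃ G : E n → E n, IsInv v G ∧
      MA (Gi G) (Mi v G) (Ni v G) (Vl P v lam) ∧
      (∀ t (z : Fin n → ℝ), 1 / hi * ∑ i, z i ^ 2 ≤ ∑ i, ∑ j, Mi v G i j t * z i * z j ∧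
        ∑ i, ∑ j, Mi v G i j t * z i * z j ≤ 1 / lo * ∑ i, z i ^ 2) ∧
      (∀ x (z : Fin n → ℝ), 0 ≤ ∑ i, ∑ j, MA.W (Gi G) (Mi v G) (Vl P v lam) i j x * z i * z j) ∧
      Push (Gi G) (Mi v G) (den P v lam) := by
  obtain ⟨G, hG, -, -⟩ := exists_isInv hv.smooth hlo hell
  have hb := Bk.of_niceB hv
  exact ⟨G, hG, ma hP.tst.smooth hb hG hlo hell hma,
    fun t z => ⟨Mi_lower hlo hlohi hell t z, Mi_upper hlo hlohi hell t z⟩,
    fun x z => W_nonneg hP hv.smooth hlo hell hlam hl x z,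
    push hP.tst.smooth.continuous hb hG hlo hlohi hell hma⟩

end Crest.Agent.R253.Dual441
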