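import Mathlib
import Crest.Agent.R238.ECalE12
import Crest.Agent.R253.BrDefs_505

-- ▼ part R253/BrSys_649
section

/-!
Row 253, T6 (Brenier map), nodes B5 / B6: the abstract Monge--Ampere system of
`log det (1 + D²v) - x·∇v - |∇v|²/2 - lam v = - s P` (helper649; port of helper254's `ECal1`).
`X_a = ∂_a u = x_a + ∂_a v`, `D_b X_a = g_ab`, `p = ∇Ψ`, `Ψ = |x|²/2 + s P - lam v`.
-/

set_option autoImplicit false

namespace Crest.Agent.R253.BrCal

open Finset

/-- Abstract Monge--Ampere system: commuting derivations, Hessian matrix `g`, inverse `t`,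
differentiated equation `tau_ab D_e g_ab = X_a g_ae - p_e`. -/
structure SysB (n : ℕ) (A : Type*) [CommRing A] [Algebra ℝ A] where
  D : Fin n → Derivation ℝ A A
  comm : ∀ a b f, D a (D b f) = D b (D a f)
  X : Fin n → A
  g : Fin n → Fin n → A
  gsymm : ∀ a b, g a b = g b a
  gcod : ∀ a b c, D c (g a b) = D a (g c b)
  DX : ∀ a b, D a (X b) = g a b
  t : Fin n → Fin n → A
  tsymm : ∀ a b, t a b = t b a
  tg : ∀ a b, ∑ c, t a c * g c b = if a = b then 1 else 0
  p : Fin n → A
  pcod : ∀ a b, D a (p b) = D b (p a)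
  eq : ∀ e, ∑ a, ∑ b, t a b * D e (g a b) = ∑ a, X a * g a e - p e

variable {n : ℕ} {A : Type*} [CommRing A] [Algebra ℝ A] (s : SysB n A)

namespace SysB

/-- the operator `L f = tau_ab D_a D_b f - X_a D_a f`. -/
def L (f : A) : A := ∑ a, ∑ b, s.t a b * s.D a (s.D b f) - ∑ a, s.X a * s.D a f


lemma D_mul (a : Fin n) (f h : A) : s.D a (f * h) = f * s.D a h + h * s.D a f := by
  simp [Derivation.leibniz]

lemma D_sum {ι : Type*} (S : Finset ι) (a : Fin n) (f : ι → A) :
    s.D a (∑ i ∈ S, f i) = ∑ i ∈ S, s.D a (f i) := map_sum (s.D a) f S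

lemma D_delta (a i j : Fin n) : s.D a ((if i = j then 1 else 0 : A)) = 0 := by
  split_ifs <;> simp

lemma gt (a b : Fin n) : ∑ c, s.g a c * s.t c b = if a = b then 1 else 0 := by
  have h := s.tg b a
  rw [show (∑ c, s.g a c * s.t c b) = ∑ c, s.t b c * s.g c a from
    Finset.sum_congr rfl fun c _ => by rw [s.gsymm a c, s.tsymm c b]; ring]
  rw [h]
  by_cases hab : a = b
  · subst hab; simp
  · rw [if_neg hab, if_neg (Ne.symm hab)]

/-- derivative of the inverse. -/
lemma D_t (c a b : Fin n) :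
    s.D c (s.t a b) = - ∑ i, ∑ j, s.t a i * s.D c (s.g i j) * s.t j b := by
  have h1 : ∀ k, ∑ i, s.D c (s.t a i) * s.g i k = - ∑ i, s.t a i * s.D c (s.g i k) := by
    intro k
    have h := congrArg (s.D c) (s.tg a k)
    rw [s.D_delta, s.D_sum] at h
    have h2 : ∑ i, s.D c (s.t a i * s.g i k) =
        ∑ i, s.t a i * s.D c (s.g i k) + ∑ i, s.D c (s.t a i) * s.g i k := by
      rw [← Finset.sum_add_distrib]
      refine Finset.sum_congr rfl fun i _ => ?_
      rw [s.D_mul]; ring
    rw [h2] at h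
    linear_combination h
  have h3 : s.D c (s.t a b) = ∑ k, (∑ i, s.D c (s.t a i) * s.g i k) * s.t k b := by
    have : ∑ k, (∑ i, s.D c (s.t a i) * s.g i k) * s.t k b =
        ∑ i, s.D c (s.t a i) * ∑ k, s.g i k * s.t k b := by
      simp only [Finset.sum_mul, Finset.mul_sum]
      rw [Finset.sum_comm]
      refine Finset.sum_congr rfl fun i _ => Finset.sum_congr rfl fun k _ => by ring
    rw [this]
    simp only [s.gt]
    simp
  rw [h3]
  simp only [h1]
  simp only [neg_mul, Finset.sum_neg_distrib, Finset.sum_mul]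
  rw [Finset.sum_comm]


lemma L_add (f h : A) : s.L (f + h) = s.L f + s.L h := by
  unfold L
  simp only [map_add, mul_add, Finset.sum_add_distrib]
  ring

lemma L_zero : s.L 0 = 0 := by simp [L]

lemma L_sum {ι : Type*} (S : Finset ι) (f : ι → A) :
    s.L (∑ i ∈ S, f i) = ∑ i ∈ S, s.L (f i) := by
  classical
  induction S using Finset.induction_on with
  | empty => simp [s.L_zero]
  | insert i S hi ih => rw [Finset.sum_insert hi, Finset.sum_insert hi, s.L_add, ih]

lemma T_symm1 (a b c : Fin n) : s.D c (s.g a b) = s.D c (s.g b a) := by rw [s.gsymm a b]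

lemma F_symm (a b e f : Fin n) : s.D f (s.D e (s.g a b)) = s.D a (s.D b (s.g e f)) := by
  rw [s.gcod a b e, s.comm f a, s.T_symm1 e b f, s.gcod b e f, s.T_symm1 f e b]

/-- (E1) -/
lemma E1 (e f : Fin n) : s.L (s.g e f) =
    ∑ a, ∑ b, ∑ i, ∑ j, s.t a i * s.t b j * (s.D f (s.g i j) * s.D e (s.g a b))
      + ∑ a, s.g e a * s.g a f - s.D f (s.p e) := by
  have h := congrArg (s.D f) (s.eq e)
  rw [map_sub, s.D_sum, s.D_sum] at h
  have h1 : ∀ a, s.D f (∑ b, s.t a b * s.D e (s.g a b)) =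
      ∑ b, s.t a b * s.D a (s.D b (s.g e f)) -
        ∑ b, ∑ i, ∑ j, s.t a i * s.t b j * (s.D f (s.g i j) * s.D e (s.g a b)) := by
    intro a
    rw [s.D_sum, ← Finset.sum_sub_distrib]
    refine Finset.sum_congr rfl fun b _ => ?_
    rw [s.D_mul, s.D_t, s.F_symm]
    simp only [mul_neg, Finset.mul_sum]
    rw [sub_eq_add_neg]
    congr 2
    refine Finset.sum_congr rfl fun i _ => Finset.sum_congr rfl fun j _ => ?_
    rw [s.tsymm j b]; ring
  have h2 : ∀ a, s.D f (s.X a * s.g a e) = s.X a * s.D a (s.g e f) +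
      s.g e a * s.g a f := by
    intro a
    rw [s.D_mul, s.DX, s.gcod a e f, s.T_symm1 f e a, s.gsymm f a, s.gsymm a e]
  simp only [h1, h2, Finset.sum_sub_distrib, Finset.sum_add_distrib] at h
  unfold L
  linear_combination h

lemma L_smul (c : ℝ) (f : A) : s.L (c • f) = c • s.L f := by
  unfold L
  simp only [Derivation.map_smul, mul_smul_comm, smul_sub, Finset.smul_sum]

lemma L_algebraMap (c : ℝ) : s.L (algebraMap ℝ A c) = 0 := by
  unfold L
  simp

lemma tr_tg : ∑ a, ∑ b, s.t a b * s.g a b = (n : A) := by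
  have h4 : ∀ a, ∑ b, s.t a b * s.g a b = 1 := by
    intro a
    have h5 := s.tg a a
    rw [if_pos rfl] at h5
    rw [← h5]
    exact Finset.sum_congr rfl fun b _ => by rw [s.gsymm a b]
  simp [h4]

/-- (E2) `L log det g = tr g - tr(τ Dp)`. -/
lemma L_logdet (LD : A) (h : ∀ b, s.D b LD = ∑ a, s.X a * s.g a b - s.p b) :
    s.L LD = ∑ a, s.g a a - ∑ a, ∑ b, s.t a b * s.D a (s.p b) := by
  have h1 : ∀ a b, s.D a (s.D b LD) =
      ∑ c, s.g a c * s.g c b + ∑ c, s.X c * s.D c (s.g a b) - s.D a (s.p b) := by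
    intro a b
    rw [h b, map_sub, s.D_sum]
    have h2 : ∀ c, s.D a (s.X c * s.g c b) =
        s.g a c * s.g c b + s.X c * s.D c (s.g a b) := by
      intro c
      rw [s.D_mul, s.DX, s.gcod c b a]
      ring
    simp only [h2, Finset.sum_add_distrib]
  have h3 : ∑ a, ∑ b, s.t a b * ∑ c, s.g a c * s.g c b = ∑ a, s.g a a := by
    have h4 : ∀ a, ∑ b, s.t a b * ∑ c, s.g a c * s.g c b = ∑ c, s.g a c * (if a = c then 1 else 0) := by
      intro a
      have h5 : ∀ c, ∑ b, s.t a b * s.g c b = if a = c then 1 else 0 := by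
        intro c
        rw [← s.tg a c]
        exact Finset.sum_congr rfl fun b _ => by rw [s.gsymm c b]
      simp only [← h5, Finset.mul_sum]
      rw [Finset.sum_comm]
      refine Finset.sum_congr rfl fun c _ => Finset.sum_congr rfl fun b _ => by ring
    simp only [h4]
    simp
  have h6 : ∑ a, ∑ b, s.t a b * ∑ c, s.X c * s.D c (s.g a b) = ∑ c, s.X c * s.D c LD := by
    have h7 : ∀ c, s.X c * s.D c LD = ∑ a, ∑ b, s.X c * (s.t a b * s.D c (s.g a b)) := by
      intro c
      rw [h c, ← s.eq c]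
      simp only [Finset.mul_sum]
    simp only [h7, Finset.mul_sum]
    rw [Finset.sum_comm]
    rw [Finset.sum_congr rfl fun b _ => Finset.sum_comm]
    rw [Finset.sum_comm]
    refine Finset.sum_congr rfl fun c _ => ?_
    rw [Finset.sum_comm]
    refine Finset.sum_congr rfl fun a _ => Finset.sum_congr rfl fun b _ => by ring
  unfold L
  simp only [h1, mul_sub, mul_add, Finset.sum_sub_distrib, Finset.sum_add_distrib]
  rw [h3, h6]
  ring

end SysB

end Crest.Agent.R253.BrCal
end

-- ▼ part R253/BrInst_649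

/-!
Row 253, T6 (Brenier map), nodes B5 / B6: the concrete instance of `SysB` on the algebra
`XInst.SA n` of smooth functions for a smooth solution `v` of `MAb P lam s v`
(helper649; port of `R238.ECalInst` / `R238.ECalE12` of helpers 640, 703).
-/

set_option autoImplicit false
open scoped ContDiff Topology
open Set Filter Finset

noncomputable section

namespace Crest.Agent.R253.BrCal

open Crest.Agent.R238 Crest.Agent.R238.XInst Crest.Agent.R253.Br

variable {n : ℕ}

/-- the coordinate facts of the instance -/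
structure FactsB (P : E n → ℝ) (lam s : ℝ) (v : E n → ℝ) (Z : SysB n (SA n)) : Prop where
  D : ∀ (a : Fin n) (f : SA n) (x : E n), (Z.D a f).1 x = fderiv ℝ f.1 x (ee a)
  X : ∀ a x, (Z.X a).1 x = x a + gr v x a
  g : ∀ a b x, (Z.g a b).1 x = gm v x a b
  t : ∀ a b x, (Z.t a b).1 x = tauf v x a b
  p : ∀ a x, (Z.p a).1 x = x a + s * gr P x a - lam * gr v x a

/-- The differentiated equation: in the algebra `SA n`,
`D_e (log det g) = ∑ X_a g_ae - p_e`. -/
theorem pd_logdet {v P : E n → ℝ} (hv : ContDiff ℝ ∞ v) (hP : ContDiff ℝ ∞ P)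
    {lam s : ℝ} (hma : MAb P lam s v) (LD : SA n) (hLD : ∀ y, LD.1 y = Real.log (gm v y).det)
    (G : Fin n → Fin n → SA n) (hG : ∀ a b, G a b = (if a = b then 1 else 0) + pd a (pd b ⟨v, hv⟩))
    (e : Fin n) :
    pd e LD = ∑ a, (co a + pd a ⟨v, hv⟩) * G a e
      - (co e + s • pd e ⟨P, hP⟩ - lam • pd e ⟨v, hv⟩) := by
  set V : SA n := ⟨v, hv⟩ with hV
  set PP : SA n := ⟨P, hP⟩ with hPP
  have h1 : LD = ∑ j, co j * pd j V + (1 / 2 : ℝ) • ∑ i, pd i V * pd i V + lam • V - s • PP := by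
    refine ext_ev fun y => ?_
    simp only [map_sub, map_add, map_sum, map_mul, map_smul, smul_eq_mul]
    have h2 : ev y LD = Real.log (gm v y).det := hLD y
    have h3 := hma y
    rw [clm_eq_sum (fderiv ℝ v y) y] at h3
    have h4 : ∀ j, ev y (co j) * ev y (pd j V) = y j * fderiv ℝ v y (ee j) := fun j => rfl
    have h5 : ∀ i, ev y (pd i V) * ev y (pd i V) = gr v y i ^ 2 := fun i => by
      rw [sq]; rfl
    have h6 : ev y V = v y := rfl
    have h7 : ev y PP = P y := rfl
    rw [h2]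
    simp only [h4, h5, h6, h7]
    linarith
  rw [h1]
  have e1 : ∀ j, pd e (co j * pd j V) = co j * pd e (pd j V) + (if e = j then 1 else 0) * pd j V := by
    intro j
    rw [Derivation.leibniz, smul_eq_mul, smul_eq_mul, pd_co]
    ring
  have e2 : ∀ j, pd e (pd j V * pd j V) = (2 : ℝ) • (pd j V * pd e (pd j V)) := by
    intro j
    rw [Derivation.leibniz, smul_eq_mul, two_smul]
  have e3 : ∀ a, (co a + pd a V) * G a e =
      (co a + pd a V) * (if a = e then 1 else 0) + co a * pd e (pd a V)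
        + pd a V * pd e (pd a V) := by
    intro a
    rw [hG, pd_comm e a V]
    ring
  simp only [map_sub, map_add, map_sum, Derivation.map_smul, e1, e2, e3, Finset.sum_add_distrib,
    Finset.smul_sum, smul_smul]
  simp
  ring

theorem exists_factsB {v P : E n → ℝ} (hv : ContDiff ℝ ∞ v) (hP : ContDiff ℝ ∞ P)
    {lam s lo hi : ℝ} (hlo : 0 < lo) (hell : ∀ x, Ell lo hi (gm v x)) (hma : MAb P lam s v) :
    ∃ Z : SysB n (SA n), FactsB P lam s v Z := by
  have hd : ∀ x, (gm v x).det ≠ 0 := fun x => (Ell.sm_det_pos hlo (hell x)).ne'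
  let V : SA n := ⟨v, hv⟩
  let PP : SA n := ⟨P, hP⟩
  let G : Fin n → Fin n → SA n := fun a b => ⟨fun x => gm v x a b, ECal.smooth_gm hv a b⟩
  let T : Fin n → Fin n → SA n := fun a b => ⟨fun x => tauf v x a b, ECal.smooth_tauf hv hd a b⟩
  have hG : ∀ a b, G a b = (if a = b then 1 else 0) + pd a (pd b V) := by
    intro a b
    refine ext_ev fun x => ?_
    have h1 : ev x (pd a (pd b V)) = Hs v x a b := pd_pd_apply a b V x
    have h2 : ev x (G a b) = gm v x a b := rfl
    rw [map_add, h1, h2]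
    simp only [gm, Matrix.add_apply, Matrix.of_apply, Matrix.one_apply]
    split_ifs <;> simp
  have hDd : ∀ a i j : Fin n, pd a ((if i = j then 1 else 0 : SA n)) = 0 := by
    intro a i j
    split_ifs <;> simp
  let LD : SA n := ⟨fun y => Real.log (gm v y).det,
    (XInst.contDiff_det (fun i j => ECal.smooth_gm hv i j)).log hd⟩
  refine ⟨{
    D := pd
    comm := pd_comm
    X := fun a => co a + pd a V
    g := G
    gsymm := ?_
    gcod := ?_
    DX := ?_
    t := T
    tsymm := ?_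
    tg := ?_
    p := fun a => co a + s • pd a PP - lam • pd a V
    pcod := ?_
    eq := ?_ }, ?_, ?_, ?_, ?_, ?_⟩
  · intro a b
    refine ext_ev fun x => ?_
    exact (hell x).1 a b
  · intro a b c
    rw [hG, hG, map_add, map_add, hDd, hDd, pd_comm c a, pd_comm c b]
  · intro a b
    rw [hG, map_add, pd_co]
  · intro a b
    refine ext_ev fun x => ?_
    exact Ell.sm_inv_symm (hell x) a b
  · intro a b
    refine ext_ev fun x => ?_
    have h := congrFun (congrFun (Ell.sm_inv_mul hlo (hell x)) a) b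
    rw [Matrix.mul_apply] at h
    simp only [map_sum, map_mul]
    have h1 : ∀ c, ev x (T a c) * ev x (G c b) = (gm v x)⁻¹ a c * gm v x c b := fun c => rfl
    simp only [h1, h, Matrix.one_apply]
    split_ifs <;> simp
  · intro a b
    simp only [map_add, map_sub, Derivation.map_smul, pd_co, pd_comm a b PP, pd_comm a b V]
    simp only [eq_comm]
  · intro e
    rw [← pd_logdet hv hP hma LD (fun y => rfl) G hG e]
    refine ext_ev fun x => ?_
    have h2 : ev x (pd e LD) = fderiv ℝ (fun y => Real.log (gm v y).det) x (ee e) := rfl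
    rw [h2, ECal.fderiv_log_det_gm hv (hd x)]
    simp only [map_sum, map_mul]
    rfl
  · intro a f x
    rfl
  · intro a x
    rfl
  · intro a b x
    rfl
  · intro a b x
    rfl
  · intro a x
    rfl

section conv

variable {v P : E n → ℝ} {lam s : ℝ} {Z : SysB n (SA n)} (hZ : FactsB P lam s v Z)
include hZ

theorem FactsB.D_eq (a : Fin n) (f : SA n) : Z.D a f = pd a f := by
  refine ext_ev fun x => ?_
  exact hZ.D a f x

theorem FactsB.DD (a b : Fin n) (f : SA n) (x : E n) :
    ev x (Z.D a (Z.D b f)) = Hs f.1 x a b := by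
  rw [hZ.D_eq, hZ.D_eq]
  exact pd_pd_apply a b f x

/-- `(Z.L f)(x) = LA (tauf v) f x - ∇v·∇f` -/
theorem FactsB.L (f : SA n) (x : E n) :
    ev x (Z.L f) = LA (tauf v) f.1 x - ∑ i, gr v x i * gr f.1 x i := by
  unfold SysB.L LA
  simp only [map_sub, map_sum, map_mul]
  have h1 : ∀ a b, ev x (Z.t a b) = tauf v x a b := fun a b => hZ.t a b x
  have h2 : ∀ a, ev x (Z.X a) = x a + gr v x a := fun a => hZ.X a x
  have h3 : ∀ a, ev x (Z.D a f) = fderiv ℝ f.1 x (ee a) := fun a => hZ.D a f x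
  simp only [h1, h2, h3, hZ.DD]
  rw [clm_eq_sum (fderiv ℝ f.1 x) x]
  simp only [gr, add_mul, Finset.sum_add_distrib]
  ring

theorem FactsB.g_fun (a b : Fin n) : (Z.g a b).1 = fun y => gm v y a b :=
  funext fun y => hZ.g a b y

/-- `D_c g_ab = ∂_c (D²v)_ab` -/
theorem FactsB.Dg (a b c : Fin n) (x : E n) :
    ev x (Z.D c (Z.g a b)) = fderiv ℝ (fun y => Hs v y a b) x (ee c) := by
  have h : ev x (Z.D c (Z.g a b)) = fderiv ℝ (Z.g a b).1 x (ee c) := hZ.D c _ x
  rw [h, hZ.g_fun]
  have h1 : (fun y => gm v y a b) =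
      fun y => (1 : Matrix (Fin n) (Fin n) ℝ) a b + Hs v y a b := by
    funext y; simp [gm]
  rw [h1, fderiv_const_add]

/-- `D_b p_a = δ_ab + s P_ab - lam v_ab` -/
theorem FactsB.Dp (hv : ContDiff ℝ ∞ v) (hP : ContDiff ℝ ∞ P) (a b : Fin n) (x : E n) :
    ev x (Z.D b (Z.p a)) = (if a = b then 1 else 0) + s * Hs P x a b - lam * Hs v x a b := by
  have h : Z.p a = co a + s • pd a (⟨P, hP⟩ : SA n) - lam • pd a (⟨v, hv⟩ : SA n) := by
    refine ext_ev fun y => ?_
    exact hZ.p a y
  rw [h, hZ.D_eq, map_sub, map_add, pd_co, Derivation.map_smul, Derivation.map_smul, map_sub,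
    map_add, map_smul, map_smul, smul_eq_mul, smul_eq_mul]
  have h2 : ev x (pd b (pd a (⟨P, hP⟩ : SA n))) = Hs P x b a := pd_pd_apply b a _ x
  have h3 : ev x (pd b (pd a (⟨v, hv⟩ : SA n))) = Hs v x b a := pd_pd_apply b a _ x
  rw [h2, h3, Hs_symm (hP.of_le (by norm_cast)) x b a, Hs_symm (hv.of_le (by norm_cast)) x b a]
  congr 2
  simp only [eq_comm]
  split_ifs <;> simp

/-- `D_c D_b p_a = s P_abc - lam v_abc` -/
theorem FactsB.DDp (hv : ContDiff ℝ ∞ v) (hP : ContDiff ℝ ∞ P) (a b c : Fin n) (x : E n) :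
    ev x (Z.D c (Z.D b (Z.p a))) = s * fderiv ℝ (fun y => Hs P y a b) x (ee c)
      - lam * fderiv ℝ (fun y => Hs v y a b) x (ee c) := by
  have h : (Z.D b (Z.p a)).1 =
      fun y => (if a = b then (1 : ℝ) else 0) + s * Hs P y a b - lam * Hs v y a b := by
    funext y
    exact hZ.Dp hv hP a b y
  have h1 : ev x (Z.D c (Z.D b (Z.p a))) = fderiv ℝ (Z.D b (Z.p a)).1 x (ee c) := hZ.D c _ x
  have hp : DifferentiableAt ℝ (fun y => Hs P y a b) x :=
    ((smooth_Hs hP a b).differentiable (by simp)) x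
  have hq : DifferentiableAt ℝ (fun y => Hs v y a b) x :=
    ((smooth_Hs hv a b).differentiable (by simp)) x
  have h2 : HasFDerivAt (fun y => (if a = b then (1 : ℝ) else 0) + s * Hs P y a b - lam * Hs v y a b)
      (s • fderiv ℝ (fun y => Hs P y a b) x - lam • fderiv ℝ (fun y => Hs v y a b) x) x :=
    ((hp.hasFDerivAt.const_mul s).const_add _).sub (hq.hasFDerivAt.const_mul lam)
  rw [h1, h, h2.fderiv]
  simp

end conv

/-- the algebra element `log det g`, and its derivatives -/
theorem FactsB.logdet {v P : E n → ℝ} {lam s lo hi : ℝ} {Z : SysB n (SA n)}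
    (hZ : FactsB P lam s v Z) (hv : ContDiff ℝ ∞ v) (hlo : 0 < lo)
    (hell : ∀ x, Ell lo hi (gm v x)) :
    ∃ LD : SA n, LD.1 = (fun y => Real.log (gm v y).det) ∧
      ∀ b, Z.D b LD = ∑ a, Z.X a * Z.g a b - Z.p b := by
  have hd : ∀ x, (gm v x).det ≠ 0 := fun x => (Ell.sm_det_pos hlo (hell x)).ne'
  refine ⟨⟨fun y => Real.log (gm v y).det,
    (XInst.contDiff_det (fun i j => ECal.smooth_gm hv i j)).log hd⟩, rfl, ?_⟩
  intro b
  rw [← Z.eq b]
  refine ext_ev fun y => ?_
  have h2 : ev y (Z.D b ⟨fun y => Real.log (gm v y).det,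
      (XInst.contDiff_det (fun i j => ECal.smooth_gm hv i j)).log hd⟩) =
      fderiv ℝ (fun y => Real.log (gm v y).det) y (ee b) := hZ.D b _ y
  rw [h2, ECal.fderiv_log_det_gm hv (hd y)]
  simp only [map_sum, map_mul]
  refine Finset.sum_congr rfl fun i _ => Finset.sum_congr rfl fun j _ => ?_
  have h3 : ev y (Z.t i j) = tauf v y i j := hZ.t i j y
  have h4 : ev y (Z.D b (Z.g i j)) = fderiv ℝ (Z.g i j).1 y (ee b) := hZ.D b _ y
  rw [h3, h4, hZ.g_fun]

end Crest.Agent.R253.BrCal
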