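import Crest.Agent.R253.BrODE_175_Mg
import Crest.Agent.R238.StepMat
import Crest.Agent.R238.StepLog
import Crest.Agent.R238.ExtInv
import Crest.Agent.R238.MaxPL
import Crest.Agent.R253.BrDefs_505
import Crest.Agent.R238.Hol4
import Mathlib
import Crest.Agent.R253.BrInst_649

-- ▼ part R253/BrKD_175
section

/-!
Row 253, T6 (smooth Brenier map), node B4 (helper175): definitions and the solution operator of
`L₀ - lam` on bounded Hölder functions as a continuous linear map.  Port of `R238/StepK`.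
-/

set_option autoImplicit false

open MeasureTheory Set Filter
open scoped ContDiff Topology BoundedContinuousFunction

namespace Crest.Agent.R253.BrSt

open Crest.Agent.R238 Crest.Agent.R238.Step Crest.Agent.R253.Br

variable {n : ℕ} {a : ℝ}

/-! ### linear lemmas -/

theorem gr_add {f g : E n → ℝ} (hf : ContDiff ℝ 2 f) (hg : ContDiff ℝ 2 g) (x : E n)
    (i : Fin n) : gr (fun x => f x + g x) x i = gr f x i + gr g x i := by
  unfold gr
  rw [fderiv_fun_add (f_diff hf x) (f_diff hg x)]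
  rfl

theorem gr_sub {f g : E n → ℝ} (hf : ContDiff ℝ 2 f) (hg : ContDiff ℝ 2 g) (x : E n)
    (i : Fin n) : gr (fun x => f x - g x) x i = gr f x i - gr g x i := by
  unfold gr
  rw [fderiv_fun_sub (f_diff hf x) (f_diff hg x)]
  rfl

theorem gr_smul {f : E n → ℝ} (c : ℝ) (hf : ContDiff ℝ 2 f) (x : E n) (i : Fin n) :
    gr (fun x => c * f x) x i = c * gr f x i := by
  unfold gr
  rw [fderiv_const_mul (f_diff hf x) c]
  rfl

/-- uniqueness for `L₀ - lam` on bounded functions -/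
theorem uniqB {lam : ℝ} (hl : 0 < lam) {v : E n → ℝ} (hv : ContDiff ℝ 2 v)
    (hb : ∃ B : ℝ, ∀ x, |v x| ≤ B)
    (h0 : ∀ x, LA (fun _ => (1 : Matrix (Fin n) (Fin n) ℝ)) v x - lam * v x = 0) :
    ∀ x, v x = 0 := by
  obtain ⟨B, hB⟩ := hb
  have hτ : ∀ x : E n, ((fun _ => (1 : Matrix (Fin n) (Fin n) ℝ)) x).PosSemidef := fun _ =>
    Matrix.PosSemidef.one
  have hT : ∀ x : E n, ((fun _ => (1 : Matrix (Fin n) (Fin n) ℝ)) x).trace ≤ (n : ℝ) := fun _ => by
    simp
  have h1 : ∀ x, v x ≤ 0 := MaxP.max_principle hτ hT hv (M := B)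
    (fun x => (le_abs_self _).trans (hB x)) hl fun x _ => by
      have := h0 x
      linarith
  have h2 : ∀ x, - v x ≤ 0 := MaxP.max_principle hτ hT hv.neg (M := B)
    (fun x => (neg_le_abs _).trans (hB x)) hl fun x _ => by
      rw [MaxP.LA_neg _ hv]
      have := h0 x
      linarith
  intro x
  have := h1 x
  have := h2 x
  linarith

/-- data of the solution operator -/
structure KDat (n : ℕ) (a lam : ℝ) where
  C : ℝ
  K : YZ n a →L[ℝ] (Fin n → Fin n → YZ n a)
  K1 : YZ n a →L[ℝ] (Fin n → YZ n a)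
  K0 : YZ n a →L[ℝ] YZ n a
  vv : YZ n a → E n → ℝ
  hC : 0 < C
  c2 : ∀ r, ContDiff ℝ 2 (vv r)
  fnK : ∀ r i j x, fn (K r i j) x = Hs (vv r) x i j
  fnK1 : ∀ r i x, fn (K1 r i) x = gr (vv r) x i
  fnK0 : ∀ r x, fn (K0 r) x = vv r x
  eqn : ∀ r x, LA (fun _ => (1 : Matrix (Fin n) (Fin n) ℝ)) (vv r) x - lam * vv r x = fn r x
  nK : ∀ r i j, ‖K r i j‖ ≤ C * ‖r‖
  nK1 : ∀ r i, ‖K1 r i‖ ≤ C * ‖r‖
  nK0 : ∀ r, ‖K0 r‖ ≤ C * ‖r‖
  uq : ∀ r (v : E n → ℝ), ContDiff ℝ 2 v → (∃ B : ℝ, ∀ x, |v x| ≤ B) →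
        (∀ x, LA (fun _ => (1 : Matrix (Fin n) (Fin n) ℝ)) v x - lam * v x = fn r x) → vv r = v

theorem exists_KDat (hS : SolB) (n : ℕ) {a lam : ℝ} (h0 : 0 < a) (h1 : a < 1) (hl : 0 < lam) :
    Nonempty (KDat n a lam) := by
  obtain ⟨C, hC, H⟩ := hS n a lam h0 h1 hl
  choose vv hvC hvs using fun r : YZ n a => H (fn r) ‖r‖ (fn_hb h0 r)
  have hvc : ∀ r, ContDiff ℝ 2 (vv r) := fun r => (hvC r).c2
  have hv0 : ∀ r, HB a (C * ‖r‖) (vv r) := fun r => (hvC r).h0
  have hv1 : ∀ r i, HB a (C * ‖r‖) (fun x => gr (vv r) x i) := fun r => (hvC r).h1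
  have hv2 : ∀ r i j, HB a (C * ‖r‖) (fun x => Hs (vv r) x i j) := fun r => (hvC r).h2
  have hu : ∀ r (v : E n → ℝ), ContDiff ℝ 2 v → (∃ B : ℝ, ∀ x, |v x| ≤ B) →
        (∀ x, LA (fun _ => (1 : Matrix (Fin n) (Fin n) ℝ)) v x - lam * v x = fn r x) →
        vv r = v := by
    rintro r v hv ⟨B, hB⟩ hs
    funext x
    have h := uniqB hl (v := fun x => vv r x - v x) ((hvc r).sub hv)
      ⟨C * ‖r‖ + B, fun x =>
        (abs_sub _ _).trans (add_le_add ((hv0 r).1 x) (hB x))⟩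
      (fun x => by
        rw [LA_sub _ (hvc r) hv]
        have h1 := hvs r x
        have h2 := hs x
        linarith) x
    linarith
  choose kk hk hkn using fun (r : YZ n a) (i j : Fin n) => exists_YZ h0 (hv2 r i j)
  choose k1 hk1 hkn1 using fun (r : YZ n a) (i : Fin n) => exists_YZ h0 (hv1 r i)
  choose k0 hk0 hkn0 using fun (r : YZ n a) => exists_YZ h0 (hv0 r)
  have hkf : ∀ r i j x, fn (kk r i j) x = Hs (vv r) x i j := fun r i j x => by rw [hk r i j]
  have hkf1 : ∀ r i x, fn (k1 r i) x = gr (vv r) x i := fun r i x => by rw [hk1 r i]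
  have hkf0 : ∀ r x, fn (k0 r) x = vv r x := fun r x => by rw [hk0 r]
  have hbd : ∀ r : YZ n a, ∃ B : ℝ, ∀ x, |vv r x| ≤ B := fun r => ⟨C * ‖r‖, (hv0 r).1⟩
  have hadd : ∀ r s, vv (r + s) = fun x => vv r x + vv s x := by
    intro r s
    obtain ⟨B, hB⟩ := hbd r
    obtain ⟨B', hB'⟩ := hbd s
    refine hu (r + s) _ ((hvc r).add (hvc s)) ⟨B + B', fun x => ?_⟩ fun x => ?_
    · exact (abs_add_le _ _).trans (add_le_add (hB x) (hB' x))
    · rw [LA_add _ (hvc r) (hvc s), fn_add, ← hvs r x, ← hvs s x]; ring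
  have hsmul : ∀ (c : ℝ) r, vv (c • r) = fun x => c * vv r x := by
    intro c r
    obtain ⟨B, hB⟩ := hbd r
    refine hu (c • r) _ (contDiff_const.mul (hvc r)) ⟨|c| * B, fun x => ?_⟩ fun x => ?_
    · rw [abs_mul]
      exact mul_le_mul_of_nonneg_left (hB x) (abs_nonneg _)
    · rw [LA_smul _ c (hvc r), fn_smul, ← hvs r x]; ring
  let K2' : YZ n a →ₗ[ℝ] (Fin n → Fin n → YZ n a) :=
    { toFun := kk
      map_add' := fun r s => by
        funext i j
        refine YZext fun x => ?_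
        rw [hkf, hadd, Hs_add (hvc r) (hvc s), Pi.add_apply, Pi.add_apply, fn_add, hkf, hkf]
      map_smul' := fun c r => by
        funext i j
        refine YZext fun x => ?_
        rw [hkf, hsmul, Hs_smul c (hvc r), RingHom.id_apply, Pi.smul_apply, Pi.smul_apply,
          fn_smul, hkf] }
  let K1' : YZ n a →ₗ[ℝ] (Fin n → YZ n a) :=
    { toFun := k1
      map_add' := fun r s => by
        funext i
        refine YZext fun x => ?_
        rw [hkf1, hadd, gr_add (hvc r) (hvc s), Pi.add_apply, fn_add, hkf1, hkf1]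
      map_smul' := fun c r => by
        funext i
        refine YZext fun x => ?_
        rw [hkf1, hsmul, gr_smul c (hvc r), RingHom.id_apply, Pi.smul_apply, fn_smul, hkf1] }
  let K0' : YZ n a →ₗ[ℝ] YZ n a :=
    { toFun := k0
      map_add' := fun r s => by
        refine YZext fun x => ?_
        rw [hkf0, hadd, fn_add, hkf0, hkf0]
      map_smul' := fun c r => by
        refine YZext fun x => ?_
        rw [hkf0, hsmul, RingHom.id_apply, fn_smul, hkf0] }
  have hK2 : ∀ r, ‖K2' r‖ ≤ C * ‖r‖ := by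
    intro r
    have hpos : 0 ≤ C * ‖r‖ := by positivity
    refine (pi_norm_le_iff_of_nonneg hpos).2 fun i => (pi_norm_le_iff_of_nonneg hpos).2 fun j => ?_
    exact hkn r i j
  have hK1 : ∀ r, ‖K1' r‖ ≤ C * ‖r‖ := by
    intro r
    have hpos : 0 ≤ C * ‖r‖ := by positivity
    exact (pi_norm_le_iff_of_nonneg hpos).2 fun i => hkn1 r i
  exact ⟨⟨C, K2'.mkContinuous C hK2, K1'.mkContinuous C hK1, K0'.mkContinuous C hkn0, vv, hC, hvc,
    hkf, hkf1, hkf0, hvs, fun r i j => hkn r i j, fun r i => hkn1 r i, fun r => hkn0 r, hu⟩⟩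

end Crest.Agent.R253.BrSt
end

-- ▼ part R253/BrStep_175
section

/-!
Row 253, T6 (smooth Brenier map), node B4 (helper175): the uniform step of the continuity method.
Port of `R238/StepMain`, `R238/StepFin` (helper487) with the quadratic drift term.
-/

set_option autoImplicit false

open MeasureTheory Set Filter Metric
open scoped ContDiff Topology BoundedContinuousFunction

namespace Crest.Agent.R253.BrSt

open Crest.Agent.R238 Crest.Agent.R238.Step Crest.Agent.R238.EStep Crest.Agent.R253.Br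

variable {n : ℕ} {a lam : ℝ}

/-- the operator `K` with values in the Banach algebra -/
noncomputable def Kt (h0 : 0 < a) (D : KDat n a lam) : YZ n a →L[ℝ] OpA n a := (MOL n h0).comp D.K

/-- the bilinear drift term `(r, ρ) ↦ ∇v_r · ∇v_ρ` -/
noncomputable def Qt (h0 : 0 < a) (D : KDat n a lam) : YZ n a →L[ℝ] YZ n a →L[ℝ] YZ n a :=
  ∑ i, (mulY h0).bilinearComp ((ContinuousLinearMap.proj i).comp D.K1)
    ((ContinuousLinearMap.proj i).comp D.K1)

variable (h0 : 0 < a) (D : KDat n a lam)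

theorem Kt_apply (r : YZ n a) : Kt h0 D r = MO h0 (D.K r) := rfl

theorem Qt_apply (r ρ : YZ n a) : Qt h0 D r ρ = ∑ i, mulY h0 (D.K1 r i) (D.K1 ρ i) := by
  simp [Qt]

theorem fn_Qt (r ρ : YZ n a) (x : E n) :
    fn (Qt h0 D r ρ) x = ∑ i, gr (D.vv r) x i * gr (D.vv ρ) x i := by
  rw [Qt_apply, fn_sum]
  exact Finset.sum_congr rfl fun i _ => by rw [mulY_fn, D.fnK1, D.fnK1]

theorem one_add_Kt (r : YZ n a) : 1 + Kt h0 D r = MO h0 (idY n h0 + D.K r) := by
  rw [← MO_id h0, Kt_apply, ← MOL_apply, ← MOL_apply, ← MOL_apply, map_add]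

theorem fn_gm (r : YZ n a) (i j : Fin n) (x : E n) :
    fn ((idY n h0 + D.K r) i j) x = gm (D.vv r) x i j := by
  rw [Pi.add_apply, Pi.add_apply, fn_add, idY_fn, D.fnK, ExtInv.gm_apply]

include h0 in
theorem cls_vv (r : YZ n a) : ClsB a (D.C * ‖r‖) (D.vv r) := by
  refine ⟨D.c2 r, ?_, fun i => ?_, fun i j => ?_⟩
  · have h := fn_hb h0 (D.K0 r)
    have h2 : fn (D.K0 r) = D.vv r := funext fun x => D.fnK0 r x
    rw [h2] at h
    exact HB.mono h (D.nK0 r)
  · have h := fn_hb h0 (D.K1 r i)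
    have h2 : fn (D.K1 r i) = fun x => gr (D.vv r) x i := funext fun x => D.fnK1 r i x
    rw [h2] at h
    exact HB.mono h (D.nK1 r i)
  · have h := fn_hb h0 (D.K r i j)
    have h2 : fn (D.K r i j) = fun x => Hs (D.vv r) x i j := funext fun x => D.fnK r i j x
    rw [h2] at h
    exact HB.mono h (D.nK r i j)

/-- the matrix field `τ` as an element of the Banach algebra is the inverse of `1 + K r` -/
theorem unit_of {r : YZ n a} {lo hi : ℝ} (hlo : 0 < lo) (hE : ∀ x, Ell lo hi (gm (D.vv r) x))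
    {τ : Fin n → Fin n → YZ n a} (hτ : ∀ i j x, fn (τ i j) x = tauf (D.vv r) x i j) :
    IsUnit (1 + Kt h0 D r) ∧ ginv (Kt h0 D) r = MO h0 τ := by
  have e1 : (1 + Kt h0 D r) * MO h0 τ = 1 := by
    rw [one_add_Kt, MO_mul, ← MO_id h0]
    congr 1
    funext i k
    refine YZext fun x => ?_
    rw [mm_fn, idY_fn]
    simp only [fn_gm, hτ]
    have := congrFun (congrFun (Ell.sm_mul_inv hlo (hE x)) i) k
    rw [← this, Matrix.mul_apply]
    rfl
  have e2 : MO h0 τ * (1 + Kt h0 D r) = 1 := by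
    rw [one_add_Kt, MO_mul, ← MO_id h0]
    congr 1
    funext i k
    refine YZext fun x => ?_
    rw [mm_fn, idY_fn]
    simp only [fn_gm, hτ]
    have := congrFun (congrFun (Ell.sm_inv_mul hlo (hE x)) i) k
    rw [← this, Matrix.mul_apply]
    rfl
  refine ⟨⟨⟨_, _, e1, e2⟩, rfl⟩, ?_⟩
  have := Ring.inverse_unit (⟨1 + Kt h0 D r, MO h0 τ, e1, e2⟩ : (OpA n a)ˣ)
  exact this

/-- the linearised operator without drift is `L_τ - lam` -/
theorem fn_DK {τ : Fin n → Fin n → YZ n a} {T : E n → Matrix (Fin n) (Fin n) ℝ}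
    (hτ : ∀ i j x, fn (τ i j) x = T x i j) (ρ : YZ n a) (x : E n) :
    fn (DK (Kt h0 D) (trY n h0) (MO h0 τ) ρ) x = LA T (D.vv ρ) x - lam * D.vv ρ x := by
  have h1 : (MO h0 τ - 1) * Kt h0 D ρ = MO h0 (mm h0 (τ - idY n h0) (D.K ρ)) := by
    rw [← MO_id h0, Kt_apply, ← MO_mul]
    congr 1
    rw [← MOL_apply, ← MOL_apply, ← MOL_apply, map_sub]
  have h2 : DK (Kt h0 D) (trY n h0) (MO h0 τ) ρ
      = ρ + trY n h0 ((MO h0 τ - 1) * Kt h0 D ρ) := rfl
  rw [h2, h1, fn_add, trY_MO]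
  simp only [mm_fn, Pi.sub_apply, fn_sub, idY_fn, hτ, D.fnK]
  rw [← D.eqn ρ x]
  unfold LA
  have h3 : ∑ i, ∑ j, (T x i j - (1 : Matrix (Fin n) (Fin n) ℝ) i j) * Hs (D.vv ρ) x j i
      = ∑ i, ∑ j, T x i j * Hs (D.vv ρ) x i j
        - ∑ i, ∑ j, (1 : Matrix (Fin n) (Fin n) ℝ) i j * Hs (D.vv ρ) x i j := by
    rw [← Finset.sum_sub_distrib]
    refine Finset.sum_congr rfl fun i _ => ?_
    rw [← Finset.sum_sub_distrib]
    refine Finset.sum_congr rfl fun j _ => ?_
    rw [ExtInv.Hs_symm (D.c2 ρ) x j i]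
    ring
  rw [h3]
  ring

/-- the linearised operator is `Lb` -/
theorem fn_DQ {r : YZ n a} {τ : Fin n → Fin n → YZ n a} {T : E n → Matrix (Fin n) (Fin n) ℝ}
    (hτ : ∀ i j x, fn (τ i j) x = T x i j) (hg : ginv (Kt h0 D) r = MO h0 τ) (ρ : YZ n a)
    (x : E n) :
    fn (DQ (Kt h0 D) (trY n h0) (Qt h0 D) r ρ) x = Lb lam (gr (D.vv r)) T (D.vv ρ) x := by
  have h1 : DQ (Kt h0 D) (trY n h0) (Qt h0 D) r ρ
      = DK (Kt h0 D) (trY n h0) (MO h0 τ) ρ - Qt h0 D r ρ := by
    unfold DQ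
    rw [hg]
    rfl
  rw [h1, fn_sub, fn_DK h0 D hτ, fn_Qt]
  unfold Lb
  ring

include h0 in
/-- the matrix `τ` as a matrix of `YZ` functions -/
theorem exists_tau {v : E n → ℝ} {lo hi M : ℝ} (hlo : 0 < lo) (hhi : lo ≤ hi)
    (hv : ClsB a M v) (hE : ∀ x, Ell lo hi (gm v x)) :
    ∃ τ : Fin n → Fin n → YZ n a, (∀ i j x, fn (τ i j) x = tauf v x i j) ∧
      ∀ i j, ‖τ i j‖ ≤ 1 / lo + (n : ℝ) ^ 2 * (1 / lo) ^ 2 * (1 + |M|) := by
  have hgm : ∀ i j, HB a (1 + |M|) (fun x => gm v x i j) := by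
    intro i j
    have h1 : HB a 1 (fun _ : E n => (1 : Matrix (Fin n) (Fin n) ℝ) i j) := by
      have h2 := HB.const (n := n) (a := a) ((1 : Matrix (Fin n) (Fin n) ℝ) i j)
      refine HB.mono h2 ?_
      rw [Matrix.one_apply]; split_ifs <;> simp
    have h3 := HB.add h1 (HB.mono (hv.h2 i j) (le_abs_self M))
    have h4 : (fun x => gm v x i j)
        = fun x => (1 : Matrix (Fin n) (Fin n) ℝ) i j + Hs v x i j := funext fun x => by
      rw [ExtInv.gm_apply]
    rw [h4]; exact h3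
  choose τ h1 h2 using fun i j => exists_YZ h0
    (ExtInv.hb_inv hlo (hlo.trans_le hhi) hE hgm i j)
  refine ⟨τ, fun i j x => by rw [h1]; rfl, fun i j => ?_⟩
  have := h2 i j
  rwa [abs_of_nonneg (by positivity : (0 : ℝ) ≤ 1 + |M|)] at this

/-- `L₀ h - lam h` in terms of `Lb` -/
theorem L0_eq_Lb (b : E n → Fin n → ℝ) (T : E n → Matrix (Fin n) (Fin n) ℝ) (h : E n → ℝ)
    (x : E n) : LA (fun _ => (1 : Matrix (Fin n) (Fin n) ℝ)) h x - lam * h x
      = Lb lam b T h x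
        + (∑ i, ∑ j, ((1 : Matrix (Fin n) (Fin n) ℝ) i j - T x i j) * Hs h x i j
          + ∑ i, b x i * gr h x i) := by
  unfold Lb LA
  simp only [sub_mul, Finset.sum_sub_distrib]
  ring

/-- Hölder bound of the correction -/
theorem hb_corr {M Cτ B : ℝ} {b : E n → Fin n → ℝ} {T : E n → Matrix (Fin n) (Fin n) ℝ}
    {h : E n → ℝ} (hb : ∀ i, HB a |M| (fun x => b x i)) (hT : ∀ i j, HB a |Cτ| (fun x => T x i j))
    (hh : ClsB a B h) :
    HB a ((n : ℝ) ^ 2 * (2 * (1 + |Cτ|) * B) + n * (2 * |M| * B)) (fun x =>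
      ∑ i, ∑ j, ((1 : Matrix (Fin n) (Fin n) ℝ) i j - T x i j) * Hs h x i j
          + ∑ i, b x i * gr h x i) := by
  have h2 : ∀ i j, HB a (2 * (1 + |Cτ|) * B) (fun x =>
      ((1 : Matrix (Fin n) (Fin n) ℝ) i j - T x i j) * Hs h x i j) := by
    intro i j
    refine HB.mul ?_ (hh.h2 i j)
    have h3 : HB a 1 (fun _ : E n => (1 : Matrix (Fin n) (Fin n) ℝ) i j) := by
      have h2 := HB.const (n := n) (a := a) ((1 : Matrix (Fin n) (Fin n) ℝ) i j)
      refine HB.mono h2 ?_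
      rw [Matrix.one_apply]; split_ifs <;> simp
    exact HB.sub h3 (hT i j)
  have h3 : ∀ i, HB a (2 * |M| * B) (fun x => b x i * gr h x i) := fun i =>
    HB.mul (hb i) (hh.h1 i)
  have h4 := HB.add (HB.sum Finset.univ fun i _ => HB.sum Finset.univ fun j _ => h2 i j)
    (HB.sum Finset.univ fun i _ => h3 i)
  refine HB.mono h4 (le_of_eq ?_)
  simp
  ring

/-- antilipschitz bound of the linearised operator -/
theorem antilip {r : YZ n a} {v : E n → ℝ} (hr : D.vv r = v) {M M2 Cτ : ℝ}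
    (hv : ClsB a M v) (hA : AprB a lam M2 (gr v) (tauf v))
    {τ : Fin n → Fin n → YZ n a} (hτ : ∀ i j x, fn (τ i j) x = tauf v x i j)
    (hτn : ∀ i j, ‖τ i j‖ ≤ Cτ) (hg : ginv (Kt h0 D) r = MO h0 τ) (ρ : YZ n a) :
    ‖ρ‖ ≤ (1 + ((n : ℝ) ^ 2 * (2 * (1 + |Cτ|) * |M2|) + n * (2 * |M| * |M2|))) *
      ‖DQ (Kt h0 D) (trY n h0) (Qt h0 D) r ρ‖ := by
  set N : ℝ := ‖DQ (Kt h0 D) (trY n h0) (Qt h0 D) r ρ‖ with hN
  have hN0 : 0 ≤ N := norm_nonneg _
  have hf : HB a N (Lb lam (gr v) (tauf v) (D.vv ρ)) := by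
    have h := fn_hb h0 (DQ (Kt h0 D) (trY n h0) (Qt h0 D) r ρ)
    have h2 : fn (DQ (Kt h0 D) (trY n h0) (Qt h0 D) r ρ)
        = Lb lam (gr v) (tauf v) (D.vv ρ) := funext fun x => by
      rw [fn_DQ h0 D hτ hg ρ x, hr]
    rwa [h2] at h
  have hH := hA (D.vv ρ) N ⟨_, cls_vv h0 D ρ⟩ hf
  have hle : M2 * N ≤ |M2| * N := mul_le_mul_of_nonneg_right (le_abs_self _) hN0
  have hH' : ClsB a (|M2| * N) (D.vv ρ) :=
    ⟨hH.c2, HB.mono hH.h0 hle, fun i => HB.mono (hH.h1 i) hle, fun i j => HB.mono (hH.h2 i j) hle⟩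
  refine YZ_norm_le h0 ?_
  have h1 : fn ρ = fun x => Lb lam (gr v) (tauf v) (D.vv ρ) x
      + (∑ i, ∑ j, ((1 : Matrix (Fin n) (Fin n) ℝ) i j - tauf v x i j) * Hs (D.vv ρ) x i j
        + ∑ i, gr v x i * gr (D.vv ρ) x i) := by
    funext x
    rw [← D.eqn ρ x]
    exact L0_eq_Lb _ _ _ _
  rw [h1]
  have hT : ∀ i j, HB a |Cτ| (fun x => tauf v x i j) := by
    intro i j
    have h5 := HB.mono (fn_hb h0 (τ i j)) ((hτn i j).trans (le_abs_self _))
    have h6 : fn (τ i j) = fun x => tauf v x i j := funext fun x => hτ i j x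
    rwa [h6] at h5
  have hb : ∀ i, HB a |M| (fun x => gr v x i) := fun i => HB.mono (hv.h1 i) (le_abs_self _)
  have h3 := HB.add hf (hb_corr hb hT hH')
  refine HB.mono h3 (le_of_eq ?_)
  ring

/-- the linearised operator is invertible -/
theorem isUnit_DQ {r : YZ n a} {v : E n → ℝ} (hr : D.vv r = v) {M M2 Cτ : ℝ}
    (hv : ClsB a M v) (hA : AprB a lam M2 (gr v) (tauf v))
    (hSr : SrjB a lam (gr v) (tauf v))
    {τ : Fin n → Fin n → YZ n a} (hτ : ∀ i j x, fn (τ i j) x = tauf v x i j)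
    (hτn : ∀ i j, ‖τ i j‖ ≤ Cτ) (hg : ginv (Kt h0 D) r = MO h0 τ) :
    IsUnit (DQ (Kt h0 D) (trY n h0) (Qt h0 D) r) := by
  rw [ContinuousLinearMap.isUnit_iff_bijective]
  constructor
  · rw [injective_iff_map_eq_zero]
    intro ρ hρ
    have := antilip h0 D hr hv hA hτ hτn hg ρ
    rw [hρ, norm_zero, mul_zero] at this
    exact norm_le_zero_iff.1 this
  · intro y
    obtain ⟨h, ⟨B, hB⟩, hh⟩ := hSr (fn y) ‖y‖ (fn_hb h0 y)
    have hT : ∀ i j, HB a |Cτ| (fun x => tauf v x i j) := by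
      intro i j
      have h5 := HB.mono (fn_hb h0 (τ i j)) ((hτn i j).trans (le_abs_self _))
      have h6 : fn (τ i j) = fun x => tauf v x i j := funext fun x => hτ i j x
      rwa [h6] at h5
    have hb : ∀ i, HB a |M| (fun x => gr v x i) := fun i => HB.mono (hv.h1 i) (le_abs_self _)
    have h3 := HB.add (fn_hb h0 y) (hb_corr hb hT hB)
    obtain ⟨ρ, hρ, -⟩ := exists_YZ h0 h3
    refine ⟨ρ, ?_⟩
    have hvv : D.vv ρ = h := D.uq ρ h hB.c2 ⟨B, hB.h0.1⟩ fun x => by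
      rw [hρ, L0_eq_Lb (gr v) (tauf v), hh]
    refine YZext fun x => ?_
    rw [fn_DQ h0 D hτ hg, hvv, hr, hh]

/-- solvability from invertibility -/
theorem srj_of {r : YZ n a} {τ : Fin n → Fin n → YZ n a}
    (hτ : ∀ i j x, fn (τ i j) x = tauf (D.vv r) x i j) (hg : ginv (Kt h0 D) r = MO h0 τ)
    (hU : IsUnit (DQ (Kt h0 D) (trY n h0) (Qt h0 D) r)) :
    SrjB a lam (gr (D.vv r)) (tauf (D.vv r)) := by
  intro f N hf
  obtain ⟨y, hy, -⟩ := exists_YZ h0 hf
  obtain ⟨ρ, hρ⟩ := (ContinuousLinearMap.isUnit_iff_bijective.1 hU).2 y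
  refine ⟨D.vv ρ, ⟨_, cls_vv h0 D ρ⟩, fun x => ?_⟩
  rw [← fn_DQ h0 D hτ hg, hρ, hy]

theorem sum_one_mul_Hs (v : E n → ℝ) (x : E n) :
    ∑ i, ∑ j, (1 : Matrix (Fin n) (Fin n) ℝ) i j * Hs v x i j = ∑ i, Hs v x i i := by
  refine Finset.sum_congr rfl fun i _ => ?_
  rw [Finset.sum_eq_single i]
  · simp
  · intro j _ hj; simp [hj.symm]
  · simp

include h0 in
/-- a solution of the Monge-Ampere equation is `vv r` -/
theorem exists_r {v P : E n → ℝ} {s M NP : ℝ} (hv : ClsB a M v) (hP : HB a NP P)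
    (hMA : MAb P lam s v) (hL : ∃ N, HB a N (fun x => Real.log (gm v x).det)) :
    ∃ r : YZ n a, D.vv r = v := by
  obtain ⟨N, hN⟩ := hL
  have h1 : (fun x => LA (fun _ => (1 : Matrix (Fin n) (Fin n) ℝ)) v x - lam * v x)
      = fun x => (∑ i, Hs v x i i) + ((- Real.log (gm v x).det + (-s) * P x)
        + (1 / 2) * ∑ i, gr v x i * gr v x i) := by
    funext x
    have h2 := hMA x
    unfold LA
    rw [sum_one_mul_Hs]
    simp only [sq] at h2
    linarith
  have h2 := HB.add (HB.sum Finset.univ fun i _ => hv.h2 i i)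
    (HB.add (HB.add (HB.neg hN) (HB.const_mul (-s) hP))
      (HB.const_mul (1 / 2) (HB.sum Finset.univ fun i _ => HB.mul (hv.h1 i) (hv.h1 i))))
  obtain ⟨r, hr, -⟩ := exists_YZ h0 h2
  refine ⟨r, D.uq r v hv.c2 ⟨M, hv.h0.1⟩ fun x => ?_⟩
  rw [hr]
  exact congrFun h1 x

/-- value of the Monge-Ampere functional in terms of `r` -/
theorem ma_fn (r : YZ n a) (x : E n) :
    - fderiv ℝ (D.vv r) x x - lam * D.vv r x = fn r x - ∑ i, fn (D.K r i i) x := by
  rw [← D.eqn r x]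
  unfold LA
  have h3 : ∑ i, ∑ j, (1 : Matrix (Fin n) (Fin n) ℝ) i j * Hs (D.vv r) x i j
      = ∑ i, fn (D.K r i i) x := by
    rw [sum_one_mul_Hs]
    exact Finset.sum_congr rfl fun i _ => (D.fnK r i i x).symm
  rw [h3]; ring

/-- the Monge-Ampere equation is preserved along the ODE -/
theorem ma_path {P : E n → ℝ} {PY : YZ n a} (hPY : ∀ x, fn PY x = P x) {s s' lo hi : ℝ}
    (hs : s ≤ s') (hlo : 0 < lo) {α : ℝ → YZ n a}
    (hE : ∀ t ∈ Icc s s', ∀ x, Ell lo hi (gm (D.vv (α t)) x))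
    (hτ : ∀ t ∈ Icc s s', ∃ τ : Fin n → Fin n → YZ n a,
      ∀ i j x, fn (τ i j) x = tauf (D.vv (α t)) x i j)
    (hG : ∀ t ∈ Icc s s', GoodQ (Kt h0 D) (trY n h0) (Qt h0 D) (α t) ∧
      HasDerivWithinAt α (vfQ (Kt h0 D) (trY n h0) (Qt h0 D) PY (α t)) (Icc s s') t)
    (h : MAb P lam s (D.vv (α s))) : MAb P lam s' (D.vv (α s')) := by
  intro x
  set φ : ℝ → ℝ := fun t => Real.log (gm (D.vv (α t)) x).det
    + (fn (α t) x - ∑ i, fn (D.K (α t) i i) x)
    + (- (∑ i, fn (D.K1 (α t) i) x * fn (D.K1 (α t) i) x) / 2) + t * P x with hφ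
  have hd : ∀ t ∈ Icc s s', HasDerivWithinAt φ 0 (Icc s s') t := by
    intro t ht
    obtain ⟨hg, hder⟩ := hG t ht
    obtain ⟨τ, hτt⟩ := hτ t ht
    have hu := unit_of h0 D hlo (hE t ht) hτt
    set β : YZ n a := vfQ (Kt h0 D) (trY n h0) (Qt h0 D) PY (α t) with hβ
    -- evaluation maps
    have e1 : HasDerivWithinAt (fun t => fn (α t) x) (fn β x) (Icc s s') t :=
      (evY h0 x).hasFDerivAt.comp_hasDerivWithinAt t hder
    have e2 : ∀ i j, HasDerivWithinAt (fun t => fn (D.K (α t) i j) x) (fn (D.K β i j) x)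
        (Icc s s') t := by
      intro i j
      have hK1 : HasDerivWithinAt (fun t => D.K (α t)) (D.K β) (Icc s s') t :=
        D.K.hasFDerivAt.comp_hasDerivWithinAt t hder
      have hK2 : HasDerivWithinAt (fun t => D.K (α t) i j) (D.K β i j) (Icc s s') t :=
        (hasDerivWithinAt_pi.1 ((hasDerivWithinAt_pi.1 hK1) i)) j
      exact (evY h0 x).hasFDerivAt.comp_hasDerivWithinAt t hK2
    have e2' : ∀ i, HasDerivWithinAt (fun t => fn (D.K1 (α t) i) x) (fn (D.K1 β i) x)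
        (Icc s s') t := by
      intro i
      have hK1 : HasDerivWithinAt (fun t => D.K1 (α t)) (D.K1 β) (Icc s s') t :=
        D.K1.hasFDerivAt.comp_hasDerivWithinAt t hder
      have hK2 : HasDerivWithinAt (fun t => D.K1 (α t) i) (D.K1 β i) (Icc s s') t :=
        (hasDerivWithinAt_pi.1 hK1) i
      exact (evY h0 x).hasFDerivAt.comp_hasDerivWithinAt t hK2
    have e3 : HasDerivWithinAt (fun t => Real.log (gm (D.vv (α t)) x).det)
        (∑ i, ∑ j, (gm (D.vv (α t)) x)⁻¹ i j * Hs (D.vv β) x i j) (Icc s s') t := by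
      refine sm_hasDerivWithinAt_log_det_sum (g := fun t => gm (D.vv (α t)) x)
        (g' := Matrix.of fun i j => Hs (D.vv β) x i j) ?_ ?_ (Ell.sm_det_pos hlo (hE t ht x))
      · intro i j
        have h1 := (e2 i j).const_add ((1 : Matrix (Fin n) (Fin n) ℝ) i j)
        have h2 : (fun t => gm (D.vv (α t)) x i j)
            = fun t => (1 : Matrix (Fin n) (Fin n) ℝ) i j + fn (D.K (α t) i j) x :=
          funext fun t => by rw [ExtInv.gm_apply, D.fnK]
        rw [D.fnK] at h1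
        show HasDerivWithinAt (fun t => gm (D.vv (α t)) x i j) (Hs (D.vv β) x i j) _ _
        rw [h2]
        exact h1
      · intro i j
        exact ExtInv.Hs_symm (D.c2 β) x i j
    have e4 : HasDerivWithinAt (fun t => ∑ i, fn (D.K (α t) i i) x) (∑ i, fn (D.K β i i) x)
        (Icc s s') t := HasDerivWithinAt.fun_sum fun i _ => e2 i i
    have e4' : HasDerivWithinAt (fun t => ∑ i, fn (D.K1 (α t) i) x * fn (D.K1 (α t) i) x)
        (∑ i, (fn (D.K1 β i) x * fn (D.K1 (α t) i) x + fn (D.K1 (α t) i) x * fn (D.K1 β i) x))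
        (Icc s s') t := HasDerivWithinAt.fun_sum fun i _ => (e2' i).mul (e2' i)
    have e5 : HasDerivWithinAt (fun t : ℝ => t * P x) (1 * P x) (Icc s s') t :=
      (hasDerivWithinAt_id t _).mul_const _
    have e6 := ((e3.add (e1.sub e4)).add (e4'.neg.div_const 2)).add e5
    -- the value of the derivative
    have hDQ : DQ (Kt h0 D) (trY n h0) (Qt h0 D) (α t) β = -PY := by
      rw [hβ, vfQ, map_neg]
      have := Ring.mul_inverse_cancel _ hg.2
      calc -(DQ (Kt h0 D) (trY n h0) (Qt h0 D) (α t))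
            ((Ring.inverse (DQ (Kt h0 D) (trY n h0) (Qt h0 D) (α t))) PY)
          = -((DQ (Kt h0 D) (trY n h0) (Qt h0 D) (α t) *
            Ring.inverse (DQ (Kt h0 D) (trY n h0) (Qt h0 D) (α t))) PY) := rfl
        _ = -PY := by rw [this]; rfl
    have hval : (∑ i, ∑ j, (gm (D.vv (α t)) x)⁻¹ i j * Hs (D.vv β) x i j)
        + (fn β x - ∑ i, fn (D.K β i i) x)
        + (- (∑ i, (fn (D.K1 β i) x * fn (D.K1 (α t) i) x
          + fn (D.K1 (α t) i) x * fn (D.K1 β i) x)) / 2) + 1 * P x = 0 := by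
      have h1 : fn (DQ (Kt h0 D) (trY n h0) (Qt h0 D) (α t) β) x = fn (-PY) x := by
        rw [hDQ]
      rw [fn_DQ h0 D hτt hu.2, fn_neg, hPY] at h1
      rw [← ma_fn D β x]
      have h2 : ∑ i, (fn (D.K1 β i) x * fn (D.K1 (α t) i) x
          + fn (D.K1 (α t) i) x * fn (D.K1 β i) x)
          = 2 * ∑ i, gr (D.vv (α t)) x i * gr (D.vv β) x i := by
        rw [Finset.mul_sum]
        refine Finset.sum_congr rfl fun i _ => ?_
        rw [D.fnK1, D.fnK1]; ring
      rw [h2]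
      unfold Lb LA tauf at h1
      linarith
    have e7 : HasDerivWithinAt φ ((∑ i, ∑ j, (gm (D.vv (α t)) x)⁻¹ i j * Hs (D.vv β) x i j)
        + (fn β x - ∑ i, fn (D.K β i i) x)
        + (- (∑ i, (fn (D.K1 β i) x * fn (D.K1 (α t) i) x
          + fn (D.K1 (α t) i) x * fn (D.K1 β i) x)) / 2) + 1 * P x) (Icc s s') t := e6
    rwa [hval] at e7
  have hconst : φ s' = φ s := by
    have := (convex_Icc s s').norm_image_sub_le_of_norm_hasDerivWithin_le (f := φ)
      (f' := fun _ => 0) (C := 0) hd (fun _ _ => by simp) (left_mem_Icc.2 hs)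
      (right_mem_Icc.2 hs)
    rw [zero_mul] at this
    exact sub_eq_zero.1 (norm_le_zero_iff.1 this)
  have h1 := h x
  have h2 := ma_fn D (α s) x
  have h3 := ma_fn D (α s') x
  have h4 : ∀ t, ∑ i, fn (D.K1 (α t) i) x * fn (D.K1 (α t) i) x
      = ∑ i, gr (D.vv (α t)) x i ^ 2 := fun t =>
    Finset.sum_congr rfl fun i _ => by rw [D.fnK1]; ring
  simp only [hφ, h4] at hconst
  linarith

include h0 in
theorem cls_diff (r r' : YZ n a) : ClsB a (D.C * ‖r - r'‖) (fun x => D.vv r x - D.vv r' x) := by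
  refine ⟨(D.c2 r).sub (D.c2 r'), ?_, fun i => ?_, fun i j => ?_⟩
  · have h := HB.mono (fn_hb h0 (D.K0 (r - r'))) (D.nK0 (r - r'))
    have h2 : fn (D.K0 (r - r')) = fun x => D.vv r x - D.vv r' x := by
      funext x
      rw [map_sub, fn_sub, D.fnK0, D.fnK0]
    rwa [h2] at h
  · have h := HB.mono (fn_hb h0 (D.K1 (r - r') i)) (D.nK1 (r - r') i)
    have h2 : fn (D.K1 (r - r') i) = fun x => gr (fun x => D.vv r x - D.vv r' x) x i := by
      funext x
      rw [map_sub, Pi.sub_apply, fn_sub, D.fnK1, D.fnK1, gr_sub (D.c2 r) (D.c2 r')]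
    rwa [h2] at h
  · have h := HB.mono (fn_hb h0 (D.K (r - r') i j)) (D.nK (r - r') i j)
    have h2 : fn (D.K (r - r') i j) = fun x => Hs (fun x => D.vv r x - D.vv r' x) x i j := by
      funext x
      rw [map_sub, Pi.sub_apply, Pi.sub_apply, fn_sub, D.fnK, D.fnK, Hs_sub (D.c2 r) (D.c2 r')]
    rwa [h2] at h

end Crest.Agent.R253.BrSt
end

-- ▼ part R253/StepB_175
section

/-!
Row 253, T6 (smooth Brenier map), node B4 (helper175): `stepB : SolB → StepB`.
Port of `R238/StepFin` (helper487).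
-/

set_option autoImplicit false

open MeasureTheory Set Filter Metric
open scoped ContDiff Topology BoundedContinuousFunction

namespace Crest.Agent.R253.Br

open Crest.Agent.R238 Crest.Agent.R238.Step Crest.Agent.R238.EStep Crest.Agent.R253.BrSt

/-- **B4**: the uniform step of the continuity method. -/
theorem stepB (hS : SolB) : StepB := by
  intro n a lam lo hi M M2 NP δ h0 h1 hlam _ hlo hhi hδ
  obtain ⟨D⟩ := exists_KDat hS n h0 h1 hlam
  -- constants
  set Cτ : ℝ := 1 / lo + (n : ℝ) ^ 2 * (1 / lo) ^ 2 * (1 + |M|) with hCτ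
  have hCτ0 : 0 < Cτ := by positivity
  set M0 : ℝ := 2 * n * Cτ + 1 with hM0
  have hM00 : 0 < M0 := by positivity
  set M2' : ℝ := 1 + ((n : ℝ) ^ 2 * (2 * (1 + |Cτ|) * |M2|) + n * (2 * |M| * |M2|)) with hM2'
  have hM20 : 0 < M2' := by positivity
  set δ₁ : ℝ := min δ (lo / (2 * (n + 1))) with hδ₁
  have hδ₁0 : 0 < δ₁ := by positivity
  set d0 : ℝ := δ₁ / D.C with hd0
  have hC := D.hC
  have hd00 : 0 < d0 := by positivity
  obtain ⟨t₀, ht₀, H⟩ := ode_stepQ (Kt h0 D) (trY n h0) (Qt h0 D) (max NP 0) M0 M2' d0 hM00 hM20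
    hd00 (le_max_right _ _)
  refine ⟨t₀, ht₀, ?_⟩
  intro P hP s v hv hE hMA hA hSr s' hs'
  obtain ⟨PY, hPY, hPYn⟩ := exists_YZ h0 hP
  have hgm : ∀ i j, HB a (1 + |M|) (fun x => gm v x i j) := by
    intro i j
    have h1 : HB a 1 (fun _ : E n => (1 : Matrix (Fin n) (Fin n) ℝ) i j) := by
      have h2 := HB.const (n := n) (a := a) ((1 : Matrix (Fin n) (Fin n) ℝ) i j)
      refine HB.mono h2 ?_
      rw [Matrix.one_apply]; split_ifs <;> simp
    have h3 := HB.add h1 (HB.mono (hv.h2 i j) (le_abs_self M))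
    have h4 : (fun x => gm v x i j)
        = fun x => (1 : Matrix (Fin n) (Fin n) ℝ) i j + Hs v x i j := funext fun x => by
      rw [ExtInv.gm_apply]
    rw [h4]; exact h3
  have hL : ∃ N, HB a N (fun x => Real.log (gm v x).det) :=
    hb_logdet h0 hlo hE hgm
  obtain ⟨r, hr⟩ := exists_r h0 D hv hP hMA hL
  obtain ⟨τ, hτ, hτn⟩ := exists_tau h0 hlo hhi hv hE
  have hτr : ∀ i j x, fn (τ i j) x = tauf (D.vv r) x i j := by rw [hr]; exact hτ
  have hEr : ∀ x, Ell lo hi (gm (D.vv r) x) := by rw [hr]; exact hE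
  have hu := unit_of h0 D hlo hEr hτr
  have hUD : IsUnit (DQ (Kt h0 D) (trY n h0) (Qt h0 D) r) :=
    isUnit_DQ h0 D hr hv hA hSr hτ hτn hu.2
  have hG0 : GoodQ (Kt h0 D) (trY n h0) (Qt h0 D) r := ⟨hu.1, hUD⟩
  have hi0 : ‖ginv (Kt h0 D) r‖ ≤ M0 := by
    rw [hu.2]
    refine (MO_norm h0 τ).trans ?_
    have : ‖τ‖ ≤ Cτ := (pi_norm_le_iff_of_nonneg hCτ0.le).2 fun i =>
      (pi_norm_le_iff_of_nonneg hCτ0.le).2 fun j => hτn i j
    have h2 : 2 * (n : ℝ) * ‖τ‖ ≤ 2 * n * Cτ := by gcongr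
    linarith
  have hi2 : ‖Ring.inverse (DQ (Kt h0 D) (trY n h0) (Qt h0 D) r)‖ ≤ M2' :=
    inverse_le_of_antilip hUD hM20.le (antilip h0 D hr hv hA hτ hτn hu.2)
  obtain ⟨α, hα0, hα⟩ := H PY (hPYn.trans (le_max_left _ _)) r hG0 hi0 hi2 s
  have hsub : Icc s s' ⊆ Icc s (s + t₀) := Icc_subset_Icc le_rfl hs'.2
  -- closeness along the path
  have hclose : ∀ t ∈ Icc s s', ClsB a δ₁ (fun x => D.vv (α t) x - v x) := by
    intro t ht
    have h1 := cls_diff h0 D (α t) r
    rw [hr] at h1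
    have hle : D.C * ‖α t - r‖ ≤ δ₁ := by
      calc D.C * ‖α t - r‖ ≤ D.C * d0 := by
            gcongr; exact (hα t (hsub ht)).2.2
        _ = δ₁ := by rw [hd0]; field_simp
    exact ⟨h1.c2, HB.mono h1.h0 hle, fun i => HB.mono (h1.h1 i) hle,
      fun i j => HB.mono (h1.h2 i j) hle⟩
  have hclose2 : ∀ t ∈ Icc s s', ∀ i j,
      HB a δ₁ (fun x => Hs (D.vv (α t)) x i j - Hs v x i j) := by
    intro t ht i j
    have h1 := (hclose t ht).h2 i j
    have h2 : (fun x => Hs (fun x => D.vv (α t) x - v x) x i j)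
        = fun x => Hs (D.vv (α t)) x i j - Hs v x i j := by
      funext x; exact Step.Hs_sub (D.c2 _) hv.c2 x i j
    rwa [h2] at h1
  have hEll : ∀ t ∈ Icc s s', ∀ x, Ell (lo / 2) (hi + lo / 2) (gm (D.vv (α t)) x) := by
    intro t ht x
    have h1 : gm (D.vv (α t)) x
        = gm v x + Matrix.of (fun i j => Hs (D.vv (α t)) x i j - Hs v x i j) := by
      ext i j
      rw [Matrix.add_apply, ExtInv.gm_apply, ExtInv.gm_apply, Matrix.of_apply]; ring
    rw [h1]
    refine Ell.sm_add_small hlo.le (hE x) (fun i j => ?_) (fun i j => ?_)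
    · rw [Matrix.of_apply, Matrix.of_apply, ExtInv.Hs_symm (D.c2 (α t)) x i j,
        ExtInv.Hs_symm hv.c2 x i j]
    · rw [Matrix.of_apply]
      refine ((hclose2 t ht i j).1 x).trans ?_
      refine (min_le_right _ _).trans ?_
      have hn : (0 : ℝ) < n := by
        have : 0 < n := Fin.pos i
        exact_mod_cast this
      exact div_le_div_of_nonneg_left hlo.le (by positivity) (by linarith)
  have hcls : ∀ t ∈ Icc s s', ClsB a (M + δ) (D.vv (α t)) := by
    intro t ht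
    have hc := hclose t ht
    have hm : δ₁ ≤ δ := min_le_left _ _
    refine ⟨D.c2 _, ?_, fun i => ?_, fun i j => ?_⟩
    · have h1 := HB.add hv.h0 (HB.mono hc.h0 hm)
      have h2 : (fun x => v x + (D.vv (α t) x - v x)) = D.vv (α t) := by funext x; ring
      rwa [h2] at h1
    · have h1 := HB.add (hv.h1 i) (HB.mono (hc.h1 i) hm)
      have h2 : (fun x => gr v x i + gr (fun x => D.vv (α t) x - v x) x i)
          = fun x => gr (D.vv (α t)) x i := by
        funext x; rw [gr_sub (D.c2 _) hv.c2]; ring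
      rwa [h2] at h1
    · have h1 := HB.add (hv.h2 i j) (HB.mono (hclose2 t ht i j) hm)
      have h2 : (fun x => Hs v x i j + (Hs (D.vv (α t)) x i j - Hs v x i j))
          = fun x => Hs (D.vv (α t)) x i j := by funext x; ring
      rwa [h2] at h1
  have hhi2 : lo / 2 ≤ hi + lo / 2 := by linarith
  have htau : ∀ t ∈ Icc s s', ∃ τ : Fin n → Fin n → YZ n a,
      ∀ i j x, fn (τ i j) x = tauf (D.vv (α t)) x i j := by
    intro t ht
    obtain ⟨τ', h1, -⟩ := exists_tau h0 (half_pos hlo) hhi2 (hcls t ht) (hEll t ht)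
    exact ⟨τ', h1⟩
  have hs1 : s' ∈ Icc s s' := ⟨hs'.1, le_rfl⟩
  refine ⟨D.vv (α s'), hcls s' hs1, fun i j => HB.mono (hclose2 s' hs1 i j) (min_le_left _ _),
    hEll s' hs1, ?_, ?_⟩
  · refine ma_path h0 D (fun x => congrFun hPY x) hs'.1 (half_pos hlo) hEll htau
      (fun t ht => ⟨(hα t (hsub ht)).1, (hα t (hsub ht)).2.1.mono hsub⟩) ?_
    rw [hα0, hr]; exact hMA
  · obtain ⟨τ', h1⟩ := htau s' hs1
    have hu' := unit_of h0 D (half_pos hlo) (hEll s' hs1) h1
    exact srj_of h0 D h1 hu'.2 (hα s' (hsub hs1)).1.2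

end Crest.Agent.R253.Br
end

-- ▼ part R253/SolB_932
section

/-!
Row 253 (T6, node B1, helper932): the resolvent of the Ornstein-Uhlenbeck operator,
`(L₀ - lam) v = r` with `L₀ v = Δ v - x·∇v`, `lam > 0`, for bounded Hölder `r` (no evenness).
`v = -∫₀^∞ e^{-lam t} P_t r dt`, parametrisation `e^{-t} = cos φ` (port of R238 Hol1 / Hol4).
-/

set_option autoImplicit false
set_option maxSynthPendingDepth 3

open MeasureTheory Set Filter SchwartzMap
open scoped ContDiff Topology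

namespace Crest.Agent.R253.Br

open Crest.Agent.R238 Crest.Agent.R238.HolK

variable {n : ℕ}

/-- facts about the heat family which are used -/
structure HFL (a C N : ℝ) (r : E n → ℝ) (F : ℝ → E n → ℝ)
    (F1 : ℝ → E n → (E n →L[ℝ] ℝ)) (F2 : ℝ → E n → (E n →L[ℝ] E n →L[ℝ] ℝ)) : Prop where
  nn : 0 ≤ C
  nN : 0 ≤ N
  zero : ∀ x, F 0 x = r x
  d1 : ∀ s, 0 < s → ∀ x, HasFDerivAt (F s) (F1 s x) x
  d2 : ∀ s, 0 < s → ∀ x, HasFDerivAt (F1 s) (F2 s x) x
  b0 : ∀ s, 0 < s → ∀ x, |F s x| ≤ N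
  b1 : ∀ s, 0 < s → ∀ x, ‖F1 s x‖ ≤ C * s ^ (a - 1)
  b2 : ∀ s, 0 < s → ∀ x, ‖F2 s x‖ ≤ C * s ^ (a - 2)
  b3 : ∀ s, 0 < s → ∀ x y, ‖F2 s x - F2 s y‖ ≤ C * s ^ (a - 3) * ‖x - y‖
  cF : Continuous fun q : ℝ × E n => F q.1 q.2
  c1 : ContinuousOn (fun q : ℝ × E n => F1 q.1 q.2) (Ioi 0 ×ˢ univ)
  c2 : ContinuousOn (fun q : ℝ × E n => F2 q.1 q.2) (Ioi 0 ×ˢ univ)
  dp : ∀ x, ∀ p ∈ JJ, HasDerivAt (fun p => F (Real.sin p) (Real.cos p • x))
    (Real.cos p * Real.sin p * trB (F2 (Real.sin p) (Real.cos p • x))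
      - Real.sin p * F1 (Real.sin p) (Real.cos p • x) x) p

/-! ### the weight `cos^(lam-1) sin` -/

theorem cos_rpow_deriv {lam : ℝ} {p : ℝ} (hp : p ∈ JJ) :
    HasDerivAt (fun p : ℝ => Real.cos p ^ lam)
      (-(lam * (Real.cos p ^ (lam - 1) * Real.sin p))) p := by
  have hc := JJ.cos_pos hp
  have h := (Real.hasDerivAt_cos p).rpow_const (p := lam) (Or.inl hc.ne')
  refine h.congr_deriv ?_
  ring

theorem wt_int {lam : ℝ} (hl : 0 < lam) :
    IntegrableOn (fun p : ℝ => Real.cos p ^ (lam - 1) * Real.sin p) JJ ∧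
      ∫ p in JJ, Real.cos p ^ (lam - 1) * Real.sin p = 1 / lam := by
  have hpi : (0 : ℝ) ≤ Real.pi / 2 := by positivity
  have hcont : ContinuousOn (fun p : ℝ => -(Real.cos p ^ lam) / lam) (Icc 0 (Real.pi / 2)) := by
    have h1 : Continuous fun p : ℝ => Real.cos p ^ lam :=
      Real.continuous_cos.rpow_const fun _ => Or.inr hl.le
    exact (h1.neg.div_const lam).continuousOn
  have hder : ∀ p ∈ Ioo 0 (Real.pi / 2), HasDerivAt (fun p : ℝ => -(Real.cos p ^ lam) / lam)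
      (Real.cos p ^ (lam - 1) * Real.sin p) p := by
    intro p hp
    have h := ((cos_rpow_deriv (lam := lam) (show p ∈ JJ from hp)).neg).div_const lam
    refine h.congr_deriv ?_
    field_simp
  have hnn : ∀ p ∈ Ioo 0 (Real.pi / 2), 0 ≤ Real.cos p ^ (lam - 1) * Real.sin p := by
    intro p hp
    exact mul_nonneg (Real.rpow_nonneg (JJ.cos_pos (show p ∈ JJ from hp)).le _)
      (JJ.sin_pos (show p ∈ JJ from hp)).le
  have hi := intervalIntegral.integrableOn_deriv_of_nonneg hcont hder hnn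
  have hi' : IntegrableOn (fun p : ℝ => Real.cos p ^ (lam - 1) * Real.sin p)
      (Ioo 0 (Real.pi / 2)) := hi.mono_set Ioo_subset_Ioc_self
  refine ⟨hi', ?_⟩
  have h1 := intervalIntegral.integral_eq_sub_of_hasDerivAt_of_le hpi hcont hder
    ((intervalIntegrable_iff_integrableOn_Ioo_of_le hpi).2 hi')
  rw [intervalIntegral.integral_of_le hpi, integral_Ioc_eq_integral_Ioo] at h1
  have h2 : ∫ p in JJ, Real.cos p ^ (lam - 1) * Real.sin p
      = -(Real.cos (Real.pi / 2) ^ lam) / lam - -(Real.cos 0 ^ lam) / lam := h1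
  rw [h2, Real.cos_pi_div_two, Real.cos_zero, Real.zero_rpow hl.ne', Real.one_rpow]
  field_simp
  ring

theorem cos_rpow_le_one {lam p : ℝ} (hl : 0 ≤ lam) (hp : p ∈ JJ) : Real.cos p ^ lam ≤ 1 :=
  Real.rpow_le_one (JJ.cos_pos hp).le (Real.cos_le_one p) hl

theorem vol_JJ : (volume.restrict JJ) univ = ENNReal.ofReal (Real.pi / 2) := by
  rw [Measure.restrict_apply_univ, JJ, Real.volume_Ioo, sub_zero]

instance : IsFiniteMeasure (volume.restrict JJ) :=
  ⟨by rw [vol_JJ]; exact ENNReal.ofReal_lt_top⟩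

namespace HFL

variable {a C N : ℝ} {r : E n → ℝ} {F : ℝ → E n → ℝ}
  {F1 : ℝ → E n → (E n →L[ℝ] ℝ)} {F2 : ℝ → E n → (E n →L[ℝ] E n →L[ℝ] ℝ)} {lam : ℝ}

/-- integrands -/
noncomputable def B0 (lam : ℝ) (F : ℝ → E n → ℝ) (x : E n) (p : ℝ) : ℝ :=
  Real.cos p ^ (lam - 1) * Real.sin p * F (Real.sin p) (Real.cos p • x)

noncomputable def B1 (lam : ℝ) (F1 : ℝ → E n → (E n →L[ℝ] ℝ)) (x : E n) (p : ℝ) : E n →L[ℝ] ℝ :=
  (Real.cos p ^ lam * Real.sin p) • F1 (Real.sin p) (Real.cos p • x)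

noncomputable def B2 (lam : ℝ) (F2 : ℝ → E n → (E n →L[ℝ] E n →L[ℝ] ℝ)) (x : E n) (p : ℝ) :
    E n →L[ℝ] E n →L[ℝ] ℝ :=
  (Real.cos p ^ (lam + 1) * Real.sin p) • F2 (Real.sin p) (Real.cos p • x)

theorem B0_le (h : HFL a C N r F F1 F2) (x : E n) {p : ℝ} (hp : p ∈ JJ) :
    ‖B0 lam F x p‖ ≤ N * (Real.cos p ^ (lam - 1) * Real.sin p) := by
  have hs := JJ.sin_pos hp
  have hc := JJ.cos_pos hp
  have h1 : 0 ≤ Real.cos p ^ (lam - 1) * Real.sin p :=
    mul_nonneg (Real.rpow_nonneg hc.le _) hs.le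
  unfold B0
  rw [norm_mul, Real.norm_of_nonneg h1, Real.norm_eq_abs, mul_comm N]
  exact mul_le_mul_of_nonneg_left (h.b0 _ hs _) h1

theorem B1_le (h : HFL a C N r F F1 F2) (ha : 0 < a) (hl : 0 ≤ lam) (x : E n) {p : ℝ}
    (hp : p ∈ JJ) : ‖B1 lam F1 x p‖ ≤ C := by
  have hs := JJ.sin_pos hp
  have hc := JJ.cos_pos hp
  have h1 : 0 ≤ Real.cos p ^ lam := Real.rpow_nonneg hc.le _
  unfold B1
  rw [norm_smul, Real.norm_of_nonneg (mul_nonneg h1 hs.le)]
  have h2 : Real.sin p * ‖F1 (Real.sin p) (Real.cos p • x)‖ ≤ C := by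
    have h3 := mul_le_mul_of_nonneg_left (h.b1 _ hs (Real.cos p • x)) hs.le
    refine h3.trans ?_
    have h4 : Real.sin p * (C * Real.sin p ^ (a - 1)) = C * Real.sin p ^ a := by
      rw [← HF.rp1 hs a]; ring
    rw [h4]
    have h5 : Real.sin p ^ a ≤ 1 := Real.rpow_le_one hs.le (Real.sin_le_one p) ha.le
    calc C * Real.sin p ^ a ≤ C * 1 := mul_le_mul_of_nonneg_left h5 h.nn
      _ = C := mul_one C
  calc Real.cos p ^ lam * Real.sin p * ‖F1 (Real.sin p) (Real.cos p • x)‖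
      = Real.cos p ^ lam * (Real.sin p * ‖F1 (Real.sin p) (Real.cos p • x)‖) := by ring
    _ ≤ 1 * C := mul_le_mul (cos_rpow_le_one hl hp) h2
        (mul_nonneg hs.le (norm_nonneg _)) zero_le_one
    _ = C := one_mul C

theorem B2_le (h : HFL a C N r F F1 F2) (hl : 0 ≤ lam) (x : E n) {p : ℝ} (hp : p ∈ JJ) :
    ‖B2 lam F2 x p‖ ≤ C * Real.sin p ^ (a - 1) := by
  have hs := JJ.sin_pos hp
  have hc := JJ.cos_pos hp
  have h1 : 0 ≤ Real.cos p ^ (lam + 1) := Real.rpow_nonneg hc.le _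
  unfold B2
  rw [norm_smul, Real.norm_of_nonneg (mul_nonneg h1 hs.le), ← HF.rp2 hs]
  have h3 := mul_le_mul_of_nonneg_left (h.b2 _ hs (Real.cos p • x)) hs.le
  calc Real.cos p ^ (lam + 1) * Real.sin p * ‖F2 (Real.sin p) (Real.cos p • x)‖
      = Real.cos p ^ (lam + 1) * (Real.sin p * ‖F2 (Real.sin p) (Real.cos p • x)‖) := by ring
    _ ≤ 1 * (Real.sin p * (C * Real.sin p ^ (a - 2))) :=
        mul_le_mul (cos_rpow_le_one (by linarith) hp) h3
          (mul_nonneg hs.le (norm_nonneg _)) zero_le_one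
    _ = _ := by ring

theorem B2_sub_le (h : HFL a C N r F F1 F2) (hl : 0 ≤ lam) (x y : E n) {p : ℝ} (hp : p ∈ JJ) :
    ‖B2 lam F2 x p - B2 lam F2 y p‖ ≤ C * (Real.sin p ^ (a - 2) * ‖x - y‖) := by
  have hs := JJ.sin_pos hp
  have hc := JJ.cos_pos hp
  have h1 : 0 ≤ Real.cos p ^ (lam + 1) := Real.rpow_nonneg hc.le _
  unfold B2
  rw [← smul_sub, norm_smul, Real.norm_of_nonneg (mul_nonneg h1 hs.le), ← HF.rp3 hs]
  have h4 := h.b3 _ hs (Real.cos p • x) (Real.cos p • y)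
  have h5 : ‖Real.cos p • x - Real.cos p • y‖ ≤ ‖x - y‖ := by
    rw [← smul_sub, norm_smul, Real.norm_of_nonneg hc.le]
    calc Real.cos p * ‖x - y‖ ≤ 1 * ‖x - y‖ :=
          mul_le_mul_of_nonneg_right (Real.cos_le_one p) (norm_nonneg _)
      _ = _ := one_mul _
  have h6 : 0 ≤ C * Real.sin p ^ (a - 3) := mul_nonneg h.nn (Real.rpow_nonneg hs.le _)
  have h7 : ‖F2 (Real.sin p) (Real.cos p • x) - F2 (Real.sin p) (Real.cos p • y)‖
      ≤ C * Real.sin p ^ (a - 3) * ‖x - y‖ := h4.trans (mul_le_mul_of_nonneg_left h5 h6)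
  have h3 := mul_le_mul_of_nonneg_left h7 hs.le
  calc Real.cos p ^ (lam + 1) * Real.sin p
        * ‖F2 (Real.sin p) (Real.cos p • x) - F2 (Real.sin p) (Real.cos p • y)‖
      = Real.cos p ^ (lam + 1) * (Real.sin p
        * ‖F2 (Real.sin p) (Real.cos p • x) - F2 (Real.sin p) (Real.cos p • y)‖) := by ring
    _ ≤ 1 * (Real.sin p * (C * Real.sin p ^ (a - 3) * ‖x - y‖)) :=
        mul_le_mul (cos_rpow_le_one (by linarith) hp) h3
          (mul_nonneg hs.le (norm_nonneg _)) zero_le_one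
    _ = _ := by ring

theorem cosr_cont (b : ℝ) : ContinuousOn (fun p : ℝ => Real.cos p ^ b) JJ := by
  intro p hp
  exact ((Real.continuous_cos.continuousAt).rpow_const
    (Or.inl (JJ.cos_pos hp).ne')).continuousWithinAt

theorem B0_cont (h : HFL a C N r F F1 F2) (x : E n) : ContinuousOn (B0 lam F x) JJ := by
  unfold B0
  refine ContinuousOn.mul ((cosr_cont _).mul Real.continuous_sin.continuousOn) ?_
  have h1 : Continuous fun p : ℝ => F (Real.sin p) (Real.cos p • x) := h.cF.comp (HF.cont_curve x)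
  exact h1.continuousOn

theorem B1_cont (h : HFL a C N r F F1 F2) (x : E n) : ContinuousOn (B1 lam F1 x) JJ := by
  unfold B1
  refine ContinuousOn.smul ((cosr_cont _).mul Real.continuous_sin.continuousOn) ?_
  exact h.c1.comp (HF.cont_curve x).continuousOn fun p hp => ⟨JJ.sin_pos hp, mem_univ _⟩

theorem B2_cont (h : HFL a C N r F F1 F2) (x : E n) : ContinuousOn (B2 lam F2 x) JJ := by
  unfold B2
  refine ContinuousOn.smul ((cosr_cont _).mul Real.continuous_sin.continuousOn) ?_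
  exact h.c2.comp (HF.cont_curve x).continuousOn fun p hp => ⟨JJ.sin_pos hp, mem_univ _⟩

theorem B0_int (h : HFL a C N r F F1 F2) (hl : 0 < lam) (x : E n) :
    IntegrableOn (B0 lam F x) JJ := by
  refine Integrable.mono' ((wt_int hl).1.const_mul N)
    ((h.B0_cont x).aestronglyMeasurable measurableSet_JJ) ?_
  filter_upwards [ae_restrict_mem measurableSet_JJ] with p hp
  exact h.B0_le x hp

theorem B1_int (h : HFL a C N r F F1 F2) (ha : 0 < a) (hl : 0 < lam) (x : E n) :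
    IntegrableOn (B1 lam F1 x) JJ := by
  refine Integrable.mono' (integrable_const C)
    ((h.B1_cont x).aestronglyMeasurable measurableSet_JJ) ?_
  filter_upwards [ae_restrict_mem measurableSet_JJ] with p hp
  exact h.B1_le ha hl.le x hp

theorem B2_int (h : HFL a C N r F F1 F2) (ha : 0 < a) (ha1 : a < 1) (hl : 0 < lam) (x : E n) :
    IntegrableOn (B2 lam F2 x) JJ := by
  refine Integrable.mono' ((integrableOn_sin_rpow ha ha1).const_mul C)
    ((h.B2_cont x).aestronglyMeasurable measurableSet_JJ) ?_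
  filter_upwards [ae_restrict_mem measurableSet_JJ] with p hp
  exact h.B2_le hl.le x hp

theorem cos_rp {p : ℝ} (hp : p ∈ JJ) (b : ℝ) :
    Real.cos p ^ (b - 1) * Real.cos p = Real.cos p ^ b := by
  rw [mul_comm]; exact HF.rp1 (JJ.cos_pos hp) b

theorem B0_deriv (h : HFL a C N r F F1 F2) (x : E n) {p : ℝ} (hp : p ∈ JJ) :
    HasFDerivAt (fun x => B0 lam F x p) (B1 lam F1 x p) x := by
  have hs := JJ.sin_pos hp
  have hc := JJ.cos_pos hp
  have h1 : HasFDerivAt (fun x : E n => F (Real.sin p) (Real.cos p • x))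
      ((F1 (Real.sin p) (Real.cos p • x)).comp (Real.cos p • ContinuousLinearMap.id ℝ (E n))) x :=
    (h.d1 _ hs _).comp x ((hasFDerivAt_id x).const_smul (Real.cos p))
  have h2 := h1.const_mul (Real.cos p ^ (lam - 1) * Real.sin p)
  refine h2.congr_fderiv ?_
  unfold B1
  rw [← cos_rp hp lam]
  ext v
  simp only [smul_apply, ContinuousLinearMap.comp_apply,
    ContinuousLinearMap.id_apply, map_smul, smul_eq_mul]
  ring

theorem B1_deriv (h : HFL a C N r F F1 F2) (x : E n) {p : ℝ} (hp : p ∈ JJ) :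
    HasFDerivAt (fun x => B1 lam F1 x p) (B2 lam F2 x p) x := by
  have hs := JJ.sin_pos hp
  have hc := JJ.cos_pos hp
  have h1 : HasFDerivAt (fun x : E n => F1 (Real.sin p) (Real.cos p • x))
      ((F2 (Real.sin p) (Real.cos p • x)).comp (Real.cos p • ContinuousLinearMap.id ℝ (E n))) x :=
    (h.d2 _ hs _).comp x ((hasFDerivAt_id x).const_smul (Real.cos p))
  have h2 := h1.const_smul (Real.cos p ^ lam * Real.sin p)
  refine h2.congr_fderiv ?_
  unfold B2
  have h3 := cos_rp hp (lam + 1)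
  rw [show lam + 1 - 1 = lam by ring] at h3
  rw [← h3]
  ext v w
  simp only [smul_apply, ContinuousLinearMap.comp_apply,
    ContinuousLinearMap.id_apply, map_smul, smul_eq_mul]
  ring

/-- the three integrals -/
noncomputable def U0 (lam : ℝ) (F : ℝ → E n → ℝ) (x : E n) : ℝ := - ∫ p in JJ, B0 lam F x p

noncomputable def U1 (lam : ℝ) (F1 : ℝ → E n → (E n →L[ℝ] ℝ)) (x : E n) : E n →L[ℝ] ℝ :=
  - ∫ p in JJ, B1 lam F1 x p

noncomputable def U2 (lam : ℝ) (F2 : ℝ → E n → (E n →L[ℝ] E n →L[ℝ] ℝ)) (x : E n) :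
    E n →L[ℝ] E n →L[ℝ] ℝ := - ∫ p in JJ, B2 lam F2 x p

theorem U0_deriv (h : HFL a C N r F F1 F2) (ha : 0 < a) (hl : 0 < lam) (x : E n) :
    HasFDerivAt (U0 lam F) (U1 lam F1 x) x := by
  have h1 := hasFDerivAt_integral_of_dominated_of_fderiv_le (𝕜 := ℝ)
    (μ := volume.restrict JJ) (F := fun x p => B0 lam F x p) (F' := fun x p => B1 lam F1 x p)
    (x₀ := x) (s := Metric.ball x 1) (bound := fun _ => C)
    (Metric.ball_mem_nhds x one_pos)
    (Eventually.of_forall fun y => (h.B0_cont y).aestronglyMeasurable measurableSet_JJ)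
    (h.B0_int hl x) ((h.B1_cont x).aestronglyMeasurable measurableSet_JJ)
    (by
      filter_upwards [ae_restrict_mem measurableSet_JJ] with p hp y hy
      exact h.B1_le ha hl.le y hp)
    (integrable_const C)
    (by
      filter_upwards [ae_restrict_mem measurableSet_JJ] with p hp y _
      exact h.B0_deriv y hp)
  exact h1.neg

theorem U1_deriv (h : HFL a C N r F F1 F2) (ha : 0 < a) (ha1 : a < 1) (hl : 0 < lam) (x : E n) :
    HasFDerivAt (U1 lam F1) (U2 lam F2 x) x := by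
  have h1 := hasFDerivAt_integral_of_dominated_of_fderiv_le (𝕜 := ℝ)
    (μ := volume.restrict JJ) (F := fun x p => B1 lam F1 x p) (F' := fun x p => B2 lam F2 x p)
    (x₀ := x) (s := Metric.ball x 1) (bound := fun p => C * Real.sin p ^ (a - 1))
    (Metric.ball_mem_nhds x one_pos)
    (Eventually.of_forall fun y => (h.B1_cont y).aestronglyMeasurable measurableSet_JJ)
    (h.B1_int ha hl x) ((h.B2_cont x).aestronglyMeasurable measurableSet_JJ)
    (by
      filter_upwards [ae_restrict_mem measurableSet_JJ] with p hp y hy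
      exact h.B2_le hl.le y hp)
    ((integrableOn_sin_rpow ha ha1).const_mul C)
    (by
      filter_upwards [ae_restrict_mem measurableSet_JJ] with p hp y _
      exact h.B1_deriv y hp)
  exact h1.neg

theorem U2_hol (h : HFL a C N r F F1 F2) (ha : 0 < a) (ha1 : a < 1) (hl : 0 < lam) (x y : E n) :
    ‖U2 lam F2 x - U2 lam F2 y‖ ≤ C * cg a * ‖x - y‖ ^ a := by
  by_cases hxy : x = y
  · subst hxy; simp [Real.zero_rpow ha.ne']
  have hδ : 0 < ‖x - y‖ := norm_pos_iff.2 (sub_ne_zero.2 hxy)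
  have e : U2 lam F2 x - U2 lam F2 y = - ∫ p in JJ, (B2 lam F2 x p - B2 lam F2 y p) := by
    unfold U2
    rw [integral_sub (h.B2_int ha ha1 hl x) (h.B2_int ha ha1 hl y)]; abel
  rw [e, norm_neg]
  refine split_bound ha ha1 h.nn hδ (fun p hp => ?_) (fun p hp => h.B2_sub_le hl.le x y hp)
  refine (norm_sub_le _ _).trans ?_
  have h1 := h.B2_le hl.le x hp
  have h2 := h.B2_le hl.le y hp
  linarith

theorem U2_bd (h : HFL a C N r F F1 F2) (ha : 0 < a) (ha1 : a < 1) (hl : 0 < lam) (x : E n) :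
    ‖U2 lam F2 x‖ ≤ C * HF.cs a := by
  unfold U2 HF.cs
  rw [norm_neg, ← integral_const_mul]
  refine norm_integral_le_of_norm_le ((integrableOn_sin_rpow ha ha1).const_mul C) ?_
  filter_upwards [ae_restrict_mem measurableSet_JJ] with p hp
  exact h.B2_le hl.le x hp

theorem U1_bd (h : HFL a C N r F F1 F2) (ha : 0 < a) (hl : 0 < lam) (x : E n) :
    ‖U1 lam F1 x‖ ≤ C * (Real.pi / 2) := by
  unfold U1
  rw [norm_neg]
  have h1 : ‖∫ p in JJ, B1 lam F1 x p‖ ≤ ∫ p in JJ, C := by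
    refine norm_integral_le_of_norm_le (integrable_const C) ?_
    filter_upwards [ae_restrict_mem measurableSet_JJ] with p hp
    exact h.B1_le ha hl.le x hp
  refine h1.trans (le_of_eq ?_)
  rw [integral_const, smul_eq_mul, measureReal_def, vol_JJ,
    ENNReal.toReal_ofReal (by positivity), mul_comm]

theorem U0_bd (h : HFL a C N r F F1 F2) (hl : 0 < lam) (x : E n) :
    |U0 lam F x| ≤ N / lam := by
  unfold U0
  rw [abs_neg, ← Real.norm_eq_abs]
  have h1 : ‖∫ p in JJ, B0 lam F x p‖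
      ≤ ∫ p in JJ, N * (Real.cos p ^ (lam - 1) * Real.sin p) := by
    refine norm_integral_le_of_norm_le ((wt_int hl).1.const_mul N) ?_
    filter_upwards [ae_restrict_mem measurableSet_JJ] with p hp
    exact h.B0_le x hp
  refine h1.trans (le_of_eq ?_)
  rw [integral_const_mul, (wt_int hl).2]
  ring

/-- the primitive -/
theorem PL_cont (h : HFL a C N r F F1 F2) (hl : 0 < lam) (x : E n) :
    ContinuousOn (fun p => Real.cos p ^ lam * F (Real.sin p) (Real.cos p • x))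
      (Icc 0 (Real.pi / 2)) := by
  have h1 : Continuous fun p : ℝ => Real.cos p ^ lam :=
    Real.continuous_cos.rpow_const fun _ => Or.inr hl.le
  exact (h1.mul (h.cF.comp (HF.cont_curve x))).continuousOn

theorem PL_deriv (h : HFL a C N r F F1 F2) (x : E n) {p : ℝ} (hp : p ∈ JJ) :
    HasDerivAt (fun p => Real.cos p ^ lam * F (Real.sin p) (Real.cos p • x))
      (trB (B2 lam F2 x p) - B1 lam F1 x p x - lam * B0 lam F x p) p := by
  have h1 := (cos_rpow_deriv (lam := lam) hp).mul (h.dp x p hp)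
  refine h1.congr_deriv ?_
  have e1 : trB (B2 lam F2 x p) = Real.cos p ^ (lam + 1) * Real.sin p
      * trB (F2 (Real.sin p) (Real.cos p • x)) := by
    simp only [trB, B2, smul_apply, smul_eq_mul, Finset.mul_sum]
  have h3 := cos_rp hp (lam + 1)
  rw [show lam + 1 - 1 = lam by ring] at h3
  rw [e1, ← h3]
  simp only [B1, B0, smul_apply, smul_eq_mul]
  ring

theorem pde (h : HFL a C N r F F1 F2) (ha : 0 < a) (ha1 : a < 1) (hl : 0 < lam) (x : E n) :
    trB (U2 lam F2 x) - U1 lam F1 x x - lam * U0 lam F x = r x := by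
  have hpi : (0 : ℝ) ≤ Real.pi / 2 := by positivity
  obtain ⟨i1, e1⟩ := HF.trB_int (h.B2_int ha ha1 hl x)
  have i3 := h.B1_int ha hl x
  have i3' : IntegrableOn (fun p => B1 lam F1 x p x) JJ :=
    (ContinuousLinearMap.apply ℝ ℝ x).integrable_comp i3
  have i4 := (h.B0_int hl x).const_mul lam
  have i5 : IntegrableOn
      (fun p => trB (B2 lam F2 x p) - B1 lam F1 x p x - lam * B0 lam F x p) JJ :=
    (i1.sub i3').sub i4
  have h1 := intervalIntegral.integral_eq_sub_of_hasDerivAt_of_le hpi (h.PL_cont hl x)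
    (fun p hp => h.PL_deriv x (show p ∈ JJ from hp))
    ((intervalIntegrable_iff_integrableOn_Ioo_of_le hpi).2 i5)
  rw [intervalIntegral.integral_of_le hpi, integral_Ioc_eq_integral_Ioo] at h1
  have h2 : ∫ p in JJ, (trB (B2 lam F2 x p) - B1 lam F1 x p x - lam * B0 lam F x p)
      = trB (∫ p in JJ, B2 lam F2 x p) - (∫ p in JJ, B1 lam F1 x p) x
        - lam * ∫ p in JJ, B0 lam F x p := by
    have j1 : IntegrableOn (fun p => trB (B2 lam F2 x p) - B1 lam F1 x p x) JJ := i1.sub i3'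
    rw [integral_sub j1 i4, integral_sub i1 i3',
      e1, ContinuousLinearMap.integral_apply i3, integral_const_mul]
  have h3 : ∫ p in JJ, (trB (B2 lam F2 x p) - B1 lam F1 x p x - lam * B0 lam F x p)
      = Real.cos (Real.pi / 2) ^ lam * F (Real.sin (Real.pi / 2)) (Real.cos (Real.pi / 2) • x)
        - Real.cos 0 ^ lam * F (Real.sin 0) (Real.cos 0 • x) := h1
  rw [h2, Real.cos_pi_div_two, Real.zero_rpow hl.ne', zero_mul, Real.cos_zero, Real.one_rpow,
    Real.sin_zero, one_smul, h.zero, one_mul, zero_sub] at h3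
  have tn : ∀ B : E n →L[ℝ] E n →L[ℝ] ℝ, trB (-B) = - trB B := by
    intro B; simp [trB]
  simp only [U2, U1, U0, tn, neg_apply]
  linarith

/-- RESULT of the abstract part -/
theorem sol (h : HFL a C N r F F1 F2) (ha : 0 < a) (ha1 : a < 1) (hl : 0 < lam) :
    ∃ v : E n → ℝ, ContDiff ℝ 2 v ∧ (∀ x, |v x| ≤ N / lam) ∧
      (∀ x, ‖fderiv ℝ v x‖ ≤ C * (Real.pi / 2)) ∧
      (∀ x, ‖fderiv ℝ (fderiv ℝ v) x‖ ≤ C * HF.cs a) ∧
      (∀ i j, HB a (C * (HF.cs a + cg a)) (fun x => Hs v x i j)) ∧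
      ∀ x, LA (fun _ => (1 : Matrix (Fin n) (Fin n) ℝ)) v x - lam * v x = r x := by
  set v := U0 lam F with hv
  have d0 : ∀ x, HasFDerivAt v (U1 lam F1 x) x := fun x => h.U0_deriv ha hl x
  have d1 : ∀ x, HasFDerivAt (U1 lam F1) (U2 lam F2 x) x := fun x => h.U1_deriv ha ha1 hl x
  have f0 : fderiv ℝ v = U1 lam F1 := funext fun x => (d0 x).fderiv
  have f1 : fderiv ℝ (U1 lam F1) = U2 lam F2 := funext fun x => (d1 x).fderiv
  have hH : ∀ x i j, Hs v x i j = U2 lam F2 x (ee i) (ee j) := by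
    intro x i j
    simp only [Hs, f0, f1]
  have c2 : Continuous (U2 lam F2) := by
    rw [continuous_iff_continuousAt]
    intro x
    have t1 : Tendsto (fun y : E n => C * cg a * ‖y - x‖ ^ a) (𝓝 x) (𝓝 0) := by
      have t2 : Continuous fun y : E n => C * cg a * ‖y - x‖ ^ a :=
        continuous_const.mul ((continuous_norm.comp
          (continuous_id.sub continuous_const)).rpow_const fun _ => Or.inr ha.le)
      have t3 := t2.tendsto x
      simpa [Real.zero_rpow ha.ne'] using t3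
    rw [ContinuousAt, tendsto_iff_norm_sub_tendsto_zero]
    exact squeeze_zero (fun _ => norm_nonneg _) (fun y => h.U2_hol ha ha1 hl y x) t1
  have hne : ∀ i : Fin n, ‖(ee i : E n)‖ = 1 := fun i => by simp
  have hap : ∀ (B : E n →L[ℝ] E n →L[ℝ] ℝ) (i j : Fin n), |B (ee i) (ee j)| ≤ ‖B‖ := by
    intro B i j
    have := B.le_opNorm₂ (ee i : E n) (ee j)
    rwa [hne, hne, mul_one, mul_one] at this
  refine ⟨v, ?_, fun x => h.U0_bd hl x, fun x => ?_, fun x => ?_,
    fun i j => ⟨fun x => ?_, fun x y => ?_⟩, fun x => ?_⟩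
  · have e : (2 : WithTop ℕ∞) = (1 : ℕ) + 1 := by norm_num
    rw [e, contDiff_succ_iff_hasFDerivAt]
    refine ⟨U1 lam F1, ?_, d0⟩
    exact_mod_cast contDiff_one_iff_hasFDerivAt.2 ⟨U2 lam F2, c2, d1⟩
  · rw [f0]; exact h.U1_bd ha hl x
  · rw [f0, f1]; exact h.U2_bd ha ha1 hl x
  · show |Hs v x i j| ≤ _
    rw [hH]
    refine (hap _ i j).trans ((h.U2_bd ha ha1 hl x).trans ?_)
    exact mul_le_mul_of_nonneg_left (by linarith [cg_pos ha ha1]) h.nn
  · show |Hs v x i j - Hs v y i j| ≤ _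
    rw [hH, hH]
    have e : U2 lam F2 x (ee i) (ee j) - U2 lam F2 y (ee i) (ee j)
        = (U2 lam F2 x - U2 lam F2 y) (ee i) (ee j) := by
      simp
    rw [e]
    refine (hap _ i j).trans ((h.U2_hol ha ha1 hl x y).trans ?_)
    refine mul_le_mul_of_nonneg_right ?_ (Real.rpow_nonneg (norm_nonneg _) _)
    exact mul_le_mul_of_nonneg_left (by linarith [HF.cs_nonneg a]) h.nn
  · have e1 : ∑ i, ∑ j, (1 : Matrix (Fin n) (Fin n) ℝ) i j * Hs v x i j = trB (U2 lam F2 x) := by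
      unfold trB
      refine Finset.sum_congr rfl fun i _ => ?_
      rw [Finset.sum_eq_single i]
      · rw [Matrix.one_apply_eq, one_mul, hH]
      · intro j _ hj
        rw [Matrix.one_apply_ne (Ne.symm hj), zero_mul]
      · intro hi; exact absurd (Finset.mem_univ i) hi
    unfold LA
    rw [e1, f0]
    exact h.pde ha ha1 hl x

end HFL

/-! ### the Gaussian family -/

theorem FF_bound {r : E n → ℝ} {M : ℝ} (hM : ∀ x, |r x| ≤ M)
    (s : ℝ) (x : E n) : |FF r s x| ≤ M := by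
  have hc := cn_pos n
  have hM0 : 0 ≤ M := (abs_nonneg _).trans (hM 0)
  unfold FF ZZ
  rw [abs_mul, abs_of_pos hc]
  have hp : ∀ z : E n, 0 < g0 n z := fun z => by rw [g0_apply]; exact Real.exp_pos _
  have h1 : |∫ z, r (x + s • z) • g0 n z| ≤ ∫ z, M * g0 n z := by
    rw [← Real.norm_eq_abs]
    refine norm_integral_le_of_norm_le ((g0 n).integrable.const_mul M)
      (Eventually.of_forall fun z => ?_)
    rw [norm_smul, Real.norm_eq_abs, Real.norm_of_nonneg (hp z).le]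
    exact mul_le_mul_of_nonneg_right (hM _) (hp z).le
  rw [integral_const_mul] at h1
  calc cn n * |∫ z, r (x + s • z) • g0 n z| ≤ cn n * (M * ∫ z, g0 n z) :=
        mul_le_mul_of_nonneg_left h1 hc.le
    _ = M := by
        rw [cn]
        field_simp [(int_g0_pos n).ne']

theorem inv_one_rpow {s : ℝ} (hs : 0 < s) (a : ℝ) : s⁻¹ * s ^ a = s ^ (a - 1) := by
  rw [Real.rpow_sub hs, Real.rpow_one]
  field_simp

theorem FF1_bound {a : ℝ} (ha : 0 < a) (ha1 : a < 1) {r : E n → ℝ} {N : ℝ} (h : HB a N r)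
    {s : ℝ} (hs : 0 < s) (x : E n) : ‖FF1 r s x‖ ≤ cn n * mm a (g1 n) * N * s ^ (a - 1) := by
  have h1 := ZZ_bound ha ha1 h (g1 n) (int_fderiv_zero (g0 n)) hs x
  have hi : 0 < s⁻¹ := by positivity
  have hc := cn_pos n
  unfold FF1
  rw [norm_neg, norm_smul, Real.norm_of_nonneg (by positivity), ← inv_one_rpow hs]
  calc cn n * s⁻¹ * ‖ZZ r (g1 n) s x‖
      ≤ cn n * s⁻¹ * (mm a (g1 n) * N * s ^ a) :=
        mul_le_mul_of_nonneg_left h1 (by positivity)
    _ = _ := by ring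

/-- the facts `HFL` for the heat family -/
theorem HFL_heat {a : ℝ} (ha : 0 < a) (ha1 : a < 1) {r : E n → ℝ} {N : ℝ} (h : HB a N r) :
    HFL a (cn n * (mm a (g1 n) + mm a (g2 n) + mm a (g3 n)) * N) N r (FF r) (FF1 r) (FF2 r) where
  nn := by
    have hN : 0 ≤ N := (abs_nonneg _).trans (h.1 0)
    have := mm_nonneg a (g1 n : E n → _)
    have := mm_nonneg a (g2 n : E n → _)
    have := mm_nonneg a (g3 n : E n → _)
    have := cn_pos n
    positivity
  nN := (abs_nonneg _).trans (h.1 0)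
  zero := fun x => FF_zero x
  d1 := fun s hs x => FF_deriv (h.continuous ha) h.1 hs x
  d2 := fun s hs x => FF1_deriv (h.continuous ha) h.1 hs x
  b0 := fun s _ x => FF_bound h.1 s x
  b1 := fun s hs x => by
    refine (FF1_bound ha ha1 h hs x).trans (mul_le_mul_of_nonneg_right ?_
      (Real.rpow_nonneg hs.le _))
    have hN : 0 ≤ N := (abs_nonneg _).trans (h.1 0)
    refine mul_le_mul_of_nonneg_right (mul_le_mul_of_nonneg_left ?_ (cn_pos n).le) hN
    linarith [mm_nonneg a (g3 n : E n → _), mm_nonneg a (g2 n : E n → _)]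
  b2 := fun s hs x => by
    refine (FF2_bound ha ha1 h hs x).trans (mul_le_mul_of_nonneg_right ?_
      (Real.rpow_nonneg hs.le _))
    have hN : 0 ≤ N := (abs_nonneg _).trans (h.1 0)
    refine mul_le_mul_of_nonneg_right (mul_le_mul_of_nonneg_left ?_ (cn_pos n).le) hN
    linarith [mm_nonneg a (g3 n : E n → _), mm_nonneg a (g1 n : E n → _)]
  b3 := fun s hs x y => by
    have hN : 0 ≤ N := (abs_nonneg _).trans (h.1 0)
    have h1 := (convex_univ (𝕜 := ℝ) (E := E n)).norm_image_sub_le_of_norm_hasFDerivWithin_le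
      (f := FF2 r s) (C := cn n * mm a (g3 n) * N * s ^ (a - 3))
      (fun x _ => (FF2_deriv (h.continuous ha) h.1 hs x).hasFDerivWithinAt)
      (fun x _ => FF3_bound ha ha1 h hs x) (mem_univ y) (mem_univ x)
    refine h1.trans (mul_le_mul_of_nonneg_right (mul_le_mul_of_nonneg_right
      (mul_le_mul_of_nonneg_right (mul_le_mul_of_nonneg_left ?_ (cn_pos n).le) hN)
      (Real.rpow_nonneg hs.le _)) (norm_nonneg _))
    linarith [mm_nonneg a (g2 n : E n → _), mm_nonneg a (g1 n : E n → _)]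
  cF := continuous_const.mul (ZZ_cont (h.continuous ha) h.1 (g0 n))
  c1 := by
    have h1 : ContinuousOn (fun q : ℝ × E n => q.1⁻¹) (Ioi 0 ×ˢ univ) :=
      continuousOn_fst.inv₀ fun q hq => (ne_of_gt hq.1)
    have h2 : ContinuousOn (fun q : ℝ × E n => cn n * q.1⁻¹) (Ioi 0 ×ˢ univ) :=
      continuousOn_const.mul h1
    have h3 := (h2.smul (ZZ_cont (h.continuous ha) h.1 (g1 n)).continuousOn).neg
    exact h3
  c2 := by
    have h1 : ContinuousOn (fun q : ℝ × E n => q.1⁻¹) (Ioi 0 ×ˢ univ) :=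
      continuousOn_fst.inv₀ fun q hq => (ne_of_gt hq.1)
    have h2 : ContinuousOn (fun q : ℝ × E n => cn n * (q.1⁻¹ * q.1⁻¹)) (Ioi 0 ×ˢ univ) :=
      continuousOn_const.mul (h1.mul h1)
    have h3 := h2.smul (ZZ_cont (h.continuous ha) h.1 (g2 n)).continuousOn
    exact h3
  dp := fun x p hp => FF_angle (h.continuous ha) h.1 x hp

/-- uniform version of **B1**: solvability of `(L₀ - lam) v = r` on bounded Hölder functions; the constant `C`
does not depend on `lam`, `r`, `N`. -/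
theorem solB_unif (n : ℕ) (a : ℝ) (ha : 0 < a) (ha1 : a < 1) : ∃ C : ℝ, 0 < C ∧
    ∀ lam : ℝ, 0 < lam → ∀ (r : E n → ℝ) (N : ℝ), HB a N r →
      ∃ v : E n → ℝ, ContDiff ℝ 2 v ∧ (∀ x, |v x| ≤ N / lam) ∧
        (∀ x, ‖fderiv ℝ v x‖ ≤ C * N) ∧ (∀ x, ‖fderiv ℝ (fderiv ℝ v) x‖ ≤ C * N) ∧
        (∀ i j, HB a (C * N) (fun x => Hs v x i j)) ∧
        ∀ x, LA (fun _ => (1 : Matrix (Fin n) (Fin n) ℝ)) v x - lam * v x = r x := by
  have hcg := cg_pos ha ha1
  have hcs := HF.cs_nonneg a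
  have h1 := mm_nonneg a (g1 n : E n → _)
  have h2 := mm_nonneg a (g2 n : E n → _)
  have h3 := mm_nonneg a (g3 n : E n → _)
  have hc := cn_pos n
  have hpi := Real.pi_pos
  set K : ℝ := cn n * (mm a (g1 n) + mm a (g2 n) + mm a (g3 n)) with hK
  have hK0 : 0 ≤ K := by positivity
  refine ⟨K * (HF.cs a + cg a + Real.pi / 2) + 1, by positivity, ?_⟩
  intro lam hl r N h
  have hN : 0 ≤ N := (abs_nonneg _).trans (h.1 0)
  obtain ⟨v, hv1, hv2, hv3, hv4, hv5, hv6⟩ := (HFL_heat ha ha1 h).sol ha ha1 hl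
  have hKN : 0 ≤ K * N := mul_nonneg hK0 hN
  have e1 : K * N * (Real.pi / 2) ≤ (K * (HF.cs a + cg a + Real.pi / 2) + 1) * N := by
    nlinarith [mul_nonneg hKN hcs, mul_nonneg hKN hcg.le]
  have e2 : K * N * HF.cs a ≤ (K * (HF.cs a + cg a + Real.pi / 2) + 1) * N := by
    nlinarith [mul_nonneg hKN hpi.le, mul_nonneg hKN hcg.le]
  have e3 : K * N * (HF.cs a + cg a) ≤ (K * (HF.cs a + cg a + Real.pi / 2) + 1) * N := by
    nlinarith [mul_nonneg hKN hpi.le]
  refine ⟨v, hv1, hv2, fun x => (hv3 x).trans e1, fun x => (hv4 x).trans e2,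
    fun i j => ⟨fun x => ((hv5 i j).1 x).trans e3, fun x y => ((hv5 i j).2 x y).trans
    (mul_le_mul_of_nonneg_right e3 (Real.rpow_nonneg (norm_nonneg _) _))⟩, hv6⟩

/-- a bounded Lipschitz function is Hölder -/
theorem hb_of_lip {a M L : ℝ} (ha : 0 < a) (ha1 : a < 1) {f : E n → ℝ} (hM : ∀ x, |f x| ≤ M)
    (hL0 : 0 ≤ L) (hL : ∀ x y, |f x - f y| ≤ L * ‖x - y‖) : HB a (2 * M + L) f := by
  have hM0 : 0 ≤ M := (abs_nonneg _).trans (hM 0)
  refine ⟨fun x => (hM x).trans (by linarith), fun x y => ?_⟩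
  rcases le_total ‖x - y‖ 1 with h | h
  · have h2 : ‖x - y‖ ≤ ‖x - y‖ ^ a := by
      rcases eq_or_lt_of_le (norm_nonneg (x - y)) with h0 | h0
      · rw [← h0, Real.zero_rpow ha.ne']
      · calc ‖x - y‖ = ‖x - y‖ ^ (1 : ℝ) := (Real.rpow_one _).symm
          _ ≤ ‖x - y‖ ^ a := Real.rpow_le_rpow_of_exponent_ge h0 h ha1.le
    have h3 : 0 ≤ ‖x - y‖ ^ a := Real.rpow_nonneg (norm_nonneg _) _
    calc |f x - f y| ≤ L * ‖x - y‖ := hL x y
      _ ≤ L * ‖x - y‖ ^ a := mul_le_mul_of_nonneg_left h2 hL0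
      _ ≤ (2 * M + L) * ‖x - y‖ ^ a := mul_le_mul_of_nonneg_right (by linarith) h3
  · have h2 : 1 ≤ ‖x - y‖ ^ a := Real.one_le_rpow h ha.le
    have h3 : |f x - f y| ≤ 2 * M := by
      have h4 := abs_sub (f x) (f y)
      linarith [hM x, hM y]
    calc |f x - f y| ≤ (2 * M + L) * 1 := by linarith
      _ ≤ (2 * M + L) * ‖x - y‖ ^ a := mul_le_mul_of_nonneg_left h2 (by linarith)

theorem lip_of_fderiv {f : E n → ℝ} {L : ℝ} (hf : Differentiable ℝ f)
    (h : ∀ x, ‖fderiv ℝ f x‖ ≤ L) (x y : E n) : |f x - f y| ≤ L * ‖x - y‖ := by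
  have h1 := (convex_univ (𝕜 := ℝ) (E := E n)).norm_image_sub_le_of_norm_fderiv_le
    (f := f) (C := L) (fun x _ => hf x) (fun x _ => h x) (mem_univ y) (mem_univ x)
  rwa [Real.norm_eq_abs] at h1

theorem hb_up {a M M' : ℝ} {f : E n → ℝ} (h : HB a M f) (hM : M ≤ M') : HB a M' f :=
  ⟨fun x => (h.1 x).trans hM, fun x y => (h.2 x y).trans
    (mul_le_mul_of_nonneg_right hM (Real.rpow_nonneg (norm_nonneg _) _))⟩

/-- **B1 (SolB)** -/
theorem solB : SolB := by
  intro n a lam ha ha1 hl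
  obtain ⟨C, hC, h⟩ := solB_unif n a ha ha1
  refine ⟨2 / lam + 3 * C, by positivity, ?_⟩
  intro r N hr
  have hN : 0 ≤ N := (abs_nonneg _).trans (hr.1 0)
  obtain ⟨v, v1, v2, v3, v4, v5, v6⟩ := h lam hl r N hr
  have hCN : 0 ≤ C * N := mul_nonneg hC.le hN
  have hNl : 0 ≤ N / lam := div_nonneg hN hl.le
  have hne : ∀ i : Fin n, ‖(ee i : E n)‖ = 1 := fun i => by simp
  have hd1 : Differentiable ℝ v := v1.differentiable (by norm_num)
  have hd2 : Differentiable ℝ (fderiv ℝ v) :=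
    (v1.fderiv_right (m := 1) (by norm_num)).differentiable (by norm_num)
  have e0 : (2 / lam + 3 * C) * N = 2 * (N / lam) + 3 * (C * N) := by ring
  refine ⟨v, ⟨v1, ?_, fun i => ?_, fun i j => ?_⟩, v6⟩
  · refine hb_up (hb_of_lip ha ha1 v2 hCN (lip_of_fderiv hd1 v3)) ?_
    rw [e0]; linarith
  · have hg : ∀ x, HasFDerivAt (fun x => gr v x i)
        ((ContinuousLinearMap.apply ℝ ℝ (ee i : E n)).comp (fderiv ℝ (fderiv ℝ v) x)) x := fun x =>
      (ContinuousLinearMap.apply ℝ ℝ (ee i : E n)).hasFDerivAt.comp x (hd2 x).hasFDerivAt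
    have b1 : ∀ x, |gr v x i| ≤ C * N := fun x => by
      have h1 := (fderiv ℝ v x).le_opNorm (ee i : E n)
      rw [hne, mul_one] at h1
      exact h1.trans (v3 x)
    have b2 : ∀ x, ‖fderiv ℝ (fun x => gr v x i) x‖ ≤ C * N := fun x => by
      rw [(hg x).fderiv]
      refine ContinuousLinearMap.opNorm_le_bound _ hCN fun y => ?_
      have h1 := (fderiv ℝ (fderiv ℝ v) x).le_opNorm₂ y (ee i : E n)
      rw [hne, mul_one] at h1
      exact h1.trans (mul_le_mul_of_nonneg_right (v4 x) (norm_nonneg _))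
    refine hb_up (hb_of_lip ha ha1 b1 hCN
      (lip_of_fderiv (fun x => (hg x).differentiableAt) b2)) ?_
    rw [e0]; linarith
  · refine hb_up (v5 i j) ?_
    rw [e0]; linarith

end Crest.Agent.R253.Br
end

-- ▼ part R253/PwB_649
section

/-!
Row 253, T6 (Brenier map), node B5 `Br.PwB` (helper649): the pointwise identities for the second
derivatives and for `log det` of a smooth solution of `MAb P lam s v`
(port of `R238.ECalE12` of helper640).
-/

set_option autoImplicit false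
open scoped ContDiff Topology
open Set Filter Finset

noncomputable section

namespace Crest.Agent.R253.BrCal

open Crest.Agent.R238 Crest.Agent.R238.XInst Crest.Agent.R253.Br

variable {n : ℕ}

/-- `(g²)(z,z) = |z|² + 2 D²v(z,z) + |D²v z|²`. -/
theorem sum_gg (v : E n → ℝ) (hv : ContDiff ℝ ∞ v) (z : Fin n → ℝ) (x : E n) :
    ∑ e, ∑ f, z e * z f * ∑ a, gm v x e a * gm v x a f =
      ∑ i, z i ^ 2 + 2 * qfB v z x + ∑ a, (∑ e, z e * Hs v x e a) ^ 2 := by
  have hs : ∀ i j, Hs v x i j = Hs v x j i := fun i j => Hs_symm (hv.of_le (by norm_cast)) x i j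
  have hg : ∀ a, ∑ e, z e * gm v x e a = z a + ∑ e, z e * Hs v x e a := by
    intro a
    simp only [gm, Matrix.add_apply, Matrix.of_apply, Matrix.one_apply, mul_add,
      Finset.sum_add_distrib]
    simp
  have hg2 : ∀ a, ∑ f, z f * gm v x a f = z a + ∑ e, z e * Hs v x e a := by
    intro a
    rw [← hg a]
    refine Finset.sum_congr rfl fun f _ => ?_
    have h3 : (1 : Matrix (Fin n) (Fin n) ℝ) a f = (1 : Matrix (Fin n) (Fin n) ℝ) f a := by
      rw [Matrix.one_apply, Matrix.one_apply]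
      simp only [eq_comm]
    simp only [gm, Matrix.add_apply, Matrix.of_apply, h3, hs a f]
  have h1 : ∑ e, ∑ f, z e * z f * ∑ a, gm v x e a * gm v x a f =
      ∑ a, (∑ e, z e * gm v x e a) * ∑ f, z f * gm v x a f := by
    simp only [Finset.mul_sum, Finset.sum_mul]
    rw [Finset.sum_congr rfl fun e _ => Finset.sum_comm, Finset.sum_comm]
    refine Finset.sum_congr rfl fun a _ => ?_
    rw [Finset.sum_comm]
    refine Finset.sum_congr rfl fun e _ => Finset.sum_congr rfl fun f _ => by ring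
  have h2 : ∑ a, z a * ∑ e, z e * Hs v x e a = qfB v z x := by
    unfold qfB
    simp only [Finset.mul_sum]
    refine Finset.sum_congr rfl fun a _ => Finset.sum_congr rfl fun e _ => ?_
    rw [hs a e]; ring
  rw [h1, ← h2]
  simp only [hg, hg2, Finset.mul_sum, ← Finset.sum_add_distrib]
  refine Finset.sum_congr rfl fun a _ => ?_
  rw [← Finset.mul_sum, ← Finset.mul_sum]
  ring

/-- quadratic form of (E1): `LA τ u_zz - ∇v·∇u_zz = tr(τ G τ G) + |D²u z|² - Dp(z,z)`. -/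
theorem FactsB.L_qf {v P : E n → ℝ} {lam s : ℝ} {Z : SysB n (SA n)} (hZ : FactsB P lam s v Z)
    (hv : ContDiff ℝ ∞ v) (hP : ContDiff ℝ ∞ P)
    (hsym : ∀ x i j, tauf v x i j = tauf v x j i) (z : Fin n → ℝ) (x : E n) :
    LA (tauf v) (qfB v z) x - ∑ i, gr v x i * gr (qfB v z) x i =
      (tauf v x * (Matrix.of fun i j => ∑ e, z e * fderiv ℝ (fun y => Hs v y i j) x (ee e)) *
        tauf v x *
        (Matrix.of fun i j => ∑ e, z e * fderiv ℝ (fun y => Hs v y i j) x (ee e))).trace +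
      ∑ a, (∑ e, z e * Hs v x e a) ^ 2 + 2 * qfB v z x
      - ∑ i, ∑ j, pmB P s x i j * z i * z j + lam * qfB v z x := by
  set W : SA n := ∑ e, ∑ f, (z e * z f) • Z.g e f - algebraMap ℝ (SA n) (∑ i, z i ^ 2) with hW
  have hWf : W.1 = qfB v z := by
    funext y
    have h1 : W.1 y = ev y W := rfl
    rw [h1, hW]
    simp only [map_sub, map_sum, map_smul, smul_eq_mul]
    have h2 : ∀ e f, ev y (Z.g e f) = (1 : Matrix (Fin n) (Fin n) ℝ) e f + Hs v y e f :=
      fun e f => hZ.g e f y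
    have h3 : ∀ c : ℝ, ev y (algebraMap ℝ (SA n) c) = c := fun c => rfl
    simp only [h2, h3, qfB, mul_add, Finset.sum_add_distrib, Matrix.one_apply]
    simp only [mul_ite, mul_one, mul_zero, Finset.sum_ite_eq, Finset.mem_univ, if_true]
    have h4 : ∑ e, ∑ f, z e * z f * Hs v y e f = ∑ e, ∑ f, Hs v y e f * z e * z f :=
      Finset.sum_congr rfl fun e _ => Finset.sum_congr rfl fun f _ => by ring
    rw [h4]
    have h5 : ∑ e, z e * z e = ∑ i, z i ^ 2 := Finset.sum_congr rfl fun e _ => by ring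
    rw [h5]
    ring
  rw [← hWf, ← hZ.L W x]
  have hLW : Z.L W = ∑ e, ∑ f, (z e * z f) • Z.L (Z.g e f) := by
    have h1 : W = ∑ e, ∑ f, (z e * z f) • Z.g e f + (-1 : ℝ) •
        algebraMap ℝ (SA n) (∑ i, z i ^ 2) := by
      rw [hW]; simp [sub_eq_add_neg]
    rw [h1, Z.L_add, Z.L_smul, Z.L_algebraMap, smul_zero, add_zero, Z.L_sum]
    refine Finset.sum_congr rfl fun e _ => ?_
    rw [Z.L_sum]
    exact Finset.sum_congr rfl fun f _ => Z.L_smul _ _
  rw [hLW, hWf]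
  have hT : ∀ a b, ev x (Z.t a b) = tauf v x a b := fun a b => hZ.t a b x
  have hg : ∀ a b, ev x (Z.g a b) = gm v x a b := fun a b => hZ.g a b x
  simp only [map_sum, map_smul, smul_eq_mul, Z.E1, map_sub, map_add, map_mul, hT, hg,
    hZ.Dg, hZ.Dp hv hP]
  have e0 := sum_gg v hv z x
  have e2 : ∑ e, ∑ f, z e * z f * (if e = f then (1 : ℝ) else 0) = ∑ i, z i ^ 2 := by
    simp only [mul_ite, mul_one, mul_zero, Finset.sum_ite_eq, Finset.mem_univ, if_true]
    exact Finset.sum_congr rfl fun e _ => by ring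
  have e3 : ∑ e, ∑ f, z e * z f * (s * Hs P x e f) = ∑ i, ∑ j, pmB P s x i j * z i * z j := by
    simp only [pmB, Matrix.of_apply]
    exact Finset.sum_congr rfl fun e _ => Finset.sum_congr rfl fun f _ => by ring
  have e4 : ∑ e, ∑ f, z e * z f * (lam * Hs v x e f) = lam * qfB v z x := by
    simp only [qfB, Finset.mul_sum]
    exact Finset.sum_congr rfl fun e _ => Finset.sum_congr rfl fun f _ => by ring
  have hGs : ∀ i j e, fderiv ℝ (fun y => Hs v y i j) x (ee e) =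
      fderiv ℝ (fun y => Hs v y j i) x (ee e) := by
    intro i j e
    have h1 : (fun y => Hs v y i j) = fun y => Hs v y j i := by
      funext y
      exact Hs_symm (hv.of_le (by norm_cast)) y i j
    rw [h1]
  rw [ECal.trace_rearr (tauf v x) (fun i j => hsym x i j)
    (fun i j e => fderiv ℝ (fun y => Hs v y i j) x (ee e)) hGs z]
  simp only [mul_sub, mul_add, Finset.sum_sub_distrib, Finset.sum_add_distrib] at e0 ⊢
  rw [e0, e2, e3, e4]
  ring

/-- (i) of `PwB` -/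
theorem pw_i {v P : E n → ℝ} {lam s lo hi : ℝ} (hP : ContDiff ℝ ∞ P) (hv : ContDiff ℝ ∞ v)
    (hlo : 0 < lo) (hell : ∀ x, Ell lo hi (gm v x)) (hma : MAb P lam s v)
    (z : Fin n → ℝ) (x : E n) :
    2 * qfB v z x - ∑ i, ∑ j, pmB P s x i j * z i * z j ≤
      Lb lam (gr v) (tauf v) (qfB v z) x := by
  obtain ⟨Z, hZ⟩ := exists_factsB hv hP hlo hell hma
  have h0 := hZ.L_qf hv hP (fun x i j => Ell.sm_inv_symm (hell x) i j) z x
  have h1 := MaxP.trace_sandwich_nonneg (A := tauf v x)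
    (G := Matrix.of fun i j => ∑ e, z e * fderiv ℝ (fun y => Hs v y i j) x (ee e))
    (MaxP.Ell.posDef hlo (hell x)).inv.posSemidef (by
      ext i j
      simp only [Matrix.transpose_apply, Matrix.of_apply]
      refine Finset.sum_congr rfl fun e _ => ?_
      have h1 : (fun y => Hs v y j i) = fun y => Hs v y i j := by
        funext y
        exact Hs_symm (hv.of_le (by norm_cast)) y j i
      rw [h1])
  have h2 : 0 ≤ ∑ a, (∑ e, z e * Hs v x e a) ^ 2 := Finset.sum_nonneg fun a _ => sq_nonneg _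
  unfold Lb
  linarith

/-- (ii) of `PwB` -/
theorem pw_ii {v P : E n → ℝ} {lam s lo hi : ℝ} (hP : ContDiff ℝ ∞ P) (hv : ContDiff ℝ ∞ v)
    (hlo : 0 < lo) (hell : ∀ x, Ell lo hi (gm v x)) (hma : MAb P lam s v) (x : E n) :
    LA (tauf v) (fun y => Real.log (gm v y).det) x
        - ∑ i, gr v x i * gr (fun y => Real.log (gm v y).det) x i
      = (gm v x).trace - (tauf v x * (1 + pmB P s x)).trace + lam * (n - (tauf v x).trace) := by
  obtain ⟨Z, hZ⟩ := exists_factsB hv hP hlo hell hma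
  obtain ⟨LD, hLD, hb⟩ := hZ.logdet hv hlo hell
  have h5 := congrArg (ev x) (Z.L_logdet LD hb)
  rw [hZ.L LD x, hLD] at h5
  rw [h5]
  have hT : ∀ a b, ev x (Z.t a b) = tauf v x a b := fun a b => hZ.t a b x
  have hg : ∀ a b, ev x (Z.g a b) = gm v x a b := fun a b => hZ.g a b x
  have h6 := congrArg (ev x) Z.tr_tg
  simp only [map_sum, map_mul, map_natCast, hT, hg] at h6
  simp only [map_sub, map_sum, map_mul, hZ.Dp hv hP, hT, hg]
  have hs : ∀ i j, Hs v x i j = Hs v x j i := fun i j => Hs_symm (hv.of_le (by norm_cast)) x i j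
  have hsP : ∀ i j, Hs P x i j = Hs P x j i := fun i j => Hs_symm (hP.of_le (by norm_cast)) x i j
  have e1 : ∑ a, gm v x a a = (gm v x).trace := rfl
  have e2 : (tauf v x * (1 + pmB P s x)).trace =
      ∑ a, ∑ b, tauf v x a b * ((if b = a then 1 else 0) + s * Hs P x b a) := by
    simp only [Matrix.trace, Matrix.diag_apply, Matrix.mul_apply, Matrix.add_apply,
      Matrix.one_apply, pmB, Matrix.of_apply]
  have e3 : ∑ a, ∑ b, tauf v x a b * (lam * Hs v x b a) = lam * (n - (tauf v x).trace) := by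
    have h7 : ∀ a b, Hs v x b a = gm v x a b - (if a = b then 1 else 0) := by
      intro a b
      simp only [gm, Matrix.add_apply, Matrix.of_apply, Matrix.one_apply, hs b a]
      ring
    have h8 : ∑ a, ∑ b, tauf v x a b * (if a = b then (1 : ℝ) else 0) = (tauf v x).trace := by
      simp [Matrix.trace]
    have h9 : ∀ a b, tauf v x a b * (lam * Hs v x b a) =
        lam * (tauf v x a b * gm v x a b) - lam * (tauf v x a b * (if a = b then 1 else 0)) := by
      intro a b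
      rw [h7]; ring
    simp only [h9, Finset.sum_sub_distrib, ← Finset.mul_sum]
    rw [h6, h8]
    ring
  rw [e1, e2, ← e3]
  simp only [mul_sub, mul_add, Finset.sum_sub_distrib, Finset.sum_add_distrib]
  ring

/-- **B5** of task T6. -/
theorem pwB : Br.PwB := by
  intro n P v lam s lo hi hP hv hlo hell hma
  exact ⟨fun z x => pw_i hP hv hlo hell hma z x, fun x => pw_ii hP hv hlo hell hma x⟩

end Crest.Agent.R253.BrCal
end
end

-- ▼ part R253/MaDiff_649

/-!
Row 253, T6 (Brenier map) (helper649): the once differentiated equation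
`Lb (v_e) = v_e - s P_e` for a smooth solution of `MAb P lam s v`.
-/

set_option autoImplicit false
open scoped ContDiff Topology
open Set Filter Finset

noncomputable section

namespace Crest.Agent.R253.BrCal

open Crest.Agent.R238 Crest.Agent.R238.XInst Crest.Agent.R253.Br

variable {n : ℕ}

/-- In the algebra: `L (∂_e v) = X_e - p_e`. -/
theorem FactsB.L_pd {v P : E n → ℝ} {lam s : ℝ} {Z : SysB n (SA n)} (hZ : FactsB P lam s v Z)
    (hv : ContDiff ℝ ∞ v) (e : Fin n) :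
    Z.L (pd e ⟨v, hv⟩) = Z.X e - Z.p e := by
  set V : SA n := ⟨v, hv⟩ with hV
  have hX : ∀ a, Z.X a = co a + pd a V := by
    intro a
    refine ext_ev fun y => ?_
    exact hZ.X a y
  have hD : ∀ a, Z.D a (pd e V) = Z.g a e - (if a = e then 1 else 0) := by
    intro a
    rw [← Z.DX a e, hX e, map_add, hZ.D_eq a (co e), pd_co]
    ring
  have hDD : ∀ a b, Z.D a (Z.D b (pd e V)) = Z.D e (Z.g a b) := by
    intro a b
    rw [hD b, map_sub, Z.D_delta, sub_zero, Z.gcod b e a, Z.T_symm1 a e b, Z.gcod e a b,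
      Z.T_symm1 b a e]
  unfold SysB.L
  simp only [hDD]
  simp only [hD, mul_sub, Finset.sum_sub_distrib]
  rw [Z.eq e]
  simp

/-- **the differentiated equation**: `Lb (∂_e v) = ∂_e v - s ∂_e P`. -/
theorem ma_diffB {v P : E n → ℝ} {lam s lo hi : ℝ} (hP : ContDiff ℝ ∞ P) (hv : ContDiff ℝ ∞ v)
    (hlo : 0 < lo) (hell : ∀ x, Ell lo hi (gm v x)) (hma : MAb P lam s v) (e : Fin n) (x : E n) :
    Lb lam (gr v) (tauf v) (fun y => gr v y e) x = gr v x e - s * gr P x e := by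
  obtain ⟨Z, hZ⟩ := exists_factsB hv hP hlo hell hma
  have h1 := congrArg (ev x) (hZ.L_pd hv e)
  rw [hZ.L _ x, map_sub] at h1
  have h2 : ev x (Z.X e) = x e + gr v x e := hZ.X e x
  have h3 : ev x (Z.p e) = x e + s * gr P x e - lam * gr v x e := hZ.p e x
  have h4 : (pd e (⟨v, hv⟩ : SA n)).1 = fun y => gr v y e := rfl
  rw [h2, h3, h4] at h1
  unfold Lb
  rw [h1]
  ring

end Crest.Agent.R253.BrCal
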