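import Crest.Agent.R253.BrDefs_505
import Crest.Agent.R238.MaxPBar

/-!
Row 253 (S0391), task T6, node B2 (helper505): maximum principle for
`LA τ w - ∑ b_i ∂_i w` with a bounded drift `b`, sup bound for `Lb`, exterior comparison with the
barrier `Bar = (1+|x|²)^(-1/4)`.
-/

set_option autoImplicit false

open Set Filter
open scoped ContDiff Topology

namespace Crest.Agent.R253.Br

open Crest.Agent.R238 Crest.Agent.R238.MaxP

variable {n : ℕ}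

theorem norm_ee (i : Fin n) : ‖(ee i : E n)‖ = 1 := by simp

theorem drift_le {b : E n → Fin n → ℝ} {B : ℝ} (hb : ∀ x i, |b x i| ≤ B) {w : E n → ℝ} {x : E n}
    {ε : ℝ} (hw : ∀ i, |gr w x i| ≤ ε) : |∑ i, b x i * gr w x i| ≤ n * (B * ε) := by
  refine (Finset.abs_sum_le_sum_abs _ _).trans ?_
  have h : ∀ i ∈ Finset.univ, |b x i * gr w x i| ≤ B * ε := by
    intro i _
    rw [abs_mul]
    exact mul_le_mul (hb x i) (hw i) (abs_nonneg _) ((abs_nonneg _).trans (hb x i))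
  refine (Finset.sum_le_sum h).trans ?_
  simp

/-- Omori–Yau with drift -/
theorem omoriB {τ : E n → Matrix (Fin n) (Fin n) ℝ} (hτ : ∀ x, (τ x).PosSemidef)
    {T : ℝ} (hT : ∀ x, (τ x).trace ≤ T) {b : E n → Fin n → ℝ} {B : ℝ}
    (hb : ∀ x i, |b x i| ≤ B) {w : E n → ℝ} (hw : ContDiff ℝ 2 w) {M : ℝ}
    (hM : ∀ x, w x ≤ M) (x0 : E n) {ε : ℝ} (hε : 0 < ε) :
    ∃ x, w x0 - ε ≤ w x ∧ LA τ w x - ∑ i, b x i * gr w x i ≤ ε ∧ (∀ i, |gr w x i| ≤ ε) ∧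
      ∀ h, fderiv ℝ (fderiv ℝ w) x h h ≤ ε * ‖h‖ ^ 2 := by
  set k : ℝ := 1 + n * |B| with hk
  have hk1 : 1 ≤ k := by
    have : (0:ℝ) ≤ n * |B| := by positivity
    linarith
  have hk0 : 0 < k := by linarith
  obtain ⟨x, h1, h2, h3, h4⟩ := omori_yau_LA hτ hT hw hM x0 (ε := ε / k) (by positivity)
  have hle : ε / k ≤ ε := div_le_self hε.le hk1
  have hgr : ∀ i, |gr w x i| ≤ ε / k := by
    intro i
    have := h3 (ee i)
    rwa [norm_ee, mul_one] at this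
  refine ⟨x, by linarith, ?_, fun i => (hgr i).trans hle, fun h => ?_⟩
  · have hb' : ∀ x i, |b x i| ≤ |B| := fun x i => (hb x i).trans (le_abs_self B)
    have h5 := (abs_le.1 (drift_le hb' hgr)).1
    have h6 : n * (|B| * (ε / k)) = (k - 1) * (ε / k) := by rw [hk]; ring
    rw [h6] at h5
    have h7 : (k - 1) * (ε / k) = ε - ε / k := by field_simp
    rw [h7] at h5
    linarith
  · refine (h4 h).trans ?_
    gcongr

/-- **maximum principle with drift** -/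
theorem maxB {τ : E n → Matrix (Fin n) (Fin n) ℝ} (hτ : ∀ x, (τ x).PosSemidef)
    {T : ℝ} (hT : ∀ x, (τ x).trace ≤ T) {b : E n → Fin n → ℝ} {B : ℝ}
    (hb : ∀ x i, |b x i| ≤ B) {w : E n → ℝ} (hw : ContDiff ℝ 2 w) {M : ℝ}
    (hM : ∀ x, w x ≤ M) {c0 a : ℝ} (hc0 : 0 < c0)
    (h : ∀ x, a < w x → c0 * (w x - a) ≤ LA τ w x - ∑ i, b x i * gr w x i) :
    ∀ x, w x ≤ a := by
  intro x0
  by_contra hcon
  push Not at hcon
  set d := w x0 - a with hd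
  have hd0 : 0 < d := by simp only [hd]; linarith
  set ε : ℝ := min (d / 2) (c0 * d / 4) with hε
  have hε0 : 0 < ε := lt_min (by positivity) (by positivity)
  obtain ⟨x, hx1, hx2, -, -⟩ := omoriB hτ hT hb hw hM x0 hε0
  have h1 : ε ≤ d / 2 := min_le_left _ _
  have h2 : ε ≤ c0 * d / 4 := min_le_right _ _
  have h3 : d / 2 ≤ w x - a := by simp only [hd] at h1 ⊢; linarith
  have h4 := h x (by linarith)
  have h5 : c0 * (d / 2) ≤ c0 * (w x - a) := by gcongr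
  have h6 : 0 < c0 * d := by positivity
  linarith

theorem gr_neg (h : E n → ℝ) (x : E n) (i : Fin n) : gr (fun y => -h y) x i = - gr h x i := by
  unfold gr
  rw [fderiv_fun_neg]
  rfl

theorem gr_sub {f g : E n → ℝ} (hf : Differentiable ℝ f) (hg : Differentiable ℝ g) (x : E n)
    (i : Fin n) : gr (fun y => f y - g y) x i = gr f x i - gr g x i := by
  unfold gr
  rw [fderiv_fun_sub (hf x) (hg x)]
  rfl


theorem gr_const_mul {f : E n → ℝ} (hf : Differentiable ℝ f) (c : ℝ) (x : E n)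
    (i : Fin n) : gr (fun y => c * f y) x i = c * gr f x i := by
  unfold gr
  rw [fderiv_const_mul (hf x)]
  rfl


theorem Lb_neg (lam : ℝ) (b : E n → Fin n → ℝ) (τ : E n → Matrix (Fin n) (Fin n) ℝ) {h : E n → ℝ}
    (hh : ContDiff ℝ 2 h) (x : E n) : Lb lam b τ (fun y => -h y) x = - Lb lam b τ h x := by
  unfold Lb
  rw [LA_neg τ hh]
  simp only [gr_neg, mul_neg, Finset.sum_neg_distrib]
  ring



/-- one-sided sup bound -/
theorem supB_le {τ : E n → Matrix (Fin n) (Fin n) ℝ} (hτ : ∀ x, (τ x).PosSemidef)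
    {T : ℝ} (hT : ∀ x, (τ x).trace ≤ T) {b : E n → Fin n → ℝ} {B : ℝ}
    (hb : ∀ x i, |b x i| ≤ B) {lam : ℝ} (hlam : 0 < lam) {h : E n → ℝ} (hh : ContDiff ℝ 2 h)
    {S : ℝ} (hS : ∀ x, h x ≤ S) {N : ℝ} (hN : ∀ x, -N ≤ Lb lam b τ h x) :
    ∀ x, h x ≤ N / lam := by
  refine maxB hτ hT hb hh hS hlam fun x _ => ?_
  have h1 := hN x
  unfold Lb at h1
  have h2 : lam * (h x - N / lam) = lam * h x - N := by field_simp
  rw [h2]
  linarith

/-- **sup bound** for `Lb` -/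
theorem supB {τ : E n → Matrix (Fin n) (Fin n) ℝ} (hτ : ∀ x, (τ x).PosSemidef)
    {T : ℝ} (hT : ∀ x, (τ x).trace ≤ T) {b : E n → Fin n → ℝ} {B : ℝ}
    (hb : ∀ x i, |b x i| ≤ B) {lam : ℝ} (hlam : 0 < lam) {h : E n → ℝ} (hh : ContDiff ℝ 2 h)
    (hS : ∃ S, ∀ x, |h x| ≤ S) {N : ℝ} (hN : ∀ x, |Lb lam b τ h x| ≤ N) :
    ∀ x, |h x| ≤ N / lam := by
  obtain ⟨S, hS⟩ := hS
  intro x
  rw [abs_le]
  constructor
  · have := supB_le hτ hT hb hlam (h := fun y => -h y) hh.neg (S := S)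
      (fun y => (neg_le_abs _).trans (hS y)) (N := N) (fun y => by
        rw [Lb_neg lam b τ hh]
        linarith [(abs_le.1 (hN y)).2]) x
    linarith
  · exact supB_le hτ hT hb hlam hh (S := S) (fun y => (le_abs_self _).trans (hS y)) (N := N)
      (fun y => (abs_le.1 (hN y)).1) x

/-- gradient of the barrier -/
theorem gr_Bar (x : E n) (i : Fin n) :
    |gr Bar x i| ≤ 1 / 2 * (Bar x / (1 + ‖x‖ ^ 2)) * ‖x‖ := by
  have hs0 : (0:ℝ) < 1 + ‖x‖ ^ 2 := by positivity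
  have hD1 : fderiv ℝ (Bar : E n → ℝ) = fun x =>
      (2 * ((-(1/4)) * (1 + ‖x‖ ^ 2) ^ ((-(1/4) : ℝ) - 1))) • innerSL ℝ x :=
    fderiv_radial (E := E n) (F := fun t => (1 + t) ^ (-(1/4) : ℝ))
      (F1 := fun t => (-(1/4)) * (1 + t) ^ ((-(1/4) : ℝ) - 1)) (fun t ht => hasDerivAt_rp ht)
  have e1 : (1 + ‖x‖ ^ 2) ^ ((-(1/4) : ℝ) - 1) = Bar x / (1 + ‖x‖ ^ 2) := by
    rw [Real.rpow_sub_one hs0.ne']; rfl
  have hB := Bar_pos x
  unfold gr
  rw [hD1]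
  simp only [_root_.smul_apply, smul_eq_mul, innerSL_apply_apply]
  rw [e1]
  have h1 : |inner ℝ x (ee i)| ≤ ‖x‖ := by
    have := abs_real_inner_le_norm x (ee i : E n)
    rwa [norm_ee, mul_one] at this
  have h2 : 0 ≤ Bar x / (1 + ‖x‖ ^ 2) := by positivity
  rw [abs_mul]
  have h3 : |2 * (-(1 / 4) * (Bar x / (1 + ‖x‖ ^ 2)))| = 1 / 2 * (Bar x / (1 + ‖x‖ ^ 2)) := by
    rw [show 2 * (-(1 / 4) * (Bar x / (1 + ‖x‖ ^ 2))) = -(1 / 2 * (Bar x / (1 + ‖x‖ ^ 2))) by ring,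
      abs_neg, abs_of_nonneg (by positivity)]
  rw [h3]
  exact mul_le_mul_of_nonneg_left h1 (by positivity)

/-- the barrier with drift: `L_b Bar ≤ 7/8 Bar` far out -/
theorem LbBar_le {τ : E n → Matrix (Fin n) (Fin n) ℝ} (hτ : ∀ x, (τ x).PosSemidef)
    {T : ℝ} (hT : ∀ x, (τ x).trace ≤ T) {b : E n → Fin n → ℝ} {B : ℝ}
    (hb : ∀ x i, |b x i| ≤ B) (x : E n) (hx : 5 * T ≤ 1 + ‖x‖ ^ 2)
    (hx2 : 4 * (n * B) * ‖x‖ ≤ 1 + ‖x‖ ^ 2) :
    LA τ Bar x - ∑ i, b x i * gr Bar x i ≤ 7 / 8 * Bar x := by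
  have h1 := LA_Bar_le hτ hT x hx
  have hs0 : (0:ℝ) < 1 + ‖x‖ ^ 2 := by positivity
  have hB := Bar_pos x
  have h2 := (abs_le.1 (drift_le (w := Bar) hb (fun i => gr_Bar x i))).1
  have h3 : n * (B * (1 / 2 * (Bar x / (1 + ‖x‖ ^ 2)) * ‖x‖)) ≤ 1 / 8 * Bar x := by
    have e : n * (B * (1 / 2 * (Bar x / (1 + ‖x‖ ^ 2)) * ‖x‖))
        = 1 / 8 * (4 * (n * B) * ‖x‖ * (Bar x / (1 + ‖x‖ ^ 2))) := by ring
    rw [e]
    have h4 : 0 ≤ Bar x / (1 + ‖x‖ ^ 2) := by positivity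
    have h5 := mul_le_mul_of_nonneg_right hx2 h4
    have h6 : (1 + ‖x‖ ^ 2) * (Bar x / (1 + ‖x‖ ^ 2)) = Bar x := by field_simp
    linarith
  linarith


end Crest.Agent.R253.Br
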