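/-
helper999, row 253.  Second-order spectral calculus for real symmetric matrices.

* `dd1 f f' x y`, `dd2 f f' f'' x y z` : first and second divided differences (with the confluent values
  supplied by `f'`, `f''`).
* `cfc_entry_exact` : the exact algebraic second-order identity.
* `tendsto_cfc_entry` : continuity of `A ↦ g(A)` (entrywise) for `g` continuous on a compact set.
* `cfc_taylor2` : second-order Peano expansion of `t ↦ f(S_t)` at a diagonal matrix.
-/
import Mathlib

set_option autoImplicit false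
open Matrix Filter Topology Asymptotics

namespace Crest.Agent.R253.SpecCalc999

variable {m : ℕ}

/-- square real matrices -/
abbrev Mat (m : ℕ) := Matrix (Fin m) (Fin m) ℝ

lemma contOn_spec (f : ℝ → ℝ) (A : Mat m) : ContinuousOn f (spectrum ℝ A) := by
  have : Finite (spectrum ℝ A) := inferInstance
  exact (Set.toFinite (spectrum ℝ A)).continuousOn f

lemma sa {A : Mat m} (hA : A.IsHermitian) : IsSelfAdjoint A := hA

lemma cfc_entry {A : Mat m} (hA : A.IsHermitian) (f : ℝ → ℝ) (i j : Fin m) :
    (cfc f A) i j = ∑ k, (hA.eigenvectorUnitary : Mat m) i k * f (hA.eigenvalues k) *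
      (hA.eigenvectorUnitary : Mat m) j k := by
  rw [hA.cfc_eq, Matrix.IsHermitian.cfc, Unitary.conjStarAlgAut_apply]
  simp only [Matrix.mul_apply, Matrix.star_apply, star_trivial]
  refine Finset.sum_congr rfl fun k _ => ?_
  congr 1
  rw [Finset.sum_eq_single k]
  · simp
  · intro b _ hb; simp [Matrix.diagonal, hb]
  · intro h; exact absurd (Finset.mem_univ _) h

lemma unitary_row {A : Mat m} (hA : A.IsHermitian) (i : Fin m) :
    ∑ k, ((hA.eigenvectorUnitary : Mat m) i k) ^ 2 = 1 := by
  have h := Unitary.coe_mul_star_self hA.eigenvectorUnitary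
  have h2 := congrFun (congrFun h i) i
  simp only [Matrix.mul_apply, Unitary.coe_star, Matrix.star_apply, star_trivial,
    Matrix.one_apply_eq] at h2
  rw [← h2]
  exact Finset.sum_congr rfl fun k _ => by ring

lemma abs_cfc_entry_le {A : Mat m} (hA : A.IsHermitian) {f : ℝ → ℝ} {I : Set ℝ}
    (hI : spectrum ℝ A ⊆ I) {ε : ℝ} (hf : ∀ x ∈ I, |f x| ≤ ε) (i j : Fin m) :
    |(cfc f A) i j| ≤ ε := by
  rw [cfc_entry hA]
  have hk : ∀ k, |f (hA.eigenvalues k)| ≤ ε := fun k => hf _ (hI (hA.eigenvalues_mem_spectrum_real k))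
  have hε : (0 : ℝ) ≤ ε := by
    exact le_trans (abs_nonneg _) (hk i)
  calc |∑ k, (hA.eigenvectorUnitary : Mat m) i k * f (hA.eigenvalues k) *
        (hA.eigenvectorUnitary : Mat m) j k|
      ≤ ∑ k, |(hA.eigenvectorUnitary : Mat m) i k * f (hA.eigenvalues k) *
        (hA.eigenvectorUnitary : Mat m) j k| := Finset.abs_sum_le_sum_abs _ _
    _ ≤ ∑ k, ε * ((((hA.eigenvectorUnitary : Mat m) i k) ^ 2 +
          ((hA.eigenvectorUnitary : Mat m) j k) ^ 2) / 2) := by
        refine Finset.sum_le_sum fun k _ => ?_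
        rw [abs_mul, abs_mul]
        set a := (hA.eigenvectorUnitary : Mat m) i k
        set b := (hA.eigenvectorUnitary : Mat m) j k
        have h1 : |a| * |b| ≤ (a ^ 2 + b ^ 2) / 2 := by
          nlinarith [sq_nonneg (|a| - |b|), sq_abs a, sq_abs b]
        calc |a| * |f (hA.eigenvalues k)| * |b| = |f (hA.eigenvalues k)| * (|a| * |b|) := by ring
          _ ≤ ε * ((a ^ 2 + b ^ 2) / 2) := by
            exact mul_le_mul (hk k) h1 (by positivity) hε
    _ = ε := by
        rw [← Finset.mul_sum, ← Finset.sum_div, Finset.sum_add_distrib, unitary_row, unitary_row]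
        ring

lemma cfc_diagonal (f : ℝ → ℝ) (s : Fin m → ℝ) :
    cfc f (Matrix.diagonal s) = Matrix.diagonal (fun i => f (s i)) := by
  have hA : (Matrix.diagonal s : Mat m).IsHermitian := Matrix.isHermitian_diagonal _
  obtain ⟨p, hp⟩ : ∃ p : Polynomial ℝ, ∀ x ∈ (spectrum ℝ (Matrix.diagonal s : Mat m)), p.eval x = f x := by
    classical
    have hfin := Set.toFinite (spectrum ℝ (Matrix.diagonal s : Mat m))
    refine ⟨Lagrange.interpolate hfin.toFinset id f, fun x hx => ?_⟩
    exact Lagrange.eval_interpolate_at_node (v := id) f (fun a _ b _ h => h) (hfin.mem_toFinset.2 hx)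
  have h1 : cfc f (Matrix.diagonal s : Mat m) = cfc p.eval (Matrix.diagonal s : Mat m) :=
    cfc_congr fun x hx => (hp x hx).symm
  rw [h1, cfc_polynomial p _ (sa hA)]
  have h2 : Polynomial.aeval (Matrix.diagonal s : Mat m) p = Matrix.diagonal (fun i => p.eval (s i)) := by
    have := Polynomial.aeval_algHom_apply (Matrix.diagonalAlgHom ℝ (n := Fin m) (α := ℝ)) s p
    simp only [Matrix.diagonalAlgHom_apply] at this
    rw [this]
    congr 1
    funext i
    simp [Polynomial.aeval_fn_apply]
  rw [h2]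
  congr 1
  funext i
  apply hp
  rw [spectrum_diagonal]
  exact ⟨i, rfl⟩

/-- continuity of the functional calculus along a filter -/
lemma tendsto_cfc_entry {τ : Type*} {l : Filter τ} {S : τ → Mat m} {B : Mat m} {I : Set ℝ}
    (hI : IsCompact I) {f : ℝ → ℝ} (hf : ContinuousOn f I)
    (hS : ∀ᶠ t in l, (S t).IsHermitian ∧ spectrum ℝ (S t) ⊆ I) (hB : B.IsHermitian)
    (hBI : spectrum ℝ B ⊆ I) (h : ∀ i j, Tendsto (fun t => S t i j) l (𝓝 (B i j))) (i j : Fin m) :
    Tendsto (fun t => (cfc f (S t)) i j) l (𝓝 ((cfc f B) i j)) := by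
  rw [Metric.tendsto_nhds]
  intro ε hε
  obtain ⟨p, hp⟩ : ∃ p : Polynomial ℝ, ∀ x ∈ I, |p.eval x - f x| < ε / 4 := by
    rcases Set.eq_empty_or_nonempty I with rfl | hne
    · exact ⟨0, by simp⟩
    · have hsub : I ⊆ Set.Icc (sInf I) (sSup I) := fun x hx =>
        ⟨csInf_le hI.bddBelow hx, le_csSup hI.bddAbove hx⟩
      -- Tietze extension then Weierstrass
      obtain ⟨g, hg⟩ := ContinuousMap.exists_restrict_eq (hI.isClosed)
        (⟨I.domRestrict f, continuousOn_iff_continuous_domRestrict.1 hf⟩ : C(I, ℝ))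
      obtain ⟨p, hp⟩ := exists_polynomial_near_of_continuousOn (sInf I) (sSup I) g
        g.continuous.continuousOn (ε / 4) (by positivity)
      refine ⟨p, fun x hx => ?_⟩
      have h1 := hp x (hsub hx)
      have h2 : g x = f x := by
        have := congrArg (fun F : C(I, ℝ) => F ⟨x, hx⟩) hg
        simpa using this
      rwa [h2] at h1
  have hpoly : Tendsto (fun t => (Polynomial.aeval (S t) p) i j) l (𝓝 ((Polynomial.aeval B p) i j)) := by
    have hST : Tendsto S l (𝓝 B) :=
      tendsto_pi_nhds.2 fun i => tendsto_pi_nhds.2 fun j => h i j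
    have hc : Continuous (fun M : Mat m => Polynomial.aeval M p) := by
      exact Polynomial.continuous_aeval p
    have h3 := (hc.tendsto B).comp hST
    exact ((continuous_apply_apply i j).tendsto _).comp h3
  have hev := (Metric.tendsto_nhds.1 hpoly) (ε / 4) (by positivity)
  filter_upwards [hev, hS] with t ht hSt
  have e1 : |(cfc f (S t)) i j - (Polynomial.aeval (S t) p) i j| ≤ ε / 4 := by
    rw [← cfc_polynomial p (S t) (sa hSt.1)]
    have : cfc f (S t) - cfc p.eval (S t) = cfc (fun x => f x - p.eval x) (S t) :=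
      (cfc_sub f p.eval (S t) (contOn_spec _ _) (contOn_spec _ _)).symm
    rw [← Matrix.sub_apply, this]
    exact abs_cfc_entry_le hSt.1 hSt.2 (fun x hx => by
      rw [abs_sub_comm]; exact (hp x hx).le) i j
  have e2 : |(cfc f B) i j - (Polynomial.aeval B p) i j| ≤ ε / 4 := by
    rw [← cfc_polynomial p B (sa hB)]
    have : cfc f B - cfc p.eval B = cfc (fun x => f x - p.eval x) B :=
      (cfc_sub f p.eval B (contOn_spec _ _) (contOn_spec _ _)).symm
    rw [← Matrix.sub_apply, this]
    exact abs_cfc_entry_le hB hBI (fun x hx => by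
      rw [abs_sub_comm]; exact (hp x hx).le) i j
  rw [Real.dist_eq] at ht ⊢
  have := abs_lt.1 ht
  have := abs_le.1 e1
  have := abs_le.1 e2
  rw [abs_lt]
  constructor <;> linarith

/-- first divided difference -/
noncomputable def dd1 (f f' : ℝ → ℝ) (x y : ℝ) : ℝ :=
  if x = y then f' x else (f x - f y) / (x - y)

/-- second divided difference `f[x,y,z]` (confluent values from `f'`, `f''`) -/
noncomputable def dd2 (f f' f'' : ℝ → ℝ) (x y z : ℝ) : ℝ :=
  if x = y then (if y = z then f'' x / 2 else (f' x - dd1 f f' x z) / (x - z))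
  else (dd1 f f' x z - dd1 f f' y z) / (x - y)

lemma dd1_mul (f f' : ℝ → ℝ) (x y : ℝ) : dd1 f f' x y * (x - y) = f x - f y := by
  unfold dd1
  split_ifs with h
  · subst h; ring
  · have : x - y ≠ 0 := sub_ne_zero.2 h
    field_simp


lemma dd1_comm (f f' : ℝ → ℝ) (x y : ℝ) : dd1 f f' x y = dd1 f f' y x := by
  unfold dd1
  by_cases h : x = y
  · subst h; simp
  · have h1 : x - y ≠ 0 := sub_ne_zero.2 h
    have h2 : y - x ≠ 0 := sub_ne_zero.2 (Ne.symm h)
    rw [if_neg h, if_neg (Ne.symm h)]
    field_simp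
    ring

/-- one-step factorisation of the functional calculus -/
lemma cfc_factor {A : Mat m} (hA : A.IsHermitian) {s : Fin m → ℝ} {X : Mat m}
    (hX : A = Matrix.diagonal s + X) (k : Fin m) (f g : ℝ → ℝ)
    (hg : ∀ x, f x - f (s k) = g x * (x - s k)) (i : Fin m) :
    (cfc f A) i k = f (s k) * (if i = k then 1 else 0) + ∑ j, (cfc g A) i j * X j k := by
  have e1 : cfc f A = cfc (fun x => f (s k) + g x * (x - s k)) A := by
    congr 1; funext x; linarith [hg x]
  have e2 : cfc (fun x => f (s k) + g x * (x - s k)) A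
      = algebraMap ℝ (Mat m) (f (s k)) + cfc g A * (A - algebraMap ℝ (Mat m) (s k)) := by
    rw [cfc_const_add _ _ _ (contOn_spec _ _) (sa hA), cfc_mul _ _ _ (contOn_spec _ _) (contOn_spec _ _),
      cfc_sub _ _ _ (contOn_spec _ _) (contOn_spec _ _), cfc_id' ℝ A (sa hA),
      cfc_const _ _ (sa hA)]
  rw [e1, e2]
  have e3 : ∀ j, (A - algebraMap ℝ (Mat m) (s k)) j k = X j k := by
    intro j
    rw [hX]
    simp only [Matrix.sub_apply, Matrix.add_apply, Matrix.algebraMap_matrix_apply,
      Matrix.diagonal_apply, Algebra.algebraMap_self, RingHom.id_apply]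
    split_ifs with h
    · subst h; ring
    · ring
  rw [Matrix.add_apply, Matrix.mul_apply, Matrix.algebraMap_matrix_apply]
  simp only [e3, Algebra.algebraMap_self, RingHom.id_apply]
  congr 1
  split_ifs <;> ring













end Crest.Agent.R253.SpecCalc999
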