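import Crest.Agent.R253.MAI_74

/-!
# R253: the skeleton of the E-route (helper973)

* `CG`: continuous functions of polynomial growth, an algebra of integrable functions.
* `trX_scalar`, `trX_le`: the upper bound for `tr Cov` by an arbitrary test field `Y`.
* `RR`, `int_RR`: the log-concavity identity for `U K U`.
* `spine`: the lower bound for `D = 2 (h - m) - log det Cov`.
-/

set_option autoImplicit false

open MeasureTheory ProbabilityTheory Real Set Filter Topology
open scoped ContDiff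

noncomputable section

namespace Crest.Agent.R253.Meh74

open Crest.Agent.R238.Gap Crest.Agent.R238.GapPoinc Crest.Agent.R238.GapPc

variable {n : ℕ}

/-! ### continuous functions of polynomial growth -/

/-- continuous of polynomial growth -/
structure CG (f : E n → ℝ) : Prop where
  c : Continuous f
  g : PG f

lemma CG.int {f : E n → ℝ} (hf : CG f) : Integrable f (gam n) := integrable_of_PG hf.c hf.g

lemma C1.cg {f : E n → ℝ} (hf : C1 f) : CG f := ⟨hf.cont, hf.g⟩
lemma C1.cgp {f : E n → ℝ} (hf : C1 f) (i : Fin n) : CG (pd i f) := ⟨hf.contp i, hf.p i⟩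
lemma cg_const (c : ℝ) : CG (fun _ : E n => c) := (c1_const c).cg
lemma cg_coord (i : Fin n) : CG (fun x : E n => x i) := (c1_coord i).cg

lemma CG.add {f g : E n → ℝ} (hf : CG f) (hg : CG g) : CG (fun x => f x + g x) :=
  ⟨hf.c.add hg.c, hf.g.add hg.g⟩
lemma CG.sub {f g : E n → ℝ} (hf : CG f) (hg : CG g) : CG (fun x => f x - g x) :=
  ⟨hf.c.sub hg.c, hf.g.sub hg.g⟩
lemma CG.mul {f g : E n → ℝ} (hf : CG f) (hg : CG g) : CG (fun x => f x * g x) :=
  ⟨hf.c.mul hg.c, hf.g.mul hg.g⟩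
lemma CG.smul {f : E n → ℝ} (c : ℝ) (hf : CG f) : CG (fun x => c * f x) := (cg_const c).mul hf
lemma CG.mulc {f : E n → ℝ} (c : ℝ) (hf : CG f) : CG (fun x => f x * c) := hf.mul (cg_const c)
lemma CG.neg {f : E n → ℝ} (hf : CG f) : CG (fun x => -f x) := by
  have := hf.smul (-1); simpa using this
lemma CG.sq {f : E n → ℝ} (hf : CG f) : CG (fun x => f x ^ 2) :=
  ⟨hf.c.pow 2, PG_sq hf.g⟩
lemma CG.sum {ι : Type*} {s : Finset ι} {f : ι → E n → ℝ} (hf : ∀ i ∈ s, CG (f i)) :
    CG (fun x => ∑ i ∈ s, f i x) := by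
  classical
  induction s using Finset.induction_on with
  | empty => simpa using cg_const (n := n) 0
  | insert a s ha ih =>
    have h1 := (hf a (Finset.mem_insert_self a s)).add
      (ih fun i hi => hf i (Finset.mem_insert_of_mem hi))
    refine (iff_of_eq (congrArg _ ?_)).mp h1
    funext x
    rw [Finset.sum_insert ha]

/-- expectation -/
def EE (f : E n → ℝ) : ℝ := ∫ x, f x ∂(gam n)

lemma EE_add {f g : E n → ℝ} (hf : CG f) (hg : CG g) :
    EE (fun x => f x + g x) = EE f + EE g := integral_add hf.int hg.int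
lemma EE_sub {f g : E n → ℝ} (hf : CG f) (hg : CG g) :
    EE (fun x => f x - g x) = EE f - EE g := integral_sub hf.int hg.int
lemma EE_smul (c : ℝ) (f : E n → ℝ) : EE (fun x => c * f x) = c * EE f :=
  integral_const_mul c f
lemma EE_neg (f : E n → ℝ) : EE (fun x => -f x) = -EE f := integral_neg f
lemma EE_sum {ι : Type*} {s : Finset ι} {f : ι → E n → ℝ} (hf : ∀ i ∈ s, CG (f i)) :
    EE (fun x => ∑ i ∈ s, f i x) = ∑ i ∈ s, EE (f i) :=
  integral_finsetSum s fun i hi => (hf i hi).int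
lemma EE_const (c : ℝ) : EE (fun _ : E n => c) = c := by
  unfold EE; simp
lemma EE_mono {f g : E n → ℝ} (hf : CG f) (hg : CG g) (h : ∀ x, f x ≤ g x) : EE f ≤ EE g :=
  integral_mono hf.int hg.int h
lemma EE_nonneg {f : E n → ℝ} (h : ∀ x, 0 ≤ f x) : 0 ≤ EE f := integral_nonneg h
lemma EE_congr {f g : E n → ℝ} (h : ∀ x, f x = g x) : EE f = EE g := by
  have : f = g := funext h
  rw [this]

/-- Gaussian integration by parts, product form -/
lemma EE_ibp {f g : E n → ℝ} (hf : C1 f) (hg : C1 g) (i : Fin n) :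
    EE (fun x => f x * (pd i g x - x i * g x)) = -EE (fun x => pd i f x * g x) :=
  ibp_prod hf hg i

/-! ### (A): the bound for the trace of the covariance -/

theorem trX_scalar {m u : E n → ℝ} (hm : C1 m) (hu : C1 u) {y : Fin n → E n → ℝ}
    (hy : ∀ k, C1 (y k)) :
    EE (fun x => m x * Rs m x) ≤ 2 * EE (fun x => u x * m x) - EE (fun x => u x ^ 2) -
      EE (fun x => ∑ k, pd k u x ^ 2) + EE (fun x => ∑ k, (pd k u x - y k x) ^ 2) +
      EE (fun x => (m x - u x + ∑ k, (pd k (y k) x - x k * y k x)) ^ 2) := by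
  have h := res_le hm hy
  change EE (fun x => m x * Rs m x) ≤ (∑ k, EE (fun x => y k x ^ 2)) +
    EE (fun x => (m x + ∑ k, (pd k (y k) x - x k * y k x)) ^ 2) at h
  refine h.trans (le_of_eq ?_)
  have cd : ∀ k, CG (fun x : E n => pd k (y k) x - x k * y k x) := fun k =>
    ((hy k).cgp k).sub ((cg_coord k).mul (hy k).cg)
  have cD : CG (fun x : E n => ∑ k, (pd k (y k) x - x k * y k x)) := CG.sum fun k _ => cd k
  -- the second square
  have e1 : EE (fun x => (m x + ∑ k, (pd k (y k) x - x k * y k x)) ^ 2) =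
      EE (fun x => (m x - u x + ∑ k, (pd k (y k) x - x k * y k x)) ^ 2) +
        2 * EE (fun x => u x * m x) +
        2 * EE (fun x => ∑ k, u x * (pd k (y k) x - x k * y k x)) - EE (fun x => u x ^ 2) := by
    rw [← EE_smul, ← EE_smul, ← EE_add, ← EE_add, ← EE_sub]
    · refine EE_congr fun x => ?_
      rw [← Finset.mul_sum]
      ring
    · exact ((((hm.cg.sub hu.cg).add cD).sq.add ((hu.cg.mul hm.cg).smul 2)).add
        ((CG.sum fun k _ => hu.cg.mul (cd k)).smul 2))
    · exact hu.cg.sq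
    · exact (((hm.cg.sub hu.cg).add cD).sq.add ((hu.cg.mul hm.cg).smul 2))
    · exact (CG.sum fun k _ => hu.cg.mul (cd k)).smul 2
    · exact ((hm.cg.sub hu.cg).add cD).sq
    · exact (hu.cg.mul hm.cg).smul 2
  have e2 : EE (fun x => ∑ k, u x * (pd k (y k) x - x k * y k x)) =
      -EE (fun x => ∑ k, pd k u x * y k x) := by
    rw [EE_sum fun k _ => hu.cg.mul (cd k), EE_sum fun k _ => (hu.cgp k).mul (hy k).cg,
      ← Finset.sum_neg_distrib]
    exact Finset.sum_congr rfl fun k _ => EE_ibp hu (hy k) k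
  have e3 : (∑ k, EE (fun x => y k x ^ 2)) = EE (fun x => ∑ k, (pd k u x - y k x) ^ 2) -
      EE (fun x => ∑ k, pd k u x ^ 2) + 2 * EE (fun x => ∑ k, pd k u x * y k x) := by
    rw [← EE_sum fun k _ => (hy k).cg.sq, ← EE_smul, ← EE_sub, ← EE_add]
    · refine EE_congr fun x => ?_
      rw [Finset.mul_sum, ← Finset.sum_sub_distrib, ← Finset.sum_add_distrib]
      exact Finset.sum_congr rfl fun k _ => by ring
    · exact (CG.sum fun k _ => ((hu.cgp k).sub (hy k).cg).sq).sub
        (CG.sum fun k _ => (hu.cgp k).sq)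
    · exact (CG.sum fun k _ => (hu.cgp k).mul (hy k).cg).smul 2
    · exact CG.sum fun k _ => ((hu.cgp k).sub (hy k).cg).sq
    · exact CG.sum fun k _ => (hu.cgp k).sq
  rw [e1, e2, e3]
  ring

/-- matrix fields -/
abbrev Fld (n : ℕ) := Fin n → Fin n → E n → ℝ

/-- trace of the covariance `tr X = Σ E M_ij (1+N)⁻¹ M_ij` -/
def trX (M : Fld n) : ℝ := ∑ i, ∑ j, EE (fun x => M i j x * Rs (M i j) x)

/-- squared Hilbert–Schmidt norm of a matrix field at `x` -/
def hs2 (A : Fld n) (x : E n) : ℝ := ∑ i, ∑ j, A i j x ^ 2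
/-- squared norm of the gradient -/
def dh2 (A : Fld n) (x : E n) : ℝ := ∑ i, ∑ j, ∑ k, pd k (A i j) x ^ 2
/-- `Σ_k |∂_k U - Y_k|²` -/
def pf2 (U : Fld n) (Y : Fin n → Fld n) (x : E n) : ℝ :=
  ∑ i, ∑ j, ∑ k, (pd k (U i j) x - Y k i j x) ^ 2
/-- the defect `G = M - U - D*Y` -/
def Gd (M U : Fld n) (Y : Fin n → Fld n) : Fld n := fun i j x =>
  M i j x - U i j x + ∑ k, (pd k (Y k i j) x - x k * Y k i j x)
/-- `tr A B` for symmetric fields -/
def ip (A B : Fld n) (x : E n) : ℝ := ∑ i, ∑ j, A i j x * B i j x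


lemma cg_hs2 {A : Fld n} (hA : ∀ i j, CG (A i j)) : CG (hs2 A) :=
  CG.sum fun i _ => CG.sum fun j _ => (hA i j).sq
lemma cg_ip {A B : Fld n} (hA : ∀ i j, CG (A i j)) (hB : ∀ i j, CG (B i j)) : CG (ip A B) :=
  CG.sum fun i _ => CG.sum fun j _ => (hA i j).mul (hB i j)
lemma cg_dh2 {A : Fld n} (hA : ∀ i j, C1 (A i j)) : CG (dh2 A) :=
  CG.sum fun i _ => CG.sum fun j _ => CG.sum fun k _ => ((hA i j).cgp k).sq

lemma EE_sum2 {f : Fld n} (hf : ∀ i j, CG (f i j)) :
    EE (fun x => ∑ i, ∑ j, f i j x) = ∑ i, ∑ j, EE (f i j) := by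
  rw [EE_sum fun i _ => CG.sum fun j _ => hf i j]
  exact Finset.sum_congr rfl fun i _ => EE_sum fun j _ => hf i j

theorem trX_le {M U : Fld n} (hM : ∀ i j, C1 (M i j)) (hU : ∀ i j, C1 (U i j))
    {Y : Fin n → Fld n} (hY : ∀ k i j, C1 (Y k i j)) :
    trX M ≤ 2 * EE (ip U M) - EE (hs2 U) - EE (dh2 U) + EE (pf2 U Y) + EE (hs2 (Gd M U Y)) := by
  have h : ∀ i j, EE (fun x => M i j x * Rs (M i j) x) ≤ 2 * EE (fun x => U i j x * M i j x) -
      EE (fun x => U i j x ^ 2) - EE (fun x => ∑ k, pd k (U i j) x ^ 2) +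
      EE (fun x => ∑ k, (pd k (U i j) x - Y k i j x) ^ 2) +
      EE (fun x => Gd M U Y i j x ^ 2) := fun i j => trX_scalar (hM i j) (hU i j)
        (y := fun k => Y k i j) fun k => hY k i j
  have h2 := Finset.sum_le_sum fun i (_ : i ∈ Finset.univ) =>
    Finset.sum_le_sum fun j (_ : j ∈ Finset.univ) => h i j
  unfold trX
  refine h2.trans (le_of_eq ?_)
  simp only [Finset.sum_add_distrib, Finset.sum_sub_distrib, ← Finset.mul_sum]
  have cGd : ∀ i j, CG (Gd M U Y i j) := fun i j =>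
    ((hM i j).cg.sub (hU i j).cg).add (CG.sum fun k _ =>
      ((hY k i j).cgp k).sub ((cg_coord k).mul (hY k i j).cg))
  have a1 : EE (ip U M) = ∑ i, ∑ j, EE (fun x => U i j x * M i j x) :=
    EE_sum2 fun i j => (hU i j).cg.mul (hM i j).cg
  have a2 : EE (hs2 U) = ∑ i, ∑ j, EE (fun x => U i j x ^ 2) :=
    EE_sum2 fun i j => (hU i j).cg.sq
  have a3 : EE (dh2 U) = ∑ i, ∑ j, EE (fun x => ∑ k, pd k (U i j) x ^ 2) :=
    EE_sum2 (f := fun i j x => ∑ k, pd k (U i j) x ^ 2) fun i j =>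
      CG.sum fun k _ => ((hU i j).cgp k).sq
  have a4 : EE (pf2 U Y) = ∑ i, ∑ j, EE (fun x => ∑ k, (pd k (U i j) x - Y k i j x) ^ 2) :=
    EE_sum2 (f := fun i j x => ∑ k, (pd k (U i j) x - Y k i j x) ^ 2) fun i j =>
      CG.sum fun k _ => (((hU i j).cgp k).sub (hY k i j).cg).sq
  have a5 : EE (hs2 (Gd M U Y)) = ∑ i, ∑ j, EE (fun x => Gd M U Y i j x ^ 2) :=
    EE_sum2 fun i j => (cGd i j).sq
  rw [a1, a2, a3, a4, a5]

/-! ### (B): the log-concavity identity for `U K U` -/

/-- `U K U`, `K` a constant matrix -/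
def UKU (U : Fld n) (K : Fin n → Fin n → ℝ) : Fld n := fun i j x =>
  ∑ p, ∑ q, U i p x * K p q * U q j x

lemma c1_UKU {U : Fld n} (hU : ∀ i j, C1 (U i j)) (K : Fin n → Fin n → ℝ) (i j : Fin n) :
    C1 (UKU U K i j) :=
  C1.sum fun p _ => C1.sum fun q _ => ((hU i p).mul (c1_const (K p q))).mul (hU q j)

/-- `R(K) = Σ N_ab ⟨∂_b (U K U), ∂_a M⟩ + tr (U K U Q)` -/
def RR (M N U : Fld n) (K : Fin n → Fin n → ℝ) (x : E n) : ℝ :=
  (∑ i, ∑ j, ∑ a, ∑ b, N a b x * pd b (UKU U K i j) x * pd a (M i j) x) +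
    ∑ i, ∑ j, UKU U K i j x * MA.Q M N i j x

/-- the trace of `U K U` -/
def trK (U : Fld n) (K : Fin n → Fin n → ℝ) (x : E n) : ℝ := ∑ i, UKU U K i i x

section
variable {G : Fin n → E n → ℝ} {M N : Fld n} {V : E n → ℝ}

lemma cg_RR (h : MA G M N V) {U : Fld n} (hU : ∀ i j, C1 (U i j)) (K : Fin n → Fin n → ℝ) :
    CG (RR M N U K) := by
  refine CG.add ?_ ?_
  · exact CG.sum fun i _ => CG.sum fun j _ => CG.sum fun a _ => CG.sum fun b _ =>
      ((h.n1 a b).cg.mul ((c1_UKU hU K i j).cgp b)).mul ((h.hd.m i j).cgp a)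
  · exact CG.sum fun i _ => CG.sum fun j _ => (c1_UKU hU K i j).cg.mul (h.c1_Q i j).cg

lemma cg_trK {U : Fld n} (hU : ∀ i j, C1 (U i j)) (K : Fin n → Fin n → ℝ) : CG (trK U K) :=
  CG.sum fun i _ => (c1_UKU hU K i i).cg

theorem int_RR (h : MA G M N V) {U : Fld n} (hU : ∀ i j, C1 (U i j)) (K : Fin n → Fin n → ℝ) :
    EE (fun x => ∑ i, ∑ j, UKU U K i j x * MA.W G M V i j x) = EE (trK U K) - EE (RR M N U K) := by
  have h1 := h.int_W (Z := UKU U K) fun i j => c1_UKU hU K i j
  have e : EE (RR M N U K) =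
      (∫ x, (∑ i, ∑ j, ∑ a, ∑ b, N a b x * pd b (UKU U K i j) x * pd a (M i j) x) ∂(gam n)) +
        ∫ x, (∑ i, ∑ j, UKU U K i j x * MA.Q M N i j x) ∂(gam n) := by
    refine EE_add ?_ ?_
    · exact CG.sum fun i _ => CG.sum fun j _ => CG.sum fun a _ => CG.sum fun b _ =>
        ((h.n1 a b).cg.mul ((c1_UKU hU K i j).cgp b)).mul ((h.hd.m i j).cgp a)
    · exact CG.sum fun i _ => CG.sum fun j _ => (c1_UKU hU K i j).cg.mul (h.c1_Q i j).cg
  unfold EE at e ⊢
  rw [h1, e]
  unfold trK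
  ring

lemma pd_UKU {U : Fld n} (hU : ∀ i j, C1 (U i j)) (K : Fin n → Fin n → ℝ) (i j b : Fin n)
    (x : E n) : pd b (UKU U K i j) x =
      ∑ p, ∑ q, (pd b (U i p) x * K p q * U q j x + U i p x * K p q * pd b (U q j) x) := by
  unfold UKU
  rw [pd_sum' (f := fun p x => ∑ q, U i p x * K p q * U q j x) fun p _ =>
    C1.sum fun q _ => ((hU i p).mul (c1_const (K p q))).mul (hU q j)]
  refine Finset.sum_congr rfl fun p _ => ?_
  rw [pd_sum' (f := fun q x => U i p x * K p q * U q j x) fun q _ =>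
    ((hU i p).mul (c1_const (K p q))).mul (hU q j)]
  refine Finset.sum_congr rfl fun q _ => ?_
  rw [C1.pd_mul ((hU i p).mul (c1_const (K p q))) (hU q j), C1.pd_mul (hU i p) (c1_const _)]
  have : pd b (fun _ : E n => K p q) x = 0 := by simp [pd]
  rw [this]
  ring

lemma UKU_sub (U : Fld n) (K L : Fin n → Fin n → ℝ) (i j : Fin n) (x : E n) :
    UKU U (fun p q => K p q - L p q) i j x = UKU U K i j x - UKU U L i j x := by
  unfold UKU
  rw [← Finset.sum_sub_distrib]
  refine Finset.sum_congr rfl fun p _ => ?_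
  rw [← Finset.sum_sub_distrib]
  exact Finset.sum_congr rfl fun q _ => by ring

lemma pd_UKU_sub {U : Fld n} (hU : ∀ i j, C1 (U i j)) (K L : Fin n → Fin n → ℝ) (i j b : Fin n)
    (x : E n) : pd b (UKU U (fun p q => K p q - L p q) i j) x =
      pd b (UKU U K i j) x - pd b (UKU U L i j) x := by
  rw [pd_UKU hU, pd_UKU hU, pd_UKU hU, ← Finset.sum_sub_distrib]
  refine Finset.sum_congr rfl fun p _ => ?_
  rw [← Finset.sum_sub_distrib]
  exact Finset.sum_congr rfl fun q _ => by ring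

lemma RR_sub {U : Fld n} (hU : ∀ i j, C1 (U i j)) (K L : Fin n → Fin n → ℝ) (x : E n) :
    RR M N U (fun p q => K p q - L p q) x = RR M N U K x - RR M N U L x := by
  unfold RR
  simp_rw [pd_UKU_sub hU, UKU_sub]
  have e1 : ∀ i j : Fin n, (∑ a, ∑ b, N a b x * (pd b (UKU U K i j) x - pd b (UKU U L i j) x) *
      pd a (M i j) x) = (∑ a, ∑ b, N a b x * pd b (UKU U K i j) x * pd a (M i j) x) -
        ∑ a, ∑ b, N a b x * pd b (UKU U L i j) x * pd a (M i j) x := fun i j => by
    rw [← Finset.sum_sub_distrib]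
    refine Finset.sum_congr rfl fun a _ => ?_
    rw [← Finset.sum_sub_distrib]
    exact Finset.sum_congr rfl fun b _ => by ring
  simp_rw [e1, sub_mul, Finset.sum_sub_distrib]
  ring

lemma trK_sub (U : Fld n) (K L : Fin n → Fin n → ℝ) (x : E n) :
    trK U (fun p q => K p q - L p q) x = trK U K x - trK U L x := by
  unfold trK
  rw [← Finset.sum_sub_distrib]
  exact Finset.sum_congr rfl fun i _ => UKU_sub U K L i i x

/-- the identity matrix as a function -/
def dl (p q : Fin n) : ℝ := if p = q then 1 else 0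

lemma trK_dl {U : Fld n} (hs : ∀ i j, U i j = U j i) (x : E n) : trK U dl x = hs2 U x := by
  unfold trK UKU hs2 dl
  refine Finset.sum_congr rfl fun i _ => ?_
  refine Finset.sum_congr rfl fun p _ => ?_
  simp only [mul_ite, mul_one, mul_zero, ite_mul, zero_mul, Finset.sum_ite_eq, Finset.mem_univ,
    if_true]
  rw [hs p i]; ring

open scoped MatrixOrder in
lemma exists_factor {m : ℕ} {H : Matrix (Fin m) (Fin m) ℝ} (hH : H.PosSemidef) :
    ∃ B : Matrix (Fin m) (Fin m) ℝ, H = B.conjTranspose * B := by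
  have h : 0 ≤ H := hH.nonneg
  obtain ⟨B, hB⟩ := (CStarAlgebra.nonneg_iff_eq_star_mul_self (a := H)).mp h
  exact ⟨B, hB⟩

/-- positivity of `tr (U K U M V'' M)` -/
lemma tr_nonneg {m : ℕ} {A K M H : Matrix (Fin m) (Fin m) ℝ} (hK : K.PosSemidef)
    (hH : H.PosSemidef) (hA : A.transpose = A) (hM : M.transpose = M) :
    0 ≤ (A * K * A * (M * H * M)).trace := by
  have h1 : (M * A * K * A * M).PosSemidef := by
    have := hK.mul_mul_conjTranspose_same (M * A)
    have e : (M * A * K * (M * A).conjTranspose) = M * A * K * A * M := by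
      rw [Matrix.conjTranspose_eq_transpose_of_trivial, Matrix.transpose_mul, hA, hM]
      simp only [Matrix.mul_assoc]
    rwa [e] at this
  obtain ⟨B, hB⟩ := exists_factor hH
  have e2 : (A * K * A * (M * H * M)).trace = (B * (M * A * K * A * M) * B.conjTranspose).trace := by
    have e3 : (A * K * A * (M * H * M)).trace = (M * A * K * A * M * H).trace := by
      rw [show A * K * A * (M * H * M) = (A * K * A * M * H) * M by simp only [Matrix.mul_assoc],
        Matrix.trace_mul_comm]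
      simp only [Matrix.mul_assoc]
    rw [e3, hB,
      show M * A * K * A * M * (B.conjTranspose * B) = (M * A * K * A * M * B.conjTranspose) * B by
        simp only [Matrix.mul_assoc], Matrix.trace_mul_comm]
    simp only [Matrix.mul_assoc]
  rw [e2]
  exact (h1.mul_mul_conjTranspose_same B).trace_nonneg

/-- the values of a field at a point, as a matrix -/
def mt (A : Fld n) (x : E n) : Matrix (Fin n) (Fin n) ℝ := Matrix.of fun i j => A i j x

lemma W_mt (G : Fin n → E n → ℝ) (M : Fld n) (V : E n → ℝ) (x : E n) (i j : Fin n) :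
    MA.W G M V i j x =
      (mt M x * (Matrix.of fun k l => pd l (pd k V) (Gv G x)) * mt M x) i j := by
  unfold MA.W mt
  rw [Matrix.mul_apply]
  simp only [Matrix.mul_apply, Matrix.of_apply, Finset.sum_mul]
  rw [Finset.sum_comm]

lemma UKU_mt (U : Fld n) (K : Fin n → Fin n → ℝ) (x : E n) (i j : Fin n) :
    UKU U K i j x = (mt U x * Matrix.of K * mt U x) i j := by
  unfold UKU mt
  rw [Matrix.mul_apply]
  simp only [Matrix.mul_apply, Matrix.of_apply, Finset.sum_mul]
  rw [Finset.sum_comm]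

lemma mt_symm {A : Fld n} (hs : ∀ i j, A i j = A j i) (x : E n) :
    (mt A x).transpose = mt A x := by
  ext i j
  simp only [Matrix.transpose_apply, mt, Matrix.of_apply]
  rw [hs j i]

theorem UKU_W_nonneg (h : MA G M N V) {U : Fld n} (hs : ∀ i j, U i j = U j i)
    {K : Fin n → Fin n → ℝ} (hK : (Matrix.of K).PosSemidef) (x : E n)
    (hV : (Matrix.of fun k l => pd l (pd k V) (Gv G x)).PosSemidef) :
    0 ≤ ∑ i, ∑ j, UKU U K i j x * MA.W G M V i j x := by
  set H : Matrix (Fin n) (Fin n) ℝ := Matrix.of fun k l => pd l (pd k V) (Gv G x) with hH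
  have hHs : H.transpose = H := by
    have := hV.isHermitian
    rwa [Matrix.IsHermitian, Matrix.conjTranspose_eq_transpose_of_trivial] at this
  have hMs := mt_symm h.hd.s x
  have h1 := tr_nonneg hK hV (mt_symm hs x) hMs
  have h2 : (mt M x * H * mt M x).transpose = mt M x * H * mt M x := by
    rw [Matrix.transpose_mul, Matrix.transpose_mul, hMs, hHs, Matrix.mul_assoc]
  have e : (∑ i, ∑ j, UKU U K i j x * MA.W G M V i j x) =
      (mt U x * Matrix.of K * mt U x * (mt M x * H * mt M x)).trace := by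
    rw [Matrix.trace]
    simp only [Matrix.diag_apply]
    refine Finset.sum_congr rfl fun i _ => ?_
    rw [Matrix.mul_apply]
    refine Finset.sum_congr rfl fun j _ => ?_
    rw [UKU_mt, W_mt, ← hH]
    congr 1
    exact (congrFun (congrFun h2 j) i).symm.trans rfl |>.symm ▸ rfl
  rw [e]
  exact h1

/-- **(B)**: `E|U|² ≥ E tr U S U + E R(1) - E R(S)` for every constant `S ≤ 1` -/
theorem hs2_ge (h : MA G M N V) {U : Fld n} (hU : ∀ i j, C1 (U i j)) (hs : ∀ i j, U i j = U j i)
    {S : Fin n → Fin n → ℝ} (hS : (Matrix.of fun p q => dl p q - S p q).PosSemidef)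
    (hV : ∀ y, (Matrix.of fun k l => pd l (pd k V) y).PosSemidef) :
    EE (trK U S) + (EE (RR M N U dl) - EE (RR M N U S)) ≤ EE (hs2 U) := by
  have h1 := int_RR h hU (fun p q => dl p q - S p q)
  have h2 : 0 ≤ EE (fun x => ∑ i, ∑ j, UKU U (fun p q => dl p q - S p q) i j x *
      MA.W G M V i j x) := EE_nonneg fun x => UKU_W_nonneg h hs hS x (hV _)
  rw [h1] at h2
  have e1 : EE (trK U fun p q => dl p q - S p q) = EE (hs2 U) - EE (trK U S) := by
    rw [← EE_sub (cg_hs2 fun i j => (hU i j).cg) (cg_trK hU S)]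
    exact EE_congr fun x => by rw [trK_sub, trK_dl hs]
  have e2 : EE (RR M N U fun p q => dl p q - S p q) = EE (RR M N U dl) - EE (RR M N U S) := by
    rw [← EE_sub (cg_RR h hU dl) (cg_RR h hU S)]
    exact EE_congr fun x => RR_sub hU dl S x
  rw [e1, e2] at h2
  linarith

/-! ### (C): the lower bound for `D = 2 (h - m) - log det Cov` -/

/-- the covariance matrix of `G` under `γ` -/
def covM (G : Fin n → E n → ℝ) : Matrix (Fin n) (Fin n) ℝ :=
  Matrix.of fun i j => EE (fun x => G i x * G j x) - EE (G i) * EE (G j)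

/-- `Ψ(X) = tr X - n - log det X` -/
def Psi (X : Matrix (Fin n) (Fin n) ℝ) : ℝ := X.trace - n - Real.log X.det

/-- `D = n (log 2π - 1) + 2 E log det M - log det X` -/
def DFun (G : Fin n → E n → ℝ) (M : Fld n) : ℝ :=
  n * (Real.log (2 * π) - 1) + 2 * EE (fun x => Real.log (mt M x).det) - Real.log (covM G).det

lemma trace_covM (hd : HD G M) : (covM G).trace = trX M := by
  unfold covM trX
  rw [Matrix.trace]
  refine Finset.sum_congr rfl fun i _ => ?_
  simp only [Matrix.diag_apply, Matrix.of_apply]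
  exact hd.cov i i

lemma Psi_nonneg {X : Matrix (Fin n) (Fin n) ℝ} (hX : X.PosDef) : 0 ≤ Psi X := by
  unfold Psi
  have h1 : X.det = ∏ i, hX.isHermitian.eigenvalues i := by
    simpa using hX.isHermitian.det_eq_prod_eigenvalues
  have h2 : X.trace = ∑ i, hX.isHermitian.eigenvalues i := by
    simpa using hX.isHermitian.trace_eq_sum_eigenvalues
  rw [h1, h2, Real.log_prod fun i _ => (hX.eigenvalues_pos i).ne']
  have h3 : ∀ i, Real.log (hX.isHermitian.eigenvalues i) ≤ hX.isHermitian.eigenvalues i - 1 :=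
    fun i => Real.log_le_sub_one_of_pos (hX.eigenvalues_pos i)
  have h4 := Finset.sum_le_sum fun i (_ : i ∈ Finset.univ) => h3 i
  rw [Finset.sum_sub_distrib] at h4
  simp at h4
  linarith

/-- **the skeleton of the E-route**: `U`, `Z` symmetric fields with
`2 log det M = 2 tr U M - |Z|² - n log 2π`, `Y` arbitrary test fields, `S ≤ 1` constant. -/
theorem spine (h : MA G M N V) {U Z : Fld n} (hU : ∀ i j, C1 (U i j))
    (hs : ∀ i j, U i j = U j i) (hZ : ∀ i j, C1 (Z i j))
    {Y : Fin n → Fld n} (hY : ∀ k i j, C1 (Y k i j))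
    {S : Fin n → Fin n → ℝ} (hS : (Matrix.of fun p q => dl p q - S p q).PosSemidef)
    (hV : ∀ y, (Matrix.of fun k l => pd l (pd k V) y).PosSemidef)
    (hlog : ∀ x, 2 * Real.log (mt M x).det = 2 * ip U M x - hs2 Z x - n * Real.log (2 * π)) :
    EE (trK U S) + (EE (RR M N U dl) - EE (RR M N U S)) - EE (hs2 Z) + EE (dh2 U) -
      EE (pf2 U Y) - EE (hs2 (Gd M U Y)) + Psi (covM G) ≤ DFun G M := by
  have h1 := hs2_ge h hU hs hS hV
  have h2 := trX_le h.hd.m hU hY
  rw [← trace_covM h.hd] at h2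
  have cU : CG (ip U M) := cg_ip (fun i j => (hU i j).cg) fun i j => (h.hd.m i j).cg
  have cZ : CG (hs2 Z) := cg_hs2 fun i j => (hZ i j).cg
  have h3 : 2 * EE (fun x => Real.log (mt M x).det) =
      2 * EE (ip U M) - EE (hs2 Z) - n * Real.log (2 * π) := by
    rw [← EE_smul, ← EE_smul, ← EE_sub (cU.smul 2) cZ]
    have : n * Real.log (2 * π) = EE (fun _ : E n => n * Real.log (2 * π)) := (EE_const _).symm
    rw [this, ← EE_sub ((cU.smul 2).sub cZ) (cg_const _)]
    exact EE_congr hlog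
  unfold DFun Psi
  rw [h3]
  linarith

end

end Crest.Agent.R253.Meh74
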