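import Crest.Agent.R253.SpecField_321
import Crest.Agent.R253.MAI_74
import Crest.Agent.R253.Spine_973
import Crest.Agent.R253.ScalE_688
import Crest.Agent.R253.Jord_192

-- ▼ part R253/Frame_321
section

/-!
# R253: the eigenframe bookkeeping (helper321)

Matrix fields `M` with third derivative tensor, rotated to an eigenframe of `M(x)`.
-/

set_option autoImplicit false

open Matrix Filter Topology Set
open scoped ContDiff

noncomputable section

namespace Crest.Agent.R253.Frame321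

open Crest.Agent.R253.SpecCalc999 Crest.Agent.R253.SpecField321 Crest.Agent.R253.Meh74
  Crest.Agent.R238.Gap

variable {m n : ℕ}

/-! ### the Hilbert–Schmidt inner product -/

/-- `⟨X, Y⟩ = Σ X_ij Y_ij` -/
def ip (X Y : Mat m) : ℝ := ∑ i, ∑ j, X i j * Y i j

lemma ip_eq (X Y : Mat m) : ip X Y = (Xᵀ * Y).trace := by
  unfold ip
  rw [Matrix.trace, Finset.sum_comm]
  refine Finset.sum_congr rfl fun j _ => ?_
  rw [Matrix.diag_apply, Matrix.mul_apply]
  exact Finset.sum_congr rfl fun i _ => by rw [Matrix.transpose_apply]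

lemma ip_comm (X Y : Mat m) : ip X Y = ip Y X := by
  unfold ip
  exact Finset.sum_congr rfl fun i _ => Finset.sum_congr rfl fun j _ => mul_comm _ _

lemma ip_self (X : Mat m) : ip X X = hs X := by
  unfold ip hs
  exact Finset.sum_congr rfl fun i _ => Finset.sum_congr rfl fun j _ => by ring

lemma ip_smul_left (c : ℝ) (X Y : Mat m) : ip (c • X) Y = c * ip X Y := by
  unfold ip
  simp only [Matrix.smul_apply, smul_eq_mul, Finset.mul_sum, mul_assoc]

lemma ip_smul_right (c : ℝ) (X Y : Mat m) : ip X (c • Y) = c * ip X Y := by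
  rw [ip_comm, ip_smul_left, ip_comm]



lemma ip_sum_left {ι : Type*} (s : Finset ι) (X : ι → Mat m) (Y : Mat m) :
    ip (∑ c ∈ s, X c) Y = ∑ c ∈ s, ip (X c) Y := by
  unfold ip
  simp only [Matrix.sum_apply, Finset.sum_mul]
  symm
  rw [Finset.sum_comm]
  refine Finset.sum_congr rfl fun i _ => ?_
  rw [Finset.sum_comm]

lemma ip_sum_right {ι : Type*} (s : Finset ι) (X : Mat m) (Y : ι → Mat m) :
    ip X (∑ c ∈ s, Y c) = ∑ c ∈ s, ip X (Y c) := by
  rw [ip_comm, ip_sum_left]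
  exact Finset.sum_congr rfl fun c _ => ip_comm _ _

lemma ip_conj {U : Mat m} (h : U * Uᵀ = 1) (X Y : Mat m) :
    ip (Uᵀ * X * U) (Uᵀ * Y * U) = ip X Y := by
  rw [ip_eq, ip_eq]
  have : (Uᵀ * X * U)ᵀ * (Uᵀ * Y * U) = Uᵀ * (Xᵀ * Y * U) := by
    rw [Matrix.transpose_mul, Matrix.transpose_mul, Matrix.transpose_transpose]
    calc Uᵀ * (Xᵀ * U) * (Uᵀ * Y * U) = Uᵀ * (Xᵀ * (U * Uᵀ) * Y * U) := by
          simp only [Matrix.mul_assoc]
      _ = _ := by rw [h, Matrix.mul_one]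
  rw [this, Matrix.trace_mul_comm, Matrix.mul_assoc, h, Matrix.mul_one]

/-! ### rotation of a family of matrices (the derivative index rotated too) -/

/-- the rotated family: `(rf U X k)_ij = Σ_abc U_ai U_bj U_ck (X c)_ab` -/
def rf (U : Mat m) (X : Fin m → Mat m) (k : Fin m) : Mat m := Uᵀ * (∑ c, U c k • X c) * U

lemma rf_eq (U : Mat m) (X : Fin m → Mat m) (k : Fin m) :
    rf U X k = ∑ c, U c k • (Uᵀ * X c * U) := by
  unfold rf
  rw [Matrix.mul_sum, Matrix.sum_mul]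
  exact Finset.sum_congr rfl fun c _ => by rw [Matrix.mul_smul, Matrix.smul_mul]

lemma rf_apply (U : Mat m) (X : Fin m → Mat m) (i j k : Fin m) :
    rf U X k i j = ∑ a, ∑ b, ∑ c, U a i * U b j * U c k * X c a b := by
  rw [rf_eq, Matrix.sum_apply]
  have e : ∀ c, (U c k • (Uᵀ * X c * U)) i j = ∑ a, ∑ b, U a i * U b j * U c k * X c a b := by
    intro c
    rw [Matrix.smul_apply, smul_eq_mul, Matrix.mul_apply, Finset.mul_sum]
    simp only [Matrix.mul_apply, Matrix.transpose_apply, Finset.sum_mul, Finset.mul_sum]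
    rw [Finset.sum_comm]
    exact Finset.sum_congr rfl fun a _ => Finset.sum_congr rfl fun b _ => by ring
  simp only [e]
  rw [Finset.sum_comm]
  exact Finset.sum_congr rfl fun a _ => Finset.sum_comm

/-- inverse rotation -/
lemma rf_inv {U : Mat m} (h : U * Uᵀ = 1) (X : Fin m → Mat m) (c : Fin m) :
    X c = U * (∑ k, U c k • rf U X k) * Uᵀ := by
  have e1 : ∑ k, U c k • rf U X k = Uᵀ * X c * U := by
    simp only [rf_eq, Finset.smul_sum, smul_smul]
    rw [Finset.sum_comm]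
    have e2 : ∀ d, ∑ k, (U c k * U d k) • (Uᵀ * X d * U) =
        (if c = d then (1 : ℝ) else 0) • (Uᵀ * X d * U) := by
      intro d
      rw [← Finset.sum_smul]
      congr 1
      have h3 := congrFun (congrFun h c) d
      rw [Matrix.mul_apply, Matrix.one_apply] at h3
      rw [← h3]
      exact Finset.sum_congr rfl fun k _ => by rw [Matrix.transpose_apply]
    simp only [e2, ite_smul, one_smul, zero_smul, Finset.sum_ite_eq, Finset.mem_univ, if_true]
  rw [e1]
  calc X c = (U * Uᵀ) * X c * (U * Uᵀ) := by rw [h, Matrix.one_mul, Matrix.mul_one]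
    _ = _ := by simp only [Matrix.mul_assoc]

lemma ip_rf {U : Mat m} (h : U * Uᵀ = 1) (X Y : Fin m → Mat m) (k : Fin m) :
    ip (rf U X k) (rf U Y k) = ∑ c, ∑ d, U c k * U d k * ip (X c) (Y d) := by
  unfold rf
  rw [ip_conj h, ip_sum_left]
  refine Finset.sum_congr rfl fun c _ => ?_
  rw [ip_sum_right]
  refine Finset.sum_congr rfl fun d _ => ?_
  rw [ip_smul_left, ip_smul_right]
  ring

/-- `Σ_ab N_ab ⟨X_b, Y_a⟩` in the frame -/
theorem sum_N {U : Mat m} (h : U * Uᵀ = 1) {N : Mat m} {w : Fin m → ℝ}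
    (hN : N = U * Matrix.diagonal w * Uᵀ) (X Y : Fin m → Mat m) :
    ∑ a, ∑ b, N a b * ip (X b) (Y a) = ∑ k, w k * ip (rf U X k) (rf U Y k) := by
  have e : ∀ a b, N a b = ∑ k, U a k * w k * U b k := by
    intro a b
    rw [hN, Matrix.mul_apply]
    simp only [Matrix.mul_diagonal, Matrix.transpose_apply]
  simp only [ip_rf h, e, Finset.mul_sum, Finset.sum_mul]
  have e2 : ∀ F : Fin m → Fin m → Fin m → ℝ,
      ∑ a, ∑ b, ∑ k, F a b k = ∑ k, ∑ b, ∑ a, F a b k := by
    intro F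
    calc ∑ a, ∑ b, ∑ k, F a b k = ∑ b, ∑ a, ∑ k, F a b k := Finset.sum_comm
      _ = ∑ b, ∑ k, ∑ a, F a b k := Finset.sum_congr rfl fun b _ => Finset.sum_comm
      _ = _ := Finset.sum_comm
  rw [e2]
  exact Finset.sum_congr rfl fun k _ => Finset.sum_congr rfl fun b _ =>
    Finset.sum_congr rfl fun a _ => by ring

/-- `Σ_c ⟨X_c, Y_c⟩` in the frame -/
theorem sum_1 {U : Mat m} (h : U * Uᵀ = 1) (X Y : Fin m → Mat m) :
    ∑ c, ip (X c) (Y c) = ∑ k, ip (rf U X k) (rf U Y k) := by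
  have h1 := sum_N h (N := 1) (w := fun _ => 1) (by rw [Matrix.diagonal_one, Matrix.mul_one, h]) X Y
  simp only [Matrix.one_apply, ite_mul, one_mul, zero_mul, Finset.sum_ite_eq, Finset.mem_univ,
    if_true] at h1
  exact h1

/-- the `Q` matrix of a family -/
def Qm (N : Mat m) (S : Fin m → Mat m) (i j : Fin m) : ℝ :=
  ∑ a, ∑ b, ∑ c, ∑ d, N a c * S j c d * N d b * S i a b

lemma Qm_eq (N : Mat m) (S : Fin m → Mat m) (i j : Fin m) :
    Qm N S i j = ip (S i) (N * S j * N) := by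
  unfold Qm ip
  refine Finset.sum_congr rfl fun a _ => Finset.sum_congr rfl fun b _ => ?_
  rw [Matrix.mul_apply, Finset.mul_sum]
  simp only [Matrix.mul_apply, Finset.sum_mul, Finset.mul_sum]
  rw [Finset.sum_comm]
  exact Finset.sum_congr rfl fun d _ => Finset.sum_congr rfl fun c _ => by ring

/-- `tr (Z Q)` in the frame -/
theorem sum_Q {U : Mat m} (h : U * Uᵀ = 1) {N : Mat m} {w : Fin m → ℝ}
    (hN : N = U * Matrix.diagonal w * Uᵀ) (Z : Mat m) (S : Fin m → Mat m) :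
    ∑ i, ∑ j, Z i j * Qm N S i j =
      ∑ i, ∑ j, (Uᵀ * Z * U) i j *
        ∑ k, ∑ l, w k * w l * rf U S i k l * rf U S j k l := by
  have hU' : Uᵀ * U = 1 := mul_eq_one_comm.1 h
  have e1 : ∀ i j, Qm N S i j = ∑ p, ∑ q, U i p * U j q *
      ∑ k, ∑ l, w k * w l * rf U S p k l * rf U S q k l := by
    intro i j
    rw [Qm_eq]
    have hS : ∀ c, S c = U * (∑ k, U c k • rf U S k) * Uᵀ := rf_inv h S
    have e2 : N * S j * N = U * (Matrix.diagonal w * (∑ q, U j q • rf U S q) * Matrix.diagonal w) * Uᵀ := by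
      rw [hN, hS j]
      calc U * Matrix.diagonal w * Uᵀ * (U * (∑ k, U j k • rf U S k) * Uᵀ) * (U * Matrix.diagonal w * Uᵀ)
          = U * Matrix.diagonal w * (Uᵀ * U) * (∑ k, U j k • rf U S k) * (Uᵀ * U) * Matrix.diagonal w * Uᵀ := by
            simp only [Matrix.mul_assoc]
        _ = _ := by rw [hU', Matrix.mul_one, Matrix.mul_one]; simp only [Matrix.mul_assoc]
    have h2 : Uᵀᵀ * Uᵀ = 1 := by rw [Matrix.transpose_transpose]; exact h
    have h3 : Uᵀ * Uᵀᵀ = 1 := by rw [Matrix.transpose_transpose]; exact hU'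
    have e3 : ∀ X Y : Mat m, ip (U * X * Uᵀ) (U * Y * Uᵀ) = ip X Y := by
      intro X Y
      have := ip_conj (U := Uᵀ) h3 X Y
      rwa [Matrix.transpose_transpose] at this
    rw [e2, hS i, e3, ip_sum_left]
    refine Finset.sum_congr rfl fun p _ => ?_
    rw [ip_smul_left, Matrix.mul_sum, Matrix.sum_mul, ip_sum_right, Finset.mul_sum]
    refine Finset.sum_congr rfl fun q _ => ?_
    rw [Matrix.mul_smul, Matrix.smul_mul, ip_smul_right, ← mul_assoc]
    congr 1
    unfold ip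
    refine Finset.sum_congr rfl fun k _ => Finset.sum_congr rfl fun l _ => ?_
    rw [Matrix.mul_diagonal, Matrix.diagonal_mul]
    ring
  simp only [e1]
  have e4 : ∀ p q, (Uᵀ * Z * U) p q = ∑ i, ∑ j, Z i j * (U i p * U j q) := by
    intro p q
    rw [Matrix.mul_apply]
    simp only [Matrix.mul_apply, Matrix.transpose_apply, Finset.sum_mul]
    rw [Finset.sum_comm]
    exact Finset.sum_congr rfl fun i _ => Finset.sum_congr rfl fun j _ => by ring
  simp only [e4]
  set G : Fin m → Fin m → ℝ := fun p q => ∑ k, ∑ l, w k * w l * rf U S p k l * rf U S q k l with hG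
  have sw : ∀ F : Fin m → Fin m → Fin m → Fin m → ℝ,
      ∑ a, ∑ b, ∑ c, ∑ d, F a b c d = ∑ c, ∑ d, ∑ a, ∑ b, F a b c d := by
    intro F
    calc ∑ a, ∑ b, ∑ c, ∑ d, F a b c d = ∑ a, ∑ c, ∑ b, ∑ d, F a b c d :=
          Finset.sum_congr rfl fun a _ => Finset.sum_comm
      _ = ∑ c, ∑ a, ∑ b, ∑ d, F a b c d := Finset.sum_comm
      _ = ∑ c, ∑ a, ∑ d, ∑ b, F a b c d :=
          Finset.sum_congr rfl fun c _ => Finset.sum_congr rfl fun a _ => Finset.sum_comm
      _ = ∑ c, ∑ d, ∑ a, ∑ b, F a b c d := Finset.sum_congr rfl fun c _ => Finset.sum_comm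
  have l1 : ∑ i, ∑ j, Z i j * ∑ p, ∑ q, U i p * U j q * G p q =
      ∑ i, ∑ j, ∑ p, ∑ q, Z i j * (U i p * U j q) * G p q := by
    refine Finset.sum_congr rfl fun i _ => Finset.sum_congr rfl fun j _ => ?_
    rw [Finset.mul_sum]
    refine Finset.sum_congr rfl fun p _ => ?_
    rw [Finset.mul_sum]
    exact Finset.sum_congr rfl fun q _ => by ring
  have l2 : ∑ p, ∑ q, (∑ i, ∑ j, Z i j * (U i p * U j q)) * G p q =
      ∑ p, ∑ q, ∑ i, ∑ j, Z i j * (U i p * U j q) * G p q := by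
    refine Finset.sum_congr rfl fun p _ => Finset.sum_congr rfl fun q _ => ?_
    rw [Finset.sum_mul]
    refine Finset.sum_congr rfl fun i _ => ?_
    rw [Finset.sum_mul]
  rw [l1, l2, sw]

lemma Fr.inv_eq {A U N : Mat m} {s : Fin m → ℝ} (h : Fr A U s) (hs : ∀ i, s i ≠ 0)
    (hN : N * A = 1) : N = U * Matrix.diagonal (fun i => (s i)⁻¹) * Uᵀ := by
  have h1 : A * (U * Matrix.diagonal (fun i => (s i)⁻¹) * Uᵀ) = 1 := by
    rw [h.eq]
    calc U * Matrix.diagonal s * Uᵀ * (U * Matrix.diagonal (fun i => (s i)⁻¹) * Uᵀ)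
        = U * (Matrix.diagonal s * (Uᵀ * U) * Matrix.diagonal (fun i => (s i)⁻¹)) * Uᵀ := by
          simp only [Matrix.mul_assoc]
      _ = U * 1 * Uᵀ := by
          rw [h.o, Matrix.mul_one, Matrix.diagonal_mul_diagonal]
          congr 2
          rw [← Matrix.diagonal_one]
          congr 1; funext i; exact mul_inv_cancel₀ (hs i)
      _ = 1 := by rw [Matrix.mul_one, h.o']
  calc N = N * (A * (U * Matrix.diagonal (fun i => (s i)⁻¹) * Uᵀ)) := by rw [h1, Matrix.mul_one]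
    _ = _ := by rw [← Matrix.mul_assoc, hN, Matrix.one_mul]

/-! ### fully symmetric tensors -/

/-- the family `S c = (T_abc)_ab` comes from a fully symmetric tensor -/
structure Sy (S : Fin m → Mat m) : Prop where
  s1 : ∀ a b c, S c a b = S c b a
  s2 : ∀ a b c, S c a b = S b a c

lemma Sy.rf {S : Fin m → Mat m} (h : Sy S) (U : Mat m) : Sy (rf U S) := by
  constructor
  · intro i j k
    rw [rf_apply, rf_apply, Finset.sum_comm]
    refine Finset.sum_congr rfl fun a _ => Finset.sum_congr rfl fun b _ =>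
      Finset.sum_congr rfl fun c _ => ?_
    rw [h.s1]; ring
  · intro i j k
    rw [rf_apply, rf_apply]
    refine Finset.sum_congr rfl fun a _ => ?_
    rw [Finset.sum_comm]
    refine Finset.sum_congr rfl fun b _ => Finset.sum_congr rfl fun c _ => ?_
    rw [h.s2 a c b]; ring

/-! ### the frame sums at a point -/

variable {A U N : Mat m} {e : Fin m → ℝ} {S : Fin m → Mat m}

lemma rf_DK (h : Fr A U e) (f f' : ℝ → ℝ) (S : Fin m → Mat m) (i j k : Fin m) :
    rf U (fun c => DK f f' A (S c)) k i j = dd1 f f' (e i) (e j) * rf U S k i j := by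
  unfold rf
  have : ∑ c, U c k • DK f f' A (S c) = DK f f' A (∑ c, U c k • S c) := by
    rw [DK_sum]
    exact Finset.sum_congr rfl fun c _ => (DK_smul _ _ _ _ _).symm
  rw [this, DK_frame h]

/-- `Σ_k |D_k F(M)|²` -/
theorem sum_DK_sq (h : Fr A U e) (f f' : ℝ → ℝ) (S : Fin m → Mat m) :
    ∑ c, hs (DK f f' A (S c)) = ∑ k, ∑ i, ∑ j, (dd1 f f' (e i) (e j)) ^ 2 * rf U S k i j ^ 2 := by
  have h1 := sum_1 h.o' (fun c => DK f f' A (S c)) (fun c => DK f f' A (S c))
  simp only [ip_self] at h1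
  rw [h1]
  refine Finset.sum_congr rfl fun k _ => ?_
  unfold hs
  refine Finset.sum_congr rfl fun i _ => Finset.sum_congr rfl fun j _ => ?_
  rw [rf_DK h]; ring

/-- `Σ_ab N_ab ⟨D_b f(M), D_a M⟩` -/
theorem sum_N_DK (h : Fr A U e) (he : ∀ i, e i ≠ 0) (hN : N * A = 1) (f f' : ℝ → ℝ)
    (S : Fin m → Mat m) :
    ∑ a, ∑ b, N a b * ip (DK f f' A (S b)) (S a) =
      ∑ k, ∑ i, ∑ j, dd1 f f' (e i) (e j) / e k * rf U S k i j ^ 2 := by
  rw [sum_N h.o' (Fr.inv_eq h he hN) (fun b => DK f f' A (S b)) S]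
  refine Finset.sum_congr rfl fun k _ => ?_
  unfold ip
  rw [Finset.mul_sum]
  refine Finset.sum_congr rfl fun i _ => ?_
  rw [Finset.mul_sum]
  refine Finset.sum_congr rfl fun j _ => ?_
  rw [rf_DK h]
  rw [div_eq_mul_inv]; ring

/-- `tr (f(M) Q)` -/
theorem sum_Q_spec (h : Fr A U e) (he : ∀ i, e i ≠ 0) (hN : N * A = 1) (f : ℝ → ℝ)
    (S : Fin m → Mat m) :
    ∑ i, ∑ j, (_root_.cfc f A) i j * Qm N S i j =
      ∑ k, ∑ i, ∑ j, f (e k) / (e i * e j) * rf U S k i j ^ 2 := by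
  rw [sum_Q h.o' (Fr.inv_eq h he hN), h.cfc]
  refine Finset.sum_congr rfl fun i _ => ?_
  rw [Finset.sum_eq_single i]
  · rw [Matrix.diagonal_apply_eq, Finset.mul_sum]
    refine Finset.sum_congr rfl fun k _ => ?_
    rw [Finset.mul_sum]
    refine Finset.sum_congr rfl fun l _ => ?_
    rw [div_eq_mul_inv, mul_inv]; ring
  · intro j _ hj
    rw [Matrix.diagonal_apply_ne _ (Ne.symm hj), zero_mul]
  · intro hh; exact absurd (Finset.mem_univ _) hh

/-- weighted sums `Σ_ijk F_ijk τ_ijk²`, `τ_ijk = S k i j` -/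
def SS (F : Fin m → Fin m → Fin m → ℝ) (S : Fin m → Mat m) : ℝ :=
  ∑ k, ∑ i, ∑ j, F i j k * S k i j ^ 2

lemma SS_add (F G : Fin m → Fin m → Fin m → ℝ) (S : Fin m → Mat m) :
    SS F S + SS G S = SS (fun i j k => F i j k + G i j k) S := by
  unfold SS
  simp only [← Finset.sum_add_distrib, add_mul]

lemma SS_sub (F G : Fin m → Fin m → Fin m → ℝ) (S : Fin m → Mat m) :
    SS F S - SS G S = SS (fun i j k => F i j k - G i j k) S := by
  unfold SS
  simp only [← Finset.sum_sub_distrib, sub_mul]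

lemma SS_smul (c : ℝ) (F : Fin m → Fin m → Fin m → ℝ) (S : Fin m → Mat m) :
    c * SS F S = SS (fun i j k => c * F i j k) S := by
  unfold SS
  simp only [Finset.mul_sum, mul_assoc]

lemma SS_congr {F G : Fin m → Fin m → Fin m → ℝ} (h : ∀ i j k, F i j k = G i j k)
    (S : Fin m → Mat m) : SS F S = SS G S := by
  unfold SS
  simp only [h]

lemma SS_mono {F G : Fin m → Fin m → Fin m → ℝ} (h : ∀ i j k, F i j k ≤ G i j k)
    (S : Fin m → Mat m) : SS F S ≤ SS G S := by
  unfold SS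
  exact Finset.sum_le_sum fun k _ => Finset.sum_le_sum fun i _ => Finset.sum_le_sum fun j _ =>
    mul_le_mul_of_nonneg_right (h i j k) (sq_nonneg _)


lemma SS_12 (hS : Sy S) (F : Fin m → Fin m → Fin m → ℝ) :
    SS F S = SS (fun i j k => F j i k) S := by
  unfold SS
  refine Finset.sum_congr rfl fun k _ => ?_
  rw [Finset.sum_comm]
  refine Finset.sum_congr rfl fun i _ => Finset.sum_congr rfl fun j _ => ?_
  rw [hS.s1 j i k]

lemma SS_23 (hS : Sy S) (F : Fin m → Fin m → Fin m → ℝ) :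
    SS F S = SS (fun i j k => F i k j) S := by
  unfold SS
  calc ∑ k, ∑ i, ∑ j, F i j k * S k i j ^ 2
      = ∑ i, ∑ k, ∑ j, F i j k * S k i j ^ 2 := Finset.sum_comm
    _ = ∑ i, ∑ j, ∑ k, F i j k * S k i j ^ 2 := Finset.sum_congr rfl fun i _ => Finset.sum_comm
    _ = ∑ i, ∑ k, ∑ j, F i k j * S j i k ^ 2 := rfl
    _ = ∑ k, ∑ i, ∑ j, F i k j * S j i k ^ 2 := Finset.sum_comm
    _ = _ := by
        refine Finset.sum_congr rfl fun k _ => Finset.sum_congr rfl fun i _ =>
          Finset.sum_congr rfl fun j _ => ?_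
        rw [hS.s2 i k j]

lemma SS_13 (hS : Sy S) (F : Fin m → Fin m → Fin m → ℝ) :
    SS F S = SS (fun i j k => F k j i) S := by
  rw [SS_12 hS, SS_23 hS, SS_12 hS]

/-- average over the three pairs -/
lemma SS_pairs (hS : Sy S) (F : Fin m → Fin m → Fin m → ℝ) :
    SS F S = SS (fun i j k => (F i j k + F j k i + F i k j) / 3) S := by
  have h1 : SS F S = SS (fun i j k => F j k i) S := by
    rw [SS_23 hS]; rw [SS_12 hS]
  have h2 : SS F S = SS (fun i j k => F i k j) S := SS_23 hS F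
  have h3 : SS (fun i j k => (F i j k + F j k i + F i k j) / 3) S =
      (1 / 3 : ℝ) * (SS F S + SS (fun i j k => F j k i) S + SS (fun i j k => F i k j) S) := by
    rw [SS_add, SS_add, SS_smul]
    exact SS_congr (fun i j k => by ring) S
  rw [h3, ← h1, ← h2]; ring

/-- pointwise identity behind the `C`-form -/
lemma dd1_phi (f f' : ℝ → ℝ) {a b c : ℝ} (ha : a ≠ 0) (hb : b ≠ 0) (hc : c ≠ 0) :
    dd1 f f' a b / c + (f a / (b * c) + f b / (a * c)) / 2 =
      (a + b) * dd1 (fun t => t * f t) (fun t => f t + t * f' t) a b / (2 * a * b * c) := by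
  have h1 := dd1_mul' (fun t => t) (fun _ => 1) f f' a b
  have h2 : dd1 (fun t => t * f t) (fun t => f t + t * f' t) a b = f b + a * dd1 f f' a b := by
    have e : (fun t => f t + t * f' t) = fun t => 1 * f t + t * f' t := by funext t; ring
    rw [e, h1, dd1_id]; ring
  rw [h2]
  have h3 := SpecCalc999.dd1_mul f f' a b
  have h4 : f a = f b + dd1 f f' a b * (a - b) := by linarith
  rw [h4]
  field_simp
  ring

/-- **the `C`-form for a spectral multiplier `Z = f(M)`**: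
`M^{ab}⟨D_a Z, D_b M⟩ + tr ZQ = Σ τ_ijk² (e_i+e_j) φ[e_i,e_j] / (2 e_i e_j e_k)`, `φ = e f(e)`. -/
theorem spec_form (h : Fr A U e) (he : ∀ i, e i ≠ 0) (hN : N * A = 1) (hS : Sy S)
    (f f' : ℝ → ℝ) :
    (∑ a, ∑ b, N a b * ip (DK f f' A (S b)) (S a)) +
      (∑ i, ∑ j, (_root_.cfc f A) i j * Qm N S i j) =
    SS (fun i j k => (e i + e j) * dd1 (fun t => t * f t) (fun t => f t + t * f' t) (e i) (e j) /
      (2 * e i * e j * e k)) (rf U S) := by
  have hR : Sy (rf U S) := hS.rf U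
  rw [sum_N_DK h he hN, sum_Q_spec h he hN]
  have h2 : (∑ k, ∑ i, ∑ j, f (e k) / (e i * e j) * rf U S k i j ^ 2) =
      SS (fun i j k => (f (e i) / (e j * e k) + f (e j) / (e i * e k)) / 2) (rf U S) := by
    have a1 : (∑ k, ∑ i, ∑ j, f (e k) / (e i * e j) * rf U S k i j ^ 2) =
        SS (fun i j k => f (e k) / (e i * e j)) (rf U S) := rfl
    have a2 : SS (fun i j k => f (e k) / (e i * e j)) (rf U S) =
        SS (fun i j k => f (e i) / (e k * e j)) (rf U S) := SS_13 hR _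
    have a3 : SS (fun i j k => f (e k) / (e i * e j)) (rf U S) =
        SS (fun i j k => f (e j) / (e i * e k)) (rf U S) := SS_23 hR _
    have a4 : SS (fun i j k => (f (e i) / (e j * e k) + f (e j) / (e i * e k)) / 2) (rf U S) =
        (1 / 2 : ℝ) * (SS (fun i j k => f (e i) / (e k * e j)) (rf U S) +
          SS (fun i j k => f (e j) / (e i * e k)) (rf U S)) := by
      rw [SS_add, SS_smul]
      exact SS_congr (fun i j k => by rw [mul_comm (e k) (e j)]; ring) _
    rw [a1, a4, ← a2, ← a3]; ring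
  rw [h2]
  have h3 : (∑ k, ∑ i, ∑ j, dd1 f f' (e i) (e j) / e k * rf U S k i j ^ 2) =
      SS (fun i j k => dd1 f f' (e i) (e j) / e k) (rf U S) := rfl
  rw [h3, SS_add]
  exact SS_congr (fun i j k => dd1_phi f f' (he i) (he j) (he k)) _

/-- the triple function `(1/2abc) Σ_pairs (a+b) φ[a,b]` -/
def tri (φ φ' : ℝ → ℝ) (a b c : ℝ) : ℝ :=
  ((a + b) * dd1 φ φ' a b + (b + c) * dd1 φ φ' b c + (a + c) * dd1 φ φ' a c) / (2 * a * b * c)

/-- `spec_form`, symmetrised: `(1/3) Σ τ_ijk² (1/2abc) Σ_pairs (a+b) φ[a,b]` -/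
theorem spec_form3 (h : Fr A U e) (he : ∀ i, e i ≠ 0) (hN : N * A = 1) (hS : Sy S)
    (f f' : ℝ → ℝ) :
    (∑ a, ∑ b, N a b * ip (DK f f' A (S b)) (S a)) +
      (∑ i, ∑ j, (_root_.cfc f A) i j * Qm N S i j) =
    SS (fun i j k => tri (fun t => t * f t) (fun t => f t + t * f' t) (e i) (e j) (e k) / 3)
      (rf U S) := by
  rw [spec_form h he hN hS, SS_pairs (hS.rf U)]
  refine SS_congr (fun i j k => ?_) _
  unfold tri
  ring

/-- `Σ_k |D_k F(M)|²`, symmetrised over the pairs -/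
theorem sum_DK_sq3 (h : Fr A U e) (hS : Sy S) (f f' : ℝ → ℝ) :
    ∑ c, hs (DK f f' A (S c)) =
      SS (fun i j k => ((dd1 f f' (e i) (e j)) ^ 2 + (dd1 f f' (e j) (e k)) ^ 2 +
        (dd1 f f' (e i) (e k)) ^ 2) / 3) (rf U S) := by
  rw [sum_DK_sq h]
  exact SS_pairs (hS.rf U) _

end Crest.Agent.R253.Frame321
end
end

-- ▼ part R253/FrameS_321

/-!
# R253: the pointwise energy inequality (helper321)

`RR(1) ≥ Σ |∂_c ζ|² - Σ |∂_c U|² + Σ_c slk ρ (∂_c ζ)` for `ζ = z(M)`, `U = v(ζ)`.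
-/

set_option autoImplicit false

open Matrix Filter Topology Set
open scoped ContDiff

noncomputable section

namespace Crest.Agent.R253.Frame321

open Crest.Agent.R253.SpecCalc999 Crest.Agent.R253.SpecField321
  Crest.Agent.R238.Gap
open Crest.Agent.R253.Meh74 hiding ip

open Crest.Agent.R253.ScalE688 (zf zf' uf uf' phif phif' rho zf_has uf_has phif_has phif_eq SI_e)
open Crest.Agent.R253.Jord192 (slk)

variable {m n : ℕ}

lemma dd1_congr {f f' g g' : ℝ → ℝ} {a b : ℝ} (ha : f a = g a) (hb : f b = g b)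
    (ha' : f' a = g' a) : dd1 f f' a b = dd1 g g' a b := by
  unfold dd1
  rw [ha, hb, ha']

lemma dd1_phif {a b : ℝ} (ha : 0 < a) (hb : 0 < b) :
    dd1 (fun t => t * (uf t * uf t)) (fun t => uf t * uf t + t * (uf' t * uf t + uf t * uf' t)) a b =
      dd1 phif phif' a b := by
  refine dd1_congr ?_ ?_ ?_
  · rw [phif_eq ha]; ring
  · rw [phif_eq hb]; ring
  · have h1 : HasDerivAt (fun t => t * (uf t * uf t))
        (1 * (uf a * uf a) + a * (uf' a * uf a + uf a * uf' a)) a :=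
      (hasDerivAt_id a).mul ((uf_has ha).mul (uf_has ha))
    have h2 : HasDerivAt (fun t => t * (uf t * uf t)) (phif' a) a := by
      refine (phif_has ha).congr_of_eventuallyEq ?_
      filter_upwards [Ioi_mem_nhds ha] with t ht
      rw [phif_eq ht]; ring
    have := h1.unique h2
    simp only [one_mul] at this
    exact this

/-- orthogonal invariance in the derivative index -/
lemma sum_rf_sq {U : Mat m} (h : U * Uᵀ = 1) (X : Fin m → Mat m) (i j : Fin m) :
    ∑ k, rf U X k i j ^ 2 = ∑ c, (Uᵀ * X c * U) i j ^ 2 := by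
  have e1 : ∀ k, rf U X k i j = ∑ c, U c k * (Uᵀ * X c * U) i j := by
    intro k
    rw [rf_eq, Matrix.sum_apply]
    exact Finset.sum_congr rfl fun c _ => by rw [Matrix.smul_apply, smul_eq_mul]
  set Y : Fin m → ℝ := fun c => (Uᵀ * X c * U) i j with hY
  have e2 : ∀ k, rf U X k i j ^ 2 = ∑ c, ∑ d, (U c k * U d k) * (Y c * Y d) := by
    intro k
    rw [e1, pow_two, Finset.sum_mul_sum]
    exact Finset.sum_congr rfl fun c _ => Finset.sum_congr rfl fun d _ => by ring
  simp only [e2]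
  have e3 : ∀ c d, ∑ k, U c k * U d k = if c = d then (1 : ℝ) else 0 := by
    intro c d
    have h3 := congrFun (congrFun h c) d
    rw [Matrix.mul_apply, Matrix.one_apply] at h3
    rw [← h3]
    exact Finset.sum_congr rfl fun k _ => by rw [Matrix.transpose_apply]
  rw [Finset.sum_comm]
  refine Finset.sum_congr rfl fun c _ => ?_
  rw [Finset.sum_comm]
  simp only [← Finset.sum_mul, e3, ite_mul, one_mul, zero_mul, Finset.sum_ite_eq,
    Finset.mem_univ, if_true]
  rw [hY]; ring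

lemma SS_rf {U : Mat m} (h : U * Uᵀ = 1) (F : Fin m → Fin m → ℝ) (X : Fin m → Mat m) :
    SS (fun i j _ => F i j) (rf U X) = ∑ c, ∑ i, ∑ j, F i j * (Uᵀ * X c * U) i j ^ 2 := by
  unfold SS
  rw [Finset.sum_comm]
  have e1 : (∑ c, ∑ i, ∑ j, F i j * (Uᵀ * X c * U) i j ^ 2) =
      ∑ i, ∑ j, F i j * ∑ c, (Uᵀ * X c * U) i j ^ 2 := by
    rw [Finset.sum_comm]
    refine Finset.sum_congr rfl fun i _ => ?_
    rw [Finset.sum_comm]
    exact Finset.sum_congr rfl fun j _ => by rw [Finset.mul_sum]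
  rw [e1]
  refine Finset.sum_congr rfl fun i _ => ?_
  rw [Finset.sum_comm]
  refine Finset.sum_congr rfl fun j _ => ?_
  rw [← sum_rf_sq h, Finset.mul_sum]

variable {A U N : Mat m} {e : Fin m → ℝ} {S : Fin m → Mat m}

/-- **the energy inequality at a point** -/
theorem energy_pt (h : Fr A U e) (he : ∀ i, 0 < e i) (hN : N * A = 1) (hS : Sy S) :
    (∑ c, hs (DK zf zf' A (S c))) - (∑ c, hs (DK uf uf' A (S c))) +
      (∑ c, slk rho U (fun i => zf (e i)) (DK zf zf' A (S c))) ≤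
    (∑ a, ∑ b, N a b * ip (DK (fun t => uf t * uf t) (fun t => uf' t * uf t + uf t * uf' t) A (S b))
        (S a)) +
      (∑ i, ∑ j, (_root_.cfc (fun t => uf t * uf t) A) i j * Qm N S i j) := by
  have he' : ∀ i, e i ≠ 0 := fun i => (he i).ne'
  rw [spec_form3 h he' hN hS, sum_DK_sq3 h hS, sum_DK_sq3 h hS]
  have e1 : (∑ c, slk rho U (fun i => zf (e i)) (DK zf zf' A (S c))) =
      SS (fun i j _ => rho (zf (e i)) (zf (e j)) * dd1 zf zf' (e i) (e j) ^ 2) (rf U S) := by
    rw [SS_rf h.o']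
    refine Finset.sum_congr rfl fun c _ => ?_
    unfold slk
    refine Finset.sum_congr rfl fun i _ => Finset.sum_congr rfl fun j _ => ?_
    rw [DK_frame h]; ring
  rw [SS_pairs (hS.rf U)] at e1
  rw [e1, SS_sub, SS_add]
  refine SS_mono (fun i j k => ?_) _
  have h1 := SI_e (he i) (he j) (he k)
  unfold tri
  rw [dd1_phif (he i) (he j), dd1_phif (he j) (he k), dd1_phif (he i) (he k)]
  have e2 : ((e i + e j) * dd1 phif phif' (e i) (e j) + (e j + e k) * dd1 phif phif' (e j) (e k) +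
      (e i + e k) * dd1 phif phif' (e i) (e k)) / (2 * e i * e j * e k) / 3 =
      (1 / (2 * e i * e j * e k) * ((e i + e j) * dd1 phif phif' (e i) (e j) +
        (e j + e k) * dd1 phif phif' (e j) (e k) + (e i + e k) * dd1 phif phif' (e i) (e k))) / 3 := by
    ring
  rw [e2]
  linarith

/-! ### binding to the fields of the spine -/

section field

variable {M Nn : Fld n} {G : Fin n → E n → ℝ} {V : E n → ℝ} {lo hi : ℝ}

/-- `ζ = z(M)` entrywise -/
def Zf (M : Fld n) : Fld n := fun i j x => _root_.cfc zf (Mx M x) i j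
/-- `U = v(z(M))` entrywise -/
def Uf (M : Fld n) : Fld n := fun i j x => _root_.cfc uf (Mx M x) i j
/-- the family `c ↦ ∂_c M` at `x` -/
def dM (M : Fld n) (x : E n) (c : Fin n) : Mat n := Mx (fun a b => pd c (M a b)) x

lemma Mx_Zf (M : Fld n) (x : E n) : Mx (Zf M) x = _root_.cfc zf (Mx M x) := rfl

lemma zf_hasOn (hlo : 0 < lo) : ∀ x ∈ Icc lo hi, HasDerivAt zf (zf' x) x :=
  fun _ hx => zf_has (lt_of_lt_of_le hlo hx.1)
lemma uf_hasOn (hlo : 0 < lo) : ∀ x ∈ Icc lo hi, HasDerivAt uf (uf' x) x :=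
  fun _ hx => uf_has (lt_of_lt_of_le hlo hx.1)

lemma zf'_contOn' (hlo : 0 < lo) : ContinuousOn zf' (Icc lo hi) :=
  Crest.Agent.R253.ScalE688.zf'_contOn.mono fun _ hx => lt_of_lt_of_le hlo hx.1

lemma uf'_contOn' (hlo : 0 < lo) : ContinuousOn uf' (Icc lo hi) := by
  have h1 : ContinuousOn (fun e => Crest.Agent.R253.Slack688.aa (zf e)) (Icc lo hi) :=
    (Crest.Agent.R253.ScalE688.comp_contOn Crest.Agent.R253.ScalE688.aa_cont).mono
      fun _ hx => lt_of_lt_of_le hlo hx.1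
  exact h1.mul (zf'_contOn' hlo)

lemma c1_Zf (hM : MF M lo hi) (hlo : 0 < lo) (i j : Fin n) : C1 (Zf M i j) :=
  c1_cfc hM (zf_hasOn hlo) (zf'_contOn' hlo) i j
lemma c1_Uf (hM : MF M lo hi) (hlo : 0 < lo) (i j : Fin n) : C1 (Uf M i j) :=
  c1_cfc hM (uf_hasOn hlo) (uf'_contOn' hlo) i j

lemma dM_Zf (hM : MF M lo hi) (hlo : 0 < lo) (x : E n) (c : Fin n) :
    dM (Zf M) x c = DK zf zf' (Mx M x) (dM M x c) := by
  ext i j
  exact pd_cfc hM (zf_hasOn hlo) x i j c
lemma dM_Uf (hM : MF M lo hi) (hlo : 0 < lo) (x : E n) (c : Fin n) :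
    dM (Uf M) x c = DK uf uf' (Mx M x) (dM M x c) := by
  ext i j
  exact pd_cfc hM (uf_hasOn hlo) x i j c

lemma sy_dM (h : HD G M) (x : E n) : Sy (dM M x) := by
  constructor
  · intro a b c
    change pd c (M a b) x = pd c (M b a) x
    rw [h.s a b]
  · intro a b c
    change pd c (M a b) x = pd b (M a c) x
    rw [h.t a b c]

lemma dh2_eq (A : Fld n) (x : E n) : dh2 A x = ∑ c, hs (dM A x c) := by
  unfold dh2 hs dM
  symm
  rw [Finset.sum_comm]
  refine Finset.sum_congr rfl fun i _ => ?_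
  rw [Finset.sum_comm]
  rfl

lemma cfc_symm {A : Mat n} (hA : A.IsHermitian) (f : ℝ → ℝ) (i j : Fin n) :
    _root_.cfc f A i j = _root_.cfc f A j i := by
  obtain ⟨U, hU⟩ := exists_fr hA
  have h1 : (_root_.cfc f A)ᵀ = _root_.cfc f A := by
    have e : _root_.cfc f A = U * Matrix.diagonal (fun i => f (hA.eigenvalues i)) * Uᵀ := by
      rw [← hU.cfc f]
      calc _root_.cfc f A = (U * Uᵀ) * _root_.cfc f A * (U * Uᵀ) := by
            rw [hU.o', Matrix.one_mul, Matrix.mul_one]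
        _ = _ := by simp only [Matrix.mul_assoc]
    rw [e, Matrix.transpose_mul, Matrix.transpose_mul, Matrix.transpose_transpose,
      Matrix.diagonal_transpose, Matrix.mul_assoc]
  calc _root_.cfc f A i j = (_root_.cfc f A)ᵀ j i := rfl
    _ = _ := by rw [h1]

lemma Zf_symm (hM : MF M lo hi) (i j : Fin n) : Zf M i j = Zf M j i := by
  funext x; exact cfc_symm (hM.h x) _ i j
lemma Uf_symm (hM : MF M lo hi) (i j : Fin n) : Uf M i j = Uf M j i := by
  funext x; exact cfc_symm (hM.h x) _ i j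

lemma inv_mx (h : MA G M Nn V) (x : E n) : Mx Nn x * Mx M x = 1 := by
  ext i j
  rw [Matrix.mul_apply, Matrix.one_apply]
  exact h.inv x i j

/-- the multiplier `U²` -/
lemma UKU_dl (hM : MF M lo hi) (i j : Fin n) (x : E n) :
    UKU (Uf M) dl i j x = _root_.cfc (fun t => uf t * uf t) (Mx M x) i j := by
  have h1 : _root_.cfc (fun t => uf t * uf t) (Mx M x) =
      _root_.cfc uf (Mx M x) * _root_.cfc uf (Mx M x) := by
    obtain ⟨U, hU⟩ := exists_fr (hM.h x)
    apply conj_inj hU.o'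
    have e : Uᵀ * (_root_.cfc uf (Mx M x) * _root_.cfc uf (Mx M x)) * U =
        (Uᵀ * _root_.cfc uf (Mx M x) * U) * (Uᵀ * _root_.cfc uf (Mx M x) * U) := by
      calc Uᵀ * (_root_.cfc uf (Mx M x) * _root_.cfc uf (Mx M x)) * U =
            Uᵀ * _root_.cfc uf (Mx M x) * (U * Uᵀ) * _root_.cfc uf (Mx M x) * U := by
              rw [hU.o', Matrix.mul_one]; simp only [Matrix.mul_assoc]
        _ = _ := by simp only [Matrix.mul_assoc]
    rw [e, hU.cfc, hU.cfc, Matrix.diagonal_mul_diagonal]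
  rw [h1, Matrix.mul_apply]
  unfold UKU dl
  refine Finset.sum_congr rfl fun p _ => ?_
  simp only [mul_ite, mul_one, mul_zero, ite_mul, zero_mul, Finset.sum_ite_eq, Finset.mem_univ,
    if_true]
  rfl

lemma pd_UKU_dl (hM : MF M lo hi) (hlo : 0 < lo) (i j b : Fin n) (x : E n) :
    pd b (UKU (Uf M) dl i j) x =
      DK (fun t => uf t * uf t) (fun t => uf' t * uf t + uf t * uf' t) (Mx M x) (dM M x b) i j := by
  rw [pd_UKU (fun i j => c1_Uf hM hlo i j), DK_mul (hM.h x), Matrix.add_apply, Matrix.mul_apply,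
    Matrix.mul_apply, ← Finset.sum_add_distrib]
  refine Finset.sum_congr rfl fun p _ => ?_
  have e1 : ∀ a c, pd b (Uf M a c) x = DK uf uf' (Mx M x) (dM M x b) a c := fun a c =>
    pd_cfc hM (uf_hasOn hlo) x a c b
  simp only [e1]
  unfold dl
  simp only [mul_ite, mul_one, mul_zero, ite_mul, zero_mul, Finset.sum_add_distrib,
    Finset.sum_ite_eq, Finset.mem_univ, if_true]
  rfl

/-- **the pointwise energy inequality** -/
theorem RR1_ge (h : MA G M Nn V) (hM : MF M lo hi) (hlo : 0 < lo) (x : E n) {U : Mat n}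
    {e : Fin n → ℝ} (hU : Fr (Mx M x) U e) :
    dh2 (Zf M) x - dh2 (Uf M) x + (∑ c, slk rho U (fun i => zf (e i)) (dM (Zf M) x c)) ≤
      RR M Nn (Uf M) dl x := by
  have he : ∀ i, 0 < e i := fun i => lt_of_lt_of_le hlo (hM.s x (hU.mem_spec i)).1
  have h1 := energy_pt hU he (inv_mx h x) (sy_dM h.hd x)
  have e1 : RR M Nn (Uf M) dl x = (∑ a, ∑ b, Mx Nn x a b * ip (DK (fun t => uf t * uf t)
      (fun t => uf' t * uf t + uf t * uf' t) (Mx M x) (dM M x b)) (dM M x a)) +
      (∑ i, ∑ j, (_root_.cfc (fun t => uf t * uf t) (Mx M x)) i j *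
        Qm (Mx Nn x) (dM M x) i j) := by
    unfold RR
    congr 1
    · simp only [pd_UKU_dl hM hlo]
      have sw : ∀ F : Fin n → Fin n → Fin n → Fin n → ℝ,
          ∑ a, ∑ b, ∑ c, ∑ d, F a b c d = ∑ c, ∑ d, ∑ a, ∑ b, F a b c d := by
        intro F
        calc ∑ a, ∑ b, ∑ c, ∑ d, F a b c d = ∑ a, ∑ c, ∑ b, ∑ d, F a b c d :=
              Finset.sum_congr rfl fun a _ => Finset.sum_comm
          _ = ∑ c, ∑ a, ∑ b, ∑ d, F a b c d := Finset.sum_comm
          _ = ∑ c, ∑ a, ∑ d, ∑ b, F a b c d :=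
              Finset.sum_congr rfl fun c _ => Finset.sum_congr rfl fun a _ => Finset.sum_comm
          _ = ∑ c, ∑ d, ∑ a, ∑ b, F a b c d := Finset.sum_congr rfl fun c _ => Finset.sum_comm
      rw [sw]
      refine Finset.sum_congr rfl fun a _ => Finset.sum_congr rfl fun b _ => ?_
      unfold ip
      rw [Finset.mul_sum]
      refine Finset.sum_congr rfl fun i _ => ?_
      rw [Finset.mul_sum]
      refine Finset.sum_congr rfl fun j _ => ?_
      rw [← mul_assoc]
      rfl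
    · refine Finset.sum_congr rfl fun i _ => Finset.sum_congr rfl fun j _ => ?_
      rw [UKU_dl hM]
      rfl
  rw [e1, dh2_eq, dh2_eq]
  simp only [dM_Zf hM hlo, dM_Uf hM hlo]
  exact h1

/-- the slack function -/
def Slk (M Nn : Fld n) (x : E n) : ℝ := RR M Nn (Uf M) dl x - dh2 (Zf M) x + dh2 (Uf M) x

lemma cg_Slk (h : MA G M Nn V) (hM : MF M lo hi) (hlo : 0 < lo) : CG (Slk M Nn) :=
  ((cg_RR h (fun i j => c1_Uf hM hlo i j) dl).sub (cg_dh2 fun i j => c1_Zf hM hlo i j)).add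
    (cg_dh2 fun i j => c1_Uf hM hlo i j)

theorem slk_le (h : MA G M Nn V) (hM : MF M lo hi) (hlo : 0 < lo) (x : E n) {U : Mat n}
    {e : Fin n → ℝ} (hU : Fr (Mx M x) U e) :
    (∑ c, slk rho U (fun i => zf (e i)) (dM (Zf M) x c)) ≤ Slk M Nn x := by
  have := RR1_ge h hM hlo x hU
  unfold Slk
  linarith

theorem Slk_nonneg (h : MA G M Nn V) (hM : MF M lo hi) (hlo : 0 < lo) (x : E n) :
    0 ≤ Slk M Nn x := by
  obtain ⟨U, hU⟩ := exists_fr (hM.h x)
  refine le_trans ?_ (slk_le h hM hlo x hU)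
  refine Finset.sum_nonneg fun c _ => ?_
  unfold slk
  exact Finset.sum_nonneg fun i _ => Finset.sum_nonneg fun j _ =>
    mul_nonneg (Crest.Agent.R253.ScalE688.rho_nonneg _ _) (sq_nonneg _)

lemma RR1_eq (x : E n) : RR M Nn (Uf M) dl x = dh2 (Zf M) x - dh2 (Uf M) x + Slk M Nn x := by
  unfold Slk; ring

end field

end Crest.Agent.R253.Frame321
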