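import Crest.Agent.R238.HBMat
import Crest.Agent.R238.HolDefs
import Crest.Agent.R238.MaxPE
import Crest.Agent.R238.SchInt
import Crest.Agent.R253.BrPC_505
import Crest.Agent.R253.Dual_441
import Crest.Agent.R253.SpecCalc_999
import Crest.Agent.R238.HBAlg

-- ▼ part R238/HBLog
section

/-!
Row 238 (S0369), node H1b (helper437), part 3: `log det` calculus.

* `avgI A B = ∫₀¹ (A + t (B - A))⁻¹ dt`; `log det B - log det A = tr(avgI A B (B - A))`;
  `avgI` is elliptic and Hölder (`HB.avgInv`), close to `C⁻¹` if `A`, `B` are close to `C`;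
* `HB.logdet_master`: `log det g₂ - log det g₁ - tr(g₀⁻¹ (g₂ - g₁))` is `HB a (C N D)`;
* `HB.logdet_remainder`, `HB.qlemma`, `Ell.qlemma` (pointwise).
-/

set_option autoImplicit false

open MeasureTheory Set Filter
open scoped ContDiff Topology

namespace Crest.Agent.R238

variable {n : ℕ}

/-- integral over `[0,1]` of `HB` functions -/
theorem HB.integral01 {a M : ℝ} {F : ℝ → E n → ℝ} (hF : ∀ t ∈ Icc (0 : ℝ) 1, HB a M (F t))
    (hc : ∀ x, ContinuousOn (fun t => F t x) (Icc 0 1)) :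
    HB a M (fun x => ∫ t in (0 : ℝ)..1, F t x) := by
  have hsub : ∀ t ∈ uIoc (0 : ℝ) 1, t ∈ Icc (0 : ℝ) 1 := by
    intro t ht
    rw [uIoc_of_le zero_le_one] at ht
    exact Ioc_subset_Icc_self ht
  have hI : ∀ x, IntervalIntegrable (fun t => F t x) volume 0 1 := by
    intro x
    refine ContinuousOn.intervalIntegrable ?_
    rw [uIcc_of_le zero_le_one]
    exact hc x
  refine ⟨fun x => ?_, fun x y => ?_⟩
  · have h := intervalIntegral.norm_integral_le_of_norm_le_const (a := (0 : ℝ)) (b := 1)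
      (f := fun t => F t x) (C := M) (fun t ht => (hF t (hsub t ht)).1 x)
    simpa using h
  · rw [← intervalIntegral.integral_sub (hI x) (hI y)]
    have h := intervalIntegral.norm_integral_le_of_norm_le_const (a := (0 : ℝ)) (b := 1)
      (f := fun t => F t x - F t y) (C := M * ‖x - y‖ ^ a)
      (fun t ht => (hF t (hsub t ht)).2 x y)
    simpa using h

/-- averaged inverse along the segment -/
noncomputable def avgI (A B : Matrix (Fin n) (Fin n) ℝ) : Matrix (Fin n) (Fin n) ℝ :=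
  Matrix.of fun i j => ∫ t in (0 : ℝ)..1, (A + t • (B - A))⁻¹ i j

theorem avgI_apply (A B : Matrix (Fin n) (Fin n) ℝ) (i j : Fin n) :
    avgI A B i j = ∫ t in (0 : ℝ)..1, (A + t • (B - A))⁻¹ i j := rfl

theorem Ell.continuousOn_inv {lo hi : ℝ} (hlo : 0 < lo) {A B : Matrix (Fin n) (Fin n) ℝ}
    (hA : Ell lo hi A) (hB : Ell lo hi B) (i j : Fin n) :
    ContinuousOn (fun t : ℝ => (A + t • (B - A))⁻¹ i j) (Icc 0 1) := by
  have hbd : ∀ k l, |(B - A) k l| ≤ 2 * |hi| := by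
    intro k l
    rw [Matrix.sub_apply]
    have h1 := (hA.abs_entry_le hlo.le k l).trans (le_abs_self hi)
    have h2 := (hB.abs_entry_le hlo.le k l).trans (le_abs_self hi)
    calc |B k l - A k l| ≤ |B k l| + |A k l| := abs_sub _ _
      _ ≤ 2 * |hi| := by linarith
  have hK : 0 ≤ (n : ℝ) ^ 2 * (2 * |hi|) / lo ^ 2 := by positivity
  have hL : LipschitzOnWith ⟨(n : ℝ) ^ 2 * (2 * |hi|) / lo ^ 2, hK⟩
      (fun t : ℝ => (A + t • (B - A))⁻¹ i j) (Icc 0 1) := by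
    refine LipschitzOnWith.of_dist_le_mul fun s hs t ht => ?_
    rw [Real.dist_eq, Real.dist_eq]
    show _ ≤ ((n : ℝ) ^ 2 * (2 * |hi|) / lo ^ 2) * |s - t|
    have h := (hA.segment hB hs).abs_inv_sub_le hlo (hA.segment hB ht)
      (d := 2 * |hi| * |s - t|) (fun k l => by
        have e : (A + s • (B - A)) k l - (A + t • (B - A)) k l = (s - t) * (B - A) k l := by
          simp only [Matrix.add_apply, Matrix.smul_apply, smul_eq_mul]; ring
        rw [e, abs_mul, mul_comm]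
        exact mul_le_mul_of_nonneg_right (hbd k l) (abs_nonneg _)) i j
    calc _ ≤ (n : ℝ) ^ 2 * (2 * |hi| * |s - t|) / lo ^ 2 := h
      _ = _ := by ring
  exact hL.continuousOn

theorem Ell.intervalIntegrable_inv {lo hi : ℝ} (hlo : 0 < lo) {A B : Matrix (Fin n) (Fin n) ℝ}
    (hA : Ell lo hi A) (hB : Ell lo hi B) (i j : Fin n) :
    IntervalIntegrable (fun t : ℝ => (A + t • (B - A))⁻¹ i j) volume 0 1 := by
  refine ContinuousOn.intervalIntegrable ?_
  rw [uIcc_of_le zero_le_one]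
  exact hA.continuousOn_inv hlo hB i j

/-- `∑ᵢⱼ (avgI A B)ᵢⱼ Yᵢⱼ` as an integral -/
theorem Ell.sum_avgInv {lo hi : ℝ} (hlo : 0 < lo) {A B : Matrix (Fin n) (Fin n) ℝ}
    (hA : Ell lo hi A) (hB : Ell lo hi B) (Y : Fin n → Fin n → ℝ) :
    ∑ i, ∑ j, avgI A B i j * Y i j
      = ∫ t in (0 : ℝ)..1, ∑ i, ∑ j, (A + t • (B - A))⁻¹ i j * Y i j := by
  have h1 := fun i j => hA.intervalIntegrable_inv hlo hB i j
  have h2 : ∀ i j, IntervalIntegrable (fun t : ℝ => (A + t • (B - A))⁻¹ i j * Y i j)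
      volume 0 1 := fun i j => (h1 i j).mul_const _
  have h3 : ∀ i, IntervalIntegrable (fun t : ℝ => ∑ j, (A + t • (B - A))⁻¹ i j * Y i j)
      volume 0 1 := by
    intro i
    have := IntervalIntegrable.sum Finset.univ (fun j _ => h2 i j)
    refine this.congr fun t _ => ?_
    simp only [Finset.sum_apply]
  rw [intervalIntegral.integral_finsetSum fun i _ => h3 i]
  refine Finset.sum_congr rfl fun i _ => ?_
  rw [intervalIntegral.integral_finsetSum fun j _ => h2 i j]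
  refine Finset.sum_congr rfl fun j _ => ?_
  rw [avgI_apply, intervalIntegral.integral_mul_const]

/-- **exact linearisation** of `log det` -/
theorem Ell.logdet_eq_avgInv {lo hi : ℝ} (hlo : 0 < lo) {A B : Matrix (Fin n) (Fin n) ℝ}
    (hA : Ell lo hi A) (hB : Ell lo hi B) :
    Real.log B.det - Real.log A.det = ∑ i, ∑ j, avgI A B i j * (B i j - A i j) := by
  have hg : ∀ t : ℝ, ∀ i j : Fin n, HasDerivWithinAt (fun s : ℝ => (A + s • (B - A)) i j)
      ((B - A) i j) (Icc 0 1) t := by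
    intro t i j
    have h1 : HasDerivAt (fun s : ℝ => A i j + s * (B - A) i j) ((B - A) i j) t := by
      simpa using ((hasDerivAt_id t).mul_const ((B - A) i j)).const_add (A i j)
    refine (h1.hasDerivWithinAt).congr_of_eventuallyEq (Eventually.of_forall fun s => ?_) ?_ <;>
    simp [Matrix.add_apply, Matrix.smul_apply]
  have hs : ∀ i j, (B - A) i j = (B - A) j i := by
    intro i j
    rw [Matrix.sub_apply, Matrix.sub_apply, hB.1 i j, hA.1 i j]
  have hd : ∀ t ∈ Icc (0 : ℝ) 1, HasDerivWithinAt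
      (fun s : ℝ => Real.log (A + s • (B - A)).det)
      (∑ i, ∑ j, (A + t • (B - A))⁻¹ i j * (B - A) i j) (Icc 0 1) t := by
    intro t ht
    exact sm_hasDerivWithinAt_log_det_sum (hg t) hs ((hA.segment hB ht).det_pos hlo)
  have hc : ContinuousOn (fun s : ℝ => Real.log (A + s • (B - A)).det) (Icc 0 1) :=
    fun t ht => (hd t ht).continuousWithinAt
  have hint : IntervalIntegrable
      (fun t : ℝ => ∑ i, ∑ j, (A + t • (B - A))⁻¹ i j * (B - A) i j) volume 0 1 := by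
    refine ContinuousOn.intervalIntegrable ?_
    rw [uIcc_of_le zero_le_one]
    exact continuousOn_finsetSum _ fun i _ => continuousOn_finsetSum _ fun j _ =>
      (hA.continuousOn_inv hlo hB i j).mul continuousOn_const
  have h := intervalIntegral.integral_eq_sub_of_hasDerivAt_of_le zero_le_one hc
    (fun t ht => (hd t (Ioo_subset_Icc_self ht)).hasDerivAt (Icc_mem_nhds ht.1 ht.2)) hint
  have h2 := hA.sum_avgInv hlo hB (fun i j => (B - A) i j)
  rw [← h2] at h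
  simp only [one_smul, zero_smul, add_zero, add_sub_cancel, Matrix.sub_apply] at h
  exact h.symm

/-- the averaged inverse is elliptic -/
theorem Ell.avgInv {lo hi : ℝ} (hlo : 0 < lo) (hhi : lo ≤ hi) {A B : Matrix (Fin n) (Fin n) ℝ}
    (hA : Ell lo hi A) (hB : Ell lo hi B) : Ell (1 / hi) (1 / lo) (avgI A B) := by
  have hE : ∀ t ∈ Icc (0 : ℝ) 1, Ell (1 / hi) (1 / lo) (A + t • (B - A))⁻¹ := fun t ht =>
    (hA.segment hB ht).inv hlo hhi
  refine ⟨fun i j => ?_, fun z => ?_⟩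
  · rw [avgI_apply, avgI_apply]
    refine intervalIntegral.integral_congr fun t ht => ?_
    rw [uIcc_of_le zero_le_one] at ht
    exact (hE t ht).1 i j
  · have h := hA.sum_avgInv hlo hB (fun i j => z i * z j)
    have e : ∑ i, ∑ j, avgI A B i j * z i * z j
        = ∫ t in (0 : ℝ)..1, ∑ i, ∑ j, (A + t • (B - A))⁻¹ i j * (z i * z j) := by
      rw [← h]
      exact Finset.sum_congr rfl fun i _ => Finset.sum_congr rfl fun j _ => by ring
    have hint : IntervalIntegrable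
        (fun t : ℝ => ∑ i, ∑ j, (A + t • (B - A))⁻¹ i j * (z i * z j)) volume 0 1 := by
      refine ContinuousOn.intervalIntegrable ?_
      rw [uIcc_of_le zero_le_one]
      exact continuousOn_finsetSum _ fun i _ => continuousOn_finsetSum _ fun j _ =>
        (hA.continuousOn_inv hlo hB i j).mul continuousOn_const
    have hq : ∀ t ∈ Icc (0 : ℝ) 1,
        1 / hi * ∑ i, z i ^ 2 ≤ ∑ i, ∑ j, (A + t • (B - A))⁻¹ i j * (z i * z j) ∧
        ∑ i, ∑ j, (A + t • (B - A))⁻¹ i j * (z i * z j) ≤ 1 / lo * ∑ i, z i ^ 2 := by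
      intro t ht
      have h1 := (hE t ht).2 z
      have e1 : ∑ i, ∑ j, (A + t • (B - A))⁻¹ i j * (z i * z j)
          = ∑ i, ∑ j, (A + t • (B - A))⁻¹ i j * z i * z j :=
        Finset.sum_congr rfl fun i _ => Finset.sum_congr rfl fun j _ => by ring
      rw [e1]
      exact h1
    rw [e]
    constructor
    · have h3 := intervalIntegral.integral_mono_on (a := (0 : ℝ)) (b := 1) (μ := volume)
        zero_le_one (intervalIntegrable_const (c := 1 / hi * ∑ i, z i ^ 2)) hint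
        (fun t ht => (hq t ht).1)
      simpa using h3
    · have h3 := intervalIntegral.integral_mono_on (a := (0 : ℝ)) (b := 1) (μ := volume)
        zero_le_one hint (intervalIntegrable_const (c := 1 / lo * ∑ i, z i ^ 2))
        (fun t ht => (hq t ht).2)
      simpa using h3

/-! ### fields -/

/-- convex combinations of fields -/
theorem HB.segment {a M : ℝ} {g h : E n → Matrix (Fin n) (Fin n) ℝ}
    (hg : ∀ i j, HB a M (fun x => g x i j)) (hh : ∀ i j, HB a M (fun x => h x i j))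
    {t : ℝ} (ht : t ∈ Icc (0 : ℝ) 1) (i j : Fin n) :
    HB a M (fun x => (g x + t • (h x - g x)) i j) := by
  have h1 := ((hg i j).const_mul (1 - t)).add ((hh i j).const_mul t)
  rw [abs_of_nonneg (by linarith [ht.2] : 0 ≤ 1 - t), abs_of_nonneg ht.1] at h1
  have e : (1 - t) * M + t * M = M := by ring
  rw [e] at h1
  refine h1.congr fun x => ?_
  simp only [Matrix.add_apply, Matrix.smul_apply, Matrix.sub_apply, smul_eq_mul]
  ring

/-- the constant of the inverse -/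
noncomputable def cInv (n : ℕ) (lo M : ℝ) : ℝ := 1 / lo + n ^ 2 * M / lo ^ 2

theorem HB.avgInv {a M lo hi : ℝ} (hlo : 0 < lo) {g h : E n → Matrix (Fin n) (Fin n) ℝ}
    (hE : ∀ x, Ell lo hi (g x)) (hE' : ∀ x, Ell lo hi (h x))
    (hg : ∀ i j, HB a M (fun x => g x i j)) (hh : ∀ i j, HB a M (fun x => h x i j))
    (i j : Fin n) : HB a (cInv n lo M) (fun x => avgI (g x) (h x) i j) := by
  refine HB.integral01 (F := fun t x => (g x + t • (h x - g x))⁻¹ i j) (fun t ht => ?_)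
    fun x => (hE x).continuousOn_inv hlo (hE' x) i j
  exact HB.matInv hlo (fun x => (hE x).segment (hE' x) ht)
    (fun i j => HB.segment hg hh ht i j) i j







end Crest.Agent.R238
end

-- ▼ part R238/Sch138a
section

/-!
Row 238, node H3 = (B), insurance copy (helper138). Part a: Hölder calculus on sets, Leibniz
rule for `Hs`, interpolation.
-/

set_option autoImplicit false

open MeasureTheory Set Filter
open scoped ContDiff Topology

namespace Crest.Agent.R238.Sch138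

open Crest.Agent.R238

variable {n : ℕ} {a : ℝ}

/-- on `K`: `|g| ≤ s` and `g` is `a`-Hölder with constant `k`. -/
def HSon (a : ℝ) (K : Set (E n)) (s k : ℝ) (g : E n → ℝ) : Prop :=
  (∀ x ∈ K, |g x| ≤ s) ∧ ∀ x ∈ K, ∀ y ∈ K, |g x - g y| ≤ k * ‖x - y‖ ^ a

theorem HSon.hb {s k M : ℝ} {g : E n → ℝ} (h : HSon a univ s k g) (hs : s ≤ M) (hk : k ≤ M) :
    HB a M g :=
  ⟨fun x => (h.1 x (mem_univ x)).trans hs, fun x y =>
    (h.2 x (mem_univ x) y (mem_univ y)).trans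
      (mul_le_mul_of_nonneg_right hk (Real.rpow_nonneg (norm_nonneg _) a))⟩


theorem HSon.mono {K : Set (E n)} {s k s' k' : ℝ} {g : E n → ℝ} (h : HSon a K s k g)
    (hs : s ≤ s') (hk : k ≤ k') : HSon a K s' k' g :=
  ⟨fun x hx => (h.1 x hx).trans hs, fun x hx y hy =>
    (h.2 x hx y hy).trans (mul_le_mul_of_nonneg_right hk (Real.rpow_nonneg (norm_nonneg _) a))⟩


theorem HSon.add {K : Set (E n)} {s k s' k' : ℝ} {g g' : E n → ℝ} (h : HSon a K s k g)
    (h' : HSon a K s' k' g') : HSon a K (s + s') (k + k') (fun x => g x + g' x) := by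
  refine ⟨fun x hx => (abs_add_le _ _).trans (add_le_add (h.1 x hx) (h'.1 x hx)),
    fun x hx y hy => ?_⟩
  have e : g x + g' x - (g y + g' y) = (g x - g y) + (g' x - g' y) := by ring
  rw [e, add_mul]
  exact (abs_add_le _ _).trans (add_le_add (h.2 x hx y hy) (h'.2 x hx y hy))

theorem HSon.neg {K : Set (E n)} {s k : ℝ} {g : E n → ℝ} (h : HSon a K s k g) :
    HSon a K s k (fun x => -g x) := by
  refine ⟨fun x hx => by rw [abs_neg]; exact h.1 x hx, fun x hx y hy => ?_⟩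
  have e : -g x - -g y = -(g x - g y) := by ring
  rw [e, abs_neg]
  exact h.2 x hx y hy

theorem HSon.sub {K : Set (E n)} {s k s' k' : ℝ} {g g' : E n → ℝ} (h : HSon a K s k g)
    (h' : HSon a K s' k' g') : HSon a K (s + s') (k + k') (fun x => g x - g' x) := by
  have := h.add h'.neg
  simpa [sub_eq_add_neg] using this

theorem HSon.const_mul {K : Set (E n)} {s k : ℝ} {g : E n → ℝ} (h : HSon a K s k g) (c : ℝ) :
    HSon a K (|c| * s) (|c| * k) (fun x => c * g x) := by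
  refine ⟨fun x hx => by rw [abs_mul]; exact mul_le_mul_of_nonneg_left (h.1 x hx) (abs_nonneg _),
    fun x hx y hy => ?_⟩
  have e : c * g x - c * g y = c * (g x - g y) := by ring
  rw [e, abs_mul, mul_assoc]
  exact mul_le_mul_of_nonneg_left (h.2 x hx y hy) (abs_nonneg _)

theorem HSon.sum {K : Set (E n)} {ι : Type} (t : Finset ι) {s k : ι → ℝ} {g : ι → E n → ℝ}
    (h : ∀ i ∈ t, HSon a K (s i) (k i) (g i)) :
    HSon a K (∑ i ∈ t, s i) (∑ i ∈ t, k i) (fun x => ∑ i ∈ t, g i x) := by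
  refine ⟨fun x hx => (Finset.abs_sum_le_sum_abs _ _).trans
    (Finset.sum_le_sum fun i hi => (h i hi).1 x hx), fun x hx y hy => ?_⟩
  rw [← Finset.sum_sub_distrib, Finset.sum_mul]
  exact (Finset.abs_sum_le_sum_abs _ _).trans
    (Finset.sum_le_sum fun i hi => (h i hi).2 x hx y hy)


/-- bounded and Lipschitz implies Hölder -/
theorem HSon.of_lip {K : Set (E n)} {s L : ℝ} {g : E n → ℝ} (ha : 0 < a) (ha1 : a < 1)
    (h0 : ∀ x ∈ K, |g x| ≤ s) (h1 : ∀ x ∈ K, ∀ y ∈ K, |g x - g y| ≤ L * ‖x - y‖) (hL : 0 ≤ L)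
    (hs : 0 ≤ s) : HSon a K s (2 * s + L) g := by
  refine ⟨h0, fun x hx y hy => ?_⟩
  have hd := norm_nonneg (x - y)
  by_cases hxy : ‖x - y‖ ≤ 1
  · have h2 : ‖x - y‖ ≤ ‖x - y‖ ^ a := by
      rcases hd.lt_or_eq with h | h
      · calc ‖x - y‖ = ‖x - y‖ ^ (1 : ℝ) := (Real.rpow_one _).symm
          _ ≤ ‖x - y‖ ^ a := Real.rpow_le_rpow_of_exponent_ge h hxy ha1.le
      · rw [← h]; exact Real.rpow_nonneg le_rfl a
    calc |g x - g y| ≤ L * ‖x - y‖ := h1 x hx y hy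
      _ ≤ L * ‖x - y‖ ^ a := mul_le_mul_of_nonneg_left h2 hL
      _ ≤ _ := mul_le_mul_of_nonneg_right (by linarith) (Real.rpow_nonneg hd a)
  · have h2 : 1 ≤ ‖x - y‖ ^ a := Real.one_le_rpow (not_le.1 hxy).le ha.le
    have h3 : |g x - g y| ≤ 2 * s := by
      have := abs_sub (g x) (g y)
      have hx' := h0 x hx
      have hy' := h0 y hy
      linarith
    nlinarith [mul_nonneg hs (Real.rpow_nonneg hd a), mul_nonneg hL (Real.rpow_nonneg hd a)]



/-! ### Leibniz -/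

theorem differentiable_fderiv {f : E n → ℝ} (hf : ContDiff ℝ 2 f) :
    Differentiable ℝ (fderiv ℝ f) :=
  (hf.fderiv_right (m := 1) (by norm_num)).differentiable (by norm_num)





/-! ### interpolation -/

theorem mvt {f f' : ℝ → ℝ} {t C : ℝ} (ht : 0 ≤ t) (hf : ∀ s, HasDerivAt f (f' s) s)
    (hb : ∀ s ∈ Icc 0 t, |f' s| ≤ C) : |f t - f 0| ≤ C * t := by
  have := norm_image_sub_le_of_norm_deriv_le_segment' (f := f) (f' := f') (a := 0) (b := t)
    (C := C) (fun x _ => (hf x).hasDerivWithinAt)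
    (fun x hx => by rw [Real.norm_eq_abs]; exact hb x (Ico_subset_Icc_self hx)) t
    (right_mem_Icc.2 ht)
  simpa [Real.norm_eq_abs] using this

theorem hasDerivAt_line (x u : E n) (s : ℝ) : HasDerivAt (fun s : ℝ => x + s • u) u s := by
  simpa using ((hasDerivAt_id s).smul_const u).const_add x

theorem hasDerivAt_dir {h : E n → ℝ} (hh : ContDiff ℝ 2 h) (x u v : E n) (s : ℝ) :
    HasDerivAt (fun s : ℝ => fderiv ℝ h (x + s • u) v)
      (fderiv ℝ (fderiv ℝ h) (x + s • u) u v) s := by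
  have h1 : HasFDerivAt (fderiv ℝ h) (fderiv ℝ (fderiv ℝ h) (x + s • u)) (x + s • u) :=
    (differentiable_fderiv hh _).hasFDerivAt
  have h2 := h1.comp_hasDerivAt s (hasDerivAt_line x u s)
  have h3 := h2.clm_apply (hasDerivAt_const s v)
  simpa using h3

theorem hasDerivAt_val {h : E n → ℝ} (hh : ContDiff ℝ 2 h) (x u : E n) (s : ℝ) :
    HasDerivAt (fun s : ℝ => h (x + s • u)) (fderiv ℝ h (x + s • u) u) s :=
  ((hh.differentiable (by norm_num) _).hasFDerivAt).comp_hasDerivAt s (hasDerivAt_line x u s)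

theorem norm_ee (i : Fin n) : ‖(ee i : E n)‖ = 1 := by simp

theorem norm_smul_ee {s t : ℝ} (hs : s ∈ Icc 0 t) (i : Fin n) : ‖s • (ee i : E n)‖ ≤ t := by
  rw [norm_smul, norm_ee, mul_one, Real.norm_eq_abs, abs_of_nonneg hs.1]; exact hs.2

theorem int2 (ha : 0 < a) (ha1 : a < 1) {h : E n → ℝ} (hh : ContDiff ℝ 2 h) {M S r t : ℝ}
    (hM : ∀ i j, HB a M (fun x => Hs h x i j)) (hM0 : 0 ≤ M)
    (hS : ∀ x : E n, ‖x‖ ≤ r + 1 → |h x| ≤ S) (ht : 0 < t) (ht1 : t ≤ 1 / 2)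
    {x : E n} (hx : ‖x‖ ≤ r) (i j : Fin n) :
    |Hs h x i j| ≤ 4 * S / t ^ 2 + 2 * M * t ^ a := by
  set u : E n := ee i with hu
  set v : E n := ee j with hv
  set c : ℝ := Hs h x i j with hc
  have hta : 0 ≤ t ^ a := Real.rpow_nonneg ht.le a
  have hMt : 0 ≤ 2 * M * t ^ a := by positivity
  -- first MVT
  have h1 : ∀ s' ∈ Icc 0 t,
      |fderiv ℝ h (x + s' • v + t • u) v - fderiv ℝ h (x + s' • v) v - t * c|
        ≤ (2 * M * t ^ a) * t := by
    intro s' hs'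
    have := mvt (f := fun s : ℝ => fderiv ℝ h ((x + s' • v) + s • u) v - s * c)
      (f' := fun s => fderiv ℝ (fderiv ℝ h) ((x + s' • v) + s • u) u v - c) (t := t)
      (C := 2 * M * t ^ a) ht.le
      (fun s => by
        have h2 := (hasDerivAt_dir hh (x + s' • v) u v s).fun_sub ((hasDerivAt_id' s).mul_const c)
        simpa using h2)
      (fun s hs => by
        have h3 := (hM i j).2 ((x + s' • v) + s • u) x
        have h4 : ‖(x + s' • v) + s • u - x‖ ≤ 2 * t := by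
          have e : (x + s' • v) + s • u - x = s' • v + s • u := by abel
          rw [e]
          refine (norm_add_le _ _).trans ?_
          have := norm_smul_ee (n := n) hs' j
          have := norm_smul_ee (n := n) hs i
          linarith
        have h5 : ‖(x + s' • v) + s • u - x‖ ^ a ≤ 2 * t ^ a := by
          refine (Real.rpow_le_rpow (norm_nonneg _) h4 ha.le).trans ?_
          rw [Real.mul_rpow (by norm_num) ht.le]
          refine mul_le_mul_of_nonneg_right ?_ hta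
          calc (2 : ℝ) ^ a ≤ 2 ^ (1 : ℝ) := Real.rpow_le_rpow_of_exponent_le (by norm_num) ha1.le
            _ = 2 := Real.rpow_one _
        calc |Hs h ((x + s' • v) + s • u) i j - c|
            ≤ M * ‖(x + s' • v) + s • u - x‖ ^ a := h3
          _ ≤ M * (2 * t ^ a) := mul_le_mul_of_nonneg_left h5 hM0
          _ = _ := by ring)
    have e : fderiv ℝ h (x + s' • v + t • u) v - t * c
        - (fderiv ℝ h (x + s' • v + (0 : ℝ) • u) v - 0 * c)
        = fderiv ℝ h (x + s' • v + t • u) v - fderiv ℝ h (x + s' • v) v - t * c := by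
      rw [zero_smul, add_zero]; ring
    rw [← e]; exact this
  have h2 := mvt (f := fun s' : ℝ => h ((x + t • u) + s' • v) - h (x + s' • v) - s' * (t * c))
      (f' := fun s' => fderiv ℝ h ((x + t • u) + s' • v) v - fderiv ℝ h (x + s' • v) v - t * c)
      (t := t) (C := (2 * M * t ^ a) * t) ht.le
      (fun s => by
        have h2 := ((hasDerivAt_val hh (x + t • u) v s).fun_sub (hasDerivAt_val hh x v s)).fun_sub
          ((hasDerivAt_id' s).mul_const (t * c))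
        simpa using h2)
      (fun s hs => by
        have := h1 s hs
        have e : x + s • v + t • u = (x + t • u) + s • v := by abel
        rw [e] at this; exact this)
  simp only [zero_smul, add_zero, zero_mul, sub_zero] at h2
  have b : ∀ y : E n, ‖y‖ ≤ 2 * t → |h (x + y)| ≤ S := fun y hy => by
    refine hS _ ((norm_add_le _ _).trans ?_)
    linarith
  have n1 : ‖t • u‖ ≤ t := norm_smul_ee (n := n) ⟨ht.le, le_rfl⟩ i
  have n2 : ‖t • v‖ ≤ t := norm_smul_ee (n := n) ⟨ht.le, le_rfl⟩ j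
  have b1 := b (t • u + t • v) ((norm_add_le _ _).trans (by linarith))
  have b2 := b (t • u) (by linarith)
  have b3 := b (t • v) (by linarith)
  have b4 := b 0 (by simp; exact ht.le)
  rw [← add_assoc] at b1
  rw [add_zero] at b4
  have h3 : t ^ 2 * |c| ≤ 4 * S + (2 * M * t ^ a) * t ^ 2 := by
    have e : t ^ 2 * |c| = |t * (t * c)| := by
      rw [abs_mul, abs_mul, abs_of_pos ht]; ring
    rw [e]
    rw [abs_le] at h2 b1 b2 b3 b4 ⊢
    constructor <;> nlinarith [h2.1, h2.2, b1.1, b1.2, b2.1, b2.2, b3.1, b3.2, b4.1, b4.2]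
  have ht2 : 0 < t ^ 2 := by positivity
  have h4 : |c| ≤ (4 * S + (2 * M * t ^ a) * t ^ 2) / t ^ 2 := by
    rw [le_div_iff₀ ht2]; linarith
  calc |c| ≤ _ := h4
    _ = _ := by field_simp

theorem int1 {h : E n → ℝ} (hh : ContDiff ℝ 2 h) {M S r t : ℝ}
    (hM : ∀ x i j, |Hs h x i j| ≤ M)
    (hS : ∀ x : E n, ‖x‖ ≤ r + 1 → |h x| ≤ S) (ht : 0 < t) (ht1 : t ≤ 1 / 2)
    {x : E n} (hx : ‖x‖ ≤ r) (j : Fin n) :
    |fderiv ℝ h x (ee j)| ≤ 2 * S / t + M * t := by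
  set v : E n := ee j with hv
  have hM0 : 0 ≤ M := (abs_nonneg _).trans (hM 0 j j)
  have h1 : ∀ s ∈ Icc 0 t, |fderiv ℝ h (x + s • v) v - fderiv ℝ h x v| ≤ M * t := by
    intro s hs
    have := mvt (f := fun s : ℝ => fderiv ℝ h (x + s • v) v)
      (f' := fun s => fderiv ℝ (fderiv ℝ h) (x + s • v) v v) (t := s) (C := M) hs.1
      (fun s => hasDerivAt_dir hh x v v s) (fun s _ => hM _ j j)
    simp only [zero_smul, add_zero] at this
    exact this.trans (mul_le_mul_of_nonneg_left hs.2 hM0)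
  have h2 := mvt (f := fun s : ℝ => h (x + s • v) - s * fderiv ℝ h x v)
    (f' := fun s => fderiv ℝ h (x + s • v) v - fderiv ℝ h x v) (t := t) (C := M * t) ht.le
    (fun s => by
      have h2 := (hasDerivAt_val hh x v s).fun_sub ((hasDerivAt_id' s).mul_const (fderiv ℝ h x v))
      simpa using h2) h1
  simp only [zero_smul, add_zero, zero_mul, sub_zero] at h2
  have n2 : ‖t • v‖ ≤ t := norm_smul_ee (n := n) ⟨ht.le, le_rfl⟩ j
  have b3 : |h (x + t • v)| ≤ S := hS _ ((norm_add_le _ _).trans (by linarith))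
  have b4 : |h x| ≤ S := hS _ (by linarith)
  have h3 : t * |fderiv ℝ h x v| ≤ 2 * S + M * t * t := by
    have e : t * |fderiv ℝ h x v| = |t * fderiv ℝ h x v| := by rw [abs_mul, abs_of_pos ht]
    rw [e]
    rw [abs_le] at h2 b3 b4 ⊢
    constructor <;> nlinarith [h2.1, h2.2, b3.1, b3.2, b4.1, b4.2]
  have h4 : |fderiv ℝ h x v| ≤ (2 * S + M * t * t) / t := by
    rw [le_div_iff₀ ht]; linarith
  calc |fderiv ℝ h x v| ≤ _ := h4
    _ = _ := by field_simp

end Crest.Agent.R238.Sch138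
end

-- ▼ part R253/BrUni_666
section

/-!
Row 253, T6 node B11 (helper666): uniqueness and Lipschitz dependence on `P` for the Monge-Ampere
equation with drift and zero order term

`log det (1 + D²v) - x·∇v - |∇v|²/2 - lam v = - s P`,

together with the interpolation "sup small + `D²` Hoelder ⇒ gradient and Hessian small".
-/

set_option autoImplicit false

open MeasureTheory Set Filter
open scoped ContDiff Topology

namespace Crest.Agent.R253.BrUni666

open Crest.Agent.R238 Crest.Agent.R238.MaxP Crest.Agent.R238.Sch138 Crest.Agent.R238.SchI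

variable {n : ℕ}

/-- `|∇v|²(x)` as the sum of the squares of the partial derivatives -/
noncomputable def grad2 (v : E n → ℝ) (x : E n) : ℝ := ∑ i, (fderiv ℝ v x (ee i)) ^ 2

/-- `log det (1 + D²v) - x·∇v - |∇v|²/2 - lam v = - s P` -/
def MAb (P : E n → ℝ) (lam s : ℝ) (v : E n → ℝ) : Prop :=
  ∀ x, Real.log (gm v x).det - fderiv ℝ v x x - grad2 v x / 2 - lam * v x = - s * P x

/-- **maximum principle** with bounded drift and zero order term -/
theorem maxB {τ : E n → Matrix (Fin n) (Fin n) ℝ} (hτ : ∀ x, (τ x).PosSemidef)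
    {T : ℝ} (hT : ∀ x, (τ x).trace ≤ T) {w : E n → ℝ} (hw : ContDiff ℝ 2 w) {M : ℝ}
    (hM : ∀ x, w x ≤ M) {b : E n → E n} {K : ℝ} (hb : ∀ x, ‖b x‖ ≤ K) {lam D : ℝ}
    (hlam : 0 < lam)
    (h : ∀ x, lam * w x - D ≤ LA τ w x - fderiv ℝ w x (b x)) : ∀ x, w x ≤ D / lam := by
  intro x0
  have hK : 0 ≤ K := (norm_nonneg _).trans (hb 0)
  rw [le_div_iff₀ hlam, mul_comm]
  refine le_of_forall_pos_le_add fun η hη => ?_
  set ε : ℝ := η / (1 + K + lam) with hε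
  have hpos : 0 < 1 + K + lam := by linarith
  have hε0 : 0 < ε := by positivity
  obtain ⟨x, hx1, hx2, hx3, -⟩ := omori_yau_LA hτ hT hw hM x0 hε0
  have h1 := h x
  have h2 := hx3 (b x)
  have h3 : ε * ‖b x‖ ≤ ε * K := mul_le_mul_of_nonneg_left (hb x) hε0.le
  have h4 : lam * (w x0 - ε) ≤ lam * w x := mul_le_mul_of_nonneg_left hx1 hlam.le
  have h5 : ε * (1 + K + lam) = η := by rw [hε]; field_simp
  rw [abs_le] at h2
  nlinarith [h2.1, h2.2]

/-- one-sided comparison -/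
theorem lip_one {P₁ P₂ : E n → ℝ} {lam s₁ s₂ : ℝ} (hlam : 0 < lam) {v₁ v₂ : E n → ℝ}
    (c₁ : ContDiff ℝ 2 v₁) (c₂ : ContDiff ℝ 2 v₂) {B K : ℝ} (b₁ : ∀ x, |v₁ x| ≤ B)
    (b₂ : ∀ x, |v₂ x| ≤ B) (k₁ : ∀ x i, |fderiv ℝ v₁ x (ee i)| ≤ K)
    (k₂ : ∀ x i, |fderiv ℝ v₂ x (ee i)| ≤ K) {lo hi : ℝ} (hlo : 0 < lo)
    (e₁ : ∀ x, Ell lo hi (gm v₁ x)) (e₂ : ∀ x, Ell lo hi (gm v₂ x))
    (m₁ : MAb P₁ lam s₁ v₁) (m₂ : MAb P₂ lam s₂ v₂) {D : ℝ}
    (hD : ∀ x, s₁ * P₁ x - s₂ * P₂ x ≤ D) : ∀ x, v₁ x - v₂ x ≤ D / lam := by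
  rcases Nat.eq_zero_or_pos n with hn | hn
  · subst hn
    intro x
    have h1 := m₁ x
    have h2 := m₂ x
    have hx : x = 0 := Subsingleton.elim _ _
    have h3 : fderiv ℝ v₁ x x = 0 := by rw [hx]; simp
    have h4 : fderiv ℝ v₂ x x = 0 := by rw [hx]; simp
    rw [h3] at h1
    rw [h4] at h2
    simp only [grad2, Finset.univ_eq_empty, Finset.sum_empty, Matrix.det_isEmpty, Real.log_one]
      at h1 h2
    have h5 := hD x
    rw [le_div_iff₀ hlam]
    nlinarith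
  have hhi : lo ≤ hi := by
    have h := (e₁ 0).2 (Pi.single ⟨0, hn⟩ 1)
    have h2 : ∑ i, (Pi.single (⟨0, hn⟩ : Fin n) (1 : ℝ) : Fin n → ℝ) i ^ 2 = 1 := by
      rw [Finset.sum_eq_single ⟨0, hn⟩]
      · simp
      · intro j _ hj; simp [Pi.single_eq_of_ne hj]
      · intro h; exact absurd (Finset.mem_univ _) h
    rw [h2] at h
    linarith [h.1, h.2]
  -- the averaged coefficient matrix
  set τ : E n → Matrix (Fin n) (Fin n) ℝ := fun x => avgI (gm v₂ x) (gm v₁ x) with hτdef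
  have hτE : ∀ x, Ell (1 / hi) (1 / lo) (τ x) := fun x => Ell.avgInv hlo hhi (e₂ x) (e₁ x)
  have hhi0 : 0 < hi := hlo.trans_le hhi
  have hτp : ∀ x, (τ x).PosSemidef := fun x => (MaxP.Ell.posDef (by positivity) (hτE x)).posSemidef
  have hτT : ∀ x, (τ x).trace ≤ n * (1 / lo) := by
    intro x
    rw [Matrix.trace]
    calc ∑ i, (τ x).diag i ≤ ∑ _i : Fin n, (1 / lo) := by
          refine Finset.sum_le_sum fun i _ => ?_
          have h := ((hτE x).2 (Pi.single i 1)).2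
          have h2 : ∑ k, (Pi.single i (1 : ℝ) : Fin n → ℝ) k ^ 2 = 1 := by
            rw [Finset.sum_eq_single i]
            · simp
            · intro j _ hj; simp [Pi.single_eq_of_ne hj]
            · intro h; exact absurd (Finset.mem_univ _) h
          have h3 : ∑ k, ∑ l, τ x k l * (Pi.single i (1 : ℝ) : Fin n → ℝ) k
              * (Pi.single i (1 : ℝ) : Fin n → ℝ) l = τ x i i := by
            rw [Finset.sum_eq_single i, Finset.sum_eq_single i]
            · simp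
            · intro j _ hj; simp [Pi.single_eq_of_ne hj]
            · intro h; exact absurd (Finset.mem_univ _) h
            · intro j _ hj
              refine Finset.sum_eq_zero fun l _ => ?_
              simp [Pi.single_eq_of_ne hj]
            · intro h; exact absurd (Finset.mem_univ _) h
          rw [h2, h3, mul_one] at h
          exact h
      _ = n * (1 / lo) := by simp
  set w : E n → ℝ := fun x => v₁ x - v₂ x with hw
  have hwc : ContDiff ℝ 2 w := c₁.sub c₂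
  have hwM : ∀ x, w x ≤ 2 * B := by
    intro x
    have h1 := abs_le.1 (b₁ x)
    have h2 := abs_le.1 (b₂ x)
    simp only [hw]; linarith [h1.1, h1.2, h2.1, h2.2]
  have hfd : ∀ x, fderiv ℝ w x = fderiv ℝ v₁ x - fderiv ℝ v₂ x := fun x =>
    (((c₁.differentiable (by norm_num)) x).hasFDerivAt.sub
      ((c₂.differentiable (by norm_num)) x).hasFDerivAt).fderiv
  set b : E n → E n := fun x =>
    ∑ i, ((fderiv ℝ v₁ x (ee i) + fderiv ℝ v₂ x (ee i)) / 2) • ee i with hbdef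
  have hbn : ∀ x, ‖b x‖ ≤ n * K := by
    intro x
    calc ‖b x‖ ≤ ∑ i : Fin n, ‖((fderiv ℝ v₁ x (ee i) + fderiv ℝ v₂ x (ee i)) / 2) • ee i‖ :=
          norm_sum_le _ _
      _ ≤ ∑ _i : Fin n, K := by
          refine Finset.sum_le_sum fun i _ => ?_
          rw [norm_smul, norm_ee, mul_one, Real.norm_eq_abs]
          have h1 := abs_le.1 (k₁ x i)
          have h2 := abs_le.1 (k₂ x i)
          rw [abs_le]
          constructor <;> linarith [h1.1, h1.2, h2.1, h2.2]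
      _ = n * K := by simp
  have key : ∀ x, LA τ w x - fderiv ℝ w x (b x) = lam * w x - (s₁ * P₁ x - s₂ * P₂ x) := by
    intro x
    have h1 := m₁ x
    have h2 := m₂ x
    have h3 := Ell.logdet_eq_avgInv hlo (e₂ x) (e₁ x)
    have h4 : ∑ i, ∑ j, avgI (gm v₂ x) (gm v₁ x) i j * (gm v₁ x i j - gm v₂ x i j)
        = ∑ i, ∑ j, τ x i j * Hs w x i j := by
      refine Finset.sum_congr rfl fun i _ => Finset.sum_congr rfl fun j _ => ?_
      have h5 : Hs w x i j = Hs v₁ x i j - Hs v₂ x i j := Hs_sub c₁ c₂ x i j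
      rw [h5, gm_apply, gm_apply]
      ring
    have h6 : fderiv ℝ w x (b x) = (grad2 v₁ x - grad2 v₂ x) / 2 := by
      simp only [hbdef, map_sum, map_smul, smul_eq_mul, hfd, grad2, ← Finset.sum_sub_distrib,
        Finset.sum_div, _root_.sub_apply]
      refine Finset.sum_congr rfl fun i _ => ?_
      ring
    have h7 : LA τ w x = ∑ i, ∑ j, τ x i j * Hs w x i j - (fderiv ℝ v₁ x x - fderiv ℝ v₂ x x) := by
      unfold LA
      rw [hfd]
      rfl
    rw [h6, h7, ← h4, ← h3]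
    simp only [hw]
    linarith
  refine maxB hτp hτT hwc hwM hbn hlam fun x => ?_
  rw [key x]
  have := hD x
  linarith

/-- **Lipschitz dependence on the data** -/
theorem lipB {P₁ P₂ : E n → ℝ} {lam s₁ s₂ : ℝ} (hlam : 0 < lam) {v₁ v₂ : E n → ℝ}
    (c₁ : ContDiff ℝ 2 v₁) (c₂ : ContDiff ℝ 2 v₂) {B₁ B₂ K₁ K₂ : ℝ} (b₁ : ∀ x, |v₁ x| ≤ B₁)
    (b₂ : ∀ x, |v₂ x| ≤ B₂) (k₁ : ∀ x i, |fderiv ℝ v₁ x (ee i)| ≤ K₁)
    (k₂ : ∀ x i, |fderiv ℝ v₂ x (ee i)| ≤ K₂) {lo₁ hi₁ lo₂ hi₂ : ℝ} (hlo₁ : 0 < lo₁)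
    (hlo₂ : 0 < lo₂) (e₁ : ∀ x, Ell lo₁ hi₁ (gm v₁ x)) (e₂ : ∀ x, Ell lo₂ hi₂ (gm v₂ x))
    (m₁ : MAb P₁ lam s₁ v₁) (m₂ : MAb P₂ lam s₂ v₂) {D : ℝ}
    (hD : ∀ x, |s₁ * P₁ x - s₂ * P₂ x| ≤ D) : ∀ x, |v₁ x - v₂ x| ≤ D / lam := by
  intro x
  have hE : ∀ {lo hi lo' hi' : ℝ} {A : Matrix (Fin n) (Fin n) ℝ}, lo' ≤ lo → hi ≤ hi' →
      Ell lo hi A → Ell lo' hi' A := fun h h' hA => hA.mono h h'
  have b₁' : ∀ x, |v₁ x| ≤ max B₁ B₂ := fun x => (b₁ x).trans (le_max_left _ _)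
  have b₂' : ∀ x, |v₂ x| ≤ max B₁ B₂ := fun x => (b₂ x).trans (le_max_right _ _)
  have k₁' : ∀ x i, |fderiv ℝ v₁ x (ee i)| ≤ max K₁ K₂ := fun x i =>
    (k₁ x i).trans (le_max_left _ _)
  have k₂' : ∀ x i, |fderiv ℝ v₂ x (ee i)| ≤ max K₁ K₂ := fun x i =>
    (k₂ x i).trans (le_max_right _ _)
  have e₁' : ∀ x, Ell (min lo₁ lo₂) (max hi₁ hi₂) (gm v₁ x) := fun x =>
    hE (min_le_left _ _) (le_max_left _ _) (e₁ x)
  have e₂' : ∀ x, Ell (min lo₁ lo₂) (max hi₁ hi₂) (gm v₂ x) := fun x =>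
    hE (min_le_right _ _) (le_max_right _ _) (e₂ x)
  have hlo : 0 < min lo₁ lo₂ := lt_min hlo₁ hlo₂
  rw [abs_le]
  constructor
  · have h := lip_one hlam c₂ c₁ b₂' b₁' k₂' k₁' hlo e₂' e₁' m₂ m₁ (D := D) (fun x => by
      have := (abs_le.1 (hD x)).1; linarith) x
    linarith
  · exact lip_one hlam c₁ c₂ b₁' b₂' k₁' k₂' hlo e₁' e₂' m₁ m₂ (D := D) (fun x =>
      (abs_le.1 (hD x)).2) x


/-- gradient bound from a sup bound and a bound of the Hessian (global form) -/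
theorem grad_le {h : E n → ℝ} {B m : ℝ} (hh : ContDiff ℝ 2 h)
    (hB : ∀ x i j, |Hs h x i j| ≤ B) (hB0 : 0 ≤ B) (hm : ∀ x, |h x| ≤ m) {r : ℝ} (hr0 : 0 < r)
    (hr1 : r ≤ 1) (x : E n) : ‖fderiv ℝ h x‖ ≤ (n : ℝ) ^ 2 * B * r + 2 * m / r :=
  grad_scale hh hB hB0 (ρ := ‖x‖) (fun y _ => hm y) hr0 hr1 le_rfl

/-- Hessian bound from a sup bound and a Hoelder bound of the Hessian (global form) -/
theorem hess_le {a : ℝ} (ha : 0 < a) (ha1 : a < 1) {h : E n → ℝ} (hh : ContDiff ℝ 2 h) {M m t : ℝ}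
    (hM : ∀ i j, HB a M (fun x => Hs h x i j)) (hM0 : 0 ≤ M) (hm : ∀ x, |h x| ≤ m) (ht : 0 < t)
    (ht1 : t ≤ 1 / 2) (x : E n) (i j : Fin n) :
    |Hs h x i j| ≤ 4 * m / t ^ 2 + 2 * M * t ^ a :=
  int2 ha ha1 hh hM hM0 (r := ‖x‖) (fun y _ => hm y) ht ht1 le_rfl i j

/-- **interpolation**: a small function with a bounded Hoelder norm of the Hessian has small
gradient and Hessian. -/
theorem smallB (n : ℕ) (a M ε : ℝ) (ha : 0 < a) (ha1 : a < 1) (hM0 : 0 ≤ M) (hε : 0 < ε) :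
    ∃ δ : ℝ, 0 < δ ∧ ∀ h : E n → ℝ, ContDiff ℝ 2 h → (∀ i j, HB a M (fun x => Hs h x i j)) →
      (∀ x, |h x| ≤ δ) → (∀ x, ‖fderiv ℝ h x‖ ≤ ε) ∧ ∀ x i j, |Hs h x i j| ≤ ε := by
  -- scale for the Hessian
  obtain ⟨t, ht0, ht1, ht2⟩ : ∃ t : ℝ, 0 < t ∧ t ≤ 1 / 2 ∧ 2 * M * t ^ a ≤ ε / 2 := by
    have hc : Tendsto (fun t : ℝ => 2 * M * t ^ a) (𝓝[>] 0) (𝓝 (2 * M * 0)) := by
      refine Tendsto.const_mul _ ?_
      have h1 : Tendsto (fun t : ℝ => t ^ a) (𝓝 0) (𝓝 ((0 : ℝ) ^ a)) :=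
        (Real.continuousAt_rpow_const 0 a (Or.inr ha.le)).tendsto
      rw [Real.zero_rpow ha.ne'] at h1
      exact h1.mono_left nhdsWithin_le_nhds
    rw [mul_zero] at hc
    have h1 : ∀ᶠ t : ℝ in 𝓝[>] 0, 2 * M * t ^ a < ε / 2 :=
      hc.eventually (gt_mem_nhds (by positivity))
    have h2 : ∀ᶠ t : ℝ in 𝓝[>] 0, t ∈ Ioo (0 : ℝ) (1 / 2) := Ioo_mem_nhdsGT (by norm_num)
    obtain ⟨t, h3, h4⟩ := (h1.and h2).exists
    exact ⟨t, h4.1, h4.2.le, h3.le⟩
  -- scale for the gradient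
  set r : ℝ := min 1 (ε / (2 * ((n : ℝ) ^ 2 * M + 1))) with hr
  have hq : (0 : ℝ) < 2 * ((n : ℝ) ^ 2 * M + 1) := by positivity
  have hr0 : 0 < r := lt_min one_pos (by positivity)
  have hr1 : r ≤ 1 := min_le_left _ _
  have hr2 : (n : ℝ) ^ 2 * M * r ≤ ε / 2 := by
    have h1 : r ≤ ε / (2 * ((n : ℝ) ^ 2 * M + 1)) := min_le_right _ _
    rw [le_div_iff₀ hq] at h1
    nlinarith
  refine ⟨min (ε * r / 4) (ε * t ^ 2 / 8), lt_min (by positivity) (by positivity),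
    fun h hh hM hm => ⟨fun x => ?_, fun x i j => ?_⟩⟩
  · have h1 := grad_le hh (fun x i j => (hM i j).1 x) hM0
      (fun y => (hm y).trans (min_le_left _ _)) hr0 hr1 x
    have h2 : 2 * (ε * r / 4) / r = ε / 2 := by field_simp; ring
    rw [h2] at h1
    linarith
  · have h1 := hess_le ha ha1 hh hM hM0 (fun y => (hm y).trans (min_le_right _ _)) ht0 ht1 x i j
    have h2 : 4 * (ε * t ^ 2 / 8) / t ^ 2 = ε / 2 := by field_simp; ring
    rw [h2] at h1
    linarith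

/-- **continuous dependence in `C²`**: the solution of `(MAb)` with `C^{2,a}` bounds depends
continuously on the right hand side, gradient and Hessian included. -/
theorem contB (n : ℕ) (a M lam ε : ℝ) (ha : 0 < a) (ha1 : a < 1) (hlam : 0 < lam) (hM0 : 0 ≤ M)
    (hε : 0 < ε) :
    ∃ δ : ℝ, 0 < δ ∧ ∀ (P₁ P₂ : E n → ℝ) (s₁ s₂ : ℝ) (v₁ v₂ : E n → ℝ), ContDiff ℝ 2 v₁ →
      ContDiff ℝ 2 v₂ → (∃ B, ∀ x, |v₁ x| ≤ B) → (∃ B, ∀ x, |v₂ x| ≤ B) →
      (∃ K, ∀ x i, |fderiv ℝ v₁ x (ee i)| ≤ K) → (∃ K, ∀ x i, |fderiv ℝ v₂ x (ee i)| ≤ K) →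
      (∃ lo hi : ℝ, 0 < lo ∧ ∀ x, Ell lo hi (gm v₁ x)) →
      (∃ lo hi : ℝ, 0 < lo ∧ ∀ x, Ell lo hi (gm v₂ x)) →
      (∀ i j, HB a M (fun x => Hs v₁ x i j)) → (∀ i j, HB a M (fun x => Hs v₂ x i j)) →
      MAb P₁ lam s₁ v₁ → MAb P₂ lam s₂ v₂ → (∀ x, |s₁ * P₁ x - s₂ * P₂ x| ≤ δ) →
      (∀ x, |v₁ x - v₂ x| ≤ ε) ∧ (∀ x, ‖fderiv ℝ v₁ x - fderiv ℝ v₂ x‖ ≤ ε) ∧
        ∀ x i j, |Hs v₁ x i j - Hs v₂ x i j| ≤ ε := by
  obtain ⟨δ, hδ, H⟩ := smallB n a (M + M) ε ha ha1 (by positivity) hε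
  refine ⟨min δ ε * lam, by positivity, ?_⟩
  rintro P₁ P₂ s₁ s₂ v₁ v₂ c₁ c₂ ⟨B₁, b₁⟩ ⟨B₂, b₂⟩ ⟨K₁, k₁⟩ ⟨K₂, k₂⟩ ⟨lo₁, hi₁, hlo₁, e₁⟩
    ⟨lo₂, hi₂, hlo₂, e₂⟩ hM₁ hM₂ m₁ m₂ hD
  have h1 := lipB hlam c₁ c₂ b₁ b₂ k₁ k₂ hlo₁ hlo₂ e₁ e₂ m₁ m₂ hD
  rw [mul_div_cancel_right₀ _ hlam.ne'] at h1
  have h2 := H (fun x => v₁ x - v₂ x) (c₁.sub c₂) (fun i j => ?_)
    (fun x => (h1 x).trans (min_le_left _ _))
  · refine ⟨fun x => (h1 x).trans (min_le_right _ _), fun x => ?_, fun x i j => ?_⟩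
    · have h3 : fderiv ℝ (fun x => v₁ x - v₂ x) x = fderiv ℝ v₁ x - fderiv ℝ v₂ x :=
        (((c₁.differentiable (by norm_num)) x).hasFDerivAt.sub
          ((c₂.differentiable (by norm_num)) x).hasFDerivAt).fderiv
      rw [← h3]
      exact h2.1 x
    · rw [← Hs_sub c₁ c₂ x i j]
      exact h2.2 x i j
  · have h3 : (fun x => Hs (fun x => v₁ x - v₂ x) x i j)
        = fun x => Hs v₁ x i j - Hs v₂ x i j := funext fun x => Hs_sub c₁ c₂ x i j
    rw [h3]
    refine ⟨fun x => ?_, fun x y => ?_⟩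
    · refine (abs_sub _ _).trans ?_
      have := (hM₁ i j).1 x
      have := (hM₂ i j).1 x
      linarith
    · have h4 := (hM₁ i j).2 x y
      have h5 := (hM₂ i j).2 x y
      have e : (Hs v₁ x i j - Hs v₂ x i j) - (Hs v₁ y i j - Hs v₂ y i j)
          = (Hs v₁ x i j - Hs v₁ y i j) - (Hs v₂ x i j - Hs v₂ y i j) := by ring
      show |(Hs v₁ x i j - Hs v₂ x i j) - (Hs v₁ y i j - Hs v₂ y i j)| ≤ _
      rw [e, add_mul]
      exact (abs_sub _ _).trans (add_le_add h4 h5)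

end Crest.Agent.R253.BrUni666
end

-- ▼ part R253/NormCont_666

/-!
Row 253 (S0391), task T6 (helper666): continuity of the Brenier data (`v`, `G`, `M`) and of
`∫ z(M) dγ` in the datum `P`, for families with common constants (input of the normalisation).
-/

set_option autoImplicit false

open MeasureTheory Set Filter
open scoped ContDiff Topology RealInnerProductSpace

namespace Crest.Agent.R253.NormCont666

open Crest.Agent.R238 Crest.Agent.R253.Br Crest.Agent.R253.Dual441 Crest.Agent.R253.SpecCalc999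

variable {n : ℕ}

/-- a solution of `(MAb)` with the bounds exported by `ExiU` -/
structure Sl (P : E n → ℝ) (lam lo hi K : ℝ) (v : E n → ℝ) : Prop where
  nice : NiceB v
  ell : ∀ x, Ell lo hi (gm v x)
  b0 : ∀ x, lam * |v x| ≤ K
  b1 : ∀ x i, |gr v x i| ≤ K
  b3 : ∀ x i j k, |fderiv ℝ (fun y => Hs v y i j) x (ee k)| ≤ K
  eq : MAb P lam 1 v

/-- `ExiU` in the form of `Sl` -/
theorem exists_Sl (h : ExiU n) (c C2 C3 M0 M1 R0 : ℝ) : ∃ lo hi K : ℝ, 0 < lo ∧ lo ≤ hi ∧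
    ∀ P : E n → ℝ, PCB P c C2 C3 M0 M1 R0 → ∀ lam : ℝ, 0 < lam → lam ≤ 1 →
      ∃ v : E n → ℝ, Sl P lam lo hi K v := by
  obtain ⟨lo, hi, K, hlo, hlohi, H⟩ := h c C2 C3 M0 M1 R0
  refine ⟨lo, hi, K, hlo, hlohi, fun P hP lam hlam hlam1 => ?_⟩
  obtain ⟨v, h1, h2, h3, h4, h5, h6⟩ := H P hP lam hlam hlam1
  exact ⟨v, h1, h2, h3, h4, h5, h6⟩

variable {P P₁ P₂ v v₁ v₂ : E n → ℝ} {lam lo hi K : ℝ}

theorem Sl.c2 (h : Sl P lam lo hi K v) : ContDiff ℝ 2 v := contDiff_infty.1 h.nice.smooth 2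

theorem Sl.contDiff_Hs (h : Sl P lam lo hi K v) (i j : Fin n) :
    ContDiff ℝ 1 (fun x => Hs v x i j) := by
  have h1 : ContDiff ℝ 2 (fderiv ℝ v) :=
    (contDiff_infty.1 h.nice.smooth 3).fderiv_right (by norm_num)
  have h2 : ContDiff ℝ 1 (fderiv ℝ (fderiv ℝ v)) := h1.fderiv_right (by norm_num)
  exact (h2.clm_apply contDiff_const).clm_apply contDiff_const

theorem Sl.hs_lip (h : Sl P lam lo hi K v) (i j : Fin n) (x y : E n) :
    |Hs v x i j - Hs v y i j| ≤ n * |K| * ‖x - y‖ := by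
  have hd : Differentiable ℝ (fun x => Hs v x i j) := (h.contDiff_Hs i j).differentiable (by norm_num)
  have hB : ∀ z, ‖fderiv ℝ (fun x => Hs v x i j) z‖ ≤ n * |K| := fun z =>
    LimC2.opnorm1_le _ (abs_nonneg K) fun k => by
      rw [Real.norm_eq_abs]
      exact (h.b3 z i j k).trans (le_abs_self K)
  have := convex_univ.norm_image_sub_le_of_norm_fderiv_le (f := fun x => Hs v x i j)
    (fun z _ => hd z) (fun z _ => hB z) (mem_univ y) (mem_univ x)
  rwa [Real.norm_eq_abs] at this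

theorem Sl.hs_bd (h : Sl P lam lo hi K v) (hlo : 0 < lo) (x : E n) (i j : Fin n) :
    |Hs v x i j| ≤ |hi| + 1 := by
  have h1 := (h.ell x).abs_entry_le hlo.le i j
  have h2 : gm v x i j = (1 : Matrix (Fin n) (Fin n) ℝ) i j + Hs v x i j := rfl
  have h3 : |(1 : Matrix (Fin n) (Fin n) ℝ) i j| ≤ 1 := by
    rw [Matrix.one_apply]; split_ifs <;> simp
  have h4 : Hs v x i j = gm v x i j - (1 : Matrix (Fin n) (Fin n) ℝ) i j := by rw [h2]; ring
  rw [h4]
  refine (abs_sub _ _).trans ?_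
  have := le_abs_self hi
  linarith

theorem Sl.hb (h : Sl P lam lo hi K v) (hlo : 0 < lo) (i j : Fin n) :
    HB (1 / 2) (2 * (|hi| + 1) + n * |K|) (fun x => Hs v x i j) :=
  HB.of_lip (by norm_num) (by norm_num) (fun x => h.hs_bd hlo x i j) (by positivity)
    (fun x y => h.hs_lip i j x y)

/-- **continuity of `v`, `Dv`, `D²v`** in the datum, uniformly in `x` -/
theorem close (n : ℕ) (lam lo hi K ε : ℝ) (hlam : 0 < lam) (hlo : 0 < lo) (hε : 0 < ε) :
    ∃ δ : ℝ, 0 < δ ∧ ∀ P₁ P₂ v₁ v₂ : E n → ℝ, Sl P₁ lam lo hi K v₁ → Sl P₂ lam lo hi K v₂ →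
      (∀ x, |P₁ x - P₂ x| ≤ δ) →
      (∀ x, |v₁ x - v₂ x| ≤ ε) ∧ (∀ x, ‖fderiv ℝ v₁ x - fderiv ℝ v₂ x‖ ≤ ε) ∧
        ∀ x i j, |Hs v₁ x i j - Hs v₂ x i j| ≤ ε := by
  obtain ⟨δ, hδ, H⟩ := BrUni666.contB n (1 / 2) (2 * (|hi| + 1) + n * |K|) lam ε (by norm_num)
    (by norm_num) hlam (by positivity) hε
  refine ⟨δ, hδ, fun P₁ P₂ v₁ v₂ h₁ h₂ hP => ?_⟩
  have hb : ∀ {P v : E n → ℝ}, Sl P lam lo hi K v → ∃ B, ∀ x, |v x| ≤ B := fun {P v} h =>
    ⟨K / lam, fun x => by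
      rw [le_div_iff₀ hlam, mul_comm]; exact h.b0 x⟩
  exact H P₁ P₂ 1 1 v₁ v₂ h₁.c2 h₂.c2 (hb h₁) (hb h₂) ⟨K, h₁.b1⟩ ⟨K, h₂.b1⟩
    ⟨lo, hi, hlo, h₁.ell⟩ ⟨lo, hi, hlo, h₂.ell⟩ (fun i j => h₁.hb hlo i j)
    (fun i j => h₂.hb hlo i j) h₁.eq h₂.eq (fun x => by simpa using hP x)

/-- strong monotonicity of `x + Dv` -/
theorem grad_mono {v : E n → ℝ} (hv : ContDiff ℝ 2 v) {lo hi : ℝ}
    (he : ∀ x, Ell lo hi (gm v x)) (y z : E n) :
    lo * ‖y - z‖ ^ 2 ≤ (⟪y, y - z⟫ + fderiv ℝ v y (y - z)) - (⟪z, y - z⟫ + fderiv ℝ v z (y - z)) := by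
  set w := y - z with hw
  have hd : ∀ s : ℝ, HasDerivAt (fun s : ℝ => ⟪z + s • w, w⟫ + fderiv ℝ v (z + s • w) w
      - s * (lo * ‖w‖ ^ 2))
      (⟪w, w⟫ + fderiv ℝ (fderiv ℝ v) (z + s • w) w w - lo * ‖w‖ ^ 2) s := by
    intro s
    have h1 := Sch138.hasDerivAt_line z w s
    have h2 : HasDerivAt (fun s : ℝ => ⟪z + s • w, w⟫) ⟪w, w⟫ s := by
      have := h1.inner ℝ (hasDerivAt_const s w)
      simpa using this
    have h3 := Sch138.hasDerivAt_dir hv z w w s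
    have h4 : HasDerivAt (fun s : ℝ => s * (lo * ‖w‖ ^ 2)) (lo * ‖w‖ ^ 2) s := by
      simpa using (hasDerivAt_id s).mul_const (lo * ‖w‖ ^ 2)
    exact (h2.add h3).sub h4
  have hpos : ∀ s : ℝ, 0 ≤ ⟪w, w⟫ + fderiv ℝ (fderiv ℝ v) (z + s • w) w w - lo * ‖w‖ ^ 2 := by
    intro s
    have h1 := ((he (z + s • w)).2 (fun i => w i)).1
    have hexp : w = ∑ i, w i • (ee i : E n) := by
      have := (EuclideanSpace.basisFun (Fin n) ℝ).sum_repr w
      simpa using this.symm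
    have e1 : fderiv ℝ (fderiv ℝ v) (z + s • w) w w
        = ∑ i, ∑ j, Hs v (z + s • w) i j * w i * w j := by
      set D := fderiv ℝ (fderiv ℝ v) (z + s • w) with hD
      conv_lhs => rw [hexp]
      simp only [map_sum, map_smul, _root_.sum_apply, _root_.smul_apply, smul_eq_mul, Hs, ← hD,
        Finset.mul_sum]
      rw [Finset.sum_comm]
      refine Finset.sum_congr rfl fun i _ => Finset.sum_congr rfl fun j _ => ?_
      ring
    have e2 : ‖w‖ ^ 2 = ∑ i, w i ^ 2 := by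
      rw [EuclideanSpace.norm_sq_eq]
      simp [sq_abs]
    have e3 : ⟪w, w⟫ = ∑ i, w i ^ 2 := by rw [real_inner_self_eq_norm_sq, e2]
    have e4 : ∑ i, ∑ j, gm v (z + s • w) i j * w i * w j
        = ∑ i, w i ^ 2 + ∑ i, ∑ j, Hs v (z + s • w) i j * w i * w j := by
      have : ∀ i j, gm v (z + s • w) i j * w i * w j
          = (1 : Matrix (Fin n) (Fin n) ℝ) i j * w i * w j
            + Hs v (z + s • w) i j * w i * w j := fun i j => by
        have h5 : gm v (z + s • w) i j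
          = (1 : Matrix (Fin n) (Fin n) ℝ) i j + Hs v (z + s • w) i j := rfl
        rw [h5]; ring
      simp only [this, Finset.sum_add_distrib]
      congr 1
      refine Finset.sum_congr rfl fun i _ => ?_
      rw [Finset.sum_eq_single i]
      · rw [Matrix.one_apply_eq]; ring
      · intro j _ hj; rw [Matrix.one_apply_ne (Ne.symm hj)]; ring
      · intro h; exact absurd (Finset.mem_univ i) h
    rw [e4] at h1
    rw [e3, e1, e2]
    linarith
  have hm : Monotone (fun s : ℝ => ⟪z + s • w, w⟫ + fderiv ℝ v (z + s • w) w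
      - s * (lo * ‖w‖ ^ 2)) := by
    refine monotone_of_deriv_nonneg (fun s => (hd s).differentiableAt) fun s => ?_
    rw [(hd s).deriv]
    exact hpos s
  have h01 := hm (zero_le_one (α := ℝ))
  simp only [zero_smul, add_zero, zero_mul, sub_zero, one_smul, one_mul] at h01
  have hy : z + w = y := by rw [hw]; abel
  rw [hy] at h01
  linarith

theorem inner_eq_of_inv {v : E n → ℝ} {G : E n → E n} (hG : IsInv v G) (t w : E n) :
    ⟪t, w⟫ = ⟪G t, w⟫ + fderiv ℝ v (G t) w := by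
  have hexp : w = ∑ i, w i • (ee i : E n) := by
    have := (EuclideanSpace.basisFun (Fin n) ℝ).sum_repr w
    simpa using this.symm
  have h1 : fderiv ℝ v (G t) w = ∑ i, w i * fderiv ℝ v (G t) (ee i) := by
    conv_lhs => rw [hexp]
    simp only [map_sum, map_smul, smul_eq_mul]
  have h2 : ∀ x : E n, ⟪x, w⟫ = ∑ i, x i * w i := by
    intro x
    rw [PiLp.inner_apply]
    refine Finset.sum_congr rfl fun i _ => ?_
    simp [mul_comm]
  rw [h1, h2, h2, ← Finset.sum_add_distrib]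
  refine Finset.sum_congr rfl fun i _ => ?_
  have h3 := hG.eq t i
  have h4 : Crest.Agent.R238.Gap.pd i v (G t) = fderiv ℝ v (G t) (ee i) := rfl
  rw [h4] at h3
  rw [← h3]; ring

/-- **continuity of `G`** uniformly in `t` -/
theorem closeG {v₁ v₂ : E n → ℝ} (h₁ : ContDiff ℝ 2 v₁) {lo hi : ℝ} (hlo : 0 < lo)
    (he : ∀ x, Ell lo hi (gm v₁ x)) {ε : ℝ} (hd : ∀ x, ‖fderiv ℝ v₁ x - fderiv ℝ v₂ x‖ ≤ ε)
    {G₁ G₂ : E n → E n} (hG₁ : IsInv v₁ G₁) (hG₂ : IsInv v₂ G₂) (t : E n) :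
    ‖G₁ t - G₂ t‖ ≤ ε / lo := by
  set w := G₁ t - G₂ t with hw
  have h2 := grad_mono h₁ he (G₁ t) (G₂ t)
  rw [← hw, ← inner_eq_of_inv hG₁ t w, inner_eq_of_inv hG₂ t w] at h2
  have h3 : fderiv ℝ v₂ (G₂ t) w - fderiv ℝ v₁ (G₂ t) w ≤ ε * ‖w‖ := by
    have h4 := (fderiv ℝ v₁ (G₂ t) - fderiv ℝ v₂ (G₂ t)).le_opNorm w
    rw [Real.norm_eq_abs] at h4
    have h5 := mul_le_mul_of_nonneg_right (hd (G₂ t)) (norm_nonneg w)
    have h6 := (neg_abs_le ((fderiv ℝ v₁ (G₂ t) - fderiv ℝ v₂ (G₂ t)) w))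
    have h7 : (fderiv ℝ v₁ (G₂ t) - fderiv ℝ v₂ (G₂ t)) w
      = fderiv ℝ v₁ (G₂ t) w - fderiv ℝ v₂ (G₂ t) w := rfl
    rw [h7] at h4 h6
    linarith
  rcases (norm_nonneg w).eq_or_lt with h0 | h0
  · rw [← h0]
    have : 0 ≤ ε := (norm_nonneg _).trans (hd 0)
    positivity
  · rw [le_div_iff₀ hlo]
    have h8 : lo * ‖w‖ ^ 2 ≤ ε * ‖w‖ := by linarith
    have h9 : (‖w‖ * lo) * ‖w‖ ≤ ε * ‖w‖ := by nlinarith
    exact le_of_mul_le_mul_right h9 h0

/-- **continuity of `M`** uniformly in `t` -/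
theorem closeM (n : ℕ) (lam lo hi K ε : ℝ) (hlam : 0 < lam) (hlo : 0 < lo) (hε : 0 < ε) :
    ∃ δ : ℝ, 0 < δ ∧ ∀ (P₁ P₂ v₁ v₂ : E n → ℝ) (G₁ G₂ : E n → E n), Sl P₁ lam lo hi K v₁ →
      Sl P₂ lam lo hi K v₂ → IsInv v₁ G₁ → IsInv v₂ G₂ → (∀ x, |P₁ x - P₂ x| ≤ δ) →
      (∀ t, ‖G₁ t - G₂ t‖ ≤ ε) ∧ ∀ t i j, |Mi v₁ G₁ i j t - Mi v₂ G₂ i j t| ≤ ε := by
  -- choose the accuracy of the potentials
  set q : ℝ := 1 + 1 / lo + (n : ℝ) ^ 2 * (1 + n * |K| / lo) / lo ^ 2 with hq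
  have hq1 : 0 < q := by positivity
  obtain ⟨δ, hδ, H⟩ := close n lam lo hi K (ε / q) hlam hlo (by positivity)
  refine ⟨δ, hδ, fun P₁ P₂ v₁ v₂ G₁ G₂ h₁ h₂ hG₁ hG₂ hP => ?_⟩
  obtain ⟨-, hd, hH⟩ := H P₁ P₂ v₁ v₂ h₁ h₂ hP
  have hG : ∀ t, ‖G₁ t - G₂ t‖ ≤ (ε / q) / lo := fun t => closeG h₁.c2 hlo h₁.ell hd hG₁ hG₂ t
  have e0 : 0 ≤ ε / q := by positivity
  have t1 : 0 ≤ (n : ℝ) ^ 2 * (1 + n * |K| / lo) / lo ^ 2 := by positivity
  have t2 : 0 ≤ 1 / lo := by positivity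
  have hε1 : (ε / q) / lo ≤ ε := by
    have : (ε / q) / lo = (ε / q) * (1 / lo) := by ring
    rw [this]
    calc (ε / q) * (1 / lo) ≤ (ε / q) * q := mul_le_mul_of_nonneg_left (by rw [hq]; linarith) e0
      _ = ε := by field_simp
  refine ⟨fun t => (hG t).trans hε1, fun t i j => ?_⟩
  have h3 : ∀ k l, |gm v₁ (G₁ t) k l - gm v₂ (G₂ t) k l| ≤ (ε / q) * (1 + n * |K| / lo) := by
    intro k l
    have e1 : gm v₁ (G₁ t) k l - gm v₂ (G₂ t) k l
        = (Hs v₁ (G₁ t) k l - Hs v₁ (G₂ t) k l) + (Hs v₁ (G₂ t) k l - Hs v₂ (G₂ t) k l) := by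
      have a1 : gm v₁ (G₁ t) k l = (1 : Matrix (Fin n) (Fin n) ℝ) k l + Hs v₁ (G₁ t) k l := rfl
      have a2 : gm v₂ (G₂ t) k l = (1 : Matrix (Fin n) (Fin n) ℝ) k l + Hs v₂ (G₂ t) k l := rfl
      rw [a1, a2]; ring
    rw [e1]
    refine (abs_add_le _ _).trans ?_
    have h4 := h₁.hs_lip k l (G₁ t) (G₂ t)
    have h5 := hH (G₂ t) k l
    have h6 : n * |K| * ‖G₁ t - G₂ t‖ ≤ n * |K| * ((ε / q) / lo) :=
      mul_le_mul_of_nonneg_left (hG t) (by positivity)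
    have h7 : (ε / q) * (1 + n * |K| / lo) = n * |K| * ((ε / q) / lo) + ε / q := by ring
    rw [h7]
    linarith
  have h8 := (h₁.ell (G₁ t)).abs_inv_sub_le hlo (h₂.ell (G₂ t)) h3 i j
  refine h8.trans ?_
  calc (n : ℝ) ^ 2 * ((ε / q) * (1 + n * |K| / lo)) / lo ^ 2
      = (ε / q) * ((n : ℝ) ^ 2 * (1 + n * |K| / lo) / lo ^ 2) := by ring
    _ ≤ (ε / q) * q := mul_le_mul_of_nonneg_left (by rw [hq]; linarith) e0
    _ = ε := by field_simp

/-- the matrix `M(t)` -/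
noncomputable def MM (v : E n → ℝ) (G : E n → E n) (t : E n) : Matrix (Fin n) (Fin n) ℝ :=
  Matrix.of fun i j => Mi v G i j t


theorem ell_herm {A : Matrix (Fin n) (Fin n) ℝ} {lo hi : ℝ} (h : Ell lo hi A) :
    A.IsHermitian := by
  ext i j
  rw [Matrix.conjTranspose_apply, star_trivial]
  exact h.1 j i

theorem ell_spec {A : Matrix (Fin n) (Fin n) ℝ} {lo hi : ℝ} (h : Ell lo hi A) :
    spectrum ℝ A ⊆ Icc lo hi := by
  have hA := ell_herm h
  rw [hA.spectrum_real_eq_range_eigenvalues]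
  rintro _ ⟨i, rfl⟩
  set z : Fin n → ℝ := (hA.eigenvectorBasis i : Fin n → ℝ) with hz
  have h1 : A.mulVec z = hA.eigenvalues i • z := hA.mulVec_eigenvectorBasis i
  have h2 : ∑ k, ∑ l, A k l * z k * z l = hA.eigenvalues i * ∑ k, z k ^ 2 := by
    have h3 : ∀ k, ∑ l, A k l * z k * z l = z k * (A.mulVec z) k := by
      intro k
      rw [Matrix.mulVec, dotProduct, Finset.mul_sum]
      exact Finset.sum_congr rfl fun l _ => by ring
    simp only [h3, h1, Pi.smul_apply, smul_eq_mul, Finset.mul_sum]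
    exact Finset.sum_congr rfl fun k _ => by ring
  have h3 : ∑ j, z j ^ 2 = 1 := by
    have h4 : ‖hA.eigenvectorBasis i‖ = 1 := hA.eigenvectorBasis.orthonormal.1 i
    have h5 := EuclideanSpace.norm_sq_eq (hA.eigenvectorBasis i)
    rw [h4] at h5
    simp only [Real.norm_eq_abs, sq_abs] at h5
    rw [hz]
    linarith
  have h6 := h.2 z
  rw [h2, h3] at h6
  constructor <;> linarith [h6.1, h6.2]

theorem Sl.ellM (h : Sl P lam lo hi K v) (hlo : 0 < lo) (hlohi : lo ≤ hi) (G : E n → E n)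
    (t : E n) : Ell (1 / hi) (1 / lo) (MM v G t) := (h.ell (G t)).inv hlo hlohi

theorem Sl.cont_Mi (h : Sl P lam lo hi K v) (hlo : 0 < lo) {G : E n → E n}
    (hG : IsInv v G) (i j : Fin n) : Continuous (fun t => Mi v G i j t) := by
  have h2 : ∀ i j, HB (1 / 2) (1 + (2 * (|hi| + 1) + n * |K|)) (fun x => gm v x i j) := by
    intro i j
    have h3 : (fun x => gm v x i j)
        = fun x => (1 : Matrix (Fin n) (Fin n) ℝ) i j + Hs v x i j := rfl
    rw [h3]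
    refine HB.add (HB.const ?_) (h.hb hlo i j)
    rw [Matrix.one_apply]; split_ifs <;> simp
  have h4 := HB.matInv (a := 1 / 2) hlo h.ell h2 i j
  have h5 := (HB.continuous (by norm_num) h4).comp hG.sm.continuous
  exact h5

/-- continuity of `t ↦ f(M(t))ᵢⱼ` -/
theorem Sl.cont_cfc (h : Sl P lam lo hi K v) (hlo : 0 < lo) (hlohi : lo ≤ hi) {G : E n → E n}
    (hG : IsInv v G) {f : ℝ → ℝ} (hf : ContinuousOn f (Icc (1 / hi) (1 / lo))) (i j : Fin n) :
    Continuous (fun t => (cfc f (MM v G t)) i j) := by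
  rw [continuous_iff_continuousAt]
  intro t
  refine tendsto_cfc_entry isCompact_Icc hf (Eventually.of_forall fun s =>
    ⟨ell_herm (h.ellM hlo hlohi G s), ell_spec (h.ellM hlo hlohi G s)⟩)
    (ell_herm (h.ellM hlo hlohi G t)) (ell_spec (h.ellM hlo hlohi G t)) (fun k l => ?_) i j
  exact (h.cont_Mi hlo hG k l).tendsto t

/-- bound of `f(M(t))ᵢⱼ` -/
theorem Sl.cfc_bd (h : Sl P lam lo hi K v) (hlo : 0 < lo) (hlohi : lo ≤ hi) (G : E n → E n)
    {f : ℝ → ℝ} {C : ℝ} (hf : ∀ x ∈ Icc (1 / hi) (1 / lo), |f x| ≤ C) (t : E n) (i j : Fin n) :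
    |(cfc f (MM v G t)) i j| ≤ C :=
  abs_cfc_entry_le (ell_herm (h.ellM hlo hlohi G t)) (ell_spec (h.ellM hlo hlohi G t)) hf i j

/-- **continuity of `∫ f(M)ᵢⱼ dμ`** in the datum (any finite measure `μ`) -/
theorem tendsto_int_cfc {ι : Type*} {l : Filter ι} [l.IsCountablyGenerated] {μ : Measure (E n)}
    [IsFiniteMeasure μ] (hlam : 0 < lam) (hlo : 0 < lo) (hlohi : lo ≤ hi) {Pf : ι → E n → ℝ}
    {P₀ : E n → ℝ} {vf : ι → E n → ℝ} {v₀ : E n → ℝ} {Gf : ι → E n → E n} {G₀ : E n → E n}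
    (hS : ∀ᶠ A in l, Sl (Pf A) lam lo hi K (vf A)) (hS₀ : Sl P₀ lam lo hi K v₀)
    (hI : ∀ᶠ A in l, IsInv (vf A) (Gf A)) (hI₀ : IsInv v₀ G₀)
    (hP : ∀ ε : ℝ, 0 < ε → ∀ᶠ A in l, ∀ x, |Pf A x - P₀ x| ≤ ε) {f : ℝ → ℝ}
    (hf : ContinuousOn f (Icc (1 / hi) (1 / lo))) (i j : Fin n) :
    Tendsto (fun A => ∫ t, (cfc f (MM (vf A) (Gf A) t)) i j ∂μ) l
      (𝓝 (∫ t, (cfc f (MM v₀ G₀ t)) i j ∂μ)) := by
  obtain ⟨C, hC⟩ := isCompact_Icc.exists_bound_of_continuousOn hf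
  refine tendsto_integral_filter_of_dominated_convergence (fun _ => C) ?_ ?_
    (integrable_const C) (Eventually.of_forall fun t => ?_)
  · filter_upwards [hS, hI] with A h1 h2
    exact (h1.cont_cfc hlo hlohi h2 hf i j).aestronglyMeasurable
  · filter_upwards [hS] with A h1
    exact Eventually.of_forall fun t => by
      rw [Real.norm_eq_abs]
      exact h1.cfc_bd hlo hlohi (Gf A) (fun x hx => by
        have := hC x hx
        rwa [Real.norm_eq_abs] at this) t i j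
  · refine tendsto_cfc_entry isCompact_Icc hf ?_ (ell_herm (hS₀.ellM hlo hlohi G₀ t))
      (ell_spec (hS₀.ellM hlo hlohi G₀ t)) (fun k l' => ?_) i j
    · filter_upwards [hS] with A h1
      exact ⟨ell_herm (h1.ellM hlo hlohi (Gf A) t), ell_spec (h1.ellM hlo hlohi (Gf A) t)⟩
    · rw [Metric.tendsto_nhds]
      intro ε hε
      obtain ⟨δ, hδ, H⟩ := closeM n lam lo hi K (ε / 2) hlam hlo (by positivity)
      filter_upwards [hS, hI, hP δ hδ] with A h1 h2 h3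
      have h4 := (H (Pf A) P₀ (vf A) v₀ (Gf A) G₀ h1 hS₀ h2 hI₀ h3).2 t k l'
      rw [Real.dist_eq]
      refine lt_of_le_of_lt h4 (by linarith)

/-- the same for a family over a topological space: `A ↦ ∫ f(M_A)ᵢⱼ dμ` is continuous on `S` -/
theorem continuousOn_int_cfc {ι : Type*} [TopologicalSpace ι] [FirstCountableTopology ι]
    {μ : Measure (E n)} [IsFiniteMeasure μ] (hlam : 0 < lam) (hlo : 0 < lo) (hlohi : lo ≤ hi)
    {S : Set ι} {Pf : ι → E n → ℝ} {vf : ι → E n → ℝ} {Gf : ι → E n → E n}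
    (hS : ∀ A ∈ S, Sl (Pf A) lam lo hi K (vf A)) (hI : ∀ A ∈ S, IsInv (vf A) (Gf A))
    (hP : ∀ A₀ ∈ S, ∀ ε : ℝ, 0 < ε → ∀ᶠ A in 𝓝[S] A₀, ∀ x, |Pf A x - Pf A₀ x| ≤ ε) {f : ℝ → ℝ}
    (hf : ContinuousOn f (Icc (1 / hi) (1 / lo))) (i j : Fin n) :
    ContinuousOn (fun A => ∫ t, (cfc f (MM (vf A) (Gf A) t)) i j ∂μ) S := by
  intro A₀ hA₀
  have : (𝓝[S] A₀).IsCountablyGenerated := inferInstance
  exact tendsto_int_cfc hlam hlo hlohi
    (eventually_nhdsWithin_of_forall fun A hA => hS A hA) (hS A₀ hA₀)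
    (eventually_nhdsWithin_of_forall fun A hA => hI A hA) (hI A₀ hA₀) (hP A₀ hA₀) hf i j

end Crest.Agent.R253.NormCont666
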