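import Crest.Agent.R253.BrDefs_505
import Crest.Agent.R238.SchAll
import Crest.Agent.R238.SchInt
import Crest.Agent.R238.MaxPL
import Crest.Agent.R238.HBAlg
import Crest.Agent.R238.AprLin
import Crest.Agent.R238.EReg
import Crest.Agent.R238.RegNL

-- ▼ part R253/SchB_944
section

/-!
Row 253, T6, node B3 (helper944): Schauder a priori estimate for
`Lb lam b τ h = tr(τ D²h) - x·∇h - b·∇h - lam h`  (`schB : SchB`).
-/

set_option autoImplicit false

open Set Filter
open scoped ContDiff Topology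

namespace Crest.Agent.R253.Br

open Crest.Agent.R238

variable {n : ℕ}

/-- one-sided maximum principle for `Lb` -/
theorem Lb_one_side {lo hi lam M N B : ℝ} (hlo : 0 < lo) (hlam : 0 < lam)
    {τ : E n → Matrix (Fin n) (Fin n) ℝ} (hτ : ∀ x, Ell lo hi (τ x))
    {b : E n → Fin n → ℝ} (hb : ∀ x i, |b x i| ≤ M) {w : E n → ℝ} (hw : ContDiff ℝ 2 w)
    (hB : ∀ x, w x ≤ B) (hN : ∀ x, -N ≤ Lb lam b τ w x) (x0 : E n) : w x0 ≤ N / lam := by
  have hpos : ∀ x, (τ x).PosSemidef := fun x => (Apr.Ell.posDef (hτ x) hlo).posSemidef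
  have htr : ∀ x, (τ x).trace ≤ ∑ _i : Fin n, hi := by
    intro x
    rw [Matrix.trace]
    refine Finset.sum_le_sum fun i _ => ?_
    exact (le_abs_self _).trans (Apr.Ell.entry (hτ x) hlo.le i i)
  refine le_of_forall_pos_le_add fun δ hδ => ?_
  have hq : 0 < 1 + (1 + n * |M|) / lam := by positivity
  set ε : ℝ := δ / (1 + (1 + n * |M|) / lam) with hε
  have hε0 : 0 < ε := by positivity
  obtain ⟨x, hx1, hx2, hx3, -⟩ := MaxP.omori_yau_LA hpos htr hw hB x0 hε0
  have h1 : |∑ i, b x i * gr w x i| ≤ n * |M| * ε := by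
    refine (Finset.abs_sum_le_sum_abs _ _).trans ?_
    calc ∑ i : Fin n, |b x i * gr w x i| ≤ ∑ _i : Fin n, |M| * ε := by
          refine Finset.sum_le_sum fun i _ => ?_
          rw [abs_mul]
          refine mul_le_mul ((hb x i).trans (le_abs_self M)) ?_ (abs_nonneg _) (abs_nonneg _)
          have h2 := hx3 (ee i)
          have h3 : ‖(ee i : E n)‖ = 1 := by simp [ee]
          rw [h3, mul_one] at h2
          exact h2
      _ = n * |M| * ε := by simp; ring
  have h2 := hN x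
  unfold Lb at h2
  have h3 := abs_le.1 h1
  have h4 : lam * w x ≤ N + (1 + n * |M|) * ε := by nlinarith [h3.1, h3.2]
  have h5 : w x ≤ N / lam + (1 + n * |M|) / lam * ε := by
    have : w x = (lam * w x) / lam := by field_simp
    rw [this]
    calc lam * w x / lam ≤ (N + (1 + n * |M|) * ε) / lam :=
          div_le_div_of_nonneg_right h4 hlam.le
      _ = N / lam + (1 + n * |M|) / lam * ε := by ring
  have h6 : (1 + (1 + n * |M|) / lam) * ε = δ := by
    rw [hε]; field_simp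
  nlinarith

theorem Lb_neg944 (lam : ℝ) (b : E n → Fin n → ℝ) (τ : E n → Matrix (Fin n) (Fin n) ℝ)
    {h : E n → ℝ} (hh : ContDiff ℝ 2 h) (x : E n) :
    Lb lam b τ (fun x => -h x) x = -Lb lam b τ h x := by
  have h1 : LA τ (fun x => -h x) x = -LA τ h x := MaxP.LA_neg τ hh x
  have h2 : ∀ i, gr (fun x => -h x) x i = -gr h x i := by
    intro i
    unfold gr
    have : fderiv ℝ (fun x => -h x) x = -fderiv ℝ h x := fderiv_neg
    rw [this]; rfl
  unfold Lb
  rw [h1]
  simp only [h2, mul_neg, Finset.sum_neg_distrib]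
  ring

/-- sup bound for `Lb` -/
theorem Lb_sup {lo hi lam M N B : ℝ} (hlo : 0 < lo) (hlam : 0 < lam)
    {τ : E n → Matrix (Fin n) (Fin n) ℝ} (hτ : ∀ x, Ell lo hi (τ x))
    {b : E n → Fin n → ℝ} (hb : ∀ x i, |b x i| ≤ M) {h : E n → ℝ} (hh : ContDiff ℝ 2 h)
    (hB : ∀ x, |h x| ≤ B) (hN : ∀ x, |Lb lam b τ h x| ≤ N) (x : E n) : |h x| ≤ N / lam := by
  rw [abs_le]
  constructor
  · have h1 := Lb_one_side (w := fun x => -h x) (N := N) (B := B) hlo hlam hτ hb hh.neg
      (fun x => (neg_le_abs _).trans (hB x))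
      (fun x => by rw [Lb_neg944 lam b τ hh x]; linarith [le_abs_self (Lb lam b τ h x), hN x]) x
    linarith
  · exact Lb_one_side (w := h) (N := N) (B := B) hlo hlam hτ hb hh
      (fun x => (le_abs_self _).trans (hB x))
      (fun x => by linarith [neg_le_abs (Lb lam b τ h x), hN x]) x

/-- global interpolation -/
theorem interp_global (n : ℕ) (a ε : ℝ) (ha0 : 0 < a) (ha1 : a < 1) (hε : 0 < ε) :
    ∃ K : ℝ, 0 ≤ K ∧ ∀ h : E n → ℝ, ContDiff ℝ 2 h → ∀ B S : ℝ, 0 ≤ B →
      (∀ x i j, |Hs h x i j| ≤ B) → (∀ x, |h x| ≤ S) →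
      HB a (ε * B + K * S) h ∧ ∀ i, HB a (ε * B + K * S) (fun x => gr h x i) := by
  obtain ⟨t, δ, ht0, ht1, hδ, e1, e2⟩ := SchI.exists_scale a 1 ((n : ℝ) ^ 2) ε ha0 ha1
    zero_le_one (by positivity) hε
  have hA : 0 < t ^ (1 - a) := Real.rpow_pos_of_pos ht0 _
  have hD : 0 < t ^ (-a) := Real.rpow_pos_of_pos ht0 _
  set A : ℝ := t ^ (1 - a) with hAd
  set D : ℝ := t ^ (-a) with hDd
  set r : ℝ := min 1 (δ / ((n : ℝ) ^ 2 + 1)) with hr
  have hr0 : 0 < r := lt_min one_pos (by positivity)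
  have hr1 : r ≤ 1 := min_le_left _ _
  have hr2 : (n : ℝ) ^ 2 * r ≤ δ := by
    have h1 : r ≤ δ / ((n : ℝ) ^ 2 + 1) := min_le_right _ _
    have h2 : (0:ℝ) < (n : ℝ) ^ 2 + 1 := by positivity
    rw [le_div_iff₀ h2] at h1
    nlinarith
  have hK1 : 0 ≤ 2 / r := by positivity
  refine ⟨1 + 2 / r * (1 + A + 2 * D) + 2 * D, by positivity, fun h hh B S hB0 hB hS => ?_⟩
  have hS0 : 0 ≤ S := (abs_nonneg _).trans (hS 0)
  have hG : ∀ x, ‖fderiv ℝ h x‖ ≤ δ * B + 2 / r * S := by
    intro x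
    refine (SchI.grad_scale (ρ := ‖x‖) hh hB hB0 (fun x _ => hS x) hr0 hr1 le_rfl).trans ?_
    have h1 : (n : ℝ) ^ 2 * B * r ≤ δ * B := by
      calc (n : ℝ) ^ 2 * B * r = ((n : ℝ) ^ 2 * r) * B := by ring
        _ ≤ δ * B := mul_le_mul_of_nonneg_right hr2 hB0
    have h2 : 2 * S / r = 2 / r * S := by ring
    linarith
  have hei : ∀ i : Fin n, ‖(ee i : E n)‖ = 1 := fun i => by simp [ee]
  have q1 : δ ≤ ε / 2 := by nlinarith
  have q2 : δ * A ≤ ε / 2 := by nlinarith
  have q3 : 2 * δ * D ≤ ε / 2 := by nlinarith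
  have q4 : (n : ℝ) ^ 2 * A ≤ ε / 2 := by linarith
  have hKS : 0 ≤ 2 / r * S := by positivity
  constructor
  · refine SchI.hb_of_lip ha0 ha1 ht0 hS (L := δ * B + 2 / r * S) ?_ ?_ ?_
    · intro x y
      have hd : Differentiable ℝ h := hh.differentiable (by norm_num)
      have := convex_univ.norm_image_sub_le_of_norm_fderiv_le (fun z _ => hd z)
        (fun z _ => hG z) (Set.mem_univ y) (Set.mem_univ x)
      simpa [Real.norm_eq_abs] using this
    · have h1 : 0 ≤ ε * B := by positivity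
      have h2 : 0 ≤ (2 / r * (1 + A + 2 * D) + 2 * D) * S := by positivity
      nlinarith
    · rw [← hAd, ← hDd]
      have h1 : δ * A * B ≤ ε * B := by
        refine mul_le_mul_of_nonneg_right ?_ hB0
        linarith
      have h2 : 0 ≤ S * (1 + 2 / r * (1 + 2 * D)) := by positivity
      nlinarith
  · intro i
    refine SchI.hb_of_lip ha0 ha1 ht0 (S := δ * B + 2 / r * S) (L := (n : ℝ) ^ 2 * B) ?_ ?_ ?_ ?_
    · intro x
      have h1 := (fderiv ℝ h x).le_opNorm (ee i)
      rw [hei, mul_one, Real.norm_eq_abs] at h1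
      exact h1.trans (hG x)
    · intro x y
      have h1 := (fderiv ℝ h x - fderiv ℝ h y).le_opNorm (ee i)
      rw [hei, mul_one, Real.norm_eq_abs] at h1
      exact h1.trans (SchI.norm_fderiv_sub_le hh hB hB0 y x)
    · have h1 : δ * B ≤ ε * B := by
        refine mul_le_mul_of_nonneg_right ?_ hB0
        linarith
      have h2 : 0 ≤ S * (1 + 2 / r * (A + 2 * D) + 2 * D) := by positivity
      nlinarith
    · rw [← hAd, ← hDd]
      have h1 : ((n : ℝ) ^ 2 * A + 2 * δ * D) * B ≤ ε * B := by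
        refine mul_le_mul_of_nonneg_right ?_ hB0
        linarith
      have h2 : 0 ≤ S * (1 + 2 / r * (1 + A) + 2 * D) := by positivity
      nlinarith

/-- closedness of `HB` -/
theorem hb_lim {a K : ℝ} {u : ℕ → ℝ} {f : E n → ℝ} (hu : Tendsto u atTop (𝓝 K))
    (h : ∀ k, HB a (u k) f) : HB a K f := by
  refine ⟨fun x => ge_of_tendsto' hu fun k => (h k).1 x, fun x y => ?_⟩
  exact ge_of_tendsto' (hu.mul_const _) fun k => (h k).2 x y

/-- **B3** -/
theorem schB : SchB := by
  intro n a lo hi ha ha1 hlo hlohi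
  obtain ⟨ε₀, hε₀, H⟩ := Apr.schStmt_all n a lo hi ha ha1 hlo hlohi
  refine ⟨ε₀, hε₀, fun lam M R hlam hlam1 => ?_⟩
  obtain ⟨C, R', hC, HC⟩ := H M R
  set D : ℝ := 2 * n * |M| + 1 with hD
  have hD0 : 0 < D := by positivity
  set ε : ℝ := 1 / (2 * C * D) with hε
  have hε0 : 0 < ε := by positivity
  obtain ⟨K, hK, HK⟩ := interp_global n a ε ha ha1 hε0
  set K2 : ℝ := 2 * (C * (1 + (D * K + 1) / lam)) with hK2
  have hK20 : 0 < K2 := by positivity
  refine ⟨K2 + (ε * K2 + K / lam), by positivity, ?_⟩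
  intro τ b hell hτ hb hfar h N hcls hN
  obtain ⟨B0, hB0⟩ := hcls
  have hNN : 0 ≤ N := hN.nonneg
  have hB00 : 0 ≤ B0 := hB0.h0.nonneg
  have hS : ∀ x, |h x| ≤ N / lam :=
    Lb_sup hlo hlam hell (M := M) (fun x i => (hb i).1 x) hB0.c2 (fun x => hB0.h0.1 x)
      (fun x => hN.1 x)
  have hS0 : 0 ≤ N / lam := by positivity
  have step : ∀ B : ℝ, 0 ≤ B → (∀ i j, HB a B (fun x => Hs h x i j)) →
      ∀ i j, HB a (B / 2 + K2 / 2 * N) (fun x => Hs h x i j) := by
    intro B hB hBH i j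
    obtain ⟨k0, k1⟩ := HK h hB0.c2 B (N / lam) hB (fun x i j => (hBH i j).1 x) hS
    set G : ℝ := ε * B + K * (N / lam) with hG
    have hG0 : 0 ≤ G := k0.nonneg
    have g1 : HB a (n * (2 * |M| * G)) (fun x => ∑ i, b x i * gr h x i) :=
      HB.sum_univ fun i => ((hb i).mono (le_abs_self M)).mul (k1 i)
    have g2 : HB a (|lam| * G) (fun x => lam * h x) := k0.const_mul lam
    have g3 : HB a (N + n * (2 * |M| * G) + |lam| * G) (fun x => LA τ h x + 0 * h x) :=
      ((hN.add g1).add g2).congr fun x => by unfold Lb; ring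
    have g4 : HB a (N + D * G) (fun x => LA τ h x + 0 * h x) := by
      refine g3.mono ?_
      rw [abs_of_pos hlam, hD]
      nlinarith
    have g5 := HC τ hell hτ hfar 0 (Or.inl rfl) h (N + D * G) (N / lam) hB0.c2 ⟨B, hBH⟩ g4
      (fun x _ => hS x) i j
    refine g5.mono (le_of_eq ?_)
    rw [hG, hK2, hε]
    field_simp
    ring
  have iter : ∀ k : ℕ, ∀ i j, HB a (B0 / 2 ^ k + K2 * N) (fun x => Hs h x i j) := by
    intro k
    induction k with
    | zero =>
      intro i j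
      refine (hB0.h2 i j).mono ?_
      simp only [pow_zero, div_one]
      have : 0 ≤ K2 * N := by positivity
      linarith
    | succ k ih =>
      intro i j
      refine (step _ (by positivity) ih i j).mono (le_of_eq ?_)
      rw [pow_succ]
      field_simp
      ring
  have hlim : Tendsto (fun k : ℕ => B0 / 2 ^ k + K2 * N) atTop (𝓝 (K2 * N)) := by
    have h1 : Tendsto (fun k : ℕ => B0 * (1 / 2 : ℝ) ^ k) atTop (𝓝 (B0 * 0)) :=
      (tendsto_pow_atTop_nhds_zero_of_lt_one (by norm_num) (by norm_num)).const_mul B0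
    have h2 : (fun k : ℕ => B0 / 2 ^ k + K2 * N) = fun k : ℕ => B0 * (1 / 2 : ℝ) ^ k + K2 * N := by
      funext k
      rw [one_div, inv_pow]; rfl
    rw [h2]
    simpa using h1.add_const (K2 * N)
  have fin : ∀ i j, HB a (K2 * N) (fun x => Hs h x i j) := fun i j =>
    hb_lim hlim fun k => iter k i j
  obtain ⟨k0, k1⟩ := HK h hB0.c2 (K2 * N) (N / lam) (by positivity)
    (fun x i j => (fin i j).1 x) hS
  have e1 : ε * (K2 * N) + K * (N / lam) ≤ (K2 + (ε * K2 + K / lam)) * N := by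
    have : 0 ≤ K2 * N := by positivity
    have e : K * (N / lam) = K / lam * N := by ring
    rw [e]; nlinarith
  refine ⟨hB0.c2, k0.mono e1, fun i => (k1 i).mono e1, fun i j => (fin i j).mono ?_⟩
  have : 0 ≤ (ε * K2 + K / lam) * N := by positivity
  nlinarith

end Crest.Agent.R253.Br
end

-- ▼ part R253/RegB_342

/-!
Row 253, task T6, node B8 (helper342): regularity of a solution of `MAb` of class `ClsB`.

`MAb P lam s v` is row 238's `MAeq P' 1 v` with `P' = s P - |∇v|²/2 - (1 + lam) v`; the nonlinear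
first step (`NL.nonlin_DQ`) and the linear induction (`Boot.lin`) are used with this `P'`.
-/

set_option autoImplicit false
set_option maxHeartbeats 400000

open MeasureTheory Set Filter
open scoped ContDiff Topology

namespace Crest.Agent.R253.Br

open Crest.Agent.R238

variable {n : ℕ}

/-- the potential that turns `MAb` into row 238's `MAeq` -/
noncomputable def PmB (P v : E n → ℝ) (lam s : ℝ) : E n → ℝ :=
  fun y => s * P y - (∑ i, gr v y i ^ 2) / 2 - (1 + lam) * v y

theorem maeq_of_mab {P v : E n → ℝ} {lam s : ℝ} (h : MAb P lam s v) :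
    MAeq (PmB P v lam s) 1 v := by
  intro x
  have h1 := h x
  unfold PmB
  linear_combination h1


theorem differentiable_gr342 {v : E n → ℝ} (hv : ContDiff ℝ 2 v) (i : Fin n) :
    Differentiable ℝ (fun y => gr v y i) := by
  have : ContDiff ℝ ((1 : ℕ) + 1) v := by exact_mod_cast hv
  exact (Boot.contDiff_pd i this).differentiable (by norm_num)

theorem hasFDerivAt_PmB {P v : E n → ℝ} {lam s : ℝ} (hP : Differentiable ℝ P)
    (hv : ContDiff ℝ 2 v) (x : E n) :
    HasFDerivAt (PmB P v lam s) (s • fderiv ℝ P x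
      - ∑ i, gr v x i • fderiv ℝ (fun y => gr v y i) x - (1 + lam) • fderiv ℝ v x) x := by
  have h1 : HasFDerivAt (fun y => s * P y) (s • fderiv ℝ P x) x :=
    (hP x).hasFDerivAt.const_mul s
  have h2 : HasFDerivAt (fun y => ∑ i, (1 / 2) * gr v y i ^ 2)
      (∑ i, gr v x i • fderiv ℝ (fun y => gr v y i) x) x := by
    refine HasFDerivAt.fun_sum fun i _ => ?_
    have h3 := ((differentiable_gr342 hv i x).hasFDerivAt.pow 2).const_mul (1 / 2 : ℝ)
    refine h3.congr_fderiv ?_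
    ext z
    simp
    ring
  have h4 : HasFDerivAt (fun y => (1 + lam) * v y) ((1 + lam) • fderiv ℝ v x) x :=
    ((hv.differentiable (by norm_num)) x).hasFDerivAt.const_mul (1 + lam)
  have h5 := (h1.sub h2).sub h4
  refine h5.congr_of_eventuallyEq (Eventually.of_forall fun y => ?_)
  simp only [PmB, Pi.sub_apply, ← Finset.mul_sum]
  ring

theorem pd_PmB {P v : E n → ℝ} {lam s : ℝ} (hP : Differentiable ℝ P)
    (hv : ContDiff ℝ 2 v) (e : Fin n) (x : E n) :
    Boot.pd e (PmB P v lam s) x = s * fderiv ℝ P x (ee e)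
      - ∑ i, gr v x i * Hs v x e i - (1 + lam) * gr v x e := by
  have h1 : Boot.pd e (PmB P v lam s) x = fderiv ℝ (PmB P v lam s) x (ee e) := rfl
  rw [h1, (hasFDerivAt_PmB hP hv x).fderiv]
  have h2 : ∀ i, fderiv ℝ (fun y => gr v y i) x (ee e) = Hs v x e i := fun i =>
    Boot.pd_pd_eq hv e i x
  simp only [_root_.sub_apply, _root_.smul_apply, _root_.sum_apply, smul_eq_mul, h2]
  rfl

/-- `gr v` has one more derivative than `Hs v` -/
theorem ck_gr {a : ℝ} {k : ℕ} {v : E n → ℝ} (hv : ContDiff ℝ 2 v)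
    (h1 : ∀ i, ∃ M, HB a M (fun x => gr v x i)) (h2 : ∀ i j, CK a k (fun x => Hs v x i j))
    (i : Fin n) : CK a (k + 1) (fun x => gr v x i) := by
  refine ⟨h1 i, differentiable_gr342 hv i, fun e => ?_⟩
  exact (h2 e i).congr fun x => (Boot.pd_pd_eq hv e i x).symm

theorem ck_v_of {a M : ℝ} {k : ℕ} {v : E n → ℝ} (h : ClsB a M v)
    (h2 : ∀ i j, CK a k (fun x => Hs v x i j)) : CK a (k + 2) v := by
  refine ⟨⟨M, h.h0⟩, h.c2.differentiable (by norm_num), fun i => ?_⟩
  exact ck_gr h.c2 (fun i => ⟨M, h.h1 i⟩) h2 i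

theorem ck_pd_PmB {a M : ℝ} {k : ℕ} {P v : E n → ℝ} {lam s : ℝ} (ha : 0 < a) (ha1 : a < 1)
    (hP : Tst P) (h : ClsB a M v) (h2 : ∀ i j, CK a k (fun x => Hs v x i j)) (e : Fin n) :
    CK a k (Boot.pd e (PmB P v lam s)) := by
  have hPd : Differentiable ℝ P := hP.smooth.differentiable (by simp)
  have hg : ∀ i, CK a k (fun x => gr v x i) := fun i =>
    (ck_gr h.c2 (fun i => ⟨M, h.h1 i⟩) h2 i).pred
  have hPe : CK a k (fun x => fderiv ℝ P x (ee e)) :=
    (CK.of_tst (k := k + 1) ha.le ha1.le hP).der e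
  have h3 := ((hPe.const_mul s).sub (CK.sum Finset.univ
    (F := fun i x => gr v x i * Hs v x e i) fun i _ => (hg i).mul (h2 e i))).sub
    ((hg e).const_mul (1 + lam))
  exact h3.congr fun x => (pd_PmB hPd h.c2 e x).symm

/-- the gradient of `PmB` in `HB`, in all directions -/
theorem hb_fderiv_PmB {a M : ℝ} {P v : E n → ℝ} {lam s : ℝ} (ha : 0 < a) (ha1 : a < 1)
    (hP : Tst P) (h : ClsB a M v) :
    ∃ M1 : ℝ, ∀ z : E n, HB a (M1 * ‖z‖) (fun x => fderiv ℝ (PmB P v lam s) x z) := by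
  choose K hK using fun e => (ck_pd_PmB (k := 0) (lam := lam) (s := s) ha ha1 hP h
    (fun i j => ⟨M, h.h2 i j⟩) e)
  refine ⟨∑ i, |K i|, fun z => ?_⟩
  have e1 : (fun x => fderiv ℝ (PmB P v lam s) x z)
      = fun x => ∑ i, z i * Boot.pd i (PmB P v lam s) x := by
    funext x
    rw [Boot.fderiv_eq_sum_pd]
  rw [e1]
  have h2 : HB a (∑ i, |z i| * K i) (fun x => ∑ i, z i * Boot.pd i (PmB P v lam s) x) :=
    Boot.hb_sum Finset.univ (fun i _ => Boot.HB.const_mul (z i) (hK i))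
  refine Boot.HB.mono h2 ?_
  rw [Finset.sum_mul]
  refine Finset.sum_le_sum fun i _ => ?_
  have h3 := Boot.abs_coord_le z i
  calc |z i| * K i ≤ |z i| * |K i| :=
        mul_le_mul_of_nonneg_left (le_abs_self _) (abs_nonneg _)
    _ ≤ ‖z‖ * |K i| := mul_le_mul_of_nonneg_right h3 (abs_nonneg _)
    _ = |K i| * ‖z‖ := by ring

/-- the nonlinear first step -/
theorem first_step {a M lo hi : ℝ} {P v : E n → ℝ} {lam s : ℝ} (ha : 0 < a) (ha1 : a < 1)
    (hlo : 0 < lo) (hP : Tst P) (h : ClsB a M v) (hE : ∀ x, Ell lo hi (gm v x))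
    (hMA : MAb P lam s v) (hT : Boot.SchT a (tauf v)) (i j : Fin n) :
    CK a 1 (fun x => Hs v x i j) := by
  obtain ⟨M1, hM1⟩ := hb_fderiv_PmB (lam := lam) (s := s) ha ha1 hP h
  obtain ⟨C, R', hC⟩ := hT
  have hPd : Differentiable ℝ (PmB P v lam s) := fun x =>
    (hasFDerivAt_PmB (hP.smooth.differentiable (by simp)) h.c2 x).differentiableAt
  have hma := maeq_of_mab hMA
  have hDQ := NL.nonlin_DQ (P := PmB P v lam s) ha hlo h.c2 h.h2 hE hPd hM1
    (fun x => by
      have h1 := hma x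
      have h2 : Real.log (gM v x).det = Real.log (gm v x).det := rfl
      rw [h2]
      linear_combination h1)
    ⟨max C 1, max R' 0, lt_of_lt_of_le one_pos (le_max_right _ _), fun h N S h2 hB hL hS i j => by
      have hN : 0 ≤ N := Boot.HB.nonneg hL
      have hL' : HB a N (fun x => LA (tauf v) h x + 0 * h x) := by
        have e1 : (fun x => LA (tauf v) h x + 0 * h x) = fun x => LA (tauM v) h x := by
          funext x
          rw [zero_mul, add_zero]
          rfl
        rw [e1]; exact hL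
      have hS0 : 0 ≤ S := (abs_nonneg _).trans (hS 0 (by simp))
      have h5 := hC 0 (Or.inl rfl) h N S h2 hB hL'
        (fun x hx => hS x (hx.trans (le_max_left _ _))) i j
      exact Boot.HB.mono h5 (mul_le_mul_of_nonneg_right (le_max_left _ _) (add_nonneg hN hS0))⟩
  obtain ⟨-, N, hN⟩ := NL.C3_of_DQ ha h.c2 hDQ
  refine ⟨⟨M, h.h2 i j⟩, (hN i j).1.differentiable (by simp), fun k => ?_⟩
  exact ⟨_, (hN i j).2 (ee k)⟩

/-- all orders -/
theorem ck_all {a M lo hi : ℝ} {P v : E n → ℝ} {lam s : ℝ} (ha : 0 < a) (ha1 : a < 1)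
    (hlo : 0 < lo) (hP : Tst P) (h : ClsB a M v) (hE : ∀ x, Ell lo hi (gm v x))
    (hMA : MAb P lam s v) (hT : Boot.SchT a (tauf v)) (k : ℕ) :
    ∀ i j, CK a k (fun x => Hs v x i j) := by
  have h1 := first_step ha ha1 hlo hP h hE hMA hT
  have hv := h.c2
  have hma := maeq_of_mab hMA
  have hstep : Boot.StepStmt a (tauf v) := Boot.step0 ha ha1.le hT
    fun i j => EReg.ck_iff.2 (CK_tauf' h1 hlo hE i j)
  have hpd1 : ∀ e i x, Boot.pd i (Boot.pd e v) x = Hs v x i e := fun e i x =>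
    Boot.pd_pd_eq hv i e x
  have hv3 : ContDiff ℝ 3 v := by
    refine Boot.contDiff_three hv fun e => ?_
    have h2 : ContDiff ℝ ((1 : ℕ) + 1) (Boot.pd e v) := by
      refine Boot.contDiff_succ_of_pd ?_ fun i => ?_
      · have : ContDiff ℝ ((1 : ℕ) + 1) v := by exact_mod_cast hv
        exact (Boot.contDiff_pd e this).differentiable (by norm_num)
      · have e1 : Boot.pd i (Boot.pd e v) = fun x => Hs v x i e := by
          funext x; exact hpd1 e i x
        rw [e1]
        exact (h1 i e).contDiff ha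
    exact_mod_cast h2
  have hdet : ∀ x, 0 < (gm v x).det := fun x => (hE x).sm_det_pos hlo
  have hPd : Differentiable ℝ (PmB P v lam s) := fun x =>
    (hasFDerivAt_PmB (hP.smooth.differentiable (by simp)) h.c2 x).differentiableAt
  induction k with
  | zero => intro i j; exact (h1 i j).mono (Nat.zero_le _)
  | succ k ih =>
    intro i j
    have hfk : ∀ e, CK a k (Boot.pd e (fun y => -1 * PmB P v lam s y)) := by
      intro e
      have h3 := (ck_pd_PmB (lam := lam) (s := s) ha ha1 hP h ih e).const_mul (-1)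
      refine h3.congr fun x => ?_
      have h4 : HasFDerivAt (fun y => -1 * PmB P v lam s y)
          ((-1 : ℝ) • fderiv ℝ (PmB P v lam s) x) x := (hPd x).hasFDerivAt.const_mul (-1)
      show _ = fderiv ℝ (fun y => -1 * PmB P v lam s y) x (ee e)
      rw [h4.fderiv]
      rfl
    have hτ : ∀ i j, CK a k (fun x => tauf v x i j) := fun i j => CK_tauf' ih hlo hE i j
    refine ⟨(h1 i j).hb, (h1 i j).diff, fun e => ?_⟩
    have hp2 : ContDiff ℝ 2 (Boot.pd e v) := by
      have h3 : ContDiff ℝ ((2 : ℕ) + 1) v := by exact_mod_cast hv3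
      exact_mod_cast Boot.contDiff_pd e h3
    have hHe : ∀ i j, (fun x => Hs (Boot.pd e v) x i j)
        = fun x => fderiv ℝ (fun y => Hs v y i j) x (ee e) := by
      intro i j
      funext x
      exact (Boot.pd_Hs hv3 e i j x).symm
    have hHb : ∀ i j, ∃ M, HB a M (fun x => Hs (Boot.pd e v) x i j) := by
      intro i j
      rw [hHe]
      exact ((h1 i j).der e).hb
    have hG : ∃ G, ∀ x, ‖fderiv ℝ (Boot.pd e v) x‖ ≤ G := by
      choose M hM using fun i => (h1 i e).hb
      have hM0 : ∀ i, 0 ≤ M i := fun i => Boot.HB.nonneg (hM i)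
      refine ⟨n * ∑ i, M i, fun x => Boot.norm_fderiv_le (fun i => ?_)
        (Finset.sum_nonneg fun i _ => hM0 i)⟩
      rw [hpd1]
      exact ((hM i).1 x).trans (Finset.single_le_sum (fun j _ => hM0 j) (Finset.mem_univ i))
    have h5 := Boot.lin ha ha1.le hstep k (Boot.pd e (fun y => -1 * PmB P v lam s y))
      (Boot.pd e v) (fun i j => EReg.ck_iff.2 (hτ i j)) (EReg.ck_iff.2 (hfk e)) hp2 hHb hG
      (fun x => EReg.ma_diff hv3 hdet hPd hma e x) i j
    rw [hHe] at h5
    exact EReg.ck_iff.1 h5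

/-- **B8** -/
theorem regB : RegB := by
  intro n a lo hi ha ha1 hlo hlohi
  obtain ⟨ε₁, hε₁, H⟩ := EReg.schT_of Apr.schStmt_all n ha ha1 hlo hlohi
  refine ⟨ε₁, hε₁, fun M R P hP lam s v _ _ hcls hE hMA hext => ?_⟩
  have hT := H M R v hcls.h2 hE hext
  have hk : ∀ k, CK a k v := by
    intro k
    exact (ck_v_of hcls (ck_all ha ha1 hlo hP hcls hE hMA hT k)).mono (by omega)
  exact ⟨CK.contDiff_top ha hk, fun k => CK.iter_bdd ha (hk k)⟩

end Crest.Agent.R253.Br
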