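import Crest.Agent.R253.AprU_214
import Crest.Agent.R253.BndU_932_Mg
import Crest.Agent.R253.MaDiff_649_Mg
import Crest.Agent.R253.RegB_342_Mg
import Crest.Agent.R253.Bind_441
import Crest.Agent.R253.FrameS_321
import Crest.Agent.R253.ChVar_56
import Crest.Agent.R253.LimSeq_140
import Crest.Agent.R253.NormCont_666

-- ▼ part R253/ExiAll_505
section

/-!
Row 253 (S0391), task T6 (helper505): the complete existence statement `∀ n, ExiU n`
(from `BndU`), and the packed t-side data for a datum `P` with constants `PCB`.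
-/

set_option autoImplicit false

open Set Filter
open scoped ContDiff Topology

namespace Crest.Agent.R253.Br

open Crest.Agent.R238

/-- everything except the bounds `BndU` -/
theorem exiU_of_bndU (hB : BndU) : ∀ n, ExiU n :=
  exiU solB (stepB solB) (aprStmtU_of hB CalB.d3U schB) regB

/-- **T6, complete**: uniform existence of smooth solutions of the regularised equation -/
theorem exiU_all : ∀ n, ExiU n := exiU_of_bndU bndU

end Crest.Agent.R253.Br
end

-- ▼ part R253/FinDefs_505

/-!
Row 253 (S0391), helper505: FROZEN INTERFACE between the three parts of the proof.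

* `Dat G M N V lo hi` : the t-side data (74's `MA`, spectral bounds, `V'' ≥ 0`);
* `Nz M`              : the normalisation `E z(M) = 0`;
* `Mar M`             : the margin `∫ |ζ - Σ x_k T_k|² + |1 - Σ T_k²|²`, `ζ = z(M)`, `T_k = E ∂_k ζ`;
* `MainN n`           : MAIN (E-route): `∃ c > 0, c * Mar M ≤ DFun G M` for normalised data;
* `Good g`            : `g` is the density of `G` under the Gaussian for normalised data, and
                        log-concave;
* `ApproxN n`         : APPROXIMATION: every log-concave density satisfies `SB Good f`.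
-/

set_option autoImplicit false

open MeasureTheory ProbabilityTheory Real Set Filter Topology
open scoped ContDiff

noncomputable section

namespace Crest.Agent.R253.Fin505

open Crest.Agent.R238.Gap Crest.Agent.R238.GapPoinc Crest.Agent.R238.GapPc
open Crest.Agent.R253.Meh74
open Crest.Agent.R253.Frame321 (Zf)
open Crest.Agent.R253.SpecField321 (hs MF)
open Crest.Agent.R253.SpecCalc999 (Mat)
open Crest.Agent.R253.ChVar56 (Push Gp)
open Crest.Agent.R253.Lim140 Crest.Agent.R253.Cpt435
open Crest.Agent.R253.Dual441 Crest.Agent.R253.Br Crest.Agent.R253.NormCont666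

variable {n : ℕ}

/-- the t-side data -/
structure Dat (G : Fin n → E n → ℝ) (M N : Fld n) (V : E n → ℝ) (lo hi : ℝ) : Prop where
  lo_pos : 0 < lo
  lohi : lo ≤ hi
  ma : MA G M N V
  mf : MF M lo hi
  hV : ∀ y, (Matrix.of fun k l => pd l (pd k V) y).PosSemidef

/-- the normalisation `E z(M) = 0` -/
def Nz (M : Fld n) : Prop := ∀ i j, ∫ x, Zf M i j x ∂(gam n) = 0

/-- `T_k = E ∂_k ζ` -/
def Tk (M : Fld n) (k : Fin n) : Mat n := Matrix.of fun i j => ∫ x, pd k (Zf M i j) x ∂(gam n)

/-- the margin -/
def Mar (M : Fld n) : ℝ :=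
  (∫ x, hs (SpecField321.Mx (Zf M) x - ∑ k, x k • Tk M k) ∂(gam n)) +
    hs (1 - ∑ k, Tk M k * Tk M k)

/-- **MAIN** (E-route) -/
def MainN (n : ℕ) : Prop := ∃ c : ℝ, 0 < c ∧ ∀ (G : Fin n → E n → ℝ) (M N : Fld n)
  (V : E n → ℝ) (lo hi : ℝ), Dat G M N V lo hi → Nz M → c * Mar M ≤ DFun G M

/-- a density with normalised t-side data -/
def Good (g : (Fin n → ℝ) → ℝ) : Prop :=
  LCD g ∧ ∃ (G : Fin n → E n → ℝ) (M N : Fld n) (V : E n → ℝ) (lo hi : ℝ),
    Dat G M N V lo hi ∧ Nz M ∧ Push G M g

/-- **APPROXIMATION** (T6 + normalisation + limits) -/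
def ApproxN (n : ℕ) : Prop := ∀ f : (Fin n → ℝ) → ℝ, LCD f → SB Good f

/-! ### first consequences -/

theorem DD_eq {G : Fin n → E n → ℝ} {M : Fld n} {g : (Fin n → ℝ) → ℝ} (h : Push G M g) :
    DD g = DFun G M := h.D_eq

end Crest.Agent.R253.Fin505
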