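import Mathlib

/-! # Mills ratio library (row 253), helper37 -/

open MeasureTheory Set Filter Topology Real

namespace Crest.Agent.R253.Mills37

noncomputable section

/-- standard normal density -/
def ph (z : ℝ) : ℝ := (√(2 * π))⁻¹ * rexp (-(z ^ 2) / 2)

/-- upper tail -/
def Q (z : ℝ) : ℝ := ∫ t in Ioi z, ph t

lemma ph_pos (z : ℝ) : 0 < ph z := by
  unfold ph; positivity

lemma ph_cont : Continuous ph := by
  unfold ph; fun_prop

lemma ph_neg (z : ℝ) : ph (-z) = ph z := by
  unfold ph; simp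

lemma ph_hasDerivAt (z : ℝ) : HasDerivAt ph (-(z * ph z)) z := by
  unfold ph
  have h : HasDerivAt (fun z : ℝ => -(z ^ 2) / 2) (-z) z := by
    have := ((hasDerivAt_pow 2 z).neg).div_const 2
    refine this.congr_deriv ?_
    norm_num
    try ring
  have := (h.exp).const_mul (√(2 * π))⁻¹
  refine this.congr_deriv ?_
  ring

lemma ph_integrable : Integrable ph := by
  unfold ph
  have := (integrable_exp_neg_mul_sq (b := 1 / 2) (by norm_num)).const_mul (√(2 * π))⁻¹
  refine this.congr (Eventually.of_forall fun x => ?_)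
  simp only
  ring_nf

lemma integral_ph : ∫ t, ph t = 1 := by
  have h := integral_gaussian (1 / 2)
  have h2 : ∫ t, ph t = (√(2 * π))⁻¹ * ∫ x : ℝ, rexp (-(1 / 2) * x ^ 2) := by
    rw [← integral_const_mul]
    congr 1
    ext x
    unfold ph
    ring_nf
  rw [h2, h]
  rw [show π / (1 / 2) = 2 * π by ring]
  have : √(2 * π) ≠ 0 := by positivity
  field_simp

lemma Q_eq (a z : ℝ) : Q z = Q a - ∫ t in a..z, ph t := by
  unfold Q
  rcases le_total a z with h | h
  · have := intervalIntegral.integral_Iic_sub_Iic (μ := volume) (f := ph) (a := a) (b := z)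
      ph_integrable.integrableOn ph_integrable.integrableOn
    have h1 : ∫ t in Iic a, ph t = 1 - ∫ t in Ioi a, ph t := by
      have := integral_add_compl (μ := volume) (s := Iic a) measurableSet_Iic ph_integrable
      rw [compl_Iic, integral_ph] at this
      linarith
    have h2 : ∫ t in Iic z, ph t = 1 - ∫ t in Ioi z, ph t := by
      have := integral_add_compl (μ := volume) (s := Iic z) measurableSet_Iic ph_integrable
      rw [compl_Iic, integral_ph] at this
      linarith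
    linarith
  · have := intervalIntegral.integral_Iic_sub_Iic (μ := volume) (f := ph) (a := a) (b := z)
      ph_integrable.integrableOn ph_integrable.integrableOn
    have h1 : ∫ t in Iic a, ph t = 1 - ∫ t in Ioi a, ph t := by
      have := integral_add_compl (μ := volume) (s := Iic a) measurableSet_Iic ph_integrable
      rw [compl_Iic, integral_ph] at this
      linarith
    have h2 : ∫ t in Iic z, ph t = 1 - ∫ t in Ioi z, ph t := by
      have := integral_add_compl (μ := volume) (s := Iic z) measurableSet_Iic ph_integrable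
      rw [compl_Iic, integral_ph] at this
      linarith
    linarith

lemma Q_hasDerivAt (z : ℝ) : HasDerivAt Q (-ph z) z := by
  have h : HasDerivAt (fun z => Q 0 - ∫ t in (0:ℝ)..z, ph t) (0 - ph z) z := by
    refine (hasDerivAt_const _ _).sub ?_
    exact intervalIntegral.integral_hasDerivAt_right (ph_cont.intervalIntegrable _ _)
      (ph_cont.stronglyMeasurableAtFilter _ _) ph_cont.continuousAt
  have e : (fun z => Q 0 - ∫ t in (0:ℝ)..z, ph t) = Q := by
    ext z; exact (Q_eq 0 z).symm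
  rw [e] at h
  simpa using h

lemma Q_tendsto_top : Tendsto Q atTop (𝓝 0) := by
  have h : Tendsto (fun z => ∫ t in (0:ℝ)..z, ph t) atTop (𝓝 (∫ t in Ioi (0:ℝ), ph t)) :=
    intervalIntegral_tendsto_integral_Ioi 0 ph_integrable.integrableOn tendsto_id
  have e : Q = (fun z => Q 0 - ∫ t in (0:ℝ)..z, ph t) := by
    ext z; exact (Q_eq 0 z)
  rw [e]
  have := (tendsto_const_nhds (x := Q 0)).sub h
  simpa [Q] using this

/-- a function with negative derivative tending to `0` at `+∞` is positive -/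
lemma pos_of_deriv_neg {f f' : ℝ → ℝ} (hf : ∀ z, HasDerivAt f (f' z) z) (hn : ∀ z, f' z < 0)
    (h0 : Tendsto f atTop (𝓝 0)) (z : ℝ) : 0 < f z := by
  have hanti : StrictAnti f := strictAnti_of_hasDerivAt_neg hf hn
  have h1 : 0 ≤ f (z + 1) := by
    refine le_of_tendsto h0 ?_
    filter_upwards [eventually_ge_atTop (z + 1)] with x hx
    exact hanti.antitone hx
  have h2 : f (z + 1) < f z := hanti (by linarith)
  linarith

/-- a function with positive derivative tending to `0` at `-∞` is positive -/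
lemma pos_of_deriv_pos {f f' : ℝ → ℝ} (hf : ∀ z, HasDerivAt f (f' z) z) (hn : ∀ z, 0 < f' z)
    (h0 : Tendsto f atBot (𝓝 0)) (z : ℝ) : 0 < f z := by
  have hm : StrictMono f := strictMono_of_hasDerivAt_pos hf hn
  have h1 : 0 ≤ f (z - 1) := by
    refine le_of_tendsto h0 ?_
    filter_upwards [eventually_le_atBot (z - 1)] with x hx
    exact hm.monotone hx
  have h2 : f (z - 1) < f z := hm (by linarith)
  linarith

lemma Q_pos (z : ℝ) : 0 < Q z :=
  pos_of_deriv_neg Q_hasDerivAt (fun z => neg_neg_of_pos (ph_pos z)) Q_tendsto_top z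

lemma Q_anti : StrictAnti Q :=
  strictAnti_of_hasDerivAt_neg Q_hasDerivAt (fun z => neg_neg_of_pos (ph_pos z))

lemma Q_neg (z : ℝ) : Q (-z) = 1 - Q z := by
  have h1 : ∫ t in Iic z, ph t = 1 - ∫ t in Ioi z, ph t := by
    have := integral_add_compl (μ := volume) (s := Iic z) measurableSet_Iic ph_integrable
    rw [compl_Iic, integral_ph] at this
    linarith
  have h2 : ∫ t in Iic z, ph t = ∫ t in Ioi (-z), ph t := by
    have := integral_comp_neg_Iic (c := z) (f := ph)
    rw [← this]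
    congr 1
    ext x
    rw [ph_neg]
  unfold Q
  linarith

lemma Q_lt_one (z : ℝ) : Q z < 1 := by
  have := Q_pos (-z)
  rw [Q_neg] at this
  linarith

lemma Q_tendsto_bot : Tendsto Q atBot (𝓝 1) := by
  have h : Tendsto (fun z => 1 - Q (-z)) atBot (𝓝 (1 - 0)) :=
    tendsto_const_nhds.sub (Q_tendsto_top.comp tendsto_neg_atBot_atTop)
  simp only [sub_zero] at h
  refine h.congr fun z => ?_
  rw [Q_neg]; ring

/-- all polynomial multiples of the density vanish at infinity -/
lemma pow_mul_ph_tendsto (n : ℕ) : Tendsto (fun z : ℝ => z ^ n * ph z) atTop (𝓝 0) := by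
  have h1 : Tendsto (fun z : ℝ => z ^ n * rexp (-z)) atTop (𝓝 0) := by
    have := tendsto_pow_mul_exp_neg_atTop_nhds_zero n
    exact this
  have h2 : ∀ᶠ z : ℝ in atTop, z ^ n * ph z ≤ z ^ n * rexp (-z) := by
    filter_upwards [eventually_ge_atTop 2] with z hz
    have hz0 : 0 ≤ z ^ n := by positivity
    refine mul_le_mul_of_nonneg_left ?_ hz0
    unfold ph
    have a1 : (√(2 * π))⁻¹ ≤ 1 := by
      apply inv_le_one_of_one_le₀
      rw [Real.one_le_sqrt]
      nlinarith [Real.pi_gt_three]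
    have a2 : rexp (-(z ^ 2) / 2) ≤ rexp (-z) := by
      apply Real.exp_le_exp.mpr; nlinarith
    calc (√(2 * π))⁻¹ * rexp (-(z ^ 2) / 2) ≤ 1 * rexp (-(z ^ 2) / 2) :=
          mul_le_mul_of_nonneg_right a1 (Real.exp_pos _).le
      _ = rexp (-(z ^ 2) / 2) := one_mul _
      _ ≤ _ := a2
  have h3 : ∀ᶠ z : ℝ in atTop, 0 ≤ z ^ n * ph z := by
    filter_upwards [eventually_ge_atTop 0] with z hz
    have := ph_pos z
    positivity
  exact tendsto_of_tendsto_of_tendsto_of_le_of_le' tendsto_const_nhds h1 h3 h2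

/-- first moment `∫_z^∞ (t-z) φ` -/
def M1 (z : ℝ) : ℝ := ph z - z * Q z
def M2 (z : ℝ) : ℝ := Q z - z * M1 z
def M3 (z : ℝ) : ℝ := 2 * M1 z - z * M2 z

lemma Q_le_ph {z : ℝ} (hz : 1 ≤ z) : Q z ≤ ph z := by
  -- z Q <= ph for z >= 0 by comparing derivatives of ph - Q on [z, ∞)
  -- f = ph - Q has derivative ph (1 - z) ≤ 0 on [1,∞), f → 0
  have hf : ∀ x, HasDerivAt (fun x => ph x - Q x) (-(x * ph x) - (-ph x)) x := fun x =>
    (ph_hasDerivAt x).sub (Q_hasDerivAt x)
  have hanti : AntitoneOn (fun x => ph x - Q x) (Ici 1) := by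
    refine antitoneOn_of_deriv_nonpos (convex_Ici 1) ?_ ?_ ?_
    · exact fun x _ => (hf x).continuousAt.continuousWithinAt
    · exact fun x _ => (hf x).differentiableAt.differentiableWithinAt
    · intro x hx
      rw [(hf x).deriv]
      simp at hx
      have := ph_pos x
      nlinarith
  have hlim : Tendsto (fun x => ph x - Q x) atTop (𝓝 0) := by
    have := (pow_mul_ph_tendsto 0).sub Q_tendsto_top
    simpa using this
  have : 0 ≤ ph z - Q z := by
    refine le_of_tendsto hlim ?_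
    filter_upwards [eventually_ge_atTop z] with x hx
    exact hanti (mem_Ici.mpr hz) (mem_Ici.mpr (hz.trans hx)) hx
  linarith

lemma pow_mul_Q_tendsto (n : ℕ) : Tendsto (fun z : ℝ => z ^ n * Q z) atTop (𝓝 0) := by
  have h2 : ∀ᶠ z : ℝ in atTop, z ^ n * Q z ≤ z ^ n * ph z := by
    filter_upwards [eventually_ge_atTop 1] with z hz
    exact mul_le_mul_of_nonneg_left (Q_le_ph hz) (by positivity)
  have h3 : ∀ᶠ z : ℝ in atTop, 0 ≤ z ^ n * Q z := by
    filter_upwards [eventually_ge_atTop 0] with z hz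
    have := Q_pos z
    positivity
  exact tendsto_of_tendsto_of_tendsto_of_le_of_le' tendsto_const_nhds (pow_mul_ph_tendsto n) h3 h2

lemma M1_hasDerivAt (z : ℝ) : HasDerivAt M1 (-Q z) z := by
  have := (ph_hasDerivAt z).sub ((hasDerivAt_id z).mul (Q_hasDerivAt z))
  refine this.congr_deriv ?_
  simp
lemma M2_hasDerivAt (z : ℝ) : HasDerivAt M2 (-(2 * M1 z)) z := by
  have := (Q_hasDerivAt z).sub ((hasDerivAt_id z).mul (M1_hasDerivAt z))
  refine this.congr_deriv ?_
  simp [M1]; ring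
lemma M3_hasDerivAt (z : ℝ) : HasDerivAt M3 (-(3 * M2 z)) z := by
  have := ((M1_hasDerivAt z).const_mul 2).sub ((hasDerivAt_id z).mul (M2_hasDerivAt z))
  refine this.congr_deriv ?_
  simp [M2]; ring

lemma M1_tendsto : Tendsto M1 atTop (𝓝 0) := by
  have := (pow_mul_ph_tendsto 0).sub (pow_mul_Q_tendsto 1)
  simp only [sub_zero] at this
  refine this.congr fun z => ?_
  simp [M1]
lemma pow_mul_M1_tendsto (n : ℕ) : Tendsto (fun z : ℝ => z ^ n * M1 z) atTop (𝓝 0) := by
  have := (pow_mul_ph_tendsto n).sub (pow_mul_Q_tendsto (n + 1))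
  simp only [sub_zero] at this
  refine this.congr fun z => ?_
  simp [M1]; ring
lemma pow_mul_M2_tendsto (n : ℕ) : Tendsto (fun z : ℝ => z ^ n * M2 z) atTop (𝓝 0) := by
  have := (pow_mul_Q_tendsto n).sub (pow_mul_M1_tendsto (n + 1))
  simp only [sub_zero] at this
  refine this.congr fun z => ?_
  simp [M2]; ring
lemma pow_mul_M3_tendsto (n : ℕ) : Tendsto (fun z : ℝ => z ^ n * M3 z) atTop (𝓝 0) := by
  have := ((pow_mul_M1_tendsto n).const_mul 2).sub (pow_mul_M2_tendsto (n + 1))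
  simp only [sub_zero, mul_zero] at this
  refine this.congr fun z => ?_
  simp [M3]; ring

lemma M1_pos (z : ℝ) : 0 < M1 z :=
  pos_of_deriv_neg M1_hasDerivAt (fun z => by have := Q_pos z; linarith) M1_tendsto z
lemma M2_pos (z : ℝ) : 0 < M2 z :=
  pos_of_deriv_neg M2_hasDerivAt (fun z => by have := M1_pos z; linarith)
    (by simpa using pow_mul_M2_tendsto 0) z
lemma M3_pos (z : ℝ) : 0 < M3 z :=
  pos_of_deriv_neg M3_hasDerivAt (fun z => by have := M2_pos z; linarith)
    (by simpa using pow_mul_M3_tendsto 0) z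


/-- comparison lemma at `+∞`: `s' = c s - N`, `c ≥ 0`, `N > 0`, `s → 0` gives `s > 0`. -/
lemma pos_of_ode_top {s c N : ℝ → ℝ} {z0 : ℝ}
    (hs : ∀ z, z0 ≤ z → HasDerivAt s (c z * s z - N z) z)
    (hc : ∀ z, z0 ≤ z → 0 ≤ c z) (hN : ∀ z, z0 ≤ z → 0 < N z)
    (h0 : Tendsto s atTop (𝓝 0)) : ∀ z, z0 ≤ z → 0 < s z := by
  intro z1 hz1
  by_contra hneg
  have hneg : s z1 ≤ 0 := not_lt.mp hneg
  have key : ∀ a, z1 ≤ a → s a ≤ 0 → ∀ b, a ≤ b → s b ≤ s a := by
    intro a ha hsa b hb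
    have := image_le_of_deriv_right_lt_deriv_boundary (f := s) (f' := fun z => c z * s z - N z)
      (a := a) (b := b) (B := fun _ => s a) (B' := fun _ => 0)
      (fun x hx => (hs x (hz1.trans (ha.trans hx.1))).continuousAt.continuousWithinAt)
      (fun x hx => (hs x (hz1.trans (ha.trans hx.1))).hasDerivWithinAt)
      le_rfl (fun x => hasDerivAt_const x _)
      (fun x hx hxe => by
        have h1 := hc x (hz1.trans (ha.trans hx.1))
        have h2 := hN x (hz1.trans (ha.trans hx.1))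
        have : c x * s x ≤ 0 := mul_nonpos_of_nonneg_of_nonpos h1 (by rw [hxe]; exact hsa)
        show c x * s x - N x < 0
        linarith)
    exact this ⟨hb, le_rfl⟩
  -- there is a point where s < s z1
  obtain ⟨z2, hz2, hlt⟩ : ∃ z2, z1 ≤ z2 ∧ s z2 < s z1 := by
    by_contra hcon
    push Not at hcon
    have hconst : ∀ z, z1 ≤ z → s z = s z1 := fun z hz => le_antisymm (key z1 le_rfl hneg z hz) (hcon z hz)
    have hd := hs (z1 + 1) (by linarith)
    have hd0 : HasDerivAt s 0 (z1 + 1) := by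
      refine (hasDerivAt_const (z1 + 1) (s z1)).congr_of_eventuallyEq ?_
      filter_upwards [eventually_ge_nhds (show z1 < z1 + 1 by linarith)] with x hx
      exact hconst x hx
    have := hd.unique hd0
    have h1 := hc (z1 + 1) (by linarith)
    have h2 := hN (z1 + 1) (by linarith)
    have h3 : c (z1 + 1) * s (z1 + 1) ≤ 0 :=
      mul_nonpos_of_nonneg_of_nonpos h1 (by rw [hconst _ (by linarith)]; exact hneg)
    linarith
  have hlim : (0:ℝ) ≤ s z2 := by
    refine le_of_tendsto h0 ?_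
    filter_upwards [eventually_ge_atTop z2] with x hx
    exact key z2 hz2 (hlt.le.trans hneg) x hx
  linarith


/-- leftward propagation of positivity: `s' = c s - N`, `N > 0`, `s b ≥ 0` gives `s > 0` left of `b`. -/
lemma pos_left_of_ode {s c N : ℝ → ℝ} {b : ℝ}
    (hs : ∀ z, z ≤ b → HasDerivAt s (c z * s z - N z) z)
    (hN : ∀ z, z ≤ b → 0 < N z) (hb : 0 ≤ s b) : ∀ z, z < b → 0 < s z := by
  have hnn : ∀ z, z ≤ b → 0 ≤ s z := by
    intro z hz
    have hd : ∀ x, -b ≤ x → HasDerivAt (fun x => -s (-x)) (c (-x) * s (-x) - N (-x)) x := by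
      intro x hx
      have h1 := hs (-x) (by linarith)
      have h2 := (h1.comp x (hasDerivAt_neg x)).neg
      refine h2.congr_deriv ?_
      ring
    have := image_le_of_deriv_right_lt_deriv_boundary (f := fun x => -s (-x))
      (f' := fun x => c (-x) * s (-x) - N (-x)) (a := -b) (b := -z) (B := fun _ => 0)
      (B' := fun _ => 0)
      (fun x hx => (hd x hx.1).continuousAt.continuousWithinAt)
      (fun x hx => (hd x hx.1).hasDerivWithinAt)
      (by simpa using hb) (fun x => hasDerivAt_const x _)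
      (fun x hx hxe => by
        have h2 := hN (-x) (by linarith [hx.1])
        have h3 : s (-x) = 0 := by simpa using hxe
        show c (-x) * s (-x) - N (-x) < 0
        rw [h3]; linarith)
    have h4 := this (x := -z) ⟨by linarith, le_rfl⟩
    simpa using h4
  intro z hz
  rcases (hnn z hz.le).lt_or_eq with h | h
  · exact h
  · exfalso
    have h1 := hs z hz.le
    rw [← h] at h1
    have h2 := hN z hz.le
    have h3 : c z * 0 - N z < 0 := by linarith
    -- s has a strictly negative derivative at an interior minimum point (on the right side)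
    have hmin : ∀ᶠ x in 𝓝[>] z, 0 ≤ s x := by
      filter_upwards [Ioo_mem_nhdsGT hz] with x hx
      exact hnn x hx.2.le
    have h5 := h1.hasDerivWithinAt (s := Ioi z)
    rw [hasDerivWithinAt_iff_tendsto_slope' (by simp)] at h5
    have h6 : ∀ᶠ x in 𝓝[>] z, 0 ≤ slope s z x := by
      filter_upwards [hmin, self_mem_nhdsWithin] with x hx hxz
      rw [slope_def_field, ← h]
      have : 0 < x - z := by simpa using hxz
      apply div_nonneg _ this.le
      linarith
    have := ge_of_tendsto h5 h6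
    linarith

/-- rightward propagation of positivity: `s' = c s + N`, `N > 0`, `s a ≥ 0` gives `s > 0` right of `a`. -/
lemma pos_right_of_ode {s c N : ℝ → ℝ} {a : ℝ}
    (hs : ∀ z, a ≤ z → HasDerivAt s (c z * s z + N z) z)
    (hN : ∀ z, a ≤ z → 0 < N z) (ha : 0 ≤ s a) : ∀ z, a < z → 0 < s z := by
  have h := pos_left_of_ode (s := fun z => s (-z)) (c := fun z => -c (-z)) (N := fun z => N (-z))
    (b := -a)
    (fun z hz => by
      have h1 := hs (-z) (by linarith)
      have h2 := h1.comp z (hasDerivAt_neg z)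
      refine h2.congr_deriv ?_
      ring)
    (fun z hz => hN (-z) (by linarith)) (by simpa using ha)
  intro z hz
  have := h (-z) (by linarith)
  simpa using this

/-! ### the functions `mu, e, k, H0` -/

def mu (z : ℝ) : ℝ := ph z / Q z
def ee (z : ℝ) : ℝ := mu z - z
def kk (z : ℝ) : ℝ := -Real.log (Q z)
def H0 (z : ℝ) : ℝ := kk z / mu z
/-- `w = 1 - z e` -/
def ww (z : ℝ) : ℝ := 1 - z * ee z
/-- `1 - μ e` -/
def cc (z : ℝ) : ℝ := 1 - mu z * ee z

lemma mu_pos (z : ℝ) : 0 < mu z := div_pos (ph_pos z) (Q_pos z)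
lemma ee_eq (z : ℝ) : ee z = M1 z / Q z := by
  have := (Q_pos z).ne'
  unfold ee mu M1; field_simp
lemma ee_pos (z : ℝ) : 0 < ee z := by rw [ee_eq]; exact div_pos (M1_pos z) (Q_pos z)
lemma ww_eq (z : ℝ) : ww z = M2 z / Q z := by
  have := (Q_pos z).ne'
  unfold ww; rw [ee_eq]; unfold M2; field_simp
lemma ww_pos (z : ℝ) : 0 < ww z := by rw [ww_eq]; exact div_pos (M2_pos z) (Q_pos z)
lemma kk_pos (z : ℝ) : 0 < kk z := by
  unfold kk
  have := Real.log_neg (Q_pos z) (Q_lt_one z)
  linarith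
lemma H0_pos (z : ℝ) : 0 < H0 z := div_pos (kk_pos z) (mu_pos z)

lemma mu_hasDerivAt (z : ℝ) : HasDerivAt mu (mu z * ee z) z := by
  have hq := (Q_pos z).ne'
  have := (ph_hasDerivAt z).div (Q_hasDerivAt z) hq
  refine this.congr_deriv ?_
  unfold ee mu; field_simp; ring
lemma ee_hasDerivAt (z : ℝ) : HasDerivAt ee (mu z * ee z - 1) z :=
  (mu_hasDerivAt z).sub (hasDerivAt_id z)
lemma kk_hasDerivAt (z : ℝ) : HasDerivAt kk (mu z) z := by
  have hq := (Q_pos z).ne'
  have := ((Q_hasDerivAt z).log hq).neg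
  refine this.congr_deriv ?_
  unfold mu; field_simp
lemma H0_hasDerivAt (z : ℝ) : HasDerivAt H0 (1 - ee z * H0 z) z := by
  have hm := (mu_pos z).ne'
  have := (kk_hasDerivAt z).div (mu_hasDerivAt z) hm
  refine this.congr_deriv ?_
  unfold H0; field_simp

/-- `A = Q² (1 - μ e)` -/
def AA (z : ℝ) : ℝ := Q z ^ 2 - ph z * M1 z
lemma AA_hasDerivAt (z : ℝ) : HasDerivAt AA (-(ph z * M2 z)) z := by
  have := ((Q_hasDerivAt z).pow 2).sub ((ph_hasDerivAt z).mul (M1_hasDerivAt z))
  refine this.congr_deriv ?_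
  unfold M2; norm_num; ring
lemma AA_tendsto : Tendsto AA atTop (𝓝 0) := by
  have h1 := (Q_tendsto_top.pow 2).sub ((pow_mul_ph_tendsto 0).mul M1_tendsto)
  norm_num at h1
  exact h1
lemma AA_pos (z : ℝ) : 0 < AA z :=
  pos_of_deriv_neg AA_hasDerivAt
    (fun z => neg_neg_of_pos (mul_pos (ph_pos z) (M2_pos z))) AA_tendsto z
lemma cc_eq (z : ℝ) : cc z = AA z / Q z ^ 2 := by
  have := (Q_pos z).ne'
  unfold cc; rw [ee_eq]; unfold AA mu; field_simp
lemma cc_pos (z : ℝ) : 0 < cc z := by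
  rw [cc_eq]; exact div_pos (AA_pos z) (pow_pos (Q_pos z) 2)
lemma mu_ee_lt_one (z : ℝ) : mu z * ee z < 1 := by
  have := cc_pos z; unfold cc at this; linarith
lemma mu_ee_pos (z : ℝ) : 0 < mu z * ee z := mul_pos (mu_pos z) (ee_pos z)
/-- `w + μ e = 1 + e²` -/
lemma ww_add (z : ℝ) : ww z + mu z * ee z = 1 + ee z ^ 2 := by
  unfold ww ee; ring
lemma mu_eq (z : ℝ) : mu z = z + ee z := by unfold ee; ring


/-! ### behaviour at `-∞` and `H0' > 0` -/

lemma pow_mul_ph_tendsto_bot (n : ℕ) : Tendsto (fun z : ℝ => z ^ n * ph z) atBot (𝓝 0) := by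
  have h := ((pow_mul_ph_tendsto n).comp tendsto_neg_atBot_atTop).const_mul ((-1 : ℝ) ^ n)
  simp only [mul_zero] at h
  refine h.congr fun z => ?_
  simp only [Function.comp]
  rw [ph_neg, neg_pow z n]
  have : ((-1 : ℝ) ^ n) * ((-1 : ℝ) ^ n) = 1 := by rw [← mul_pow]; norm_num
  calc (-1 : ℝ) ^ n * ((-1) ^ n * z ^ n * ph z) = ((-1 : ℝ) ^ n * (-1) ^ n) * (z ^ n * ph z) := by ring
    _ = _ := by rw [this, one_mul]

lemma pow_mul_mu_tendsto_bot (n : ℕ) : Tendsto (fun z : ℝ => z ^ n * mu z) atBot (𝓝 0) := by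
  have h := (pow_mul_ph_tendsto_bot n).div Q_tendsto_bot one_ne_zero
  simp only [zero_div] at h
  refine h.congr fun z => ?_
  simp [mu]; ring

lemma mu_tendsto_bot : Tendsto mu atBot (𝓝 0) := by
  simpa using pow_mul_mu_tendsto_bot 0

lemma kk_le {z : ℝ} (hz : z ≤ 0) : kk z ≤ 2 * Q (-z) := by
  have h1 : Q z = 1 - Q (-z) := by have := Q_neg z; linarith
  have h2 : Q (-z) ≤ 1 / 2 := by
    have h0 : Q 0 = 1 / 2 := by have := Q_neg 0; simp at this; linarith
    have := Q_anti.antitone (show (0:ℝ) ≤ -z by linarith)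
    linarith
  have hq := Q_pos z
  have hqn := Q_pos (-z)
  have h3 : 1 - (Q z)⁻¹ ≤ Real.log (Q z) := Real.one_sub_inv_le_log_of_pos hq
  have h4 : (Q z)⁻¹ ≤ 1 + 2 * Q (-z) := by
    rw [h1, inv_le_comm₀ (by linarith) (by linarith)]
    have : (1 + 2 * Q (-z))⁻¹ = 1 / (1 + 2 * Q (-z)) := by rw [one_div]
    rw [this, div_le_iff₀ (by linarith)]
    nlinarith
  unfold kk; linarith

lemma pow_mul_Qneg_tendsto_bot (n : ℕ) : Tendsto (fun z : ℝ => z ^ n * Q (-z)) atBot (𝓝 0) := by
  have h := ((pow_mul_Q_tendsto n).comp tendsto_neg_atBot_atTop).const_mul ((-1 : ℝ) ^ n)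
  simp only [mul_zero] at h
  refine h.congr fun z => ?_
  simp only [Function.comp]
  rw [neg_pow z n]
  have : ((-1 : ℝ) ^ n) * ((-1 : ℝ) ^ n) = 1 := by rw [← mul_pow]; norm_num
  calc (-1 : ℝ) ^ n * ((-1) ^ n * z ^ n * Q (-z)) = ((-1 : ℝ) ^ n * (-1) ^ n) * (z ^ n * Q (-z)) := by
        ring
    _ = _ := by rw [this, one_mul]

lemma pow_mul_kk_tendsto_bot (n : ℕ) : Tendsto (fun z : ℝ => z ^ n * kk z) atBot (𝓝 0) := by
  have h := ((pow_mul_Qneg_tendsto_bot n).const_mul 2).abs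
  simp only [mul_zero, abs_zero] at h
  have h2 : ∀ᶠ z : ℝ in atBot, |z ^ n * kk z| ≤ |2 * (z ^ n * Q (-z))| := by
    filter_upwards [eventually_le_atBot 0] with z hz
    rw [abs_mul, show 2 * (z ^ n * Q (-z)) = z ^ n * (2 * Q (-z)) by ring, abs_mul]
    apply mul_le_mul_of_nonneg_left _ (abs_nonneg _)
    rw [abs_of_pos (kk_pos z), abs_of_pos (by have := Q_pos (-z); linarith)]
    exact kk_le hz
  have h3 := squeeze_zero' (Eventually.of_forall fun z => abs_nonneg _) h2 h
  exact (tendsto_zero_iff_abs_tendsto_zero _).mpr h3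

lemma kk_tendsto_bot : Tendsto kk atBot (𝓝 0) := by simpa using pow_mul_kk_tendsto_bot 0

/-- `F = μ - k e = μ H0'` -/
def FF (z : ℝ) : ℝ := mu z - kk z * ee z
lemma FF_hasDerivAt (z : ℝ) : HasDerivAt FF (kk z * cc z) z := by
  have := (mu_hasDerivAt z).sub ((kk_hasDerivAt z).mul (ee_hasDerivAt z))
  refine this.congr_deriv ?_
  unfold cc; ring
lemma FF_tendsto_bot : Tendsto FF atBot (𝓝 0) := by
  have h := (mu_tendsto_bot.sub (kk_tendsto_bot.mul mu_tendsto_bot)).add (pow_mul_kk_tendsto_bot 1)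
  norm_num at h
  refine h.congr fun z => ?_
  unfold FF ee; ring
lemma FF_pos (z : ℝ) : 0 < FF z :=
  pos_of_deriv_pos FF_hasDerivAt (fun z => mul_pos (kk_pos z) (cc_pos z)) FF_tendsto_bot z
lemma H0_deriv_eq (z : ℝ) : 1 - ee z * H0 z = FF z / mu z := by
  have := (mu_pos z).ne'
  unfold FF H0; field_simp
/-- `H0' > 0` -/
lemma H0_deriv_pos (z : ℝ) : 0 < 1 - ee z * H0 z := by
  rw [H0_deriv_eq]; exact div_pos (FF_pos z) (mu_pos z)
lemma H0_strictMono : StrictMono H0 := strictMono_of_hasDerivAt_pos H0_hasDerivAt H0_deriv_pos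

/-! ### bounds on `e` for `z > 0` -/

lemma ee_lt {z : ℝ} (hz : 0 < z) : ee z < 1 / z := by
  have := ww_pos z
  unfold ww at this
  rw [lt_div_iff₀ hz]; linarith
/-- from `M3 > 0`: `z < (2+z²) e` -/
lemma ee_gt (z : ℝ) : z < (2 + z ^ 2) * ee z := by
  have h := M3_pos z
  have hq := Q_pos z
  have : M3 z = ((2 + z ^ 2) * ee z - z) * Q z := by
    rw [ee_eq]; unfold M3 M2; field_simp; ring
  rw [this] at h
  have := (mul_pos_iff_of_pos_right hq).mp h
  linarith
def M4 (z : ℝ) : ℝ := 3 * M2 z - z * M3 z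
lemma M4_hasDerivAt (z : ℝ) : HasDerivAt M4 (-(4 * M3 z)) z := by
  have := ((M2_hasDerivAt z).const_mul 3).sub ((hasDerivAt_id z).mul (M3_hasDerivAt z))
  refine this.congr_deriv ?_
  simp [M3]; ring
lemma pow_mul_M4_tendsto (n : ℕ) : Tendsto (fun z : ℝ => z ^ n * M4 z) atTop (𝓝 0) := by
  have := ((pow_mul_M2_tendsto n).const_mul 3).sub (pow_mul_M3_tendsto (n + 1))
  simp only [sub_zero, mul_zero] at this
  refine this.congr fun z => ?_
  simp [M4]; ring
lemma M4_pos (z : ℝ) : 0 < M4 z :=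
  pos_of_deriv_neg M4_hasDerivAt (fun z => by have := M3_pos z; linarith)
    (by simpa using pow_mul_M4_tendsto 0) z
/-- from `M4 > 0`: `(z³+5z) e < 3 + z²` -/
lemma ee_lt2 (z : ℝ) : (z ^ 3 + 5 * z) * ee z < 3 + z ^ 2 := by
  have h := M4_pos z
  have hq := Q_pos z
  have : M4 z = (3 + z ^ 2 - (z ^ 3 + 5 * z) * ee z) * Q z := by
    rw [ee_eq]; unfold M4 M3 M2; field_simp; ring
  rw [this] at h
  have := (mul_pos_iff_of_pos_right hq).mp h
  linarith
def M5 (z : ℝ) : ℝ := 4 * M3 z - z * M4 z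
lemma M5_hasDerivAt (z : ℝ) : HasDerivAt M5 (-(5 * M4 z)) z := by
  have := ((M3_hasDerivAt z).const_mul 4).sub ((hasDerivAt_id z).mul (M4_hasDerivAt z))
  refine this.congr_deriv ?_
  simp [M4]; ring
lemma pow_mul_M5_tendsto (n : ℕ) : Tendsto (fun z : ℝ => z ^ n * M5 z) atTop (𝓝 0) := by
  have := ((pow_mul_M3_tendsto n).const_mul 4).sub (pow_mul_M4_tendsto (n + 1))
  simp only [sub_zero, mul_zero] at this
  refine this.congr fun z => ?_
  simp [M5]; ring
lemma M5_pos (z : ℝ) : 0 < M5 z :=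
  pos_of_deriv_neg M5_hasDerivAt (fun z => by have := M4_pos z; linarith)
    (by simpa using pow_mul_M5_tendsto 0) z
/-- from `M5 > 0`: `z³ + 7 z < (z⁴+9z²+8) e` -/
lemma ee_gt2 (z : ℝ) : z ^ 3 + 7 * z < (z ^ 4 + 9 * z ^ 2 + 8) * ee z := by
  have h := M5_pos z
  have hq := Q_pos z
  have : M5 z = ((z ^ 4 + 9 * z ^ 2 + 8) * ee z - (z ^ 3 + 7 * z)) * Q z := by
    rw [ee_eq]; unfold M5 M4 M3 M2; field_simp; ring
  rw [this] at h
  have := (mul_pos_iff_of_pos_right hq).mp h
  linarith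

lemma ee_tendsto_top : Tendsto ee atTop (𝓝 0) := by
  have h : Tendsto (fun z : ℝ => 1 / z) atTop (𝓝 0) := by
    simpa using tendsto_inv_atTop_zero (𝕜 := ℝ)
  refine squeeze_zero' (Eventually.of_forall fun z => (ee_pos z).le) ?_ h
  filter_upwards [eventually_gt_atTop 0] with z hz
  exact (ee_lt hz).le

lemma ww_lt {z : ℝ} (hz : 0 < z) : ww z * (2 + z ^ 2) < 2 := by
  have h := ee_gt z
  unfold ww
  nlinarith

/-! ### `H0'' > 0` -/

/-- `ε = μ w - 2 z e²` -/
def ep (z : ℝ) : ℝ := mu z * ww z - 2 * z * ee z ^ 2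

lemma ww_hasDerivAt (z : ℝ) : HasDerivAt ww (-(ee z) + z * cc z) z := by
  have := ((hasDerivAt_id z).mul (ee_hasDerivAt z)).const_sub 1
  refine this.congr_deriv ?_
  simp [cc]; ring

lemma ep_hasDerivAt {z : ℝ} (hz : 0 < z) : HasDerivAt ep
    ((2 * ee z + (4 + 5 * z ^ 2) / (3 * z)) * ep z
      - (z * (4 + 2 * z ^ 2) - ee z * (2 * z ^ 4 + 8 * z ^ 2 - 4)) / (3 * z)) z := by
  have := ((mu_hasDerivAt z).mul (ww_hasDerivAt z)).sub
    (((hasDerivAt_id z).const_mul 2).mul ((ee_hasDerivAt z).pow 2))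
  refine this.congr_deriv ?_
  simp only [id, ep, cc, ww, Pi.pow_apply]
  rw [mu_eq]
  field_simp
  norm_num
  ring

lemma ww_tendsto_top : Tendsto (fun z => z * ww z) atTop (𝓝 0) := by
  have h : Tendsto (fun z : ℝ => 2 / z) atTop (𝓝 0) := by
    have := (tendsto_inv_atTop_zero (𝕜 := ℝ)).const_mul 2
    simpa [div_eq_mul_inv] using this
  refine squeeze_zero' ?_ ?_ h
  · filter_upwards [eventually_gt_atTop 0] with z hz
    exact mul_nonneg hz.le (ww_pos z).le
  · filter_upwards [eventually_gt_atTop 0] with z hz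
    have h1 := ww_lt hz
    have h2 := ww_pos z
    rw [le_div_iff₀ hz]
    nlinarith

lemma ep_tendsto : Tendsto ep atTop (𝓝 0) := by
  have hw : Tendsto ww atTop (𝓝 0) := by
    have h : Tendsto (fun z : ℝ => (z⁻¹) * (z * ww z)) atTop (𝓝 (0 * 0)) :=
      tendsto_inv_atTop_zero.mul ww_tendsto_top
    rw [zero_mul] at h
    refine h.congr' ?_
    filter_upwards [eventually_gt_atTop 0] with z hz
    field_simp
  have hze : Tendsto (fun z => z * ee z) atTop (𝓝 1) := by
    have := hw.const_sub 1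
    simp only [sub_zero] at this
    refine this.congr fun z => ?_
    unfold ww; ring
  have h1 := (ww_tendsto_top.add (ee_tendsto_top.mul hw)).sub
    ((hze.mul ee_tendsto_top).const_mul 2)
  norm_num at h1
  refine h1.congr fun z => ?_
  unfold ep; rw [mu_eq]; ring

lemma ep_pos_of_pos {z : ℝ} (hz : 0 < z) : 0 < ep z := by
  refine pos_of_ode_top (z0 := z) (fun x hx => ep_hasDerivAt (hz.trans_le hx)) ?_ ?_ ep_tendsto z le_rfl
  · intro x hx
    have h0 : 0 < x := hz.trans_le hx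
    have := ee_pos x
    positivity
  · intro x hx
    have h0 : 0 < x := hz.trans_le hx
    apply div_pos _ (by positivity)
    have h1 := ee_lt2 x
    have h2 := ee_pos x
    by_cases h3 : 2 * x ^ 4 + 8 * x ^ 2 - 4 ≤ 0
    · have : ee x * (2 * x ^ 4 + 8 * x ^ 2 - 4) ≤ 0 := mul_nonpos_of_nonneg_of_nonpos h2.le h3
      have : 0 < x * (4 + 2 * x ^ 2) := by positivity
      linarith
    · have h3 : 0 < 2 * x ^ 4 + 8 * x ^ 2 - 4 := not_le.mp h3
      have h4 : 0 < x ^ 3 + 5 * x := by positivity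
      have h5 : ee x < (3 + x ^ 2) / (x ^ 3 + 5 * x) := by
        rw [lt_div_iff₀ h4]; linarith
      have h6 : ee x * (2 * x ^ 4 + 8 * x ^ 2 - 4) <
          (3 + x ^ 2) / (x ^ 3 + 5 * x) * (2 * x ^ 4 + 8 * x ^ 2 - 4) :=
        mul_lt_mul_of_pos_right h5 h3
      have h7 : (3 + x ^ 2) / (x ^ 3 + 5 * x) * (2 * x ^ 4 + 8 * x ^ 2 - 4) ≤
          x * (4 + 2 * x ^ 2) := by
        rw [div_mul_eq_mul_div, div_le_iff₀ h4]
        nlinarith [sq_nonneg x]
      linarith

lemma ep_pos (z : ℝ) : 0 < ep z := by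
  by_cases hz : 0 < z
  · exact ep_pos_of_pos hz
  · have hz : z ≤ 0 := not_lt.mp hz
    have h1 := mul_pos (mu_pos z) (ww_pos z)
    have h2 := sq_nonneg (ee z)
    unfold ep
    nlinarith [mul_nonneg (neg_nonneg.mpr hz) h2]

/-- `D = 2A + M2² - 2 M1²` -/
def DD (z : ℝ) : ℝ := 2 * AA z + M2 z ^ 2 - 2 * M1 z ^ 2
lemma DD_hasDerivAt (z : ℝ) : HasDerivAt DD (-(2 * Q z ^ 2 * ep z)) z := by
  have := (((AA_hasDerivAt z).const_mul 2).add ((M2_hasDerivAt z).pow 2)).sub
    (((M1_hasDerivAt z).pow 2).const_mul 2)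
  refine this.congr_deriv ?_
  have hq := (Q_pos z).ne'
  unfold ep mu
  rw [ww_eq, ee_eq]
  field_simp
  unfold M2
  norm_num
  ring
lemma M2_tendsto : Tendsto M2 atTop (𝓝 0) := by simpa using pow_mul_M2_tendsto 0
lemma DD_pos (z : ℝ) : 0 < DD z := by
  refine pos_of_deriv_neg DD_hasDerivAt (fun z => ?_) ?_ z
  · have := ep_pos z
    have := Q_pos z
    have : 0 < 2 * Q z ^ 2 * ep z := by positivity
    linarith
  · have := ((AA_tendsto.const_mul 2).add (M2_tendsto.pow 2)).sub ((M1_tendsto.pow 2).const_mul 2)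
    norm_num at this
    exact this

/-- `C = 2QA - φ M1 M2` -/
def CC (z : ℝ) : ℝ := 2 * Q z * AA z - ph z * M1 z * M2 z
lemma CC_hasDerivAt (z : ℝ) : HasDerivAt CC (-(ph z * DD z)) z := by
  have := ((((Q_hasDerivAt z).const_mul 2).mul (AA_hasDerivAt z))).sub
    (((ph_hasDerivAt z).mul (M1_hasDerivAt z)).mul (M2_hasDerivAt z))
  refine this.congr_deriv ?_
  unfold DD AA M2
  norm_num
  ring
lemma ph_tendsto_top : Tendsto ph atTop (𝓝 0) := by simpa using pow_mul_ph_tendsto 0
lemma CC_pos (z : ℝ) : 0 < CC z := by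
  refine pos_of_deriv_neg CC_hasDerivAt (fun z => ?_) ?_ z
  · have := mul_pos (ph_pos z) (DD_pos z)
    linarith
  · have := ((Q_tendsto_top.const_mul 2).mul AA_tendsto).sub
      ((ph_tendsto_top.mul M1_tendsto).mul M2_tendsto)
    norm_num at this
    exact this
/-- `2(1 - μe) > μ e (1 - z e)` -/
lemma two_cc_gt (z : ℝ) : mu z * ee z * ww z < 2 * cc z := by
  have h := CC_pos z
  have hq := Q_pos z
  have : CC z = (2 * cc z - mu z * ee z * ww z) * Q z ^ 3 := by
    rw [cc_eq, ww_eq, ee_eq]; unfold mu CC; field_simp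
  rw [this] at h
  have := (mul_pos_iff_of_pos_right (pow_pos hq 3)).mp h
  linarith

/-- `K = k - μ e / w` -/
def KK (z : ℝ) : ℝ := kk z - mu z * ee z / ww z
lemma KK_hasDerivAt (z : ℝ) : HasDerivAt KK
    (mu z / ww z ^ 2 * (2 * cc z - mu z * ee z * ww z)) z := by
  have hw := (ww_pos z).ne'
  have := (kk_hasDerivAt z).sub (((mu_hasDerivAt z).mul (ee_hasDerivAt z)).div (ww_hasDerivAt z) hw)
  refine this.congr_deriv ?_
  unfold cc
  simp only [Pi.mul_apply]
  field_simp
  have h := mu_eq z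
  unfold ww
  rw [h]; ring
lemma KK_tendsto : Tendsto KK atBot (𝓝 0) := by
  have h1 : Tendsto (fun z => mu z * ee z) atBot (𝓝 0) := by
    have := (mu_tendsto_bot.pow 2).sub (pow_mul_mu_tendsto_bot 1)
    norm_num at this
    refine this.congr fun z => ?_
    unfold ee; ring
  have h2 : Tendsto (fun z => mu z * ee z / ww z) atBot (𝓝 0) := by
    refine squeeze_zero' (Eventually.of_forall fun z => (div_pos (mu_ee_pos z) (ww_pos z)).le) ?_ h1
    filter_upwards [eventually_le_atBot 0] with z hz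
    have : 1 ≤ ww z := by
      unfold ww
      have := ee_pos z
      nlinarith
    exact div_le_self (mu_ee_pos z).le this
  have := kk_tendsto_bot.sub h2
  norm_num at this
  exact this
lemma KK_pos (z : ℝ) : 0 < KK z := by
  refine pos_of_deriv_pos KK_hasDerivAt (fun z => ?_) KK_tendsto z
  have h1 := mu_pos z
  have h2 := ww_pos z
  have h3 := two_cc_gt z
  have : 0 < 2 * cc z - mu z * ee z * ww z := by linarith
  positivity
/-- `H0'' = w H0 - e` -/
lemma H0_deriv_hasDerivAt (z : ℝ) :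
    HasDerivAt (fun z => 1 - ee z * H0 z) (ww z * H0 z - ee z) z := by
  have := ((ee_hasDerivAt z).mul (H0_hasDerivAt z)).const_sub 1
  refine this.congr_deriv ?_
  unfold ww
  rw [mu_eq]; ring
lemma H0_deriv2_pos (z : ℝ) : 0 < ww z * H0 z - ee z := by
  have h := KK_pos z
  have h1 := mu_pos z
  have h2 := ww_pos z
  have : ww z * H0 z - ee z = KK z * (ww z / mu z) := by
    unfold KK H0; field_simp
  rw [this]; positivity
lemma H0_deriv_strictMono : StrictMono (fun z => 1 - ee z * H0 z) :=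
  strictMono_of_hasDerivAt_pos H0_deriv_hasDerivAt H0_deriv2_pos

/-! ### Sampford: `g1 = (1 - μe)/(1 - ze) < 1/2` -/

/-- `s = 2e² + ze - 1 = w - 2(1-μe)`; it equals `μ''/μ`. -/
def ss (z : ℝ) : ℝ := 2 * ee z ^ 2 + z * ee z - 1
lemma ss_eq (z : ℝ) : ss z = ww z - 2 * cc z := by
  unfold ss ww cc; rw [mu_eq]; ring
lemma ss_hasDerivAt (z : ℝ) : HasDerivAt ss
    ((2 * ee z + 3 * z / 2) * ss z - ((2 + z ^ 2) * ee z - z) / 2) z := by
  have := ((((ee_hasDerivAt z).pow 2).const_mul 2).add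
    ((hasDerivAt_id z).mul (ee_hasDerivAt z))).sub_const 1
  refine this.congr_deriv ?_
  unfold ss
  simp only [id]
  rw [mu_eq]; norm_num; ring
lemma ss_tendsto : Tendsto ss atTop (𝓝 0) := by
  have hw : Tendsto ww atTop (𝓝 0) := by
    have h : Tendsto (fun z : ℝ => (z⁻¹) * (z * ww z)) atTop (𝓝 (0 * 0)) :=
      tendsto_inv_atTop_zero.mul ww_tendsto_top
    rw [zero_mul] at h
    refine h.congr' ?_
    filter_upwards [eventually_gt_atTop 0] with z hz
    field_simp
  have := ((ee_tendsto_top.pow 2).const_mul 2).sub hw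
  norm_num at this
  refine this.congr fun z => ?_
  unfold ss ww; ring
lemma ss_pos (z : ℝ) : 0 < ss z := by
  have hN : ∀ x, 0 < ((2 + x ^ 2) * ee x - x) / 2 := fun x => by
    have := ee_gt x
    linarith
  have hpos : ∀ z, 0 ≤ z → 0 < ss z := by
    intro z hz
    refine pos_of_ode_top (z0 := z) (fun x _ => ss_hasDerivAt x) ?_ (fun x _ => hN x)
      ss_tendsto z le_rfl
    intro x hx
    have h0 : 0 ≤ x := hz.trans hx
    have := ee_pos x
    positivity
  by_cases hz : 0 ≤ z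
  · exact hpos z hz
  · exact pos_left_of_ode (b := 0) (fun x _ => ss_hasDerivAt x) (fun x _ => hN x)
      (hpos 0 le_rfl).le z (not_le.mp hz)

/-- Sampford: `μ'' = μ s > 0`, i.e. `2(1 - μe) < 1 - ze`. -/
lemma two_cc_lt (z : ℝ) : 2 * cc z < ww z := by
  have := ss_pos z; rw [ss_eq] at this; linarith

/-- `g1 = ρ = (1-μe)/(1-ze)` -/
def gg (z : ℝ) : ℝ := cc z / ww z

lemma cc_hasDerivAt (z : ℝ) : HasDerivAt cc (-(mu z * ss z)) z := by
  have := ((mu_hasDerivAt z).mul (ee_hasDerivAt z)).const_sub 1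
  refine this.congr_deriv ?_
  unfold ss; rw [mu_eq]; ring

end

end Crest.Agent.R253.Mills37
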