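import Crest.Agent.R253.EqB_435
import Crest.Agent.R253.Mills_37
import Crest.Agent.R253.SpecCalc_999
import Crest.Agent.R253.MAI_74
import Crest.Agent.R253.EqA_435
import Crest.Agent.R253.Meh_74
import Crest.Agent.R253.ChVar_56
import Crest.Agent.R253.CptF_435
import Crest.Agent.R253.FinDefs_505
import Crest.Agent.R253.FrameT_321

-- ▼ part R253/EqC_435
section

/-!
# R253, equality case, part C (helper435): the tensor algebra

A symmetric 3-tensor with `(T,T)_ab = δ_ab` and tetrahedral contraction `≥ m` is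
`∑ ± u_a ⊗ u_a ⊗ u_a`.
-/

set_option autoImplicit false
open MeasureTheory Set Filter Topology Matrix Module.End
open Crest.GeometryTopology.Isotropic
open scoped ENNReal NNReal

namespace Crest.Agent.R253.Eq435

open Crest.Agent.R253.EqEasy505 Crest.Agent.R253.Cpt435

variable {m : ℕ}

/-- symmetric 3-tensors -/
structure Sym3 (T : Fin m → Fin m → Fin m → ℝ) : Prop where
  s12 : ∀ i j k, T i j k = T j i k
  s23 : ∀ i j k, T i j k = T i k j

/-- the pair contraction -/
def RR (T : Fin m → Fin m → Fin m → ℝ) (i j k l : Fin m) : ℝ := ∑ a, T a i j * T a k l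

/-- tetrahedral contraction -/
def tetra (T : Fin m → Fin m → Fin m → ℝ) : ℝ :=
  ∑ i, ∑ i', ∑ j, ∑ j', RR T i i' j j' * RR T i j i' j'

theorem sum_RR_sq {T : Fin m → Fin m → Fin m → ℝ}
    (h2 : ∀ a b, ∑ i, ∑ j, T a i j * T b i j = if a = b then 1 else 0) :
    ∑ i, ∑ i', ∑ j, ∑ j', RR T i i' j j' * RR T i i' j j' = (m : ℝ) := by
  have h1 : ∀ i i' j j', RR T i i' j j' * RR T i i' j j' =
      ∑ a, ∑ b, (T a i i' * T b i i') * (T a j j' * T b j j') := by
    intro i i' j j'
    unfold RR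
    rw [Finset.sum_mul_sum]
    refine Finset.sum_congr rfl fun a _ => Finset.sum_congr rfl fun b _ => ?_
    ring
  calc ∑ i, ∑ i', ∑ j, ∑ j', RR T i i' j j' * RR T i i' j j'
      = ∑ i, ∑ i', ∑ j, ∑ j', ∑ a, ∑ b, (T a i i' * T b i i') * (T a j j' * T b j j') := by
        simp only [h1]
    _ = ∑ a, ∑ b, ∑ i, ∑ i', ∑ j, ∑ j', (T a i i' * T b i i') * (T a j j' * T b j j') := by
        have e1 : ∀ (F : Fin m → Fin m → Fin m → Fin m → Fin m → Fin m → ℝ),
            ∑ i, ∑ i', ∑ j, ∑ j', ∑ a, ∑ b, F i i' j j' a b =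
            ∑ a, ∑ b, ∑ i, ∑ i', ∑ j, ∑ j', F i i' j j' a b := by
          intro F
          have s1 : ∀ i i' j, ∑ j', ∑ a, ∑ b, F i i' j j' a b = ∑ a, ∑ b, ∑ j', F i i' j j' a b := by
            intro i i' j
            rw [Finset.sum_comm]
            refine Finset.sum_congr rfl fun a _ => ?_
            rw [Finset.sum_comm]
          have s2 : ∀ i i', ∑ j, ∑ j', ∑ a, ∑ b, F i i' j j' a b =
              ∑ a, ∑ b, ∑ j, ∑ j', F i i' j j' a b := by
            intro i i'
            simp only [s1]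
            rw [Finset.sum_comm]
            refine Finset.sum_congr rfl fun a _ => ?_
            rw [Finset.sum_comm]
          have s3 : ∀ i, ∑ i', ∑ j, ∑ j', ∑ a, ∑ b, F i i' j j' a b =
              ∑ a, ∑ b, ∑ i', ∑ j, ∑ j', F i i' j j' a b := by
            intro i
            simp only [s2]
            rw [Finset.sum_comm]
            refine Finset.sum_congr rfl fun a _ => ?_
            rw [Finset.sum_comm]
          simp only [s3]
          rw [Finset.sum_comm]
          refine Finset.sum_congr rfl fun a _ => ?_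
          rw [Finset.sum_comm]
        exact e1 _
    _ = ∑ a : Fin m, ∑ b : Fin m, (if a = b then (1 : ℝ) else 0) * (if a = b then 1 else 0) := by
        refine Finset.sum_congr rfl fun a _ => Finset.sum_congr rfl fun b _ => ?_
        nth_rewrite 1 [← h2 a b]
        rw [← h2 a b, Finset.sum_mul]
        refine Finset.sum_congr rfl fun i _ => ?_
        rw [Finset.sum_mul]
        refine Finset.sum_congr rfl fun i' _ => ?_
        rw [Finset.mul_sum]
        refine Finset.sum_congr rfl fun j _ => ?_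
        rw [Finset.mul_sum]
    _ = (m : ℝ) := by simp

theorem RR_symm {T : Fin m → Fin m → Fin m → ℝ}
    (h2 : ∀ a b, ∑ i, ∑ j, T a i j * T b i j = if a = b then 1 else 0)
    (ht : (m : ℝ) ≤ tetra T) (i j k l : Fin m) : RR T i j k l = RR T i k j l := by
  have h1 : ∑ i, ∑ i', ∑ j, ∑ j', (RR T i i' j j' - RR T i j i' j') ^ 2 ≤ 0 := by
    have e1 : ∀ i i' j j', (RR T i i' j j' - RR T i j i' j') ^ 2 =
        RR T i i' j j' * RR T i i' j j' + RR T i j i' j' * RR T i j i' j' -
          2 * (RR T i i' j j' * RR T i j i' j') := by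
      intro i i' j j'; ring
    simp only [e1, Finset.sum_sub_distrib, Finset.sum_add_distrib, ← Finset.mul_sum]
    have e2 := sum_RR_sq h2
    have e3 : ∑ i, ∑ i', ∑ j, ∑ j', RR T i j i' j' * RR T i j i' j' = (m : ℝ) := by
      rw [← e2]
      refine Finset.sum_congr rfl fun i _ => ?_
      rw [Finset.sum_comm]
    have e4 : ∑ i, ∑ i', ∑ j, ∑ j', RR T i i' j j' * RR T i j i' j' = tetra T := rfl
    rw [e2, e3, e4]
    linarith
  have h3 : ∀ i i' j j', (RR T i i' j j' - RR T i j i' j') ^ 2 = 0 := by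
    intro i i' j j'
    have hnn : ∀ i i' j j', 0 ≤ (RR T i i' j j' - RR T i j i' j') ^ 2 := fun _ _ _ _ => sq_nonneg _
    apply le_antisymm _ (hnn i i' j j')
    refine le_trans ?_ h1
    calc (RR T i i' j j' - RR T i j i' j') ^ 2
        ≤ ∑ j', (RR T i i' j j' - RR T i j i' j') ^ 2 :=
          Finset.single_le_sum (f := fun j' => (RR T i i' j j' - RR T i j i' j') ^ 2)
            (fun _ _ => hnn _ _ _ _) (Finset.mem_univ j')
      _ ≤ ∑ j, ∑ j', (RR T i i' j j' - RR T i j i' j') ^ 2 :=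
          Finset.single_le_sum (f := fun j => ∑ j', (RR T i i' j j' - RR T i j i' j') ^ 2)
            (fun _ _ => Finset.sum_nonneg fun _ _ => hnn _ _ _ _) (Finset.mem_univ j)
      _ ≤ ∑ i', ∑ j, ∑ j', (RR T i i' j j' - RR T i j i' j') ^ 2 :=
          Finset.single_le_sum (f := fun i' => ∑ j, ∑ j', (RR T i i' j j' - RR T i j i' j') ^ 2)
            (fun _ _ => Finset.sum_nonneg fun _ _ => Finset.sum_nonneg fun _ _ => hnn _ _ _ _)
            (Finset.mem_univ i')
      _ ≤ ∑ i, ∑ i', ∑ j, ∑ j', (RR T i i' j j' - RR T i j i' j') ^ 2 :=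
          Finset.single_le_sum
            (f := fun i => ∑ i', ∑ j, ∑ j', (RR T i i' j j' - RR T i j i' j') ^ 2)
            (fun _ _ => Finset.sum_nonneg fun _ _ => Finset.sum_nonneg fun _ _ =>
              Finset.sum_nonneg fun _ _ => hnn _ _ _ _) (Finset.mem_univ i)
  have := h3 i j k l
  rw [sq_eq_zero_iff, sub_eq_zero] at this
  exact this

/-- the slices commute -/
theorem slices_commute {T : Fin m → Fin m → Fin m → ℝ} (hT : Sym3 T)
    (hR : ∀ i j k l, RR T i j k l = RR T i k j l) (p q : Fin m) :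
    (Matrix.of (T p)) * (Matrix.of (T q)) = (Matrix.of (T q)) * (Matrix.of (T p)) := by
  have hsw : ∀ i j k l, RR T i j k l = RR T j i k l := by
    intro i j k l
    unfold RR
    refine Finset.sum_congr rfl fun a _ => ?_
    rw [hT.s23 a i j]
  ext k l
  simp only [Matrix.mul_apply, Matrix.of_apply]
  have h1 : ∑ a, T p k a * T q a l = RR T p k q l := by
    unfold RR
    refine Finset.sum_congr rfl fun a _ => ?_
    rw [hT.s23 p k a, hT.s12 p a k, hT.s12 q a l]
  have h2 : ∑ a, T q k a * T p a l = RR T q k p l := by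
    unfold RR
    refine Finset.sum_congr rfl fun a _ => ?_
    rw [hT.s23 q k a, hT.s12 q a k, hT.s12 p a l]
  rw [h1, h2, hR p k q l, hsw p q k l, hR q p k l]

/-- joint diagonalisation of commuting symmetric matrices -/
theorem exists_joint (S : Fin m → Matrix (Fin m) (Fin m) ℝ) (hS : ∀ p, (S p).IsHermitian)
    (hC : ∀ p q, S p * S q = S q * S p) :
    ∃ (Q : Matrix (Fin m) (Fin m) ℝ) (χ : Fin m → Fin m → ℝ), Qᵀ * Q = 1 ∧ Q * Qᵀ = 1 ∧
      ∀ p i α, ∑ k, S p i k * Q k α = χ α p * Q i α := by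
  classical
  let L : Fin m → (EuclideanSpace ℝ (Fin m) →ₗ[ℝ] EuclideanSpace ℝ (Fin m)) :=
    fun p => Matrix.toEuclideanLin (S p)
  have hLs : ∀ p, (L p).IsSymmetric := fun p => isSymmetric_toEuclideanLin_iff.mpr (hS p)
  have hLc : Pairwise (Function.onFun Commute L) := by
    intro p q _
    change Commute (L p) (L q)
    have h1 : ∀ p q, L p * L q = Matrix.toEuclideanLin (S p * S q) := by
      intro p q
      ext x
      simp [L, Matrix.toEuclideanLin_apply]
    rw [Commute, SemiconjBy, h1, h1, hC]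
  have hort0 := LinearMap.IsSymmetric.orthogonalFamily_iInf_eigenspaces hLs
  have htop := LinearMap.IsSymmetric.iSup_iInf_eq_top_of_commute hLs hLc
  let V : (Fin m → ℝ) → Submodule ℝ (EuclideanSpace ℝ (Fin m)) :=
    fun γ => ⨅ j, eigenspace (L j) (γ j)
  have hfin : {γ | V γ ≠ ⊥}.Finite := WellFoundedGT.finite_ne_bot_of_iSupIndep hort0.independent
  have : Fintype {γ // V γ ≠ ⊥} := hfin.fintype
  let W : {γ // V γ ≠ ⊥} → Submodule ℝ (EuclideanSpace ℝ (Fin m)) := fun γ => V γ.1
  have hort : OrthogonalFamily ℝ (fun γ : {γ // V γ ≠ ⊥} => W γ) fun γ => (W γ).subtypeₗᵢ :=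
    hort0.comp Subtype.coe_injective
  have hint : DirectSum.IsInternal W := by
    rw [OrthogonalFamily.isInternal_iff hort]
    have h1 : ⨆ γ : {γ // V γ ≠ ⊥}, W γ = ⨆ γ, V γ := iSup_ne_bot_subtype V
    have h2 : iSup W = ⊤ := by rw [← htop]; exact h1
    rw [h2, Submodule.top_orthogonal_eq_bot]
  have hrank : Module.finrank ℝ (EuclideanSpace ℝ (Fin m)) = m := finrank_euclideanSpace_fin
  obtain ⟨b, χ, hb⟩ : ∃ (b : OrthonormalBasis (Fin m) ℝ (EuclideanSpace ℝ (Fin m)))
      (χ : Fin m → Fin m → ℝ), ∀ α p, L p (b α) = χ α p • b α := by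
    refine ⟨hint.subordinateOrthonormalBasis hrank hort,
      fun α => (hint.subordinateOrthonormalBasisIndex hrank α hort).1, ?_⟩
    intro α p
    have h1 := hint.subordinateOrthonormalBasis_subordinate hrank α hort
    have h2 := (Submodule.mem_iInf _).mp h1 p
    exact mem_eigenspace_iff.mp h2
  let Q : Matrix (Fin m) (Fin m) ℝ := Matrix.of fun i α => (b α) i
  have hQ : Qᵀ * Q = 1 := by
    ext α β
    have h1 := orthonormal_iff_ite.mp b.orthonormal α β
    rw [Matrix.mul_apply, Matrix.one_apply]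
    simp only [Q, transpose_apply, of_apply]
    rw [← h1, EuclideanSpace.inner_eq_star_dotProduct]
    simp only [dotProduct, star_trivial]
    refine Finset.sum_congr rfl fun i _ => ?_
    simp [mul_comm]
  refine ⟨Q, χ, hQ, ?_, ?_⟩
  · exact mul_eq_one_comm.mp hQ
  · intro p i α
    have h1 := hb α p
    have h2 := congrArg (fun v : EuclideanSpace ℝ (Fin m) => v i) h1
    simp only [L, Matrix.toEuclideanLin_apply] at h2
    simpa [Q, mulVec, dotProduct] using h2

/-- **structure of the equality tensors** -/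
theorem exists_frame {T : Fin m → Fin m → Fin m → ℝ} (hT : Sym3 T)
    (h2 : ∀ a b, ∑ i, ∑ j, T a i j * T b i j = if a = b then 1 else 0)
    (ht : (m : ℝ) ≤ tetra T) :
    ∃ U : Matrix (Fin m) (Fin m) ℝ, Uᵀ * U = 1 ∧ U * Uᵀ = 1 ∧
      ∀ α, ∑ i, ∑ j, ∑ k, U i α * U j α * U k α * T i j k = 1 := by
  have hR := RR_symm h2 ht
  have hS : ∀ p, (Matrix.of (T p)).IsHermitian := by
    intro p
    ext i j
    rw [conjTranspose_apply, star_trivial, of_apply, of_apply, hT.s23 p j i]
  obtain ⟨Q, χ, hQ1, hQ2, hev⟩ := exists_joint (fun p => Matrix.of (T p)) hS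
    (fun p q => slices_commute hT hR p q)
  simp only [of_apply] at hev
  have q1 : ∀ α β, ∑ i, Q i α * Q i β = if α = β then 1 else 0 := by
    intro α β
    have := congrFun (congrFun hQ1 α) β
    rw [Matrix.mul_apply, Matrix.one_apply] at this
    simpa using this
  have q2 : ∀ i j, ∑ α, Q i α * Q j α = if i = j then 1 else 0 := by
    intro i j
    have := congrFun (congrFun hQ2 i) j
    rw [Matrix.mul_apply, Matrix.one_apply] at this
    simpa using this
  -- spectral form of the slices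
  have hspec : ∀ p i k, T p i k = ∑ γ, χ γ p * Q i γ * Q k γ := by
    intro p i k
    have h1 : ∑ γ, (∑ l, T p i l * Q l γ) * Q k γ = T p i k := by
      simp only [Finset.sum_mul]
      rw [Finset.sum_comm]
      have : ∀ l, ∑ γ, T p i l * Q l γ * Q k γ = T p i l * (if l = k then 1 else 0) := by
        intro l
        rw [← q2 l k, Finset.mul_sum]
        refine Finset.sum_congr rfl fun γ _ => ?_
        ring
      simp only [this]
      simp
    rw [← h1]
    refine Finset.sum_congr rfl fun γ _ => ?_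
    rw [hev]
  -- orthogonality of χ γ to Q α, α ≠ γ
  set t : Fin m → ℝ := fun γ => ∑ i, Q i γ * χ γ i with htdef
  have htri : ∀ α β γ, ∑ i, ∑ j, ∑ k, Q i α * Q j β * Q k γ * T i j k =
      (∑ i, Q i α * χ γ i) * (if β = γ then 1 else 0) := by
    intro α β γ
    have h1 : ∀ i j, ∑ k, Q i α * Q j β * Q k γ * T i j k = Q i α * χ γ i * (Q j β * Q j γ) := by
      intro i j
      have := hev i j γ
      calc ∑ k, Q i α * Q j β * Q k γ * T i j k
          = Q i α * Q j β * ∑ k, T i j k * Q k γ := by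
            rw [Finset.mul_sum]
            refine Finset.sum_congr rfl fun k _ => ?_
            ring
        _ = _ := by rw [this]; ring
    simp only [h1, ← Finset.mul_sum]
    rw [q1 β γ, ← Finset.sum_mul]
  have horth : ∀ α γ, α ≠ γ → ∑ i, Q i α * χ γ i = 0 := by
    intro α γ hne
    have h1 := htri α γ γ
    have h3 := htri γ α γ
    rw [if_neg hne, mul_zero] at h3
    rw [if_pos rfl, mul_one] at h1
    rw [← h1, ← h3, Finset.sum_comm]
    refine Finset.sum_congr rfl fun j _ => Finset.sum_congr rfl fun i _ =>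
      Finset.sum_congr rfl fun k _ => ?_
    rw [hT.s12 i j k]; ring
  have hχ : ∀ γ i, χ γ i = t γ * Q i γ := by
    intro γ i
    have h1 : ∑ α, (∑ j, Q j α * χ γ j) * Q i α = χ γ i := by
      simp only [Finset.sum_mul]
      rw [Finset.sum_comm]
      have : ∀ j, ∑ α, Q j α * χ γ j * Q i α = χ γ j * (if j = i then 1 else 0) := by
        intro j
        rw [← q2 j i, Finset.mul_sum]
        refine Finset.sum_congr rfl fun α _ => ?_
        ring
      simp only [this]
      simp
    rw [← h1, Finset.sum_eq_single γ]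
    · intro α _ hα
      rw [horth α γ hα, zero_mul]
    · intro h; exact absurd (Finset.mem_univ γ) h
  have hχχ : ∀ p q, ∑ γ, χ γ p * χ γ q = if p = q then 1 else 0 := by
    intro p q
    rw [← h2 p q]
    have h1 : ∀ i j, T p i j * T q i j = ∑ γ, ∑ δ, (χ γ p * χ δ q) *
        ((Q i γ * Q i δ) * (Q j γ * Q j δ)) := by
      intro i j
      rw [hspec p i j, hspec q i j, Finset.sum_mul_sum]
      refine Finset.sum_congr rfl fun γ _ => Finset.sum_congr rfl fun δ _ => ?_
      ring
    simp only [h1]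
    have h3 : ∑ i, ∑ j, ∑ γ, ∑ δ, (χ γ p * χ δ q) * ((Q i γ * Q i δ) * (Q j γ * Q j δ)) =
        ∑ γ, ∑ δ, (χ γ p * χ δ q) * ((∑ i, Q i γ * Q i δ) * (∑ j, Q j γ * Q j δ)) := by
      have s1 : ∀ i, ∑ j, ∑ γ, ∑ δ, (χ γ p * χ δ q) * ((Q i γ * Q i δ) * (Q j γ * Q j δ)) =
          ∑ γ, ∑ δ, ∑ j, (χ γ p * χ δ q) * ((Q i γ * Q i δ) * (Q j γ * Q j δ)) := by
        intro i
        rw [Finset.sum_comm]
        refine Finset.sum_congr rfl fun γ _ => ?_
        rw [Finset.sum_comm]
      simp only [s1]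
      rw [Finset.sum_comm]
      refine Finset.sum_congr rfl fun γ _ => ?_
      rw [Finset.sum_comm]
      refine Finset.sum_congr rfl fun δ _ => ?_
      rw [Finset.sum_mul_sum, Finset.mul_sum]
      refine Finset.sum_congr rfl fun i _ => ?_
      rw [Finset.mul_sum]
    rw [h3]
    refine Finset.sum_congr rfl fun γ _ => ?_
    rw [Finset.sum_eq_single γ]
    · rw [q1 γ γ, if_pos rfl]; ring
    · intro δ _ hδ
      rw [q1 γ δ, if_neg (Ne.symm hδ)]; ring
    · intro h; exact absurd (Finset.mem_univ γ) h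
  have ht2 : ∀ α, t α ^ 2 = 1 := by
    intro α
    have h1 : ∑ p, ∑ q, Q p α * Q q α * (∑ γ, χ γ p * χ γ q) = 1 := by
      simp only [hχχ]
      simp only [mul_ite, mul_one, mul_zero, Finset.sum_ite_eq, Finset.mem_univ, if_true]
      simpa using q1 α α
    have h3 : ∑ p, ∑ q, Q p α * Q q α * (∑ γ, χ γ p * χ γ q) =
        ∑ γ, (t γ) ^ 2 * ((∑ p, Q p α * Q p γ) * (∑ q, Q q α * Q q γ)) := by
      have s1 : ∀ p q, Q p α * Q q α * (∑ γ, χ γ p * χ γ q) =
          ∑ γ, (t γ) ^ 2 * ((Q p α * Q p γ) * (Q q α * Q q γ)) := by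
        intro p q
        rw [Finset.mul_sum]
        refine Finset.sum_congr rfl fun γ _ => ?_
        rw [hχ γ p, hχ γ q]; ring
      simp only [s1]
      have s2 : ∀ p, ∑ q, ∑ γ, (t γ) ^ 2 * ((Q p α * Q p γ) * (Q q α * Q q γ)) =
          ∑ γ, ∑ q, (t γ) ^ 2 * ((Q p α * Q p γ) * (Q q α * Q q γ)) := fun p => Finset.sum_comm
      simp only [s2]
      rw [Finset.sum_comm]
      refine Finset.sum_congr rfl fun γ _ => ?_
      rw [Finset.sum_mul_sum, Finset.mul_sum]
      refine Finset.sum_congr rfl fun p _ => ?_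
      rw [Finset.mul_sum]
    rw [h3, Finset.sum_eq_single α] at h1
    · rw [q1 α α, if_pos rfl] at h1; linarith
    · intro γ _ hγ
      rw [q1 α γ, if_neg (Ne.symm hγ)]; ring
    · intro h; exact absurd (Finset.mem_univ α) h
  -- the frame with signs
  refine ⟨Matrix.of fun i α => t α * Q i α, ?_, ?_, ?_⟩
  · ext α β
    rw [Matrix.mul_apply, Matrix.one_apply]
    simp only [transpose_apply, of_apply]
    have : ∑ i, t α * Q i α * (t β * Q i β) = t α * t β * ∑ i, Q i α * Q i β := by
      rw [Finset.mul_sum]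
      refine Finset.sum_congr rfl fun i _ => ?_
      ring
    rw [this, q1 α β]
    by_cases h : α = β
    · subst h
      rw [if_pos rfl, mul_one, ← sq, ht2]
    · rw [if_neg h, mul_zero]
  · ext i j
    rw [Matrix.mul_apply, Matrix.one_apply]
    simp only [transpose_apply, of_apply]
    rw [← q2 i j]
    refine Finset.sum_congr rfl fun α _ => ?_
    have := ht2 α
    calc t α * Q i α * (t α * Q j α) = t α ^ 2 * (Q i α * Q j α) := by ring
      _ = _ := by rw [this, one_mul]
  · intro α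
    have h1 := htri α α α
    rw [if_pos rfl, mul_one] at h1
    simp only [of_apply]
    have h3 : ∑ i, ∑ j, ∑ k, t α * Q i α * (t α * Q j α) * (t α * Q k α) * T i j k =
        t α ^ 3 * ∑ i, ∑ j, ∑ k, Q i α * Q j α * Q k α * T i j k := by
      simp only [Finset.mul_sum]
      refine Finset.sum_congr rfl fun i _ => Finset.sum_congr rfl fun j _ =>
        Finset.sum_congr rfl fun k _ => ?_
      ring
    rw [h3, h1]
    have h4 := ht2 α
    change t α ^ 3 * t α = 1
    calc t α ^ 3 * t α = (t α ^ 2) ^ 2 := by ring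
      _ = 1 := by rw [h4]; norm_num




end Crest.Agent.R253.Eq435
end

-- ▼ part R253/EqT1_593
section

/-!
# R253, equality tail from the margin, part 1 (helper593)

Scalar Taylor bound of the hazard `mu`, Hilbert–Schmidt Lipschitz bound of `cfc`, the tensor algebra.
-/

set_option autoImplicit false
open MeasureTheory Set Filter Topology Matrix

noncomputable section

namespace Crest.Agent.R253.EqT593

open Crest.Agent.R253.Mills37 Crest.Agent.R253.SpecCalc999 Crest.Agent.R253.Eq435

variable {m : ℕ}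

/-! ### scalar part -/

/-- first derivative of `mu` -/
def mu1 (z : ℝ) : ℝ := mu z * ee z
/-- second derivative of `mu` -/
def mu2 (z : ℝ) : ℝ := mu z * ss z
/-- third derivative of `mu` -/
def mu3 (z : ℝ) : ℝ := mu z * ee z * ss z + mu z * (4 * ee z * (mu z * ee z - 1) + (ee z + z * (mu z * ee z - 1)))

lemma mu_d1 (z : ℝ) : HasDerivAt mu (mu1 z) z := mu_hasDerivAt z

lemma mu_d2 (z : ℝ) : HasDerivAt mu1 (mu2 z) z := by
  have h := (mu_hasDerivAt z).mul (ee_hasDerivAt z)
  refine h.congr_deriv ?_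
  unfold mu2 ss
  have e := mu_eq z
  nth_rewrite 3 [e]
  ring

lemma ss_d (z : ℝ) : HasDerivAt ss (4 * ee z * (mu z * ee z - 1) + (ee z + z * (mu z * ee z - 1))) z := by
  have he := ee_hasDerivAt z
  have h := (((he.pow 2).const_mul 2).add ((hasDerivAt_id z).mul he)).sub_const 1
  refine (h.congr_deriv ?_).congr_of_eventuallyEq (Eventually.of_forall fun x => ?_)
  · simp; ring
  · simp [ss]

lemma mu_d3 (z : ℝ) : HasDerivAt mu2 (mu3 z) z := (mu_hasDerivAt z).mul (ss_d z)

lemma mu1_pos (z : ℝ) : 0 < mu1 z := mu_ee_pos z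
lemma mu2_pos (z : ℝ) : 0 < mu2 z := mul_pos (mu_pos z) (ss_pos z)

lemma cont_mu : Continuous mu := continuous_iff_continuousAt.mpr fun z => (mu_hasDerivAt z).continuousAt
lemma cont_ee : Continuous ee := continuous_iff_continuousAt.mpr fun z => (ee_hasDerivAt z).continuousAt
lemma cont_ss : Continuous ss := continuous_iff_continuousAt.mpr fun z => (ss_d z).continuousAt
lemma cont_mu3 : Continuous mu3 := by
  unfold mu3
  have h1 := cont_mu; have h2 := cont_ee; have h3 := cont_ss
  fun_prop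

/-- `mu` is `1`-Lipschitz -/
lemma mu_lip (x y : ℝ) : |mu x - mu y| ≤ 1 * |x - y| := by
  have h := Convex.norm_image_sub_le_of_norm_hasDerivWithin_le (f := mu) (f' := mu1) (C := 1)
    (s := Set.univ) (x := y) (y := x) (fun z _ => (mu_d1 z).hasDerivWithinAt)
    (fun z _ => by
      rw [Real.norm_eq_abs, abs_of_pos (mu1_pos z)]
      exact (mu_ee_lt_one z).le) convex_univ (mem_univ _) (mem_univ _)
  simpa [Real.norm_eq_abs] using h

/-- the Taylor remainder of `mu` at `0` -/
def rr (z : ℝ) : ℝ := mu z - (mu 0 + mu1 0 * z + mu2 0 / 2 * z ^ 2)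

lemma rr_bound : ∃ K : ℝ, 0 ≤ K ∧ ∀ z, |rr z| ≤ K * |z| ^ 3 := by
  obtain ⟨K1, hK1⟩ : ∃ K1 : ℝ, ∀ z ∈ Icc (-1 : ℝ) 1, |mu3 z| ≤ K1 := by
    obtain ⟨C, hC⟩ := isCompact_Icc.exists_bound_of_continuousOn (cont_mu3.continuousOn (s := Icc (-1 : ℝ) 1))
    exact ⟨C, fun z hz => by simpa using hC z hz⟩
  have hK10 : 0 ≤ K1 := (abs_nonneg _).trans (hK1 0 (by constructor <;> norm_num))
  refine ⟨K1 + (1 + mu1 0 + mu2 0 / 2), by
    have := mu1_pos 0; have := mu2_pos 0; positivity, fun z => ?_⟩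
  have hm1 := mu1_pos 0
  have hm2 := mu2_pos 0
  rcases le_total |z| 1 with hz | hz
  · -- local
    have hball : ∀ y : ℝ, |y| ≤ |z| → y ∈ Icc (-1 : ℝ) 1 := fun y hy => by
      have := hy.trans hz
      exact abs_le.mp this
    have hconv : Convex ℝ {y : ℝ | |y| ≤ |z|} := by
      have : {y : ℝ | |y| ≤ |z|} = Icc (-|z|) |z| := by ext y; simp [abs_le]
      rw [this]; exact convex_Icc _ _
    have h0 : (0 : ℝ) ∈ {y : ℝ | |y| ≤ |z|} := by simp
    -- second derivative
    have g2 : ∀ y, |y| ≤ |z| → |mu2 y - mu2 0| ≤ K1 * |z| := by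
      intro y hy
      have h := Convex.norm_image_sub_le_of_norm_hasDerivWithin_le (f := mu2) (f' := mu3) (C := K1)
        (s := {y : ℝ | |y| ≤ |z|}) (x := 0) (y := y) (fun w _ => (mu_d3 w).hasDerivWithinAt)
        (fun w hw => by rw [Real.norm_eq_abs]; exact hK1 w (hball w hw)) hconv h0 hy
      simp only [Real.norm_eq_abs, sub_zero] at h
      exact h.trans (mul_le_mul_of_nonneg_left hy hK10)
    have g1 : ∀ y, |y| ≤ |z| → |mu1 y - (mu1 0 + mu2 0 * y)| ≤ K1 * |z| ^ 2 := by
      intro y hy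
      have h := Convex.norm_image_sub_le_of_norm_hasDerivWithin_le
        (f := fun y => mu1 y - (mu1 0 + mu2 0 * y)) (f' := fun y => mu2 y - mu2 0) (C := K1 * |z|)
        (s := {y : ℝ | |y| ≤ |z|}) (x := 0) (y := y)
        (fun w _ => by
          have h1 := (mu_d2 w).sub (((hasDerivAt_id w).const_mul (mu2 0)).const_add (mu1 0))
          have h2 : HasDerivAt (fun y => mu1 y - (mu1 0 + mu2 0 * y)) (mu2 w - mu2 0) w := by
            refine (h1.congr_deriv ?_).congr_of_eventuallyEq (Eventually.of_forall fun x => ?_)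
            · simp
            · simp
          exact h2.hasDerivWithinAt)
        (fun w hw => by rw [Real.norm_eq_abs]; exact g2 w hw) hconv h0 hy
      simp only [Real.norm_eq_abs, sub_zero, mul_zero, add_zero, sub_self] at h
      refine h.trans ?_
      have := mul_le_mul_of_nonneg_left hy (mul_nonneg hK10 (abs_nonneg z))
      calc K1 * |z| * |y| ≤ K1 * |z| * |z| := this
        _ = K1 * |z| ^ 2 := by ring
    have h := Convex.norm_image_sub_le_of_norm_hasDerivWithin_le
        (f := rr) (f' := fun y => mu1 y - (mu1 0 + mu2 0 * y)) (C := K1 * |z| ^ 2)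
        (s := {y : ℝ | |y| ≤ |z|}) (x := 0) (y := z)
        (fun w _ => by
          have h1 := (mu_d1 w).sub ((((hasDerivAt_id w).const_mul (mu1 0)).const_add (mu 0)).add
            ((((hasDerivAt_id w).pow 2)).const_mul (mu2 0 / 2)))
          have h2 : HasDerivAt rr (mu1 w - (mu1 0 + mu2 0 * w)) w := by
            refine (h1.congr_deriv ?_).congr_of_eventuallyEq (Eventually.of_forall fun x => ?_)
            · simp; ring
            · simp [rr]
          exact h2.hasDerivWithinAt)
        (fun w hw => by rw [Real.norm_eq_abs]; exact g1 w hw) hconv h0 (by simp)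
    have hr0 : rr 0 = 0 := by simp [rr]
    rw [hr0] at h
    simp only [Real.norm_eq_abs, sub_zero] at h
    calc |rr z| ≤ K1 * |z| ^ 2 * |z| := h
      _ = K1 * |z| ^ 3 := by ring
      _ ≤ _ := by
        apply mul_le_mul_of_nonneg_right _ (by positivity)
        linarith
  · have h1 := mu_lip z 0
    rw [sub_zero, one_mul] at h1
    have e : rr z = (mu z - mu 0) - mu1 0 * z - mu2 0 / 2 * z ^ 2 := by unfold rr; ring
    have h2 : |rr z| ≤ |z| + mu1 0 * |z| + mu2 0 / 2 * |z| ^ 2 := by
      rw [e]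
      refine (abs_sub _ _).trans ?_
      refine add_le_add ((abs_sub _ _).trans (add_le_add h1 ?_)) ?_
      · rw [abs_mul, abs_of_pos hm1]
      · rw [abs_mul, abs_of_pos (by positivity : 0 < mu2 0 / 2), abs_pow]
    have h3 : |z| ≤ |z| ^ 3 := by
      have := pow_le_pow_right₀ hz (by norm_num : 1 ≤ 3)
      simpa using this
    have h4 : |z| ^ 2 ≤ |z| ^ 3 := pow_le_pow_right₀ hz (by norm_num)
    calc |rr z| ≤ |z| + mu1 0 * |z| + mu2 0 / 2 * |z| ^ 2 := h2
      _ ≤ |z| ^ 3 + mu1 0 * |z| ^ 3 + mu2 0 / 2 * |z| ^ 3 := by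
        have := mul_le_mul_of_nonneg_left h3 hm1.le
        have := mul_le_mul_of_nonneg_left h4 (by positivity : 0 ≤ mu2 0 / 2)
        linarith
      _ = (1 + mu1 0 + mu2 0 / 2) * |z| ^ 3 := by ring
      _ ≤ _ := by
        apply mul_le_mul_of_nonneg_right _ (by positivity)
        linarith

/-! ### Hilbert–Schmidt norm and `cfc` -/

/-- squared Hilbert–Schmidt norm -/
def hs (X : Mat m) : ℝ := ∑ i, ∑ j, X i j ^ 2

lemma hs_nonneg (X : Mat m) : 0 ≤ hs X :=
  Finset.sum_nonneg fun _ _ => Finset.sum_nonneg fun _ _ => sq_nonneg _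

lemma hs_eq_trace (X : Mat m) : hs X = (Xᵀ * X).trace := by
  unfold hs Matrix.trace
  rw [Finset.sum_comm]
  refine Finset.sum_congr rfl fun i _ => ?_
  simp only [diag_apply, mul_apply, transpose_apply]
  exact Finset.sum_congr rfl fun j _ => by ring

lemma entry_le_hs (X : Mat m) (i j : Fin m) : X i j ^ 2 ≤ hs X :=
  (Finset.single_le_sum (f := fun j => X i j ^ 2) (fun _ _ => sq_nonneg _) (Finset.mem_univ j)).trans
    (Finset.single_le_sum (f := fun i => ∑ j, X i j ^ 2)
      (fun _ _ => Finset.sum_nonneg fun _ _ => sq_nonneg _) (Finset.mem_univ i))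

lemma hs_orth {U V : Mat m} (hU : U * Uᵀ = 1) (hV : V * Vᵀ = 1) (X : Mat m) :
    hs (Uᵀ * X * V) = hs X := by
  rw [hs_eq_trace, hs_eq_trace]
  have e : (Uᵀ * X * V)ᵀ * (Uᵀ * X * V) = Vᵀ * (Xᵀ * X * V) := by
    simp only [transpose_mul, transpose_transpose]
    calc Vᵀ * (Xᵀ * U) * (Uᵀ * X * V) = Vᵀ * (Xᵀ * (U * Uᵀ) * X * V) := by
          simp only [Matrix.mul_assoc]
      _ = Vᵀ * (Xᵀ * X * V) := by rw [hU, Matrix.mul_one]
  rw [e, Matrix.trace_mul_comm, Matrix.mul_assoc, hV, Matrix.mul_one]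

/-- spectral decomposition -/
lemma cfc_decomp {A : Mat m} (hA : A.IsHermitian) :
    ∃ (U : Mat m) (lam : Fin m → ℝ), U * Uᵀ = 1 ∧ Uᵀ * U = 1 ∧
      ∀ f : ℝ → ℝ, cfc f A = U * diagonal (fun k => f (lam k)) * Uᵀ := by
  refine ⟨(hA.eigenvectorUnitary : Mat m), hA.eigenvalues, ?_, ?_, fun f => ?_⟩
  · have h := Unitary.coe_mul_star_self hA.eigenvectorUnitary
    rw [← conjTranspose_eq_transpose_of_trivial]
    exact h
  · have h := Unitary.coe_star_mul_self hA.eigenvectorUnitary
    rw [← conjTranspose_eq_transpose_of_trivial]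
    exact h
  · ext i j
    rw [cfc_entry hA, Matrix.mul_apply]
    refine Finset.sum_congr rfl fun k _ => ?_
    rw [mul_diagonal, transpose_apply]

lemma decomp_self {A : Mat m} (hA : A.IsHermitian) {U : Mat m} {lam : Fin m → ℝ}
    (h : ∀ f : ℝ → ℝ, cfc f A = U * diagonal (fun k => f (lam k)) * Uᵀ) :
    A = U * diagonal lam * Uᵀ := by
  have h1 := h id
  rw [cfc_id ℝ A (sa hA)] at h1
  exact h1

/-- **Hilbert–Schmidt Lipschitz bound** -/
theorem hs_cfc_sub_le {A B : Mat m} (hA : A.IsHermitian) (hB : B.IsHermitian) {f : ℝ → ℝ} {L : ℝ}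
    (hf : ∀ x y, |f x - f y| ≤ L * |x - y|) : hs (cfc f A - cfc f B) ≤ L ^ 2 * hs (A - B) := by
  obtain ⟨U, lam, hU, hU', hUf⟩ := cfc_decomp hA
  obtain ⟨V, gam, hV, hV', hVf⟩ := cfc_decomp hB
  have key : ∀ g : ℝ → ℝ, Uᵀ * (cfc g A - cfc g B) * V =
      diagonal (fun k => g (lam k)) * (Uᵀ * V) - (Uᵀ * V) * diagonal (fun k => g (gam k)) := by
    intro g
    rw [hUf g, hVf g, Matrix.mul_sub, Matrix.sub_mul]
    congr 1
    · calc Uᵀ * (U * diagonal (fun k => g (lam k)) * Uᵀ) * V
          = (Uᵀ * U) * diagonal (fun k => g (lam k)) * (Uᵀ * V) := by simp only [Matrix.mul_assoc]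
        _ = _ := by rw [hU', Matrix.one_mul]
    · calc Uᵀ * (V * diagonal (fun k => g (gam k)) * Vᵀ) * V
          = (Uᵀ * V) * diagonal (fun k => g (gam k)) * (Vᵀ * V) := by simp only [Matrix.mul_assoc]
        _ = _ := by rw [hV', Matrix.mul_one]
  have h1 : hs (cfc f A - cfc f B) = ∑ k, ∑ l, ((f (lam k) - f (gam l)) * (Uᵀ * V) k l) ^ 2 := by
    rw [← hs_orth hU hV, key f]
    unfold hs
    refine Finset.sum_congr rfl fun k _ => Finset.sum_congr rfl fun l _ => ?_
    rw [Matrix.sub_apply, diagonal_mul, mul_diagonal]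
    ring
  have h2 : hs (A - B) = ∑ k, ∑ l, ((lam k - gam l) * (Uᵀ * V) k l) ^ 2 := by
    have e : A - B = cfc (id : ℝ → ℝ) A - cfc (id : ℝ → ℝ) B := by
      rw [cfc_id ℝ A (sa hA), cfc_id ℝ B (sa hB)]
    rw [e, ← hs_orth hU hV, key id]
    unfold hs
    refine Finset.sum_congr rfl fun k _ => Finset.sum_congr rfl fun l _ => ?_
    rw [Matrix.sub_apply, diagonal_mul, mul_diagonal]
    simp only [id]
    ring
  rw [h1, h2, Finset.mul_sum]
  refine Finset.sum_le_sum fun k _ => ?_
  rw [Finset.mul_sum]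
  refine Finset.sum_le_sum fun l _ => ?_
  rw [mul_pow, mul_pow, ← mul_assoc]
  apply mul_le_mul_of_nonneg_right _ (sq_nonneg _)
  have h3 := hf (lam k) (gam l)
  calc (f (lam k) - f (gam l)) ^ 2 = |f (lam k) - f (gam l)| ^ 2 := (sq_abs _).symm
    _ ≤ (L * |lam k - gam l|) ^ 2 := pow_le_pow_left₀ (abs_nonneg _) h3 2
    _ = L ^ 2 * (lam k - gam l) ^ 2 := by rw [mul_pow, sq_abs]

/-- the third order remainder -/
theorem hs_rr_le {K : ℝ} (hK : ∀ z, |rr z| ≤ K * |z| ^ 3) {Z : Mat m}
    (hZ : Z.IsHermitian) : hs (cfc rr Z) ≤ K ^ 2 * hs Z ^ 3 := by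
  obtain ⟨U, lam, hU, hU', hUf⟩ := cfc_decomp hZ
  have hUT : Uᵀ * (Uᵀ)ᵀ = 1 := by rw [transpose_transpose]; exact hU'
  have key : ∀ g : ℝ → ℝ, hs (cfc g Z) = ∑ k, g (lam k) ^ 2 := by
    intro g
    rw [← hs_orth hU hU, hUf g]
    have e : Uᵀ * (U * diagonal (fun k => g (lam k)) * Uᵀ) * U = diagonal (fun k => g (lam k)) := by
      calc _ = (Uᵀ * U) * diagonal (fun k => g (lam k)) * (Uᵀ * U) := by simp only [Matrix.mul_assoc]
        _ = _ := by rw [hU', Matrix.one_mul, Matrix.mul_one]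
    rw [e]
    unfold hs
    refine Finset.sum_congr rfl fun k _ => ?_
    rw [Finset.sum_eq_single k]
    · rw [diagonal_apply_eq]
    · intro b _ hb; rw [diagonal_apply_ne' _ hb]; ring
    · intro h; exact absurd (Finset.mem_univ k) h
  have hZ2 : hs Z = ∑ k, lam k ^ 2 := by
    have := key id
    rw [cfc_id ℝ Z (sa hZ)] at this
    simpa using this
  rw [key rr, hZ2]
  have h1 : ∀ k, rr (lam k) ^ 2 ≤ K ^ 2 * (lam k ^ 2 * (∑ l, lam l ^ 2) ^ 2) := by
    intro k
    have h3 := hK (lam k)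
    have h4 : lam k ^ 2 ≤ ∑ l, lam l ^ 2 :=
      Finset.single_le_sum (f := fun l => lam l ^ 2) (fun _ _ => sq_nonneg _) (Finset.mem_univ k)
    calc rr (lam k) ^ 2 = |rr (lam k)| ^ 2 := (sq_abs _).symm
      _ ≤ (K * |lam k| ^ 3) ^ 2 := pow_le_pow_left₀ (abs_nonneg _) h3 2
      _ = K ^ 2 * (lam k ^ 2 * (lam k ^ 2) ^ 2) := by
          have : |lam k| ^ 2 = lam k ^ 2 := sq_abs _
          calc (K * |lam k| ^ 3) ^ 2 = K ^ 2 * (|lam k| ^ 2 * (|lam k| ^ 2) ^ 2) := by ring
            _ = _ := by rw [this]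
      _ ≤ _ := by
          apply mul_le_mul_of_nonneg_left _ (sq_nonneg _)
          apply mul_le_mul_of_nonneg_left _ (sq_nonneg _)
          exact pow_le_pow_left₀ (sq_nonneg _) h4 2
  calc ∑ k, rr (lam k) ^ 2 ≤ ∑ k, K ^ 2 * (lam k ^ 2 * (∑ l, lam l ^ 2) ^ 2) :=
        Finset.sum_le_sum fun k _ => h1 k
    _ = K ^ 2 * (∑ l, lam l ^ 2) ^ 3 := by
        rw [← Finset.mul_sum, ← Finset.sum_mul]; ring

/-- Taylor expansion of `mu (Z)` -/
theorem cfc_mu_eq {Z : Mat m} (hZ : Z.IsHermitian) :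
    cfc mu Z = mu 0 • (1 : Mat m) + mu1 0 • Z + (mu2 0 / 2) • (Z * Z) + cfc rr Z := by
  obtain ⟨U, lam, hU, hU', hUf⟩ := cfc_decomp hZ
  have hZe := decomp_self hZ hUf
  have hZZ : Z * Z = U * diagonal (fun k => lam k ^ 2) * Uᵀ := by
    conv_lhs => rw [hZe]
    calc U * diagonal lam * Uᵀ * (U * diagonal lam * Uᵀ)
        = U * diagonal lam * (Uᵀ * U) * (diagonal lam * Uᵀ) := by simp only [Matrix.mul_assoc]
      _ = U * (diagonal lam * diagonal lam) * Uᵀ := by
          rw [hU', Matrix.mul_one]; simp only [Matrix.mul_assoc]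
      _ = _ := by rw [diagonal_mul_diagonal]; congr 2; ext; simp [sq]
  have h1 : (1 : Mat m) = U * Matrix.diagonal (fun _ => (1 : ℝ)) * Uᵀ := by
    rw [show (Matrix.diagonal (fun _ : Fin m => (1 : ℝ))) = (1 : Mat m) from diagonal_one,
      Matrix.mul_one, hU]
  rw [hUf mu, hUf rr, hZZ]
  conv_rhs => rw [h1]
  have hZ' : Z = U * diagonal lam * Uᵀ := hZe
  rw [show mu1 0 • Z = mu1 0 • (U * diagonal lam * Uᵀ) by rw [← hZ']]
  have e3 : Matrix.diagonal (fun k => mu (lam k)) = mu 0 • Matrix.diagonal (fun _ => (1 : ℝ)) +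
      mu1 0 • Matrix.diagonal lam + (mu2 0 / 2) • Matrix.diagonal (fun k => lam k ^ 2) +
      Matrix.diagonal (fun k => rr (lam k)) := by
    ext i j
    by_cases hij : i = j
    · subst hij
      simp only [diagonal_apply_eq, Matrix.add_apply, Matrix.smul_apply, smul_eq_mul]
      unfold rr
      ring
    · simp only [Matrix.add_apply, Matrix.smul_apply, smul_eq_mul, diagonal_apply_ne _ hij,
        mul_zero, add_zero]
  rw [e3]
  simp only [Matrix.mul_add, Matrix.add_mul, Matrix.mul_smul, Matrix.smul_mul]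

/-! ### tensor algebra -/

/-- `∑_k t_k T_k` -/
def ZT (T : Fin m → Mat m) (t : Fin m → ℝ) : Mat m := ∑ k, t k • T k

/-- the relations obtained in the limit -/
structure Rel (T : Fin m → Mat m) : Prop where
  sy : ∀ k i j, T k i j = T k j i
  i1 : ∀ i j k, T k i j = T j i k
  i2 : ∀ a i j k, (T k * T a + T a * T k) i j = (T j * T a + T a * T j) i k
  sq : ∑ k, T k * T k = 1

/-- the structure of the limit tensor -/
theorem exists_frame_of_rel {T : Fin m → Mat m} (h : Rel T) :
    ∃ U : Mat m, Uᵀ * U = 1 ∧ U * Uᵀ = 1 ∧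
      ∀ k i j, T k i j = ∑ α, U k α * U i α * U j α := by
  let S : Fin m → Fin m → Fin m → ℝ := fun k i j => T k i j
  have hS : Sym3 S := by
    constructor
    · intro i j k
      show T i j k = T j i k
      rw [h.sy i j k, h.i1 k j i, h.sy j k i]
    · intro i j k
      exact h.sy i j k
  have hmul : ∀ k a i j, (T k * T a) i j = RR S k i a j := by
    intro k a i j
    rw [Matrix.mul_apply]
    unfold RR
    refine Finset.sum_congr rfl fun p _ => ?_
    show T k i p * T a p j = S p k i * S p a j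
    rw [hS.s12 p k i, hS.s23 k p i, hS.s12 p a j]
  have hsw : ∀ i j k l, RR S i j k l = RR S j i k l := by
    intro i j k l
    unfold RR
    exact Finset.sum_congr rfl fun a _ => by rw [hS.s23 a i j]
  have hsw' : ∀ i j k l, RR S i j k l = RR S i j l k := by
    intro i j k l
    unfold RR
    exact Finset.sum_congr rfl fun a _ => by rw [hS.s23 a k l]
  have h14 : ∀ k i a j, RR S k i a j = RR S j i a k := by
    intro k i a j
    have h1 := h.i2 a i j k
    simp only [Matrix.add_apply, hmul] at h1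
    have h2 := hsw' a i k j
    linarith
  have hR : ∀ i j k l, RR S i j k l = RR S i k j l := by
    intro i j k l
    rw [hsw i j k l, hsw' j i k l, h14 j i l k, hsw k i l j, hsw' i k l j]
  have h2 : ∀ a b, ∑ i, ∑ j, S a i j * S b i j = if a = b then 1 else 0 := by
    intro a b
    have h1 := congrFun (congrFun h.sq a) b
    rw [Matrix.sum_apply] at h1
    simp only [Matrix.mul_apply, Matrix.one_apply] at h1
    rw [← h1]
    refine Finset.sum_congr rfl fun i _ => Finset.sum_congr rfl fun j _ => ?_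
    show S a i j * S b i j = T i a j * T i j b
    have e1 : S a i j = T i a j := hS.s12 a i j
    have e2 : S b i j = T i j b := by rw [hS.s12 b i j, hS.s23 i b j]
    rw [e1, e2]
  have ht : (m : ℝ) ≤ tetra S := by
    rw [← sum_RR_sq h2]
    apply le_of_eq
    unfold tetra
    refine Finset.sum_congr rfl fun i _ => Finset.sum_congr rfl fun i' _ =>
      Finset.sum_congr rfl fun j _ => Finset.sum_congr rfl fun j' _ => ?_
    rw [hR i j i' j']
  obtain ⟨U, hU1, hU2, hU3⟩ := exists_frame hS h2 ht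
  refine ⟨U, hU1, hU2, ?_⟩
  have q1 : ∀ α β, ∑ i, U i α * U i β = if α = β then 1 else 0 := by
    intro α β
    have := congrFun (congrFun hU1 α) β
    rw [mul_apply, one_apply] at this
    simpa using this
  -- the residual tensor vanishes
  have hzero : ∑ k, ∑ i, ∑ j, (S k i j - ∑ α, U k α * U i α * U j α) ^ 2 = 0 := by
    have e1 : ∀ k i j, (S k i j - ∑ α, U k α * U i α * U j α) ^ 2 =
        S k i j * S k i j - 2 * (∑ α, U k α * U i α * U j α * S k i j) +
          ∑ α, ∑ β, (U k α * U k β) * ((U i α * U i β) * (U j α * U j β)) := by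
      intro k i j
      have e2 : (∑ α, U k α * U i α * U j α) * S k i j = ∑ α, U k α * U i α * U j α * S k i j := by
        rw [Finset.sum_mul]
      have e3 : (∑ α, U k α * U i α * U j α) * (∑ α, U k α * U i α * U j α) =
          ∑ α, ∑ β, (U k α * U k β) * ((U i α * U i β) * (U j α * U j β)) := by
        rw [Finset.sum_mul_sum]
        refine Finset.sum_congr rfl fun α _ => Finset.sum_congr rfl fun β _ => ?_
        ring
      rw [← e2, ← e3]; ring
    have f1 : ∑ k, ∑ i, ∑ j, S k i j * S k i j = (m : ℝ) := by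
      simp only [h2]; simp
    have f2 : ∑ k, ∑ i, ∑ j, ∑ α, U k α * U i α * U j α * S k i j = (m : ℝ) := by
      have : ∑ k, ∑ i, ∑ j, ∑ α, U k α * U i α * U j α * S k i j =
          ∑ α, ∑ k, ∑ i, ∑ j, U k α * U i α * U j α * S k i j := by
        have s1 : ∀ k i, ∑ j, ∑ α, U k α * U i α * U j α * S k i j =
            ∑ α, ∑ j, U k α * U i α * U j α * S k i j := fun k i => Finset.sum_comm
        simp only [s1]
        have s2 : ∀ k, ∑ i, ∑ α, ∑ j, U k α * U i α * U j α * S k i j =
            ∑ α, ∑ i, ∑ j, U k α * U i α * U j α * S k i j := fun k => Finset.sum_comm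
        simp only [s2]
        rw [Finset.sum_comm]
      rw [this]
      simp only [hU3]; simp
    have f3 : ∑ k, ∑ i, ∑ j, ∑ α, ∑ β, (U k α * U k β) * ((U i α * U i β) * (U j α * U j β)) =
        (m : ℝ) := by
      have : ∑ k, ∑ i, ∑ j, ∑ α, ∑ β, (U k α * U k β) * ((U i α * U i β) * (U j α * U j β)) =
          ∑ α, ∑ β, ∑ k, ∑ i, ∑ j, (U k α * U k β) * ((U i α * U i β) * (U j α * U j β)) := by
        have s1 : ∀ k i, ∑ j, ∑ α, ∑ β, (U k α * U k β) * ((U i α * U i β) * (U j α * U j β)) =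
            ∑ α, ∑ β, ∑ j, (U k α * U k β) * ((U i α * U i β) * (U j α * U j β)) := by
          intro k i
          rw [Finset.sum_comm]
          exact Finset.sum_congr rfl fun α _ => Finset.sum_comm
        simp only [s1]
        have s2 : ∀ k, ∑ i, ∑ α, ∑ β, ∑ j, (U k α * U k β) * ((U i α * U i β) * (U j α * U j β)) =
            ∑ α, ∑ β, ∑ i, ∑ j, (U k α * U k β) * ((U i α * U i β) * (U j α * U j β)) := by
          intro k
          rw [Finset.sum_comm]
          exact Finset.sum_congr rfl fun α _ => Finset.sum_comm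
        simp only [s2]
        rw [Finset.sum_comm]
        exact Finset.sum_congr rfl fun α _ => Finset.sum_comm
      rw [this]
      have g : ∀ α β, ∑ k, ∑ i, ∑ j, (U k α * U k β) * ((U i α * U i β) * (U j α * U j β)) =
          if α = β then 1 else 0 := by
        intro α β
        simp only [← Finset.mul_sum, ← Finset.sum_mul, q1]
        by_cases hab : α = β <;> simp [hab]
      simp only [g]; simp
    simp only [e1, Finset.sum_add_distrib, Finset.sum_sub_distrib, ← Finset.mul_sum]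
    rw [f1, f2, f3]; ring
  intro k i j
  have hnn : ∀ k i j, 0 ≤ (S k i j - ∑ α, U k α * U i α * U j α) ^ 2 := fun _ _ _ => sq_nonneg _
  have h3 := (Finset.sum_eq_zero_iff_of_nonneg (fun k _ => Finset.sum_nonneg fun i _ =>
    Finset.sum_nonneg fun j _ => hnn k i j)).mp hzero k (Finset.mem_univ k)
  have h4 := (Finset.sum_eq_zero_iff_of_nonneg (fun i _ => Finset.sum_nonneg fun j _ =>
    hnn k i j)).mp h3 i (Finset.mem_univ i)
  have h5 := (Finset.sum_eq_zero_iff_of_nonneg (fun j _ => hnn k i j)).mp h4 j (Finset.mem_univ j)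
  rw [sq_eq_zero_iff, sub_eq_zero] at h5
  exact h5

/-- `cfc` of an orthogonal conjugate of a diagonal matrix -/
theorem cfc_conj_diag {U : Mat m} (hU : U * Uᵀ = 1) (hU' : Uᵀ * U = 1) (d : Fin m → ℝ)
    (f : ℝ → ℝ) : cfc f (U * Matrix.diagonal d * Uᵀ) =
      U * Matrix.diagonal (fun k => f (d k)) * Uᵀ := by
  have hU'' : star U * U = 1 := by
    rw [Matrix.star_eq_conjTranspose, conjTranspose_eq_transpose_of_trivial]; exact hU'
  have hU3 : U * star U = 1 := by
    rw [Matrix.star_eq_conjTranspose, conjTranspose_eq_transpose_of_trivial]; exact hU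
  let u : unitary (Mat m) := ⟨U, Unitary.mem_iff.mpr ⟨hU'', hU3⟩⟩
  have hc : ∀ X : Mat m, Unitary.conjStarAlgAut ℝ (Mat m) u X = U * X * Uᵀ := by
    intro X
    rw [Unitary.conjStarAlgAut_apply]
    simp only [Matrix.star_eq_conjTranspose,
      conjTranspose_eq_transpose_of_trivial, u]
  have hd : (Matrix.diagonal d : Mat m).IsHermitian := Matrix.isHermitian_diagonal _
  have h1 := StarAlgHomClass.map_cfc (Unitary.conjStarAlgAut ℝ (Mat m) u) f
    (Matrix.diagonal d : Mat m) (contOn_spec f _)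
    (by
      have : Continuous fun X : Mat m => U * X * Uᵀ := by fun_prop
      refine this.congr fun X => (hc X).symm) (sa hd)
    (by
      rw [hc]
      show star _ = _
      rw [Matrix.star_eq_conjTranspose, conjTranspose_eq_transpose_of_trivial]
      simp [Matrix.transpose_mul, Matrix.mul_assoc])
  rw [hc, hc, cfc_diagonal] at h1
  exact h1.symm

end Crest.Agent.R253.EqT593
end
end

-- ▼ part R253/EqT2_593
section

/-!
# R253, equality tail from the margin, part 2 (helper593): Gaussian analysis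

Scaling, moments, the weighted closedness identities and their limit.
-/

set_option autoImplicit false
open MeasureTheory Set Filter Topology Matrix Real ProbabilityTheory

noncomputable section

namespace Crest.Agent.R253.EqT593

open Crest.Agent.R253.Mills37 Crest.Agent.R253.SpecCalc999 Crest.Agent.R253.Eq435
open Crest.Agent.R238.Gap Crest.Agent.R238.GapPoinc Crest.Agent.R238.GapPc Crest.Agent.R253.Meh74

variable {m : ℕ}

/-! ### scaling -/

lemma pg_scale {s : ℝ} (hs : 0 < s) (hs1 : s ≤ 1) {F : E m → ℝ} (hg : PG F) :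
    PG fun x => F (s • x) := by
  obtain ⟨K, k, hK0, hK⟩ := pg_nonneg hg
  refine ⟨K, k, fun x => (hK _).trans ?_⟩
  apply mul_le_mul_of_nonneg_left _ hK0
  apply pow_le_pow_left₀ (by positivity)
  rw [norm_smul, Real.norm_eq_abs, abs_of_pos hs]
  nlinarith [norm_nonneg x]

lemma scale_le {s : ℝ} (hs : 0 < s) (hs1 : s ≤ 1) {F : E m → ℝ} (hF : Continuous F)
    (h0 : ∀ x, 0 ≤ F x) (hg : PG F) :
    ∫ x, F (s • x) ∂(gam m) ≤ (s⁻¹) ^ m * ∫ x, F x ∂(gam m) := by
  rw [integral_stdGaussian_mul, integral_stdGaussian_mul]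
  set c : ℝ := (2 * π) ^ (-(Module.finrank ℝ (E m) : ℝ) / 2) with hc
  have hc0 : 0 < c := by positivity
  have i1 : Integrable (fun x => F x * rexp (-(‖x‖ ^ 2 / 2))) :=
    integrable_mul_exp (integrable_of_PG hF hg)
  have hle : ∀ y : E m, F y * rexp (-(‖y‖ ^ 2 / (2 * s ^ 2))) ≤ F y * rexp (-(‖y‖ ^ 2 / 2)) := by
    intro y
    apply mul_le_mul_of_nonneg_left _ (h0 y)
    apply Real.exp_le_exp.mpr
    apply neg_le_neg
    apply div_le_div_of_nonneg_left (by positivity) (by positivity)
    nlinarith [mul_pos hs hs]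
  have hcont : Continuous fun y : E m => F y * rexp (-(‖y‖ ^ 2 / (2 * s ^ 2))) := by fun_prop
  have i2 : Integrable (fun y : E m => F y * rexp (-(‖y‖ ^ 2 / (2 * s ^ 2)))) := by
    refine i1.mono' hcont.aestronglyMeasurable (ae_of_all _ fun y => ?_)
    rw [Real.norm_eq_abs, abs_of_nonneg (mul_nonneg (h0 y) (Real.exp_pos _).le)]
    exact hle y
  have e1 : ∫ x : E m, F (s • x) * rexp (-(‖x‖ ^ 2 / 2)) =
      (s⁻¹) ^ m * ∫ y : E m, F y * rexp (-(‖y‖ ^ 2 / (2 * s ^ 2))) := by
    have h := Measure.integral_comp_smul (volume : Measure (E m))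
      (fun y : E m => F y * rexp (-(‖y‖ ^ 2 / (2 * s ^ 2)))) s
    have hd : Module.finrank ℝ (E m) = m := finrank_euclideanSpace_fin
    rw [hd, abs_of_pos (by positivity), smul_eq_mul, ← inv_pow] at h
    rw [← h]
    refine integral_congr_ae (ae_of_all _ fun x => ?_)
    simp only
    congr 2
    rw [norm_smul, Real.norm_eq_abs, abs_of_pos hs]
    field_simp
  rw [e1]
  have e2 : ∫ y : E m, F y * rexp (-(‖y‖ ^ 2 / (2 * s ^ 2))) ≤
      ∫ y : E m, F y * rexp (-(‖y‖ ^ 2 / 2)) := integral_mono i2 i1 hle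
  have h3 : 0 ≤ (s⁻¹) ^ m := by positivity
  calc c * ((s⁻¹) ^ m * ∫ y : E m, F y * rexp (-(‖y‖ ^ 2 / (2 * s ^ 2))))
      ≤ c * ((s⁻¹) ^ m * ∫ y : E m, F y * rexp (-(‖y‖ ^ 2 / 2))) := by gcongr
    _ = _ := by ring

lemma pd_scale {f : E m → ℝ} (hf : C1 f) (s : ℝ) (k : Fin m) (x : E m) :
    pd k (fun x => f (s • x)) x = s * pd k f (s • x) := by
  have h1 : HasFDerivAt (fun x : E m => s • x) (s • ContinuousLinearMap.id ℝ (E m)) x :=
    (hasFDerivAt_id x).const_smul s
  have h2 := ((hf.diff (s • x)).hasFDerivAt).comp x h1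
  unfold pd
  have h3 : fderiv ℝ (fun x => f (s • x)) x =
      (fderiv ℝ f (s • x)).comp (s • ContinuousLinearMap.id ℝ (E m)) := h2.fderiv
  rw [h3]
  simp

lemma c1_scale {f : E m → ℝ} (hf : C1 f) {s : ℝ} (hs : 0 < s) (hs1 : s ≤ 1) :
    C1 fun x => f (s • x) :=
  ⟨hf.c.comp (contDiff_const_smul s), pg_scale hs hs1 hf.g, fun k => by
    have : pd k (fun x => f (s • x)) = fun x => s * pd k f (s • x) := by
      funext x; exact pd_scale hf s k x
    rw [this]
    exact (pg_const s).mul (pg_scale hs hs1 (hf.p k))⟩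

/-! ### Gaussian moments -/


lemma mom1 (k : Fin m) : ∫ x : E m, x k ∂(gam m) = 0 := by
  have h := ibp_gam (c1_const (n := m) 1).c (c1_const (n := m) 1).g k ((c1_const (n := m) 1).p k)
  simp only [one_mul] at h
  rw [h]
  simp [pd]

lemma mom2 (k l : Fin m) : ∫ x : E m, x l * x k ∂(gam m) = if l = k then 1 else 0 := by
  have h := ibp_gam (c1_coord l).c (c1_coord l).g k ((c1_coord l).p k)
  rw [h]
  simp only [pd_coord]
  split_ifs <;> simp

lemma mom3 (k p q : Fin m) : ∫ x : E m, x p * x q * x k ∂(gam m) = 0 := by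
  have hc := (c1_coord p).mul (c1_coord q)
  have h := ibp_gam hc.c hc.g k (hc.p k)
  rw [h]
  have e : ∀ x : E m, pd k (fun x : E m => x p * x q) x =
      (if p = k then 1 else 0) * x q + x p * (if q = k then 1 else 0) := by
    intro x
    rw [(c1_coord p).pd_mul (c1_coord q), pd_coord, pd_coord]
  simp_rw [e]
  rw [integral_add, integral_const_mul, integral_mul_const, mom1, mom1]
  · simp
  · exact (integrable_of_PG (c1_coord q).cont (c1_coord q).g).const_mul _
  · exact (integrable_of_PG (c1_coord p).cont (c1_coord p).g).mul_const _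

lemma mom4 (k a p q : Fin m) : ∫ x : E m, x a * (x p * x q) * x k ∂(gam m) =
    (if a = k then 1 else 0) * (if p = q then 1 else 0) +
      ((if p = k then 1 else 0) * (if a = q then 1 else 0) +
        (if q = k then 1 else 0) * (if a = p then 1 else 0)) := by
  have hc := (c1_coord a).mul ((c1_coord p).mul (c1_coord q))
  have h := ibp_gam hc.c hc.g k (hc.p k)
  rw [h]
  have e : ∀ x : E m, pd k (fun x : E m => x a * (x p * x q)) x =
      (if a = k then 1 else 0) * (x p * x q) + ((if p = k then 1 else 0) * (x a * x q) +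
        (if q = k then 1 else 0) * (x a * x p)) := by
    intro x
    rw [(c1_coord a).pd_mul ((c1_coord p).mul (c1_coord q)),
      (c1_coord p).pd_mul (c1_coord q), pd_coord, pd_coord, pd_coord]
    ring
  simp_rw [e]
  have i : ∀ p q : Fin m, Integrable (fun x : E m => x p * x q) (gam m) := fun p q =>
    integrable_of_PG ((c1_coord p).mul (c1_coord q)).cont ((c1_coord p).mul (c1_coord q)).g
  have i4 : Integrable (fun x : E m => (if p = k then (1 : ℝ) else 0) * (x a * x q) +
      (if q = k then (1 : ℝ) else 0) * (x a * x p)) (gam m) :=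
    ((i a q).const_mul _).add ((i a p).const_mul _)
  rw [integral_add ((i p q).const_mul _) i4,
    integral_add ((i a q).const_mul _) ((i a p).const_mul _),
    integral_const_mul, integral_const_mul, integral_const_mul, mom2, mom2, mom2]

/-! ### closedness identities for `HD` data -/

lemma close1 {G : Fin m → E m → ℝ} {M : Fin m → Fin m → E m → ℝ} (hd : HD G M) {s : ℝ}
    (hs : 0 < s) (hs1 : s ≤ 1) (i j k : Fin m) :
    ∫ x, x k * M i j (s • x) ∂(gam m) = ∫ x, x j * M i k (s • x) ∂(gam m) := by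
  have h1 := c1_scale (hd.m i j) hs hs1
  have h2 := c1_scale (hd.m i k) hs hs1
  have e1 := ibp_gam h1.c h1.g k (h1.p k)
  have e2 := ibp_gam h2.c h2.g j (h2.p j)
  simp_rw [pd_scale (hd.m i j), hd.t i j k] at e1
  simp_rw [pd_scale (hd.m i k)] at e2
  simp_rw [mul_comm] at e1 e2 ⊢
  rw [e1, e2]

lemma close2 {G : Fin m → E m → ℝ} {M : Fin m → Fin m → E m → ℝ} (hd : HD G M) {s : ℝ}
    (hs : 0 < s) (hs1 : s ≤ 1) (a i j k : Fin m) :
    ∫ x, (x k * x a - if a = k then 1 else 0) * M i j (s • x) ∂(gam m) =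
      ∫ x, (x j * x a - if a = j then 1 else 0) * M i k (s • x) ∂(gam m) := by
  have key : ∀ i j k : Fin m, ∫ x, (x k * x a - if a = k then 1 else 0) * M i j (s • x) ∂(gam m) =
      ∫ x, x a * (s * pd k (M i j) (s • x)) ∂(gam m) := by
    intro i j k
    have h1 := c1_scale (hd.m i j) hs hs1
    have hc := (c1_coord a).mul h1
    have e1 := ibp_gam hc.c hc.g k (hc.p k)
    have e2 : ∀ x : E m, pd k (fun x : E m => x a * M i j (s • x)) x =
        (if a = k then 1 else 0) * M i j (s • x) + x a * (s * pd k (M i j) (s • x)) := by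
      intro x
      rw [(c1_coord a).pd_mul h1, pd_coord, pd_scale (hd.m i j)]
    simp_rw [e2] at e1
    have i1 : Integrable (fun x : E m => (if a = k then (1 : ℝ) else 0) * M i j (s • x)) (gam m) :=
      (integrable_of_PG h1.cont h1.g).const_mul _
    have i2 : Integrable (fun x : E m => x a * (s * pd k (M i j) (s • x))) (gam m) := by
      have e3 : (fun x : E m => x a * (s * pd k (M i j) (s • x))) =
          fun x => x a * pd k (fun x => M i j (s • x)) x := by
        funext x; rw [pd_scale (hd.m i j)]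
      rw [e3]
      exact integrable_of_PG ((c1_coord a).cont.mul (h1.contp k)) ((c1_coord a).g.mul (h1.p k))
    have i3 : Integrable (fun x : E m => x a * M i j (s • x) * x k) (gam m) :=
      integrable_of_PG (hc.cont.mul (c1_coord k).cont) (hc.g.mul (c1_coord k).g)
    rw [integral_add i1 i2] at e1
    have e4 : ∫ x, (x k * x a - if a = k then 1 else 0) * M i j (s • x) ∂(gam m) =
        ∫ x, x a * M i j (s • x) * x k ∂(gam m) -
          ∫ x, (if a = k then (1 : ℝ) else 0) * M i j (s • x) ∂(gam m) := by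
      rw [← integral_sub i3 i1]
      refine integral_congr_ae (ae_of_all _ fun x => ?_)
      simp only; ring
    rw [e4, e1]; ring
  rw [key i j k, key i k j, hd.t i j k]

/-! ### Cauchy–Schwarz and the passage to the limit -/

lemma cs_gam {f g : E m → ℝ} (hf : Continuous f) (hg : Continuous g) (pf : PG f) (pg : PG g) :
    (∫ x, f x * g x ∂(gam m)) ^ 2 ≤ (∫ x, f x ^ 2 ∂(gam m)) * ∫ x, g x ^ 2 ∂(gam m) := by
  have i1 : Integrable (fun x => f x ^ 2) (gam m) := integrable_of_PG (hf.pow 2) (PG_sq pf)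
  have i2 : Integrable (fun x => g x ^ 2) (gam m) := integrable_of_PG (hg.pow 2) (PG_sq pg)
  have i3 : Integrable (fun x => f x * g x) (gam m) := integrable_of_PG (hf.mul hg) (pf.mul pg)
  have h : ∀ t : ℝ, 0 ≤ (∫ x, g x ^ 2 ∂(gam m)) * (t * t) + (-2 * ∫ x, f x * g x ∂(gam m)) * t +
      ∫ x, f x ^ 2 ∂(gam m) := by
    intro t
    have e : (∫ x, g x ^ 2 ∂(gam m)) * (t * t) + (-2 * ∫ x, f x * g x ∂(gam m)) * t +
        ∫ x, f x ^ 2 ∂(gam m) = ∫ x, (f x - t * g x) ^ 2 ∂(gam m) := by
      have e1 : ∀ x, (f x - t * g x) ^ 2 = (f x ^ 2 + (-2 * t) * (f x * g x)) + (t * t) * g x ^ 2 :=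
        fun x => by ring
      simp_rw [e1]
      have i4 : Integrable (fun x => f x ^ 2 + (-2 * t) * (f x * g x)) (gam m) :=
        i1.add (i3.const_mul _)
      rw [integral_add i4 (i2.const_mul _), integral_add i1 (i3.const_mul _),
        integral_const_mul, integral_const_mul]
      ring
    rw [e]
    exact integral_nonneg fun x => sq_nonneg _
  have hd := discrim_le_zero h
  unfold discrim at hd
  nlinarith

/-- convergence in `L²` -/
def L2lim (F : ℕ → E m → ℝ) (F0 : E m → ℝ) : Prop :=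
  Tendsto (fun n => ∫ x, (F n x - F0 x) ^ 2 ∂(gam m)) atTop (𝓝 0)

lemma lim_w {F : ℕ → E m → ℝ} {F0 w : E m → ℝ} (hF : ∀ n, Continuous (F n)) (pF : ∀ n, PG (F n))
    (hF0 : Continuous F0) (pF0 : PG F0) (hw : Continuous w) (pw : PG w) (hl : L2lim F F0)
    {s : ℝ} (hs : 0 < s) (hs1 : s ≤ 1) :
    Tendsto (fun n => ∫ x, w x * F n (s • x) ∂(gam m)) atTop (𝓝 (∫ x, w x * F0 (s • x) ∂(gam m))) := by
  rw [tendsto_iff_dist_tendsto_zero]
  have hb : ∀ n, dist (∫ x, w x * F n (s • x) ∂(gam m)) (∫ x, w x * F0 (s • x) ∂(gam m)) ≤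
      √((∫ x, w x ^ 2 ∂(gam m)) * ((s⁻¹) ^ m * ∫ x, (F n x - F0 x) ^ 2 ∂(gam m))) := by
    intro n
    have c1 : Continuous fun x : E m => F n (s • x) := (hF n).comp (continuous_const_smul s)
    have c2 : Continuous fun x : E m => F0 (s • x) := hF0.comp (continuous_const_smul s)
    have i1 : Integrable (fun x => w x * F n (s • x)) (gam m) :=
      integrable_of_PG (hw.mul c1) (pw.mul (pg_scale hs hs1 (pF n)))
    have i2 : Integrable (fun x => w x * F0 (s • x)) (gam m) :=
      integrable_of_PG (hw.mul c2) (pw.mul (pg_scale hs hs1 pF0))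
    rw [Real.dist_eq, ← integral_sub i1 i2]
    have e : ∀ x, w x * F n (s • x) - w x * F0 (s • x) = w x * (F n (s • x) - F0 (s • x)) :=
      fun x => by ring
    simp_rw [e]
    apply Real.abs_le_sqrt
    refine (cs_gam hw (c1.sub c2) pw ((pg_scale hs hs1 (pF n)).sub (pg_scale hs hs1 pF0))).trans ?_
    apply mul_le_mul_of_nonneg_left _ (integral_nonneg fun x => sq_nonneg _)
    exact scale_le hs hs1 (F := fun x => (F n x - F0 x) ^ 2) (((hF n).sub hF0).pow 2)
      (fun x => sq_nonneg _) (PG_sq ((pF n).sub pF0))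
  refine squeeze_zero (fun n => dist_nonneg) hb ?_
  have h1 := (hl.const_mul ((s⁻¹) ^ m)).const_mul (∫ x, w x ^ 2 ∂(gam m))
  simp only [mul_zero] at h1
  have h2 := (Real.continuous_sqrt.tendsto 0).comp h1
  rwa [Real.sqrt_zero] at h2

end Crest.Agent.R253.EqT593
end
end

-- ▼ part R253/EqT3_593
section

/-!
# R253, equality tail from the margin, part 3 (helper593): the limit tensor

`eq_tail` : from HD data with `M n = mu (ζ n)`, `ζ n - ∑ t_k T n k → 0` in `L²` and
`∑ (T n k)² → 1`, along a subsequence `M n → U diag (mu (Uᵀ t)) Uᵀ` in `L²`.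
-/

set_option autoImplicit false
open MeasureTheory Set Filter Topology Matrix Real ProbabilityTheory

noncomputable section

namespace Crest.Agent.R253.EqT593

open Crest.Agent.R253.Mills37 Crest.Agent.R253.SpecCalc999 Crest.Agent.R253.Eq435
open Crest.Agent.R238.Gap Crest.Agent.R238.GapPoinc Crest.Agent.R238.GapPc Crest.Agent.R253.Meh74

variable {m : ℕ}

/-- coordinates of a point of `E m` -/
def co (x : E m) : Fin m → ℝ := fun k => x k

/-! ### the linear matrix field -/

lemma ZT_herm {T : Fin m → Mat m} (hT : ∀ k i j, T k i j = T k j i) (t : Fin m → ℝ) :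
    (ZT T t).IsHermitian := by
  ext i j
  unfold ZT
  simp only [conjTranspose_apply, star_trivial, Matrix.sum_apply, Matrix.smul_apply, smul_eq_mul]
  exact Finset.sum_congr rfl fun k _ => by rw [hT k j i]

lemma ZT_apply (T : Fin m → Mat m) (t : Fin m → ℝ) (i j : Fin m) :
    ZT T t i j = ∑ k, t k * T k i j := by
  unfold ZT
  simp only [Matrix.sum_apply, Matrix.smul_apply, smul_eq_mul]

lemma ZT_smul (T : Fin m → Mat m) (s : ℝ) (t : Fin m → ℝ) : ZT T (s • t) = s • ZT T t := by
  ext i j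
  rw [Matrix.smul_apply, ZT_apply, ZT_apply, smul_eq_mul, Finset.mul_sum]
  exact Finset.sum_congr rfl fun k _ => by simp [mul_assoc]

lemma ZT_sub_t (T : Fin m → Mat m) (t u : Fin m → ℝ) : ZT T (t - u) = ZT T t - ZT T u := by
  ext i j
  rw [Matrix.sub_apply, ZT_apply, ZT_apply, ZT_apply, ← Finset.sum_sub_distrib]
  exact Finset.sum_congr rfl fun k _ => by simp [sub_mul]

lemma ZT_sub_T (T S : Fin m → Mat m) (t : Fin m → ℝ) :
    ZT (fun k => T k - S k) t = ZT T t - ZT S t := by
  ext i j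
  rw [Matrix.sub_apply, ZT_apply, ZT_apply, ZT_apply, ← Finset.sum_sub_distrib]
  exact Finset.sum_congr rfl fun k _ => by rw [Matrix.sub_apply, mul_sub]

lemma hs_ZT_le (T : Fin m → Mat m) (t : Fin m → ℝ) :
    hs (ZT T t) ≤ (∑ k, t k ^ 2) * ∑ k, hs (T k) := by
  have h1 : ∀ i j, ZT T t i j ^ 2 ≤ (∑ k, t k ^ 2) * ∑ k, T k i j ^ 2 := by
    intro i j
    rw [ZT_apply]
    exact Finset.sum_mul_sq_le_sq_mul_sq _ _ _
  calc hs (ZT T t) = ∑ i, ∑ j, ZT T t i j ^ 2 := rfl
    _ ≤ ∑ i, ∑ j, (∑ k, t k ^ 2) * ∑ k, T k i j ^ 2 :=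
        Finset.sum_le_sum fun i _ => Finset.sum_le_sum fun j _ => h1 i j
    _ = (∑ k, t k ^ 2) * ∑ i, ∑ j, ∑ k, T k i j ^ 2 := by
        simp only [← Finset.mul_sum]
    _ = (∑ k, t k ^ 2) * ∑ k, hs (T k) := by
        congr 1
        unfold hs
        have : ∀ i : Fin m, ∑ j, ∑ k, T k i j ^ 2 = ∑ k, ∑ j, T k i j ^ 2 :=
          fun i => Finset.sum_comm
        simp only [this]
        rw [Finset.sum_comm]

lemma hs_smul (s : ℝ) (X : Mat m) : hs (s • X) = s ^ 2 * hs X := by
  unfold hs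
  rw [Finset.mul_sum]
  refine Finset.sum_congr rfl fun i _ => ?_
  rw [Finset.mul_sum]
  exact Finset.sum_congr rfl fun j _ => by rw [Matrix.smul_apply, smul_eq_mul, mul_pow]

lemma norm_sq_co (x : E m) : ∑ k, co x k ^ 2 = ‖x‖ ^ 2 := by
  rw [EuclideanSpace.real_norm_sq_eq]; rfl

/-- the limit field -/
def Cf (T : Fin m → Mat m) (i j : Fin m) (x : E m) : ℝ := (cfc mu (ZT T (co x))) i j

lemma Cf_lip {T : Fin m → Mat m} (hT : ∀ k i j, T k i j = T k j i) (i j : Fin m) (x y : E m) :
    |Cf T i j x - Cf T i j y| ≤ √(∑ k, hs (T k)) * ‖x - y‖ := by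
  have h1 := hs_cfc_sub_le (ZT_herm hT (co x)) (ZT_herm hT (co y)) (L := 1) mu_lip
  have h2 := entry_le_hs (cfc mu (ZT T (co x)) - cfc mu (ZT T (co y))) i j
  rw [Matrix.sub_apply] at h2
  have h3 : hs (ZT T (co x) - ZT T (co y)) ≤ ‖x - y‖ ^ 2 * ∑ k, hs (T k) := by
    rw [← ZT_sub_t, ← norm_sq_co]
    exact hs_ZT_le T _
  have h4 : (Cf T i j x - Cf T i j y) ^ 2 ≤ ‖x - y‖ ^ 2 * ∑ k, hs (T k) := by
    unfold Cf; linarith
  have h5 := Real.abs_le_sqrt h4
  rw [Real.sqrt_mul (sq_nonneg _), Real.sqrt_sq (norm_nonneg _), mul_comm] at h5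
  exact h5

lemma Cf_cont {T : Fin m → Mat m} (hT : ∀ k i j, T k i j = T k j i) (i j : Fin m) :
    Continuous (Cf T i j) := by
  have : LipschitzWith (Real.toNNReal (√(∑ k, hs (T k)))) (Cf T i j) := by
    apply LipschitzWith.of_dist_le_mul
    intro x y
    rw [Real.coe_toNNReal _ (Real.sqrt_nonneg _), dist_eq_norm, dist_eq_norm, Real.norm_eq_abs]
    exact Cf_lip hT i j x y
  exact this.continuous

lemma Cf_pg {T : Fin m → Mat m} (hT : ∀ k i j, T k i j = T k j i) (i j : Fin m) :
    PG (Cf T i j) := by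
  have h1 : PG fun x : E m => |Cf T i j 0| + √(∑ k, hs (T k)) * ‖x‖ :=
    (pg_const _).add ((pg_const _).mul pg_norm)
  refine h1.mono fun x => ?_
  have h2 := Cf_lip hT i j x 0
  rw [sub_zero] at h2
  rw [abs_of_nonneg (by positivity : 0 ≤ |Cf T i j 0| + √(∑ k, hs (T k)) * ‖x‖)]
  have h3 : |Cf T i j x| ≤ |Cf T i j 0| + |Cf T i j x - Cf T i j 0| := by
    have := abs_add_le (Cf T i j 0) (Cf T i j x - Cf T i j 0)
    rwa [add_sub_cancel] at this
  linarith

/-! ### expansion at small scale -/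

/-- the polynomial part -/
def Pp (T : Fin m → Mat m) (i j : Fin m) (s : ℝ) (x : E m) : ℝ :=
  mu 0 * (1 : Mat m) i j + (mu1 0 * s) * (∑ k, x k * T k i j) +
    (mu2 0 / 2 * s ^ 2) * ∑ p, ∑ q, (x p * x q) * (T p * T q) i j

lemma Cf_expand {T : Fin m → Mat m} (hT : ∀ k i j, T k i j = T k j i) {K : ℝ}
    (hK0 : 0 ≤ K) (hK : ∀ z, |rr z| ≤ K * |z| ^ 3) (i j : Fin m) {s : ℝ} (hs0 : 0 < s) (x : E m) :
    |Cf T i j (s • x) - Pp T i j s x| ≤ K * s ^ 3 * (1 + ‖x‖ ^ 2 * ∑ k, hs (T k)) ^ 2 := by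
  have hco : co (s • x) = s • co x := by funext k; simp [co]
  have hZ := ZT_herm hT (co (s • x))
  have e1 := cfc_mu_eq hZ
  have e2 : Cf T i j (s • x) - Pp T i j s x = (cfc rr (ZT T (co (s • x)))) i j := by
    unfold Cf
    rw [e1, hco, ZT_smul]
    simp only [Matrix.add_apply, Matrix.smul_apply, smul_eq_mul, Matrix.smul_mul, Matrix.mul_smul]
    unfold Pp
    have e3 : (ZT T (co x) * ZT T (co x)) i j = ∑ p, ∑ q, (x p * x q) * (T p * T q) i j := by
      unfold ZT
      rw [Finset.sum_mul_sum, Matrix.sum_apply]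
      refine Finset.sum_congr rfl fun p _ => ?_
      rw [Matrix.sum_apply]
      refine Finset.sum_congr rfl fun q _ => ?_
      rw [Matrix.smul_mul, Matrix.mul_smul, Matrix.smul_apply, Matrix.smul_apply]
      simp only [smul_eq_mul, co]; ring
    rw [e3, ZT_apply]
    simp only [co]
    ring
  rw [e2]
  have h1 := entry_le_hs (cfc rr (ZT T (co (s • x)))) i j
  have h2 := hs_rr_le hK hZ
  have h3 : hs (ZT T (co (s • x))) ≤ s ^ 2 * (‖x‖ ^ 2 * ∑ k, hs (T k)) := by
    rw [hco, ZT_smul, hs_smul, ← norm_sq_co]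
    exact mul_le_mul_of_nonneg_left (hs_ZT_le T _) (sq_nonneg _)
  set A : ℝ := ‖x‖ ^ 2 * ∑ k, hs (T k) with hA
  have hA0 : 0 ≤ A := mul_nonneg (sq_nonneg _) (Finset.sum_nonneg fun k _ => hs_nonneg _)
  have h4 : hs (ZT T (co (s • x))) ^ 3 ≤ (s ^ 2 * A) ^ 3 := pow_le_pow_left₀ (hs_nonneg _) h3 3
  have h5 : A ^ 3 ≤ (1 + A) ^ 4 := by
    calc A ^ 3 ≤ (1 + A) ^ 3 := pow_le_pow_left₀ hA0 (by linarith) 3
      _ ≤ (1 + A) ^ 4 := pow_le_pow_right₀ (by linarith) (by norm_num)
  have h6 : (cfc rr (ZT T (co (s • x)))) i j ^ 2 ≤ (K * s ^ 3 * (1 + A) ^ 2) ^ 2 := by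
    calc (cfc rr (ZT T (co (s • x)))) i j ^ 2 ≤ K ^ 2 * hs (ZT T (co (s • x))) ^ 3 := h1.trans h2
      _ ≤ K ^ 2 * (s ^ 2 * A) ^ 3 := mul_le_mul_of_nonneg_left h4 (sq_nonneg _)
      _ = K ^ 2 * s ^ 6 * A ^ 3 := by ring
      _ ≤ K ^ 2 * s ^ 6 * (1 + A) ^ 4 := mul_le_mul_of_nonneg_left h5 (by positivity)
      _ = _ := by ring
  exact abs_le_of_sq_le_sq h6 (by positivity)

lemma zero_of_small {c C : ℝ} (n : ℕ) (h : ∀ s : ℝ, 0 < s → s ≤ 1 → |c| * s ^ n ≤ C * s ^ (n + 1)) :
    c = 0 := by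
  by_contra hc
  have hc' : 0 < |c| := abs_pos.mpr hc
  set s : ℝ := min 1 (|c| / (2 * (|C| + 1))) with hs
  have hs0 : 0 < s := lt_min one_pos (by positivity)
  have h1 := h s hs0 (min_le_left _ _)
  have h2 : |c| ≤ C * s := by
    have : |c| * s ^ n ≤ (C * s) * s ^ n := by rw [pow_succ] at h1; linarith
    exact le_of_mul_le_mul_right this (by positivity)
  have h3 : C * s ≤ |C| * (|c| / (2 * (|C| + 1))) :=
    (mul_le_mul_of_nonneg_right (le_abs_self C) hs0.le).trans
      (mul_le_mul_of_nonneg_left (min_le_right _ _) (abs_nonneg _))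
  have h4 : |C| * (|c| / (2 * (|C| + 1))) < |c| := by
    rw [mul_div_assoc', div_lt_iff₀ (by positivity)]
    nlinarith [abs_nonneg C]
  linarith

/-- expansion of a weighted integral, for weights orthogonal to constants -/
lemma int_expand {T : Fin m → Mat m} (hT : ∀ k i j, T k i j = T k j i) {w : E m → ℝ}
    (hw : Continuous w) (pw : PG w) (hw0 : ∫ x, w x ∂(gam m) = 0) (i j : Fin m) :
    ∃ C : ℝ, ∀ s : ℝ, 0 < s → s ≤ 1 →
      |∫ x, w x * Cf T i j (s • x) ∂(gam m) - ((mu1 0 * s) * (∑ k, (∫ x, w x * x k ∂(gam m)) * T k i j)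
        + (mu2 0 / 2 * s ^ 2) * ∑ p, ∑ q, (∫ x, w x * (x p * x q) ∂(gam m)) * (T p * T q) i j)| ≤
        C * s ^ 3 := by
  obtain ⟨K, hK0, hK⟩ := rr_bound
  refine ⟨K * ∫ x, |w x| * (1 + ‖x‖ ^ 2 * ∑ k, hs (T k)) ^ 2 ∂(gam m), fun s hs0 hs1 => ?_⟩
  have c1 : Continuous fun x : E m => Cf T i j (s • x) := (Cf_cont hT i j).comp (continuous_const_smul s)
  have i1 : Integrable (fun x => w x * Cf T i j (s • x)) (gam m) :=
    integrable_of_PG (hw.mul c1) (pw.mul (pg_scale hs0 hs1 (Cf_pg hT i j)))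
  have i0 : Integrable w (gam m) := integrable_of_PG hw pw
  have ik : ∀ k : Fin m, Integrable (fun x => w x * x k) (gam m) := fun k =>
    integrable_of_PG (hw.mul (c1_coord k).cont) (pw.mul (pg_coord k))
  have ipq : ∀ p q : Fin m, Integrable (fun x => w x * (x p * x q)) (gam m) := fun p q =>
    integrable_of_PG (hw.mul ((c1_coord p).mul (c1_coord q)).cont)
      (pw.mul ((c1_coord p).mul (c1_coord q)).g)
  have e1 : ∀ x, w x * Pp T i j s x = w x * (mu 0 * (1 : Mat m) i j) +
      (∑ k, (mu1 0 * s * T k i j) * (w x * x k)) +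
        ∑ p, ∑ q, (mu2 0 / 2 * s ^ 2 * (T p * T q) i j) * (w x * (x p * x q)) := by
    intro x
    unfold Pp
    rw [mul_add, mul_add]
    congr 1
    · congr 1
      rw [Finset.mul_sum, Finset.mul_sum]
      exact Finset.sum_congr rfl fun k _ => by ring
    · rw [Finset.mul_sum, Finset.mul_sum]
      refine Finset.sum_congr rfl fun p _ => ?_
      rw [Finset.mul_sum, Finset.mul_sum]
      exact Finset.sum_congr rfl fun q _ => by ring
  have j1 : Integrable (fun x => w x * (mu 0 * (1 : Mat m) i j)) (gam m) := i0.mul_const _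
  have j2 : Integrable (fun x => ∑ k, (mu1 0 * s * T k i j) * (w x * x k)) (gam m) :=
    integrable_finsetSum _ fun k _ => (ik k).const_mul _
  have j3 : Integrable (fun x => ∑ p, ∑ q, (mu2 0 / 2 * s ^ 2 * (T p * T q) i j) *
      (w x * (x p * x q))) (gam m) :=
    integrable_finsetSum _ fun p _ => integrable_finsetSum _ fun q _ => (ipq p q).const_mul _
  have j12 : Integrable (fun x => w x * (mu 0 * (1 : Mat m) i j) +
      (∑ k, (mu1 0 * s * T k i j) * (w x * x k))) (gam m) := j1.add j2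
  have i2 : Integrable (fun x => w x * Pp T i j s x) (gam m) := by
    simp_rw [e1]; exact j12.add j3
  have e2 : ∫ x, w x * Pp T i j s x ∂(gam m) =
      (mu1 0 * s) * (∑ k, (∫ x, w x * x k ∂(gam m)) * T k i j)
        + (mu2 0 / 2 * s ^ 2) * ∑ p, ∑ q, (∫ x, w x * (x p * x q) ∂(gam m)) * (T p * T q) i j := by
    simp_rw [e1]
    rw [integral_add j12 j3, integral_add j1 j2, integral_mul_const, hw0, zero_mul, zero_add,
      integral_finsetSum _ (fun k _ => (ik k).const_mul _),
      integral_finsetSum _ (fun p _ => integrable_finsetSum _ fun q _ => (ipq p q).const_mul _)]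
    congr 1
    · rw [Finset.mul_sum]
      refine Finset.sum_congr rfl fun k _ => ?_
      rw [integral_const_mul]; ring
    · rw [Finset.mul_sum]
      refine Finset.sum_congr rfl fun p _ => ?_
      rw [integral_finsetSum _ (fun q _ => (ipq p q).const_mul _), Finset.mul_sum]
      refine Finset.sum_congr rfl fun q _ => ?_
      rw [integral_const_mul]; ring
  rw [← e2, ← integral_sub i1 i2]
  have hcont : Continuous fun x : E m => |w x| * (1 + ‖x‖ ^ 2 * ∑ k, hs (T k)) ^ 2 := by fun_prop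
  have hpg : PG fun x : E m => |w x| * (1 + ‖x‖ ^ 2 * ∑ k, hs (T k)) ^ 2 :=
    pw.abs.mul (((pg_const 1).add ((pg_norm.pow 2).mul (pg_const _))).pow 2)
  have i3 : Integrable (fun x : E m => |w x| * (1 + ‖x‖ ^ 2 * ∑ k, hs (T k)) ^ 2) (gam m) :=
    integrable_of_PG hcont hpg
  calc |∫ x, (w x * Cf T i j (s • x) - w x * Pp T i j s x) ∂(gam m)|
      ≤ ∫ x, |w x * Cf T i j (s • x) - w x * Pp T i j s x| ∂(gam m) := by
        simpa [Real.norm_eq_abs] using norm_integral_le_integral_norm (μ := gam m)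
          (fun x => w x * Cf T i j (s • x) - w x * Pp T i j s x)
    _ ≤ ∫ x, (K * s ^ 3) * (|w x| * (1 + ‖x‖ ^ 2 * ∑ k, hs (T k)) ^ 2) ∂(gam m) := by
        refine integral_mono (i1.sub i2).abs (i3.const_mul _) fun x => ?_
        simp only
        rw [← mul_sub, abs_mul]
        have := mul_le_mul_of_nonneg_left (Cf_expand hT hK0 hK i j hs0 x) (abs_nonneg (w x))
        calc _ ≤ _ := this
          _ = _ := by ring
    _ = _ := by rw [integral_const_mul]; ring

/-- **the relations in the limit** -/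
theorem rel_of_close {T : Fin m → Mat m} (hT : ∀ k i j, T k i j = T k j i)
    (hsq : ∑ k, T k * T k = 1)
    (h1 : ∀ s : ℝ, 0 < s → s ≤ 1 → ∀ i j k : Fin m,
      ∫ x, x k * Cf T i j (s • x) ∂(gam m) = ∫ x, x j * Cf T i k (s • x) ∂(gam m))
    (h2 : ∀ s : ℝ, 0 < s → s ≤ 1 → ∀ a i j k : Fin m,
      ∫ x, (x k * x a - if a = k then 1 else 0) * Cf T i j (s • x) ∂(gam m) =
      ∫ x, (x j * x a - if a = j then 1 else 0) * Cf T i k (s • x) ∂(gam m)) : Rel T := by
  refine ⟨hT, ?_, ?_, hsq⟩
  · intro i j k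
    have g : ∀ i j k : Fin m, ∃ C : ℝ, ∀ s : ℝ, 0 < s → s ≤ 1 →
        |∫ x, x k * Cf T i j (s • x) ∂(gam m) - (mu1 0 * s) * T k i j| ≤ C * s ^ 3 := by
      intro i j k
      obtain ⟨C, hC⟩ := int_expand hT (w := fun x : E m => x k) (c1_coord k).cont (c1_coord k).g
        (mom1 k) i j
      refine ⟨C, fun s hs0 hs1 => ?_⟩
      have h := hC s hs0 hs1
      have e1 : ∑ l, (∫ x : E m, x k * x l ∂(gam m)) * T l i j = T k i j := by
        simp only [mom2]; simp
      have e2 : ∑ p, ∑ q, (∫ x : E m, x k * (x p * x q) ∂(gam m)) * (T p * T q) i j = 0 := by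
        refine Finset.sum_eq_zero fun p _ => Finset.sum_eq_zero fun q _ => ?_
        have : ∫ x : E m, x k * (x p * x q) ∂(gam m) = 0 := by
          rw [← mom3 (m := m) k p q]
          exact integral_congr_ae (ae_of_all _ fun x => by simp only; ring)
        rw [this, zero_mul]
      rw [e1, e2, mul_zero, add_zero] at h
      exact h
    obtain ⟨C1', hC1⟩ := g i j k
    obtain ⟨C2', hC2⟩ := g i k j
    have h3 : mu1 0 * (T k i j - T j i k) = 0 := by
      apply zero_of_small (C := |C1'| + |C2'|) 1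
      intro s hs0 hs1
      have a1 := hC1 s hs0 hs1
      have a2 := hC2 s hs0 hs1
      rw [h1 s hs0 hs1 i j k] at a1
      have e : mu1 0 * (T k i j - T j i k) * s =
          (∫ x, x j * Cf T i k (s • x) ∂(gam m) - (mu1 0 * s) * T j i k) -
            (∫ x, x j * Cf T i k (s • x) ∂(gam m) - (mu1 0 * s) * T k i j) := by ring
      have h4 : |mu1 0 * (T k i j - T j i k)| * s ^ 1 = |mu1 0 * (T k i j - T j i k) * s| := by
        rw [pow_one, abs_mul (mu1 0 * (T k i j - T j i k)) s, abs_of_pos hs0]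
      rw [h4, e]
      refine (abs_sub _ _).trans ((add_le_add a2 a1).trans ?_)
      have h5 : s ^ 3 ≤ s ^ (1 + 1) := pow_le_pow_of_le_one hs0.le hs1 (by norm_num)
      have h6 : 0 ≤ s ^ 3 := by positivity
      have h7 : C2' ≤ |C2'| := le_abs_self _
      have h8 : C1' ≤ |C1'| := le_abs_self _
      have h9 : 0 ≤ |C1'| + |C2'| := by positivity
      calc C2' * s ^ 3 + C1' * s ^ 3 = (C1' + C2') * s ^ 3 := by ring
        _ ≤ (|C1'| + |C2'|) * s ^ 3 := mul_le_mul_of_nonneg_right (by linarith) h6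
        _ ≤ (|C1'| + |C2'|) * s ^ (1 + 1) := mul_le_mul_of_nonneg_left h5 h9
    have := (mul_eq_zero.mp h3).resolve_left (mu1_pos 0).ne'
    linarith
  · intro a i j k
    have g : ∀ i j k : Fin m, ∃ C : ℝ, ∀ s : ℝ, 0 < s → s ≤ 1 →
        |∫ x, (x k * x a - if a = k then 1 else 0) * Cf T i j (s • x) ∂(gam m) -
          (mu2 0 / 2 * s ^ 2) * (T k * T a + T a * T k) i j| ≤ C * s ^ 3 := by
      intro i j k
      have hwc : Continuous fun x : E m => x k * x a - if a = k then (1 : ℝ) else 0 :=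
        ((c1_coord k).mul (c1_coord a)).cont.sub continuous_const
      have hwp : PG fun x : E m => x k * x a - if a = k then (1 : ℝ) else 0 :=
        ((c1_coord k).mul (c1_coord a)).g.sub (pg_const _)
      have ika : Integrable (fun x : E m => x k * x a) (gam m) :=
        integrable_of_PG ((c1_coord k).mul (c1_coord a)).cont ((c1_coord k).mul (c1_coord a)).g
      have hw0 : ∫ x : E m, (x k * x a - if a = k then (1 : ℝ) else 0) ∂(gam m) = 0 := by
        rw [integral_sub ika (integrable_const _), mom2]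
        by_cases h : k = a
        · subst h; simp
        · simp [h, Ne.symm h]
      obtain ⟨C, hC⟩ := int_expand hT hwc hwp hw0 i j
      refine ⟨C, fun s hs0 hs1 => ?_⟩
      have h := hC s hs0 hs1
      have e1 : ∑ l, (∫ x : E m, (x k * x a - if a = k then (1 : ℝ) else 0) * x l ∂(gam m)) *
          T l i j = 0 := by
        refine Finset.sum_eq_zero fun l _ => ?_
        have i1 : Integrable (fun x : E m => x k * x a * x l) (gam m) :=
          integrable_of_PG (((c1_coord k).mul (c1_coord a)).mul (c1_coord l)).cont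
            (((c1_coord k).mul (c1_coord a)).mul (c1_coord l)).g
        have i2 : Integrable (fun x : E m => (if a = k then (1 : ℝ) else 0) * x l) (gam m) :=
          (integrable_of_PG (c1_coord l).cont (c1_coord l).g).const_mul _
        have : ∫ x : E m, (x k * x a - if a = k then (1 : ℝ) else 0) * x l ∂(gam m) = 0 := by
          simp_rw [sub_mul]
          rw [integral_sub i1 i2, mom3, integral_const_mul, mom1]; simp
        rw [this, zero_mul]
      have e2 : ∑ p, ∑ q, (∫ x : E m, (x k * x a - if a = k then (1 : ℝ) else 0) * (x p * x q)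
          ∂(gam m)) * (T p * T q) i j = (T k * T a + T a * T k) i j := by
        have e3 : ∀ p q : Fin m, ∫ x : E m, (x k * x a - if a = k then (1 : ℝ) else 0) * (x p * x q)
            ∂(gam m) = (if p = k then 1 else 0) * (if a = q then 1 else 0) +
              (if q = k then 1 else 0) * (if a = p then 1 else 0) := by
          intro p q
          have i1 : Integrable (fun x : E m => x k * x a * (x p * x q)) (gam m) :=
            integrable_of_PG (((c1_coord k).mul (c1_coord a)).mul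
              ((c1_coord p).mul (c1_coord q))).cont (((c1_coord k).mul (c1_coord a)).mul
              ((c1_coord p).mul (c1_coord q))).g
          have i2 : Integrable (fun x : E m => (if a = k then (1 : ℝ) else 0) * (x p * x q)) (gam m) :=
            (integrable_of_PG ((c1_coord p).mul (c1_coord q)).cont
              ((c1_coord p).mul (c1_coord q)).g).const_mul _
          have e4 : ∫ x : E m, x k * x a * (x p * x q) ∂(gam m) =
              ∫ x : E m, x a * (x p * x q) * x k ∂(gam m) :=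
            integral_congr_ae (ae_of_all _ fun x => by simp only; ring)
          simp_rw [sub_mul]
          rw [integral_sub i1 i2, e4, mom4, integral_const_mul, mom2]
          ring
        simp only [e3, add_mul, Finset.sum_add_distrib]
        rw [Matrix.add_apply]
        congr 1
        · simp
        · simp
      rw [e1, e2, mul_zero, zero_add] at h
      exact h
    obtain ⟨C1', hC1⟩ := g i j k
    obtain ⟨C2', hC2⟩ := g i k j
    have h3 : mu2 0 / 2 * ((T k * T a + T a * T k) i j - (T j * T a + T a * T j) i k) = 0 := by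
      apply zero_of_small (C := |C1'| + |C2'|) 2
      intro s hs0 hs1
      have a1 := hC1 s hs0 hs1
      have a2 := hC2 s hs0 hs1
      rw [h2 s hs0 hs1 a i j k] at a1
      set D : ℝ := (T k * T a + T a * T k) i j - (T j * T a + T a * T j) i k with hD
      set I : ℝ := ∫ x, (x j * x a - if a = j then 1 else 0) * Cf T i k (s • x) ∂(gam m) with hI
      have e : mu2 0 / 2 * D * s ^ 2 =
          (I - (mu2 0 / 2 * s ^ 2) * (T j * T a + T a * T j) i k) -
            (I - (mu2 0 / 2 * s ^ 2) * (T k * T a + T a * T k) i j) := by rw [hD]; ring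
      have h4 : |mu2 0 / 2 * D| * s ^ 2 = |mu2 0 / 2 * D * s ^ 2| := by
        rw [abs_mul (mu2 0 / 2 * D) (s ^ 2), abs_of_pos (by positivity : 0 < s ^ 2)]
      rw [h4, e]
      refine (abs_sub _ _).trans ((add_le_add a2 a1).trans ?_)
      have h6 : 0 ≤ s ^ 3 := by positivity
      have h7 : C2' ≤ |C2'| := le_abs_self _
      have h8 : C1' ≤ |C1'| := le_abs_self _
      calc C2' * s ^ 3 + C1' * s ^ 3 = (C1' + C2') * s ^ 3 := by ring
        _ ≤ (|C1'| + |C2'|) * s ^ (2 + 1) := mul_le_mul_of_nonneg_right (by linarith) h6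
    have := (mul_eq_zero.mp h3).resolve_left (by have := mu2_pos 0; positivity)
    linarith

/-! ### the limit of the data -/

lemma hs_cont {F : E m → Mat m} (hF : ∀ i j, Continuous fun x => F x i j) :
    Continuous fun x => hs (F x) := by
  unfold hs
  exact continuous_finsetSum _ fun i _ => continuous_finsetSum _ fun j _ => (hF i j).pow 2

lemma hs_pg {F : E m → Mat m} (hF : ∀ i j, PG fun x => F x i j) : PG fun x => hs (F x) := by
  unfold hs
  exact PG.sum _ fun i _ => PG.sum _ fun j _ => (hF i j).pow 2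

lemma hs_add_le (X Y : Mat m) : hs (X + Y) ≤ 2 * hs X + 2 * hs Y := by
  unfold hs
  rw [Finset.mul_sum, Finset.mul_sum, ← Finset.sum_add_distrib]
  refine Finset.sum_le_sum fun i _ => ?_
  rw [Finset.mul_sum, Finset.mul_sum, ← Finset.sum_add_distrib]
  refine Finset.sum_le_sum fun j _ => ?_
  rw [Matrix.add_apply]
  nlinarith [sq_nonneg (X i j - Y i j)]

lemma cont_ZT (T : Fin m → Mat m) (i j : Fin m) : Continuous fun x : E m => ZT T (co x) i j := by
  simp only [ZT_apply]
  exact continuous_finsetSum _ fun k _ => (c1_coord k).cont.mul continuous_const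

lemma pg_ZT (T : Fin m → Mat m) (i j : Fin m) : PG fun x : E m => ZT T (co x) i j := by
  simp only [ZT_apply]
  exact PG.sum _ fun k _ => (pg_coord k).mul (pg_const _)

lemma integral_norm_sq : ∫ x : E m, ‖x‖ ^ 2 ∂(gam m) = m := by
  have e : ∀ x : E m, ‖x‖ ^ 2 = ∑ k, x k * x k := by
    intro x
    rw [← norm_sq_co]
    exact Finset.sum_congr rfl fun k _ => by simp only [co]; ring
  simp_rw [e]
  rw [integral_finsetSum _ fun k _ =>
    integrable_of_PG ((c1_coord k).mul (c1_coord k)).cont ((c1_coord k).mul (c1_coord k)).g]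
  simp [mom2]

/-- **the limit tensor**: along a subsequence `M n → U diag (mu (Uᵀ t)) Uᵀ` in `L²`. -/
theorem eq_tail {G : ℕ → Fin m → E m → ℝ} {M : ℕ → Fin m → Fin m → E m → ℝ}
    (hd : ∀ n, HD (G n) (M n)) {ζ : ℕ → E m → Mat m}
    (hζc : ∀ n i j, Continuous fun x => ζ n x i j) (hζg : ∀ n i j, PG fun x => ζ n x i j)
    (hζ : ∀ n x, (ζ n x).IsHermitian)
    (hM : ∀ n x i j, M n i j x = (cfc mu (ζ n x)) i j)
    {T : ℕ → Fin m → Mat m} (hT : ∀ n k i j, T n k i j = T n k j i)
    (h1 : Tendsto (fun n => ∫ x, hs (ζ n x - ZT (T n) (co x)) ∂(gam m)) atTop (𝓝 0))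
    (h2 : Tendsto (fun n => hs (1 - ∑ k, T n k * T n k)) atTop (𝓝 0)) :
    ∃ φ : ℕ → ℕ, StrictMono φ ∧ ∃ U : Mat m, Uᵀ * U = 1 ∧ U * Uᵀ = 1 ∧
      ∀ i j, Tendsto (fun n => ∫ x : E m, (M (φ n) i j x -
        ∑ α, U i α * U j α * mu (∑ k, U k α * x k)) ^ 2 ∂(gam m)) atTop (𝓝 0) := by
  -- entries of `∑ T_k²` converge
  have hent : ∀ i j, Tendsto (fun n => (∑ k, T n k * T n k) i j) atTop (𝓝 ((1 : Mat m) i j)) := by
    intro i j
    rw [tendsto_iff_dist_tendsto_zero]
    have hb : ∀ n, dist ((∑ k, T n k * T n k) i j) ((1 : Mat m) i j) ≤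
        √(hs (1 - ∑ k, T n k * T n k)) := by
      intro n
      rw [dist_comm, Real.dist_eq]
      apply Real.abs_le_sqrt
      have := entry_le_hs (1 - ∑ k, T n k * T n k) i j
      rwa [Matrix.sub_apply] at this
    refine squeeze_zero (fun n => dist_nonneg) hb ?_
    have := (Real.continuous_sqrt.tendsto 0).comp h2
    rwa [Real.sqrt_zero] at this
  -- boundedness
  have hbd : ∀ᶠ n in atTop, (fun k i j => T n k i j) ∈
      (Set.univ.pi fun _ : Fin m => Set.univ.pi fun _ : Fin m => Set.univ.pi fun _ : Fin m =>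
        Icc (-2 : ℝ) 2) := by
    have h3 : ∀ i, ∀ᶠ n in atTop, (∑ k, T n k * T n k) i i < 4 := by
      intro i
      have := hent i i
      rw [Matrix.one_apply_eq] at this
      exact this.eventually_lt_const (by norm_num)
    filter_upwards [eventually_all.mpr h3] with n hn
    simp only [Set.mem_pi, Set.mem_univ, forall_true_left]
    intro k i j
    have h4 : T n k i j ^ 2 ≤ (∑ k, T n k * T n k) i i := by
      rw [Matrix.sum_apply]
      have e : ∀ k, (T n k * T n k) i i = ∑ j, T n k i j ^ 2 := by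
        intro k
        rw [Matrix.mul_apply]
        exact Finset.sum_congr rfl fun j _ => by rw [hT n k j i]; ring
      simp only [e]
      exact (Finset.single_le_sum (f := fun j => T n k i j ^ 2) (fun _ _ => sq_nonneg _)
        (Finset.mem_univ j)).trans (Finset.single_le_sum (f := fun k => ∑ j, T n k i j ^ 2)
          (fun _ _ => Finset.sum_nonneg fun _ _ => sq_nonneg _) (Finset.mem_univ k))
    have h5 : T n k i j ^ 2 ≤ 2 ^ 2 := by linarith [hn i]
    exact abs_le.mp (abs_le_of_sq_le_sq h5 (by norm_num))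
  have hcomp : IsCompact (Set.univ.pi fun _ : Fin m => Set.univ.pi fun _ : Fin m =>
      Set.univ.pi fun _ : Fin m => Icc (-2 : ℝ) 2) :=
    isCompact_univ_pi fun _ => isCompact_univ_pi fun _ => isCompact_univ_pi fun _ => isCompact_Icc
  obtain ⟨a, _, φ, hφ, hlim⟩ := hcomp.tendsto_subseq' (x := fun n => fun k i j => T n k i j)
    hbd.frequently
  have hlim' : ∀ k i j, Tendsto (fun n => T (φ n) k i j) atTop (𝓝 (a k i j)) := by
    intro k i j
    exact tendsto_pi_nhds.mp (tendsto_pi_nhds.mp (tendsto_pi_nhds.mp hlim k) i) j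
  let S : Fin m → Mat m := fun k => Matrix.of (a k)
  have hS : ∀ k i j, S k i j = S k j i := by
    intro k i j
    refine tendsto_nhds_unique (hlim' k i j) ?_
    have := hlim' k j i
    simp_rw [hT _ k j i] at this
    exact this
  have hSsq : ∑ k, S k * S k = 1 := by
    ext i j
    have l1 := (hent i j).comp hφ.tendsto_atTop
    have l2 : Tendsto (fun n => (∑ k, T (φ n) k * T (φ n) k) i j) atTop
        (𝓝 ((∑ k, S k * S k) i j)) := by
      simp only [Matrix.sum_apply, Matrix.mul_apply]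
      exact tendsto_finsetSum _ fun k _ => tendsto_finsetSum _ fun p _ =>
        (hlim' k i p).mul (hlim' k p j)
    exact tendsto_nhds_unique l2 l1
  -- L² convergence
  have hdiff : Tendsto (fun n => ∑ k, hs (T (φ n) k - S k)) atTop (𝓝 0) := by
    have : Tendsto (fun n => ∑ k, hs (T (φ n) k - S k)) atTop (𝓝 (∑ k : Fin m, ∑ i : Fin m,
        ∑ j : Fin m, (a k i j - S k i j) ^ 2)) := by
      unfold hs
      refine tendsto_finsetSum _ fun k _ => tendsto_finsetSum _ fun i _ =>
        tendsto_finsetSum _ fun j _ => ?_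
      simp only [Matrix.sub_apply]
      exact ((hlim' k i j).sub_const _).pow 2
    have e : ∑ k : Fin m, ∑ i : Fin m, ∑ j : Fin m, (a k i j - S k i j) ^ 2 = 0 := by
      simp [S]
    rwa [e] at this
  have hmaj : Tendsto (fun n => 2 * ∫ x, hs (ζ (φ n) x - ZT (T (φ n)) (co x)) ∂(gam m) +
      2 * (m * ∑ k, hs (T (φ n) k - S k))) atTop (𝓝 0) := by
    have l1 := (h1.comp hφ.tendsto_atTop).const_mul 2
    have l2 := (hdiff.const_mul (m : ℝ)).const_mul 2
    have := l1.add l2
    simpa using this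
  have hL : ∀ i j, L2lim (fun n => M (φ n) i j) (Cf S i j) := by
    intro i j
    refine squeeze_zero (fun n => integral_nonneg fun x => sq_nonneg _) (fun n => ?_) hmaj
    have cζ : ∀ i j, Continuous fun x => (ζ (φ n) x - ZT (T (φ n)) (co x)) i j := fun i j => by
      simp only [Matrix.sub_apply]; exact (hζc _ i j).sub (cont_ZT _ i j)
    have gζ : ∀ i j, PG fun x => (ζ (φ n) x - ZT (T (φ n)) (co x)) i j := fun i j => by
      simp only [Matrix.sub_apply]; exact (hζg _ i j).sub (pg_ZT _ i j)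
    have i1 : Integrable (fun x => hs (ζ (φ n) x - ZT (T (φ n)) (co x))) (gam m) :=
      integrable_of_PG (hs_cont cζ) (hs_pg gζ)
    have i2 : Integrable (fun x : E m => ‖x‖ ^ 2 * ∑ k, hs (T (φ n) k - S k)) (gam m) :=
      (integrable_of_PG (continuous_norm.pow 2) (pg_norm.pow 2)).mul_const _
    have i3 : Integrable (fun x => (M (φ n) i j x - Cf S i j x) ^ 2) (gam m) :=
      integrable_of_PG ((((hd _).m i j).cont.sub (Cf_cont hS i j)).pow 2)
        (PG_sq (((hd _).m i j).g.sub (Cf_pg hS i j)))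
    have hpt : ∀ x, (M (φ n) i j x - Cf S i j x) ^ 2 ≤
        2 * hs (ζ (φ n) x - ZT (T (φ n)) (co x)) + 2 * (‖x‖ ^ 2 * ∑ k, hs (T (φ n) k - S k)) := by
      intro x
      have e1 := hs_cfc_sub_le (hζ (φ n) x) (ZT_herm hS (co x)) (L := 1) mu_lip
      have e2 := entry_le_hs (cfc mu (ζ (φ n) x) - cfc mu (ZT S (co x))) i j
      rw [Matrix.sub_apply, ← hM] at e2
      have e3 : ζ (φ n) x - ZT S (co x) = (ζ (φ n) x - ZT (T (φ n)) (co x)) +
          ZT (fun k => T (φ n) k - S k) (co x) := by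
        rw [ZT_sub_T]; abel
      have e4 := hs_add_le (ζ (φ n) x - ZT (T (φ n)) (co x)) (ZT (fun k => T (φ n) k - S k) (co x))
      have e5 := hs_ZT_le (fun k => T (φ n) k - S k) (co x)
      rw [norm_sq_co] at e5
      rw [← e3] at e4
      unfold Cf
      linarith
    calc ∫ x, (M (φ n) i j x - Cf S i j x) ^ 2 ∂(gam m)
        ≤ ∫ x, (2 * hs (ζ (φ n) x - ZT (T (φ n)) (co x)) +
            2 * (‖x‖ ^ 2 * ∑ k, hs (T (φ n) k - S k))) ∂(gam m) :=
          integral_mono i3 ((i1.const_mul 2).add (i2.const_mul 2)) hpt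
      _ = _ := by
          rw [integral_add (i1.const_mul 2) (i2.const_mul 2), integral_const_mul,
            integral_const_mul, integral_mul_const, integral_norm_sq]
  -- the relations
  have hrel : Rel S := by
    have hc : ∀ n i j, Continuous (M (φ n) i j) := fun n i j => ((hd _).m i j).cont
    have hp : ∀ n i j, PG (M (φ n) i j) := fun n i j => ((hd _).m i j).g
    refine rel_of_close hS hSsq ?_ ?_
    · intro s hs0 hs1 i j k
      have l1 := lim_w (fun n => hc n i j) (fun n => hp n i j) (Cf_cont hS i j) (Cf_pg hS i j)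
        (c1_coord k).cont (c1_coord k).g (hL i j) hs0 hs1
      have l2 := lim_w (fun n => hc n i k) (fun n => hp n i k) (Cf_cont hS i k) (Cf_pg hS i k)
        (c1_coord j).cont (c1_coord j).g (hL i k) hs0 hs1
      refine tendsto_nhds_unique l1 (l2.congr fun n => ?_)
      exact (close1 (hd (φ n)) hs0 hs1 i j k).symm
    · intro s hs0 hs1 b i j k
      have wc : ∀ k, Continuous fun x : E m => x k * x b - if b = k then (1 : ℝ) else 0 := fun k =>
        ((c1_coord k).mul (c1_coord b)).cont.sub continuous_const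
      have wp : ∀ k, PG fun x : E m => x k * x b - if b = k then (1 : ℝ) else 0 := fun k =>
        ((c1_coord k).mul (c1_coord b)).g.sub (pg_const _)
      have l1 := lim_w (fun n => hc n i j) (fun n => hp n i j) (Cf_cont hS i j) (Cf_pg hS i j)
        (wc k) (wp k) (hL i j) hs0 hs1
      have l2 := lim_w (fun n => hc n i k) (fun n => hp n i k) (Cf_cont hS i k) (Cf_pg hS i k)
        (wc j) (wp j) (hL i k) hs0 hs1
      refine tendsto_nhds_unique l1 (l2.congr fun n => ?_)
      exact (close2 (hd (φ n)) hs0 hs1 b i j k).symm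
  obtain ⟨U, hU1, hU2, hU3⟩ := exists_frame_of_rel hrel
  refine ⟨φ, hφ, U, hU1, hU2, fun i j => ?_⟩
  have e : ∀ x : E m, Cf S i j x = ∑ α, U i α * U j α * mu (∑ k, U k α * x k) := by
    intro x
    have e1 : ZT S (co x) = U * Matrix.diagonal (fun α => ∑ k, U k α * x k) * Uᵀ := by
      ext p q
      rw [ZT_apply, Matrix.mul_apply]
      simp only [mul_diagonal, transpose_apply, hU3]
      have : ∀ k, co x k * ∑ α, U k α * U p α * U q α = ∑ α, (U k α * x k) * (U p α * U q α) := by
        intro k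
        rw [Finset.mul_sum]
        exact Finset.sum_congr rfl fun α _ => by simp only [co]; ring
      simp only [this]
      rw [Finset.sum_comm]
      refine Finset.sum_congr rfl fun α _ => ?_
      rw [← Finset.sum_mul]; ring
    unfold Cf
    rw [e1, cfc_conj_diag hU2 hU1, Matrix.mul_apply]
    refine Finset.sum_congr rfl fun α _ => ?_
    rw [mul_diagonal, transpose_apply]; ring
  have := hL i j
  unfold L2lim at this
  simp_rw [e] at this
  exact this

end Crest.Agent.R253.EqT593
end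
end

-- ▼ part R253/EqA_747
section

/-!
# R253 (T5, helper747), part A: Hilbert-Schmidt Lipschitz bound for spectral functions
-/

set_option autoImplicit false
open Matrix

namespace Crest.Agent.R253.Eq747

open Crest.Agent.R253.SpecCalc999

variable {m : ℕ}

/-- Hilbert-Schmidt norm squared -/
def hs (A : Mat m) : ℝ := ∑ i, ∑ j, A i j ^ 2

lemma hs_nonneg (A : Mat m) : 0 ≤ hs A :=
  Finset.sum_nonneg fun _ _ => Finset.sum_nonneg fun _ _ => sq_nonneg _














end Crest.Agent.R253.Eq747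
end

-- ▼ part R253/EqB_747
section

/-!
# R253, equality case, law part (helper747)

* `map_kk`   : the law of `kk` under the standard Gaussian on the line is the exponential law;
* `map_frame`: for an orthonormal basis `b`, the law of `(kk ⟨b a, t⟩)_a` is the product of
  exponential laws;
* `final_law`: if `∫ φ(W x + c) f(x) dx = E φ((kk ⟨b a, t⟩)_a)` for all bounded continuous `φ`, with
  `W` invertible, then `f` is a.e. the density of the equality case of `S0391`.
-/

set_option autoImplicit false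

open MeasureTheory ProbabilityTheory Set Filter Topology
open scoped ENNReal NNReal

namespace Crest.Agent.R253.EqB747

open Crest.Agent.R253.EqEasy505 Crest.Agent.R253.Eq435

section OneD

open Crest.Agent.R253.Mills37

lemma kk_strictMono : StrictMono kk := by
  intro a b hab
  have h1 := Q_anti hab
  have h2 := Q_pos a
  have h3 := Q_pos b
  unfold kk
  have := Real.log_lt_log h3 h1
  linarith

lemma kk_continuous : Continuous kk :=
  continuous_iff_continuousAt.2 fun z => (kk_hasDerivAt z).continuousAt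

lemma kk_surj {s : ℝ} (hs : 0 < s) : ∃ z, kk z = s := by
  -- near `-∞` the value is small, near `+∞` the value is large
  have h1 : ∃ a, kk a < s := by
    have := (kk_tendsto_bot.eventually (gt_mem_nhds hs))
    exact this.exists
  have h2 : ∃ b, s < kk b := by
    have h := Q_tendsto_top.eventually (gt_mem_nhds (Real.exp_pos (-s)))
    obtain ⟨b, hb⟩ := h.exists
    refine ⟨b, ?_⟩
    unfold kk
    have := Real.log_lt_log (Q_pos b) hb
    rw [Real.log_exp] at this
    linarith
  obtain ⟨a, ha⟩ := h1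
  obtain ⟨b, hb⟩ := h2
  obtain ⟨z, hz⟩ := mem_range_of_exists_le_of_exists_ge kk_continuous ⟨a, ha.le⟩ ⟨b, hb.le⟩
  exact ⟨z, hz⟩

lemma gaussianPDF_eq (z : ℝ) : gaussianPDF 0 1 z = ENNReal.ofReal (ph z) := by
  unfold gaussianPDF gaussianPDFReal ph
  congr 1
  simp

lemma mu_mul_Q (z : ℝ) : mu z * Q z = ph z := by
  unfold mu
  exact div_mul_cancel₀ _ (Q_pos z).ne'

lemma exp_neg_kk (z : ℝ) : Real.exp (-kk z) = Q z := by
  unfold kk
  rw [neg_neg, Real.exp_log (Q_pos z)]

/-- law of `kk` under the standard Gaussian -/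
theorem map_kk : (gaussianReal 0 1).map kk
    = (volume : Measure ℝ).withDensity (fun s => ENNReal.ofReal (e1 s)) := by
  ext S hS
  rw [Measure.map_apply kk_continuous.measurable hS, withDensity_apply _ hS,
    gaussianReal_of_var_ne_zero 0 one_ne_zero,
    withDensity_apply _ (kk_continuous.measurable hS)]
  have himg : kk '' (kk ⁻¹' S) = S ∩ Ioi 0 := by
    ext s
    constructor
    · rintro ⟨z, hz, rfl⟩
      exact ⟨hz, kk_pos z⟩
    · rintro ⟨h1, h2⟩
      obtain ⟨z, hz⟩ := kk_surj h2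
      exact ⟨z, by rw [mem_preimage, hz]; exact h1, hz⟩
  have hcv := lintegral_image_eq_lintegral_abs_deriv_mul (s := kk ⁻¹' S) (f := kk) (f' := mu)
    (kk_continuous.measurable hS) (fun x _ => (kk_hasDerivAt x).hasDerivWithinAt)
    (kk_strictMono.injective.injOn) (fun s => ENNReal.ofReal (e1 s))
  rw [himg] at hcv
  have h1 : ∫⁻ s in S, ENNReal.ofReal (e1 s) = ∫⁻ s in S ∩ Ioi 0, ENNReal.ofReal (e1 s) := by
    rw [← lintegral_indicator hS, ← lintegral_indicator (hS.inter measurableSet_Ioi)]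
    apply lintegral_congr_ae
    filter_upwards [ae_ne 0] with s hs
    by_cases h : s ∈ S
    · by_cases h0 : 0 < s
      · rw [indicator_of_mem h, indicator_of_mem (show s ∈ S ∩ Ioi 0 from ⟨h, h0⟩)]
      · rw [indicator_of_mem h, indicator_of_notMem (fun h' => h0 h'.2)]
        have : s < 0 := lt_of_le_of_ne (not_lt.1 h0) hs
        rw [e1_of_neg this, ENNReal.ofReal_zero]
    · rw [indicator_of_notMem h, indicator_of_notMem (fun h' => h h'.1)]
  rw [h1, hcv]
  refine lintegral_congr fun z => ?_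
  rw [gaussianPDF_eq, abs_of_pos (mu_pos z), e1_of_nonneg (kk_pos z).le, exp_neg_kk,
    ← ENNReal.ofReal_mul (mu_pos z).le, mu_mul_Q]

end OneD

variable {m : ℕ}

lemma integral_e1 : ∫ t, e1 t = 1 := by
  have := (e1_moment 0).2
  simpa using this

lemma integrable_e1 : Integrable e1 := by
  have := (e1_moment 0).1
  simpa using this

instance : IsProbabilityMeasure ((volume : Measure ℝ).withDensity (fun s => ENNReal.ofReal (e1 s))) :=
  ⟨by
    rw [withDensity_apply _ MeasurableSet.univ, Measure.restrict_univ,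
      ← ofReal_integral_eq_lintegral_ofReal integrable_e1 (ae_of_all _ e1_nonneg), integral_e1,
      ENNReal.ofReal_one]⟩

lemma eP_nonneg (u : Fin m → ℝ) : 0 ≤ eP u := Finset.prod_nonneg fun i _ => e1_nonneg _

/-- product of exponential laws -/
theorem pi_exp : Measure.pi (fun _ : Fin m => (volume : Measure ℝ).withDensity
      (fun s => ENNReal.ofReal (e1 s)))
    = (volume : Measure (Fin m → ℝ)).withDensity (fun u => ENNReal.ofReal (eP u)) := by
  refine Measure.pi_eq fun s hs => ?_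
  have hpi : MeasurableSet (Set.pi Set.univ s) := MeasurableSet.univ_pi hs
  rw [withDensity_apply _ hpi]
  have h1 : ∀ i, (volume : Measure ℝ).withDensity (fun s => ENNReal.ofReal (e1 s)) (s i)
      = ENNReal.ofReal (∫ t, (s i).indicator e1 t) := by
    intro i
    rw [withDensity_apply _ (hs i), ← lintegral_indicator (hs i),
      ofReal_integral_eq_lintegral_ofReal (integrable_e1.indicator (hs i))
        (ae_of_all _ fun t => indicator_nonneg (fun _ _ => e1_nonneg _) _)]
    refine lintegral_congr fun t => ?_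
    by_cases ht : t ∈ s i
    · rw [indicator_of_mem ht, indicator_of_mem ht]
    · rw [indicator_of_notMem ht, indicator_of_notMem ht, ENNReal.ofReal_zero]
  simp_rw [h1]
  rw [← ENNReal.ofReal_prod_of_nonneg (fun i _ => integral_nonneg fun t =>
      indicator_nonneg (fun _ _ => e1_nonneg _) _),
    ← integral_fintype_prod_volume_eq_prod (fun i : Fin m => fun t => (s i).indicator e1 t),
    ← lintegral_indicator hpi]
  have h2 : ∀ u : Fin m → ℝ, ∏ i, (s i).indicator e1 (u i) = (Set.pi Set.univ s).indicator eP u := by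
    intro u
    by_cases hu : u ∈ Set.pi Set.univ s
    · rw [indicator_of_mem hu]
      unfold eP
      exact Finset.prod_congr rfl fun i _ => indicator_of_mem (hu i (mem_univ i)) _
    · rw [indicator_of_notMem hu]
      simp only [mem_univ_pi, not_forall] at hu
      obtain ⟨i, hi⟩ := hu
      exact Finset.prod_eq_zero (Finset.mem_univ i) (indicator_of_notMem hi _)
  simp_rw [h2]
  rw [ofReal_integral_eq_lintegral_ofReal (eP_one.1.indicator hpi)
        (ae_of_all _ fun t => indicator_nonneg (fun _ _ => eP_nonneg _) _)]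
  refine lintegral_congr fun t => ?_
  by_cases ht : t ∈ Set.pi Set.univ s
  · rw [indicator_of_mem ht, indicator_of_mem ht]
  · rw [indicator_of_notMem ht, indicator_of_notMem ht, ENNReal.ofReal_zero]

open Crest.Agent.R238.Gap Crest.Agent.R253.Meh74

/-- the linear form `⟨u_α, t⟩`, `u_α` = the `α`-th column of `U` -/
def ul (U : Matrix (Fin m) (Fin m) ℝ) (α : Fin m) (t : E m) : ℝ := ∑ k, U k α * t k

lemma continuous_ul (U : Matrix (Fin m) (Fin m) ℝ) (α : Fin m) : Continuous (ul U α) := by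
  unfold ul; fun_prop

/-- law of `(kk ⟨u_α, t⟩)_α` under the standard Gaussian -/
theorem map_frame {U : Matrix (Fin m) (Fin m) ℝ} (hU : U.transpose * U = 1) :
    (gam m).map (fun t : E m => fun α => Mills37.kk (ul U α t))
      = (volume : Measure (Fin m → ℝ)).withDensity (fun u => ENNReal.ofReal (eP u)) := by
  classical
  have hUe : ∀ a b, ∑ k, U k a * U k b = if a = b then 1 else 0 := by
    intro a b
    have := congrFun (congrFun hU a) b
    rw [Matrix.mul_apply] at this
    simpa [Matrix.transpose_apply, Matrix.one_apply] using this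
  set v : Fin m → E m := fun α => WithLp.toLp 2 (fun k => U k α) with hv
  have hin : ∀ α (t : E m), inner ℝ (v α) t = ul U α t := by
    intro α t
    rw [hv, EuclideanSpace.inner_eq_star_dotProduct]
    simp [dotProduct, ul, mul_comm]
  have hon : Orthonormal ℝ v := by
    rw [orthonormal_iff_ite]
    intro a b
    rw [hin, ← hUe a b]
    rfl
  have hsp : ⊤ ≤ Submodule.span ℝ (Set.range v) := by
    rw [hon.linearIndependent.span_eq_top_of_card_eq_finrank' (by simp)]
  set b : OrthonormalBasis (Fin m) ℝ (E m) := OrthonormalBasis.mk hon hsp with hb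
  have hbv : ∀ α, b α = v α := fun α => by rw [hb, OrthonormalBasis.coe_mk]
  have hmeas : Measurable (fun t : E m => fun α => Mills37.kk (ul U α t)) :=
    measurable_pi_lambda _ fun α => (kk_continuous.comp (continuous_ul U α)).measurable
  have hmeas2 : Measurable (fun x : Fin m → ℝ => ∑ i, x i • b i) :=
    (continuous_finsetSum _ fun i _ => (continuous_apply i).smul continuous_const).measurable
  have h1 : (gam m) = (Measure.pi fun _ : Fin m ↦ gaussianReal 0 1).map
      (fun x ↦ ∑ i, x i • b i) := stdGaussian_eq_map_pi_orthonormalBasis b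
  rw [h1, Measure.map_map hmeas hmeas2]
  have h2 : (fun t : E m => fun α => Mills37.kk (ul U α t)) ∘ (fun x : Fin m → ℝ => ∑ i, x i • b i)
      = fun x α => Mills37.kk (x α) := by
    funext x α
    simp only [Function.comp_apply]
    congr 1
    rw [← hin, inner_sum, Finset.sum_eq_single α]
    · rw [inner_smul_right, hbv, orthonormal_iff_ite.1 hon]; simp
    · intro β _ hβ
      rw [inner_smul_right, hbv, orthonormal_iff_ite.1 hon, if_neg (Ne.symm hβ), mul_zero]
    · intro h; exact absurd (Finset.mem_univ α) h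
  rw [h2]
  have h3 : ∀ _i : Fin m, SigmaFinite ((gaussianReal 0 1).map Mills37.kk) := fun _ => by
    rw [map_kk]; infer_instance
  rw [Measure.pi_map_pi (μ := fun _ : Fin m => gaussianReal 0 1) (f := fun _ => Mills37.kk)
    (fun _ => kk_continuous.measurable.aemeasurable)]
  simp_rw [map_kk]
  exact pi_exp

/-- expectation of a function of `(kk ⟨u_α, t⟩)_α` -/
theorem integral_frame {U : Matrix (Fin m) (Fin m) ℝ} (hU : U.transpose * U = 1)
    {F : (Fin m → ℝ) → ℝ} (hF : Measurable F) :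
    ∫ t, F (fun α => Mills37.kk (ul U α t)) ∂(gam m) = ∫ u, F u * eP u := by
  have hmeas : Measurable (fun t : E m => fun α => Mills37.kk (ul U α t)) :=
    measurable_pi_lambda _ fun α => (kk_continuous.comp (continuous_ul U α)).measurable
  rw [← integral_map (φ := fun t : E m => fun α => Mills37.kk (ul U α t)) hmeas.aemeasurable
    hF.aestronglyMeasurable, map_frame hU,
    integral_withDensity_eq_integral_toReal_smul₀ measurable_eP.ennreal_ofReal.aemeasurable
      (ae_of_all _ fun _ => ENNReal.ofReal_lt_top)]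
  refine integral_congr_ae (ae_of_all _ fun u => ?_)
  simp only [ENNReal.toReal_ofReal (eP_nonneg u), smul_eq_mul]
  ring

lemma integrable_eM {M : Matrix (Fin m) (Fin m) ℝ} (hM : M.det ≠ 0) (b : Fin m → ℝ) :
    Integrable (eM M b) ∧ ∫ x, eM M b x = 1 := by
  have h := integral_mul_eM (fun _ => (1:ℝ)) hM b
  simp only [one_mul] at h
  rw [eP_one.2] at h
  refine ⟨?_, h⟩
  by_contra hh
  rw [integral_undef hh] at h
  exact zero_ne_one h

lemma eM_nonneg (M : Matrix (Fin m) (Fin m) ℝ) (b x : Fin m → ℝ) : 0 ≤ eM M b x := by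
  unfold eM
  exact mul_nonneg (inv_nonneg.2 (abs_nonneg _)) (indicator_nonneg (fun _ _ => (Real.exp_pos _).le) _)

/-- a density with the law of `b + M (kk ⟨u_α, t⟩)_α` is the density of the equality case -/
theorem law_unique {f : (Fin m → ℝ) → ℝ} (hf : Measurable f) (hf0 : ∀ x, 0 ≤ f x)
    (hf1 : ∫ x, f x = 1) {U : Matrix (Fin m) (Fin m) ℝ} (hU : U.transpose * U = 1)
    {M : Matrix (Fin m) (Fin m) ℝ} {b : Fin m → ℝ} (hM : M.det ≠ 0)
    (h : ∀ ψ : BoundedContinuousFunction (Fin m → ℝ) ℝ, ∫ x, ψ x * f x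
      = ∫ t, ψ (b + M.mulVec (fun α => Mills37.kk (ul U α t))) ∂(gam m)) :
    f =ᵐ[volume] eM M b := by
  have hfi : Integrable f := by
    by_contra hh
    rw [integral_undef hh] at hf1
    exact zero_ne_one hf1
  have hMi := integrable_eM hM b
  set μ : Measure (Fin m → ℝ) := volume.withDensity (fun x => ENNReal.ofReal (f x)) with hμ
  set ν : Measure (Fin m → ℝ) := volume.withDensity (fun x => ENNReal.ofReal (eM M b x)) with hν
  haveI : IsFiniteMeasure μ := isFiniteMeasure_withDensity_ofReal hfi.2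
  haveI : IsFiniteMeasure ν := isFiniteMeasure_withDensity_ofReal hMi.1.2
  have hconv : ∀ (g : (Fin m → ℝ) → ℝ) (_ : Measurable g) (_ : ∀ x, 0 ≤ g x)
      (ψ : BoundedContinuousFunction (Fin m → ℝ) ℝ),
      ∫ x, ψ x ∂(volume.withDensity (fun x => ENNReal.ofReal (g x))) = ∫ x, ψ x * g x := by
    intro g hg hg0 ψ
    rw [integral_withDensity_eq_integral_toReal_smul₀ hg.ennreal_ofReal.aemeasurable
      (ae_of_all _ fun _ => ENNReal.ofReal_lt_top)]
    refine integral_congr_ae (ae_of_all _ fun u => ?_)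
    simp only [ENNReal.toReal_ofReal (hg0 u), smul_eq_mul]
    ring
  have hμν : μ = ν := by
    apply ext_of_forall_integral_eq_of_IsFiniteMeasure
    intro ψ
    rw [hμ, hν, hconv f hf hf0, hconv _ (measurable_eM M b) (eM_nonneg M b), h ψ]
    have hc : Continuous (fun u : Fin m → ℝ => ψ (b + M.mulVec u)) :=
      ψ.continuous.comp (continuous_const.add (Continuous.matrix_mulVec continuous_const
        continuous_id))
    rw [integral_frame hU (F := fun u => ψ (b + M.mulVec u)) hc.measurable,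
      integral_mul_eM (fun x => ψ x) hM b]
  have hae := (withDensity_eq_iff hf.ennreal_ofReal.aemeasurable
    (measurable_eM M b).ennreal_ofReal.aemeasurable (by
      rw [← ofReal_integral_eq_lintegral_ofReal hfi (ae_of_all _ hf0)]
      exact ENNReal.ofReal_ne_top)).1 hμν
  filter_upwards [hae] with x hx
  have := congrArg ENNReal.toReal hx
  rwa [ENNReal.toReal_ofReal (hf0 x), ENNReal.toReal_ofReal (eM_nonneg M b x)] at this

end Crest.Agent.R253.EqB747
end

-- ▼ part R253/EqD_747
section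

/-!
# R253, equality case, convergence part (helper747)

If the Jacobians `M n` of the maps `G n` converge in `L²` to `Σ_α u_α u_αᵀ mu ⟨u_α, t⟩`, and the laws
of `b n + B n (G n)` converge to `f` with converging means and covariances (nondegenerate limit), then
`f` is the density of the equality case of `S0391`.
-/

set_option autoImplicit false

open MeasureTheory ProbabilityTheory Set Filter Topology
open scoped ENNReal NNReal ContDiff

noncomputable section

namespace Crest.Agent.R253.EqD747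

open Crest.Agent.R238.Gap Crest.Agent.R238.GapPoinc Crest.Agent.R238.GapPc
open Crest.Agent.R253.Meh74 Crest.Agent.R253.ChVar56
open Crest.Agent.R253.EqEasy505 Crest.Agent.R253.EqB747
open Crest.Agent.R253.Mills37 (mu kk ee mu_pos kk_pos mu_hasDerivAt kk_hasDerivAt mu_ee_pos
  mu_ee_lt_one)

variable {m : ℕ}

/-! ### growth of `mu`, `kk` -/

lemma mu_lip (x y : ℝ) : |mu x - mu y| ≤ |x - y| := by
  have h := Convex.norm_image_sub_le_of_norm_hasDerivWithin_le (f := mu)
    (f' := fun z => mu z * ee z) (C := 1)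
    (s := Set.univ) (x := y) (y := x) (fun z _ => (mu_hasDerivAt z).hasDerivWithinAt)
    (fun z _ => by
      rw [Real.norm_eq_abs, abs_of_pos (mu_ee_pos z)]
      exact (mu_ee_lt_one z).le) convex_univ (mem_univ _) (mem_univ _)
  simpa [Real.norm_eq_abs] using h

lemma mu_cont : Continuous mu :=
  continuous_iff_continuousAt.mpr fun z => (mu_hasDerivAt z).continuousAt

lemma mu_le (z : ℝ) : |mu z| ≤ mu 0 + |z| := by
  have h := mu_lip z 0
  rw [sub_zero] at h
  have := mu_pos 0
  calc |mu z| = |mu 0 + (mu z - mu 0)| := by ring_nf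
    _ ≤ |mu 0| + |mu z - mu 0| := abs_add_le _ _
    _ ≤ mu 0 + |z| := by rw [abs_of_pos this]; linarith

lemma kk_le' (z : ℝ) : |kk z| ≤ kk 0 + (mu 0 + |z|) * |z| := by
  have hconv : Convex ℝ {y : ℝ | |y| ≤ |z|} := by
    have : {y : ℝ | |y| ≤ |z|} = Icc (-|z|) |z| := by ext y; simp [abs_le]
    rw [this]; exact convex_Icc _ _
  have h := Convex.norm_image_sub_le_of_norm_hasDerivWithin_le (f := kk)
    (f' := mu) (C := mu 0 + |z|)
    (s := {y : ℝ | |y| ≤ |z|}) (x := 0) (y := z) (fun z _ => (kk_hasDerivAt z).hasDerivWithinAt)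
    (fun y hy => by
      rw [Real.norm_eq_abs]
      have h1 := mu_le y
      have h2 : |y| ≤ |z| := hy
      linarith) hconv (by simp) (by simp)
  simp only [Real.norm_eq_abs, sub_zero] at h
  have h0 := kk_pos 0
  calc |kk z| = |kk 0 + (kk z - kk 0)| := by ring_nf
    _ ≤ |kk 0| + |kk z - kk 0| := abs_add_le _ _
    _ ≤ _ := by rw [abs_of_pos h0]; linarith

/-- `ul` as a continuous linear map -/
def uL (U : Matrix (Fin m) (Fin m) ℝ) (α : Fin m) : E m →L[ℝ] ℝ :=
  ∑ k, U k α • (EuclideanSpace.proj k : E m →L[ℝ] ℝ)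

lemma uL_apply (U : Matrix (Fin m) (Fin m) ℝ) (α : Fin m) (t : E m) : uL U α t = ul U α t := by
  simp [uL, ul]

lemma pd_comp_ul {h h' : ℝ → ℝ} (hh : ∀ z, HasDerivAt h (h' z) z) (U : Matrix (Fin m) (Fin m) ℝ)
    (α i : Fin m) (t : E m) :
    pd i (fun t => h (ul U α t)) t = U i α * h' (ul U α t) := by
  have h1 : HasFDerivAt (ul U α) (uL U α) t := by
    have := (uL U α).hasFDerivAt (x := t)
    have e : (⇑(uL U α)) = ul U α := funext (uL_apply U α)
    rwa [e] at this
  have h2 := (hh (ul U α t)).comp_hasFDerivAt t h1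
  unfold pd
  have h3 : fderiv ℝ (fun t => h (ul U α t)) t = h' (ul U α t) • uL U α := h2.fderiv
  rw [h3]
  simp [uL]
  ring

lemma pg_ul (U : Matrix (Fin m) (Fin m) ℝ) (α : Fin m) : PG (ul U α) := by
  unfold ul
  exact PG.sum _ fun k _ => (pg_const (U k α)).mul (pg_coord k)

lemma pg_mu_ul (U : Matrix (Fin m) (Fin m) ℝ) (α : Fin m) : PG (fun t : E m => mu (ul U α t)) := by
  refine PG.mono ((pg_const (mu 0)).add (pg_ul U α).abs) fun t => ?_
  have h := mu_le (ul U α t)
  exact h.trans (le_abs_self _)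

lemma pg_kk_ul (U : Matrix (Fin m) (Fin m) ℝ) (α : Fin m) : PG (fun t : E m => kk (ul U α t)) := by
  refine PG.mono ((pg_const (kk 0)).add (((pg_const (mu 0)).add (pg_ul U α).abs).mul
    (pg_ul U α).abs)) fun t => ?_
  have h := kk_le' (ul U α t)
  exact h.trans (le_abs_self _)

lemma c1_kk (U : Matrix (Fin m) (Fin m) ℝ) (α : Fin m) : C1 (fun t : E m => kk (ul U α t)) := by
  refine ⟨?_, pg_kk_ul U α, fun i => ?_⟩
  · have h1 : ContDiff ℝ 1 kk := by
      rw [contDiff_one_iff_deriv]
      refine ⟨fun z => (kk_hasDerivAt z).differentiableAt, ?_⟩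
      have : deriv kk = mu := funext fun z => (kk_hasDerivAt z).deriv
      rw [this]; exact mu_cont
    have h2 := h1.comp (uL U α).contDiff
    have e : kk ∘ (⇑(uL U α)) = fun t : E m => kk (ul U α t) := by
      funext t; simp [uL_apply]
    rwa [e] at h2
  · have : pd i (fun t : E m => kk (ul U α t)) = fun t => U i α * mu (ul U α t) :=
      funext fun t => pd_comp_ul kk_hasDerivAt U α i t
    rw [this]
    exact (pg_const _).mul (pg_mu_ul U α)

/-- the limit map (up to constants) -/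
def Ginf (U : Matrix (Fin m) (Fin m) ℝ) (i : Fin m) (t : E m) : ℝ := ∑ α, U i α * kk (ul U α t)

/-- its Jacobian -/
def Minf (U : Matrix (Fin m) (Fin m) ℝ) (i j : Fin m) (t : E m) : ℝ :=
  ∑ α, U i α * U j α * mu (ul U α t)

lemma c1_Ginf (U : Matrix (Fin m) (Fin m) ℝ) (i : Fin m) : C1 (Ginf U i) := by
  unfold Ginf
  exact C1.sum fun α _ => (c1_kk U α).smul _

lemma pd_Ginf (U : Matrix (Fin m) (Fin m) ℝ) (i j : Fin m) (t : E m) :
    pd j (Ginf U i) t = Minf U i j t := by
  unfold Ginf Minf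
  rw [pd_sum' (fun α _ => (c1_kk U α).smul _)]
  refine Finset.sum_congr rfl fun α _ => ?_
  rw [(c1_const (U i α)).pd_mul (c1_kk U α) j t, pd_comp_ul kk_hasDerivAt U α j t]
  have : pd j (fun _ : E m => U i α) t = 0 := by simp [pd]
  rw [this]
  ring

/-! ### `L²` convergence of the centred maps -/

/-- centred function -/
def cen (f : E m → ℝ) (t : E m) : ℝ := f t - ∫ s, f s ∂(gam m)

lemma c1_cen {f : E m → ℝ} (hf : C1 f) : C1 (cen f) := by
  unfold cen
  exact hf.sub (c1_const _)

lemma C1.integrable {f : E m → ℝ} (hf : C1 f) : Integrable f (gam m) :=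
  integrable_of_PG hf.cont hf.g

lemma poincare_cen {f g : E m → ℝ} (hf : C1 f) (hg : C1 g) :
    ∫ t, (cen f t - cen g t) ^ 2 ∂(gam m) ≤ ∑ j, ∫ t, (pd j f t - pd j g t) ^ 2 ∂(gam m) := by
  have h1 : C1 (fun t => cen f t - cen g t) := (c1_cen hf).sub (c1_cen hg)
  have h := poincare1 h1
  have h0 : ∫ t, (cen f t - cen g t) ∂(gam m) = 0 := by
    have hf' := C1.integrable hf
    have hg' := C1.integrable hg
    have e : ∀ t, cen f t - cen g t = (f t - g t) - ((∫ s, f s ∂(gam m)) - ∫ s, g s ∂(gam m)) := by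
      intro t; unfold cen; ring
    simp_rw [e]
    have hfg : Integrable (fun t => f t - g t) (gam m) := hf'.sub hg'
    rw [integral_sub hfg (integrable_const _), integral_sub hf' hg']
    simp
  rw [h0] at h
  have hpd : ∀ j t, pd j (fun t => cen f t - cen g t) t = pd j f t - pd j g t := by
    intro j t
    have e : (fun t => cen f t - cen g t) = fun t => (f t + (-1) * g t) +
        (-((∫ s, f s ∂(gam m)) - ∫ s, g s ∂(gam m))) := by
      funext t; unfold cen; ring
    rw [e, (hf.add (hg.smul (-1))).pd_add (c1_const _) j t, hf.pd_add (hg.smul (-1)) j t,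
      (c1_const (-1 : ℝ)).pd_mul hg j t]
    simp [pd]
    ring
  simp_rw [hpd] at h
  simpa using h

theorem tendsto_cen {U : Matrix (Fin m) (Fin m) ℝ}
    {G : ℕ → Fin m → E m → ℝ} {M : ℕ → Fin m → Fin m → E m → ℝ} (hd : ∀ n, HD (G n) (M n))
    (hM : ∀ i j, Tendsto (fun n => ∫ t, (M n i j t - Minf U i j t) ^ 2 ∂(gam m)) atTop (𝓝 0))
    (i : Fin m) :
    Tendsto (fun n => ∫ t, (cen (G n i) t - cen (Ginf U i) t) ^ 2 ∂(gam m)) atTop (𝓝 0) := by
  have h1 : Tendsto (fun n => ∑ j, ∫ t, (M n i j t - Minf U i j t) ^ 2 ∂(gam m)) atTop (𝓝 0) := by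
    have := tendsto_finsetSum (Finset.univ : Finset (Fin m)) fun j _ => hM i j
    simpa using this
  refine squeeze_zero (fun n => integral_nonneg fun t => sq_nonneg _) (fun n => ?_) h1
  have h2 := poincare_cen ((hd n).g i) (c1_Ginf U i)
  simp_rw [pd_Ginf] at h2
  have h3 : ∀ j, pd j (G n i) = M n i j := fun j => (hd n).d i j
  simp_rw [h3] at h2
  exact h2

/-! ### Cauchy–Schwarz -/

lemma cs_gam {f g : E m → ℝ} (hf : C1 f) (hg : C1 g) :
    |∫ t, f t * g t ∂(gam m)| ≤ √(∫ t, f t ^ 2 ∂(gam m)) * √(∫ t, g t ^ 2 ∂(gam m)) := by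
  have if2 : Integrable (fun t => f t ^ 2) (gam m) := integrable_of_PG (hf.cont.pow 2) (hf.g.pow 2)
  have ig2 : Integrable (fun t => g t ^ 2) (gam m) := integrable_of_PG (hg.cont.pow 2) (hg.g.pow 2)
  have ifg : Integrable (fun t => f t * g t) (gam m) :=
    integrable_of_PG (hf.cont.mul hg.cont) (hf.g.mul hg.g)
  set a := ∫ t, f t ^ 2 ∂(gam m)
  set b := ∫ t, g t ^ 2 ∂(gam m)
  set c := ∫ t, f t * g t ∂(gam m)
  have ha : 0 ≤ a := integral_nonneg fun _ => sq_nonneg _
  have hb : 0 ≤ b := integral_nonneg fun _ => sq_nonneg _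
  have hq : ∀ s : ℝ, 0 ≤ a * (s * s) + (2 * c) * s + b := by
    intro s
    have h1 : 0 ≤ ∫ t, (s * f t + g t) ^ 2 ∂(gam m) := integral_nonneg fun _ => sq_nonneg _
    have h2 : ∫ t, (s * f t + g t) ^ 2 ∂(gam m) = a * (s * s) + (2 * c) * s + b := by
      have e : ∀ t, (s * f t + g t) ^ 2 = s ^ 2 * f t ^ 2 + 2 * s * (f t * g t) + g t ^ 2 := by
        intro t; ring
      simp_rw [e]
      have j1 : Integrable (fun t => s ^ 2 * f t ^ 2) (gam m) := if2.const_mul _
      have j2 : Integrable (fun t => 2 * s * (f t * g t)) (gam m) := ifg.const_mul _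
      have j12 : Integrable (fun t => s ^ 2 * f t ^ 2 + 2 * s * (f t * g t)) (gam m) := j1.add j2
      rw [integral_add j12 ig2, integral_add j1 j2, integral_const_mul, integral_const_mul]
      ring
    rwa [h2] at h1
  have hdisc := discrim_le_zero hq
  unfold discrim at hdisc
  have h3 : c ^ 2 ≤ a * b := by nlinarith
  rw [← Real.sqrt_mul ha]
  exact Real.abs_le_sqrt h3

/-- convergence of products -/
theorem tendsto_cov {f g : ℕ → E m → ℝ} {f0 g0 : E m → ℝ} (hf : ∀ n, C1 (f n)) (hg : ∀ n, C1 (g n))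
    (hf0 : C1 f0) (hg0 : C1 g0)
    (h1 : Tendsto (fun n => ∫ t, (f n t - f0 t) ^ 2 ∂(gam m)) atTop (𝓝 0))
    (h2 : Tendsto (fun n => ∫ t, (g n t - g0 t) ^ 2 ∂(gam m)) atTop (𝓝 0)) :
    Tendsto (fun n => ∫ t, f n t * g n t ∂(gam m)) atTop (𝓝 (∫ t, f0 t * g0 t ∂(gam m))) := by
  rw [tendsto_iff_norm_sub_tendsto_zero]
  have s1 : Tendsto (fun n => √(∫ t, (f n t - f0 t) ^ 2 ∂(gam m))) atTop (𝓝 0) := by
    have := (Real.continuous_sqrt.tendsto 0).comp h1
    rwa [Real.sqrt_zero] at this
  have s2 : Tendsto (fun n => √(∫ t, (g n t - g0 t) ^ 2 ∂(gam m))) atTop (𝓝 0) := by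
    have := (Real.continuous_sqrt.tendsto 0).comp h2
    rwa [Real.sqrt_zero] at this
  have s3 : Tendsto (fun n => √(∫ t, (f n t - f0 t) ^ 2 ∂(gam m)) *
      √(∫ t, (g n t - g0 t) ^ 2 ∂(gam m)) +
      √(∫ t, (f n t - f0 t) ^ 2 ∂(gam m)) * √(∫ t, g0 t ^ 2 ∂(gam m)) +
      √(∫ t, f0 t ^ 2 ∂(gam m)) * √(∫ t, (g n t - g0 t) ^ 2 ∂(gam m))) atTop (𝓝 0) := by
    have := ((s1.mul s2).add (s1.mul_const (√(∫ t, g0 t ^ 2 ∂(gam m))))).add
      (s2.const_mul (√(∫ t, f0 t ^ 2 ∂(gam m))))
    simpa using this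
  refine squeeze_zero (fun n => norm_nonneg _) (fun n => ?_) s3
  have cf : C1 (fun t => f n t - f0 t) := (hf n).sub hf0
  have cg : C1 (fun t => g n t - g0 t) := (hg n).sub hg0
  have i1 := C1.integrable (cf.mul cg)
  have i2 := C1.integrable (cf.mul hg0)
  have i3 := C1.integrable (hf0.mul cg)
  have i4 := C1.integrable (hf0.mul hg0)
  have e : (∫ t, f n t * g n t ∂(gam m)) - ∫ t, f0 t * g0 t ∂(gam m) =
      (∫ t, (f n t - f0 t) * (g n t - g0 t) ∂(gam m)) + (∫ t, (f n t - f0 t) * g0 t ∂(gam m)) +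
        ∫ t, f0 t * (g n t - g0 t) ∂(gam m) := by
    have e1 : ∀ t, f n t * g n t = ((f n t - f0 t) * (g n t - g0 t) + (f n t - f0 t) * g0 t) +
        f0 t * (g n t - g0 t) + f0 t * g0 t := by intro t; ring
    simp_rw [e1]
    have i12 : Integrable (fun t => (f n t - f0 t) * (g n t - g0 t) + (f n t - f0 t) * g0 t)
      (gam m) := i1.add i2
    have i123 : Integrable (fun t => (f n t - f0 t) * (g n t - g0 t) + (f n t - f0 t) * g0 t +
      f0 t * (g n t - g0 t)) (gam m) := i12.add i3
    rw [integral_add i123 i4, integral_add i12 i3, integral_add i1 i2]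
    ring
  rw [Real.norm_eq_abs, e]
  refine (abs_add_le _ _).trans (add_le_add ((abs_add_le _ _).trans (add_le_add ?_ ?_)) ?_)
  · exact cs_gam cf cg
  · exact cs_gam cf hg0
  · exact cs_gam hf0 cg

/-! ### covariance of the limit -/

lemma integrable_kk (U : Matrix (Fin m) (Fin m) ℝ) (α : Fin m) :
    Integrable (fun t : E m => kk (ul U α t)) (gam m) := C1.integrable (c1_kk U α)

lemma integral_kk {U : Matrix (Fin m) (Fin m) ℝ} (hU : U.transpose * U = 1) (α : Fin m) :
    ∫ t, kk (ul U α t) ∂(gam m) = 1 := by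
  have h := integral_frame hU (F := fun u => u α) (measurable_pi_apply α)
  rw [(eP_lin α).2] at h
  exact h

lemma integral_kk_kk {U : Matrix (Fin m) (Fin m) ℝ} (hU : U.transpose * U = 1) (α β : Fin m) :
    ∫ t, (kk (ul U α t) - 1) * (kk (ul U β t) - 1) ∂(gam m) = if α = β then 1 else 0 := by
  have h := integral_frame hU (F := fun u => (u α - 1) * (u β - 1))
    (((measurable_pi_apply α).sub_const _).mul ((measurable_pi_apply β).sub_const _))
  rw [(eP_quad α β).2] at h
  exact h

lemma integral_Ginf {U : Matrix (Fin m) (Fin m) ℝ} (hU : U.transpose * U = 1) (i : Fin m) :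
    ∫ t, Ginf U i t ∂(gam m) = ∑ α, U i α := by
  unfold Ginf
  rw [integral_finsetSum _ fun α _ => (integrable_kk U α).const_mul _]
  refine Finset.sum_congr rfl fun α _ => ?_
  rw [integral_const_mul, integral_kk hU, mul_one]

lemma cen_Ginf {U : Matrix (Fin m) (Fin m) ℝ} (hU : U.transpose * U = 1) (i : Fin m) (t : E m) :
    cen (Ginf U i) t = ∑ α, U i α * (kk (ul U α t) - 1) := by
  unfold cen
  rw [integral_Ginf hU]
  unfold Ginf
  rw [← Finset.sum_sub_distrib]
  exact Finset.sum_congr rfl fun α _ => by ring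

lemma cov_Ginf {U : Matrix (Fin m) (Fin m) ℝ} (hU : U.transpose * U = 1) (i j : Fin m) :
    ∫ t, cen (Ginf U i) t * cen (Ginf U j) t ∂(gam m) = if i = j then 1 else 0 := by
  have hU' : U * U.transpose = 1 := mul_eq_one_comm.1 hU
  have e : ∀ t : E m, cen (Ginf U i) t * cen (Ginf U j) t = ∑ α, ∑ β,
      (U i α * U j β) * ((kk (ul U α t) - 1) * (kk (ul U β t) - 1)) := by
    intro t
    rw [cen_Ginf hU, cen_Ginf hU, Finset.sum_mul_sum]
    refine Finset.sum_congr rfl fun α _ => Finset.sum_congr rfl fun β _ => by ring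
  simp_rw [e]
  have hint : ∀ α β : Fin m, Integrable (fun t : E m => (kk (ul U α t) - 1) *
      (kk (ul U β t) - 1)) (gam m) := fun α β =>
    C1.integrable (((c1_kk U α).sub (c1_const 1)).mul ((c1_kk U β).sub (c1_const 1)))
  rw [integral_finsetSum _ fun α _ => integrable_finsetSum _ fun β _ => (hint α β).const_mul _]
  have e2 : ∀ α, ∫ t, ∑ β, (U i α * U j β) * ((kk (ul U α t) - 1) * (kk (ul U β t) - 1)) ∂(gam m)
      = U i α * U j α := by
    intro α
    rw [integral_finsetSum _ fun β _ => (hint α β).const_mul _]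
    simp_rw [integral_const_mul, integral_kk_kk hU]
    simp
  simp_rw [e2]
  have := congrFun (congrFun hU' i) j
  rw [Matrix.mul_apply, Matrix.one_apply] at this
  simpa [Matrix.transpose_apply] using this

lemma CovG_eq_cen {G : Fin m → E m → ℝ} (hG : ∀ i, C1 (G i)) (i j : Fin m) :
    Push.CovG G i j = ∫ t, cen (G i) t * cen (G j) t ∂(gam m) := by
  have hi := C1.integrable (hG i)
  have hj := C1.integrable (hG j)
  have hij := C1.integrable ((hG i).mul (hG j))
  unfold Push.CovG cen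
  simp only [Matrix.of_apply]
  set a := ∫ t, G i t ∂(gam m)
  set b := ∫ t, G j t ∂(gam m)
  have e : ∀ t, (G i t - a) * (G j t - b) = (G i t * G j t - a * G j t) - (b * G i t - a * b) := by
    intro t; ring
  simp_rw [e]
  have j1 : Integrable (fun t => G i t * G j t - a * G j t) (gam m) := hij.sub (hj.const_mul a)
  have j2 : Integrable (fun t => b * G i t - a * b) (gam m) :=
    (hi.const_mul b).sub (integrable_const _)
  rw [integral_sub j1 j2, integral_sub hij (hj.const_mul a),
    integral_sub (hi.const_mul b) (integrable_const _), integral_const_mul, integral_const_mul]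
  simp
  ring

theorem tendsto_CovG {U : Matrix (Fin m) (Fin m) ℝ} (hU : U.transpose * U = 1)
    {G : ℕ → Fin m → E m → ℝ} {M : ℕ → Fin m → Fin m → E m → ℝ} (hd : ∀ n, HD (G n) (M n))
    (hM : ∀ i j, Tendsto (fun n => ∫ t, (M n i j t - Minf U i j t) ^ 2 ∂(gam m)) atTop (𝓝 0))
    (i j : Fin m) :
    Tendsto (fun n => Push.CovG (G n) i j) atTop (𝓝 (if i = j then 1 else 0)) := by
  rw [← cov_Ginf hU i j]
  simp_rw [fun n => CovG_eq_cen (hd n).g i j]
  exact tendsto_cov (fun n => c1_cen ((hd n).g i)) (fun n => c1_cen ((hd n).g j))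
    (c1_cen (c1_Ginf U i)) (c1_cen (c1_Ginf U j)) (tendsto_cen hd hM i) (tendsto_cen hd hM j)

/-! ### the matrices `B n` are bounded -/

lemma entry_BCB (B C : Matrix (Fin m) (Fin m) ℝ) (i j : Fin m) :
    (B * C * B.transpose) i j = ∑ k, ∑ l, B i k * C k l * B j l := by
  rw [Matrix.mul_apply]
  simp only [Matrix.mul_apply, Matrix.transpose_apply, Finset.sum_mul]
  rw [Finset.sum_comm]

lemma B_bound {B C : Matrix (Fin m) (Fin m) ℝ} {ε : ℝ} (hε : ε * m ≤ 1 / 2)
    (hC : ∀ k l, |C k l - if k = l then 1 else 0| ≤ ε) (i : Fin m) :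
    ∑ k, B i k ^ 2 ≤ 2 * (B * C * B.transpose) i i := by
  rw [entry_BCB]
  have e : ∑ k, ∑ l, B i k * C k l * B i l = ∑ k, B i k ^ 2 +
      ∑ k, ∑ l, B i k * (C k l - if k = l then 1 else 0) * B i l := by
    have e1 : ∀ k, ∑ l, B i k * C k l * B i l = B i k ^ 2 +
        ∑ l, B i k * (C k l - if k = l then 1 else 0) * B i l := by
      intro k
      have : B i k ^ 2 = ∑ l, B i k * (if k = l then 1 else 0) * B i l := by
        simp [sq]
      rw [this, ← Finset.sum_add_distrib]
      exact Finset.sum_congr rfl fun l _ => by ring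
    rw [Finset.sum_congr rfl fun k _ => e1 k, Finset.sum_add_distrib]
  have e2 : -(ε * m * ∑ k, B i k ^ 2) ≤
      ∑ k, ∑ l, B i k * (C k l - if k = l then 1 else 0) * B i l := by
    have h1 : ∀ k l, -(ε * (B i k ^ 2 + B i l ^ 2) / 2) ≤
        B i k * (C k l - if k = l then 1 else 0) * B i l := by
      intro k l
      have hc := hC k l
      have hε0 : 0 ≤ ε := (abs_nonneg _).trans hc
      set x := C k l - if k = l then 1 else 0
      have h2 : |B i k * x * B i l| ≤ ε * (B i k ^ 2 + B i l ^ 2) / 2 := by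
        rw [abs_mul, abs_mul]
        have h3 : |B i k| * |B i l| ≤ (B i k ^ 2 + B i l ^ 2) / 2 := by
          have := sq_nonneg (|B i k| - |B i l|)
          have a1 := sq_abs (B i k)
          have a2 := sq_abs (B i l)
          nlinarith
        calc |B i k| * |x| * |B i l| = |x| * (|B i k| * |B i l|) := by ring
          _ ≤ ε * ((B i k ^ 2 + B i l ^ 2) / 2) :=
            mul_le_mul hc h3 (by positivity) hε0
          _ = _ := by ring
      exact (abs_le.1 h2).1
    have h4 : ∑ k, ∑ l, -(ε * (B i k ^ 2 + B i l ^ 2) / 2) = -(ε * m * ∑ k, B i k ^ 2) := by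
      have : ∀ k, ∑ l, -(ε * (B i k ^ 2 + B i l ^ 2) / 2) =
          -(ε * m * B i k ^ 2) / 2 - ε * (∑ l, B i l ^ 2) / 2 := by
        intro k
        have : ∀ l, -(ε * (B i k ^ 2 + B i l ^ 2) / 2) = -(ε * B i k ^ 2) / 2 -
            ε / 2 * B i l ^ 2 := fun l => by ring
        simp_rw [this]
        rw [Finset.sum_sub_distrib, ← Finset.mul_sum]
        simp
        ring
      simp_rw [this]
      rw [Finset.sum_sub_distrib, ← Finset.sum_div, Finset.sum_neg_distrib, ← Finset.mul_sum]
      simp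
      ring
    rw [← h4]
    exact Finset.sum_le_sum fun k _ => Finset.sum_le_sum fun l _ => h1 k l
  rw [e]
  have h0 : 0 ≤ ∑ k, B i k ^ 2 := Finset.sum_nonneg fun _ _ => sq_nonneg _
  nlinarith

/-- subsequence along which `B n` converges, with limit `B` such that `B Bᵀ = S` -/
theorem exists_B {C B : ℕ → Matrix (Fin m) (Fin m) ℝ} {S : Matrix (Fin m) (Fin m) ℝ}
    (hC : ∀ i j, Tendsto (fun n => C n i j) atTop (𝓝 (if i = j then 1 else 0)))
    (hcov : ∀ i j, Tendsto (fun n => (B n * C n * (B n).transpose) i j) atTop (𝓝 (S i j))) :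
    ∃ (φ : ℕ → ℕ) (B0 : Matrix (Fin m) (Fin m) ℝ), StrictMono φ ∧
      (∀ i j, Tendsto (fun n => B (φ n) i j) atTop (𝓝 (B0 i j))) ∧ B0 * B0.transpose = S := by
  -- eventually the entries are bounded
  set ε : ℝ := 1 / (2 * (m + 1)) with hε
  have hεpos : 0 < ε := by positivity
  have hεm : ε * m ≤ 1 / 2 := by
    rw [hε, div_mul_eq_mul_div, div_le_div_iff₀ (by positivity) (by norm_num)]
    linarith
  have ev1 : ∀ᶠ n in atTop, ∀ i j, |C n i j - if i = j then 1 else 0| ≤ ε := by
    rw [eventually_all]; intro i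
    rw [eventually_all]; intro j
    have := (Metric.tendsto_nhds.1 (hC i j)) ε hεpos
    filter_upwards [this] with n hn
    rw [Real.dist_eq] at hn
    exact hn.le
  have ev2 : ∀ᶠ n in atTop, ∀ i, (B n * C n * (B n).transpose) i i ≤ S i i + 1 := by
    rw [eventually_all]; intro i
    have := (hcov i i).eventually (gt_mem_nhds (show S i i < S i i + 1 by linarith))
    filter_upwards [this] with n hn
    exact le_of_lt hn
  obtain ⟨R, hR⟩ : ∃ R : ℝ, ∀ i, 2 * (S i i + 1) ≤ R := by
    refine ⟨∑ i, |2 * (S i i + 1)|, fun i => (le_abs_self _).trans ?_⟩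
    exact Finset.single_le_sum (f := fun i => |2 * (S i i + 1)|) (fun _ _ => abs_nonneg _)
      (Finset.mem_univ i)
  have ev3 : ∀ᶠ n in atTop, ∀ i j, |B n i j| ≤ √R := by
    filter_upwards [ev1, ev2] with n h1 h2 i j
    have h3 := B_bound (B := B n) hεm h1 i
    have h4 : B n i j ^ 2 ≤ ∑ k, B n i k ^ 2 :=
      Finset.single_le_sum (f := fun k => B n i k ^ 2) (fun _ _ => sq_nonneg _) (Finset.mem_univ j)
    apply Real.abs_le_sqrt
    have := h2 i
    have := hR i
    linarith
  have hcomp : IsCompact (Set.pi Set.univ fun _ : Fin m => Set.pi Set.univ fun _ : Fin m =>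
      Set.Icc (-√R) (√R)) :=
    isCompact_univ_pi fun _ => isCompact_univ_pi fun _ => isCompact_Icc
  obtain ⟨N, hN⟩ := eventually_atTop.1 ev3
  have hmem : ∀ n, (fun i j => B (n + N) i j : Fin m → Fin m → ℝ) ∈
      (Set.pi Set.univ fun _ : Fin m => Set.pi Set.univ fun _ : Fin m =>
      Set.Icc (-√R) (√R)) := by
    intro n i _ j _
    exact abs_le.1 (hN (n + N) (Nat.le_add_left _ _) i j)
  obtain ⟨B0, _, φ, hφ, hlim⟩ := hcomp.tendsto_subseq hmem
  have hB : ∀ i j, Tendsto (fun n => B (φ n + N) i j) atTop (𝓝 (B0 i j)) := by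
    intro i j
    exact tendsto_pi_nhds.1 (tendsto_pi_nhds.1 hlim i) j
  have hmono : StrictMono fun n => φ n + N := fun a b hab => Nat.add_lt_add_right (hφ hab) N
  refine ⟨fun n => φ n + N, Matrix.of B0, hmono, hB, ?_⟩
  ext i j
  have h1 := (hcov i j).comp hmono.tendsto_atTop
  have h2 : Tendsto ((fun n => (B n * C n * (B n).transpose) i j) ∘ fun n => φ n + N) atTop
      (𝓝 (∑ k, ∑ l, B0 i k * (if k = l then 1 else 0) * B0 j l)) := by
    have e : ((fun n => (B n * C n * (B n).transpose) i j) ∘ fun n => φ n + N) =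
        fun n => ∑ k, ∑ l, B (φ n + N) i k * C (φ n + N) k l * B (φ n + N) j l := by
      funext n
      simp only [Function.comp_apply]
      rw [entry_BCB]
    rw [e]
    refine tendsto_finsetSum _ fun k _ => tendsto_finsetSum _ fun l _ => ?_
    exact ((hB i k).mul ((hC k l).comp hmono.tendsto_atTop)).mul (hB j l)
  have h3 := tendsto_nhds_unique h2 h1
  rw [← h3, Matrix.mul_apply]
  simp [Matrix.transpose_apply]

/-! ### almost everywhere convergence along a subsequence -/

theorem exists_ae {G : ℕ → Fin m → E m → ℝ} {g : Fin m → E m → ℝ} (hG : ∀ n i, C1 (G n i))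
    (hg : ∀ i, C1 (g i))
    (h : ∀ i, Tendsto (fun n => ∫ t, (G n i t - g i t) ^ 2 ∂(gam m)) atTop (𝓝 0)) :
    ∃ φ : ℕ → ℕ, StrictMono φ ∧ ∀ᵐ t ∂(gam m), ∀ i, Tendsto (fun n => G (φ n) i t) atTop
      (𝓝 (g i t)) := by
  set F : ℕ → E m → ℝ := fun n t => ∑ i, (G n i t - g i t) ^ 2 with hF
  have cF : ∀ n, C1 (F n) := fun n => by
    rw [hF]
    refine C1.sum fun i _ => ?_
    have := ((hG n i).sub (hg i)).mul ((hG n i).sub (hg i))
    refine (iff_of_eq (congrArg _ ?_)).mp this
    funext t; ring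
  have hF0 : ∀ n t, 0 ≤ F n t := fun n t => Finset.sum_nonneg fun _ _ => sq_nonneg _
  have h1 : Tendsto (fun n => ∫ t, F n t ∂(gam m)) atTop (𝓝 0) := by
    have h2 : ∀ n, ∫ t, F n t ∂(gam m) = ∑ i, ∫ t, (G n i t - g i t) ^ 2 ∂(gam m) := by
      intro n
      rw [hF]
      refine integral_finsetSum _ fun i _ => ?_
      have := ((hG n i).sub (hg i)).mul ((hG n i).sub (hg i))
      have h3 := C1.integrable this
      refine h3.congr (ae_of_all _ fun t => ?_)
      simp only []
      ring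
    simp_rw [h2]
    have := tendsto_finsetSum (Finset.univ : Finset (Fin m)) fun j _ => h j
    simpa using this
  have h2 : Tendsto (fun n => eLpNorm (F n - (fun _ => (0:ℝ))) 1 (gam m)) atTop (𝓝 0) := by
    have e : ∀ n, eLpNorm (F n - (fun _ => (0:ℝ))) 1 (gam m)
        = ENNReal.ofReal (∫ t, F n t ∂(gam m)) := by
      intro n
      rw [eLpNorm_one_eq_lintegral_enorm, ofReal_integral_eq_lintegral_ofReal
        (C1.integrable (cF n)) (ae_of_all _ (hF0 n))]
      refine lintegral_congr fun t => ?_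
      simp only [Pi.sub_apply, sub_zero]
      rw [Real.enorm_eq_ofReal (hF0 n t)]
    simp_rw [e]
    have := (ENNReal.continuous_ofReal.tendsto 0).comp h1
    rwa [ENNReal.ofReal_zero] at this
  have h3 := tendstoInMeasure_of_tendsto_eLpNorm one_ne_zero
    (fun n => (cF n).cont.aestronglyMeasurable) aestronglyMeasurable_const h2
  obtain ⟨φ, hφ, hae⟩ := h3.exists_seq_tendsto_ae
  refine ⟨φ, hφ, ?_⟩
  filter_upwards [hae] with t ht i
  rw [tendsto_iff_norm_sub_tendsto_zero]
  have h4 : Tendsto (fun n => √(F (φ n) t)) atTop (𝓝 0) := by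
    have := (Real.continuous_sqrt.tendsto 0).comp ht
    rwa [Real.sqrt_zero] at this
  refine squeeze_zero (fun n => norm_nonneg _) (fun n => ?_) h4
  rw [Real.norm_eq_abs]
  apply Real.abs_le_sqrt
  exact Finset.single_le_sum (f := fun i => (G (φ n) i t - g i t) ^ 2) (fun _ _ => sq_nonneg _)
    (Finset.mem_univ i)

/-! ### the final theorem -/

theorem law_final {f : (Fin m → ℝ) → ℝ} (hf : Measurable f) (hf0 : ∀ x, 0 ≤ f x)
    (hf1 : ∫ x, f x = 1) {U : Matrix (Fin m) (Fin m) ℝ} (hU : U.transpose * U = 1)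
    {G : ℕ → Fin m → E m → ℝ} {M : ℕ → Fin m → Fin m → E m → ℝ} (hd : ∀ n, HD (G n) (M n))
    (hM : ∀ i j, Tendsto (fun n => ∫ t, (M n i j t - Minf U i j t) ^ 2 ∂(gam m)) atTop (𝓝 0))
    {B : ℕ → Matrix (Fin m) (Fin m) ℝ} {b : ℕ → Fin m → ℝ} {S : Matrix (Fin m) (Fin m) ℝ}
    {c : Fin m → ℝ} (hS : S.det ≠ 0)
    (hcov : ∀ i j, Tendsto (fun n => (B n * Push.CovG (G n) * (B n).transpose) i j) atTop (𝓝 (S i j)))
    (hmean : ∀ i, Tendsto (fun n => b n i + ∑ j, B n i j * ∫ t, G n j t ∂(gam m)) atTop (𝓝 (c i)))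
    (hw : ∀ ψ : BoundedContinuousFunction (Fin m → ℝ) ℝ,
      Tendsto (fun n => ∫ t, ψ (b n + (B n).mulVec (Gp (G n) t)) ∂(gam m)) atTop
        (𝓝 (∫ x, ψ x * f x))) :
    ∃ (M' : Matrix (Fin m) (Fin m) ℝ) (b' : Fin m → ℝ), M'.det ≠ 0 ∧ f =ᵐ[volume] eM M' b' := by
  obtain ⟨φ1, B0, hφ1, hB0, hBS⟩ := exists_B (fun i j => tendsto_CovG hU hd hM i j) hcov
  have hcen : ∀ i, Tendsto (fun n => ∫ t, (cen (G (φ1 n) i) t - cen (Ginf U i) t) ^ 2 ∂(gam m))
      atTop (𝓝 0) := fun i => (tendsto_cen hd hM i).comp hφ1.tendsto_atTop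
  obtain ⟨φ2, hφ2, hae⟩ := exists_ae (G := fun n i => cen (G (φ1 n) i))
    (g := fun i => cen (Ginf U i)) (fun n i => c1_cen ((hd _).g i))
    (fun i => c1_cen (c1_Ginf U i)) hcen
  have hB0det : B0.det ≠ 0 := by
    intro h0
    apply hS
    rw [← hBS, Matrix.det_mul, h0, zero_mul]
  have hUdet : U.det ≠ 0 := by
    intro h0
    have := congrArg Matrix.det hU
    rw [Matrix.det_mul, h0, mul_zero, Matrix.det_one] at this
    exact zero_ne_one this
  refine ⟨B0 * U, fun i => c i - ∑ j, B0 i j * ∑ α, U j α, ?_, ?_⟩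
  · rw [Matrix.det_mul]; exact mul_ne_zero hB0det hUdet
  refine law_unique hf hf0 hf1 hU (by rw [Matrix.det_mul]; exact mul_ne_zero hB0det hUdet) ?_
  intro ψ
  set φ : ℕ → ℕ := fun n => φ1 (φ2 n) with hφ
  have hφt : Tendsto φ atTop atTop := hφ1.tendsto_atTop.comp hφ2.tendsto_atTop
  have h1 := (hw ψ).comp hφt
  have h2 : Tendsto (fun n => ∫ t, ψ (b (φ n) + (B (φ n)).mulVec (Gp (G (φ n)) t)) ∂(gam m))
      atTop (𝓝 (∫ t, ψ ((fun i => c i - ∑ j, B0 i j * ∑ α, U j α) +
        (B0 * U).mulVec (fun α => kk (ul U α t))) ∂(gam m))) := by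
    refine tendsto_integral_of_dominated_convergence (fun _ => ‖ψ‖) (fun n => ?_)
      (integrable_const _) (fun n => ae_of_all _ fun t => ψ.norm_coe_le_norm _) ?_
    · have hc : Continuous (fun t : E m => b (φ n) + (B (φ n)).mulVec (Gp (G (φ n)) t)) := by
        refine continuous_const.add (Continuous.matrix_mulVec continuous_const ?_)
        exact continuous_pi fun i => ((hd (φ n)).g i).cont
      exact (ψ.continuous.comp hc).aestronglyMeasurable
    · filter_upwards [hae] with t ht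
      refine (ψ.continuous.tendsto _).comp ?_
      rw [tendsto_pi_nhds]
      intro i
      have e1 : ∀ n, (b n + (B n).mulVec (Gp (G n) t)) i =
          (b n i + ∑ j, B n i j * ∫ t, G n j t ∂(gam m)) + ∑ j, B n i j * cen (G n j) t := by
        intro n
        simp only [Pi.add_apply, Matrix.mulVec, dotProduct, Gp]
        rw [add_assoc, ← Finset.sum_add_distrib]
        congr 1
        refine Finset.sum_congr rfl fun j _ => ?_
        unfold cen
        ring
      have e2 : ((fun i => c i - ∑ j, B0 i j * ∑ α, U j α) +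
          (B0 * U).mulVec (fun α => kk (ul U α t))) i = c i + ∑ j, B0 i j * cen (Ginf U j) t := by
        have e3 : ∀ j, cen (Ginf U j) t = Ginf U j t - ∑ α, U j α := by
          intro j; unfold cen; rw [integral_Ginf hU]
        have e4 : (B0 * U).mulVec (fun α => kk (ul U α t)) i = ∑ j, B0 i j * Ginf U j t := by
          rw [← Matrix.mulVec_mulVec]
          rfl
        rw [Pi.add_apply, e4]
        simp_rw [e3, mul_sub, Finset.sum_sub_distrib]
        ring
      simp_rw [e1, e2]
      refine ((hmean i).comp hφt).add (tendsto_finsetSum _ fun j _ => ?_)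
      exact ((hB0 i j).comp hφ2.tendsto_atTop).mul (ht j)
  exact tendsto_nhds_unique h1 h2

end Crest.Agent.R253.EqD747
end
end

-- ▼ part R253/EqE_747
section

/-!
# R253, equality case: closing theorem in terms of the densities (helper747)

`g k` = density of `G k` under the Gaussian (`Push`), `aff (g k) (A k) 0 → f` in `L¹`, with means and
covariances, and the Jacobians converge to `Minf U`: then `f` is the density of the equality case.
-/

set_option autoImplicit false

open MeasureTheory ProbabilityTheory Set Filter Topology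
open scoped ENNReal NNReal ContDiff

noncomputable section

namespace Crest.Agent.R253.EqE747

open Crest.Agent.R238.Gap Crest.Agent.R238.GapPoinc Crest.Agent.R238.GapPc
open Crest.Agent.R253.Meh74 Crest.Agent.R253.ChVar56
open Crest.Agent.R253.EqEasy505 Crest.Agent.R253.EqB747 Crest.Agent.R253.EqD747
open Crest.Agent.R253.Cpt435
open Crest.GeometryTopology.Isotropic

variable {m : ℕ}

lemma inv_mulVec_mulVec {A : Matrix (Fin m) (Fin m) ℝ} (hA : A.det ≠ 0) (u : Fin m → ℝ) :
    A⁻¹.mulVec ((0 : Fin m → ℝ) + A.mulVec u) = u := by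
  rw [zero_add, Matrix.mulVec_mulVec, Matrix.nonsing_inv_mul A (isUnit_iff_ne_zero.2 hA),
    Matrix.one_mulVec]

lemma measurable_mulVec (A : Matrix (Fin m) (Fin m) ℝ) : Measurable (fun x : Fin m → ℝ => A.mulVec x) :=
  (Continuous.matrix_mulVec continuous_const continuous_id).measurable

/-- expectations under `aff g A 0` -/
theorem integral_aff {G : Fin m → E m → ℝ} {M : Fin m → Fin m → E m → ℝ} {g : (Fin m → ℝ) → ℝ}
    (h : Push G M g) {A : Matrix (Fin m) (Fin m) ℝ} (hA : A.det ≠ 0) {ψ : (Fin m → ℝ) → ℝ}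
    (hψ : Measurable ψ) :
    ∫ u, ψ u * aff g A 0 u = ∫ t, ψ (A⁻¹.mulVec (Gp G t)) ∂(gam m) := by
  have h1 := integral_mul_aff g (fun x => ψ (A⁻¹.mulVec x)) h.fm (hψ.comp (measurable_mulVec _))
    A hA 0
  simp only [inv_mulVec_mulVec hA] at h1
  rw [h1]
  exact h.integral fun x => ψ (A⁻¹.mulVec x)

lemma densMean_aff' {G : Fin m → E m → ℝ} {M : Fin m → Fin m → E m → ℝ} {g : (Fin m → ℝ) → ℝ}
    (h : Push G M g) {A : Matrix (Fin m) (Fin m) ℝ} (hA : A.det ≠ 0) (i : Fin m) :
    densMean (aff g A 0) i = ∑ j, A⁻¹ i j * ∫ t, G j t ∂(gam m) := by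
  unfold densMean
  rw [integral_aff h hA (measurable_pi_apply i)]
  simp only [Matrix.mulVec, dotProduct, Gp]
  rw [integral_finsetSum _ fun j _ => (C1.integrable (h.hd.g j)).const_mul _]
  exact Finset.sum_congr rfl fun j _ => integral_const_mul _ _

lemma densCov_aff' {G : Fin m → E m → ℝ} {M : Fin m → Fin m → E m → ℝ} {g : (Fin m → ℝ) → ℝ}
    (h : Push G M g) {A : Matrix (Fin m) (Fin m) ℝ} (hA : A.det ≠ 0) (i j : Fin m) :
    densCov (aff g A 0) i j = (A⁻¹ * Push.CovG G * A⁻¹.transpose) i j := by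
  have h1 : densCov (aff g A 0) i j = ∫ x, ((x i - densMean (aff g A 0) i) *
      (x j - densMean (aff g A 0) j)) * aff g A 0 x := by
    unfold densCov
    simp only [Matrix.of_apply]
  have hm : Measurable (fun x : Fin m → ℝ => (x i - densMean (aff g A 0) i) *
      (x j - densMean (aff g A 0) j)) :=
    ((measurable_pi_apply i).sub_const _).mul ((measurable_pi_apply j).sub_const _)
  rw [h1, integral_aff h hA hm, entry_BCB]
  have e1 : ∀ (i : Fin m) (t : E m), A⁻¹.mulVec (Gp G t) i - densMean (aff g A 0) i =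
      ∑ k, A⁻¹ i k * cen (G k) t := by
    intro i t
    rw [densMean_aff' h hA i]
    simp only [Matrix.mulVec, dotProduct, Gp]
    rw [← Finset.sum_sub_distrib]
    refine Finset.sum_congr rfl fun k _ => ?_
    unfold cen; ring
  have e2 : ∀ t : E m, (A⁻¹.mulVec (Gp G t) i - densMean (aff g A 0) i) *
      (A⁻¹.mulVec (Gp G t) j - densMean (aff g A 0) j) =
      ∑ k, ∑ l, (A⁻¹ i k * A⁻¹ j l) * (cen (G k) t * cen (G l) t) := by
    intro t
    rw [e1, e1, Finset.sum_mul_sum]
    exact Finset.sum_congr rfl fun k _ => Finset.sum_congr rfl fun l _ => by ring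
  simp_rw [e2]
  have hint : ∀ k l, Integrable (fun t => cen (G k) t * cen (G l) t) (gam m) := fun k l =>
    C1.integrable ((c1_cen (h.hd.g k)).mul (c1_cen (h.hd.g l)))
  rw [integral_finsetSum _ fun k _ => integrable_finsetSum _ fun l _ => (hint k l).const_mul _]
  refine Finset.sum_congr rfl fun k _ => ?_
  rw [integral_finsetSum _ fun l _ => (hint k l).const_mul _]
  refine Finset.sum_congr rfl fun l _ => ?_
  rw [integral_const_mul, CovG_eq_cen h.hd.g k l]
  ring

lemma integrable_of_int_one {f : (Fin m → ℝ) → ℝ} (h : ∫ x, f x = 1) : Integrable f := by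
  by_contra hh
  rw [integral_undef hh] at h
  exact zero_ne_one h

/-- weak convergence from `L¹` convergence -/
lemma tendsto_bdd {f : (Fin m → ℝ) → ℝ} {p : ℕ → (Fin m → ℝ) → ℝ} (hf : Integrable f)
    (hp : ∀ k, Integrable (p k))
    (h : Tendsto (fun k => ∫ x, |p k x - f x|) atTop (𝓝 0))
    (ψ : BoundedContinuousFunction (Fin m → ℝ) ℝ) :
    Tendsto (fun k => ∫ x, ψ x * p k x) atTop (𝓝 (∫ x, ψ x * f x)) := by
  rw [tendsto_iff_norm_sub_tendsto_zero]
  have h2 : Tendsto (fun k => ‖ψ‖ * ∫ x, |p k x - f x|) atTop (𝓝 0) := by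
    have := h.const_mul ‖ψ‖
    simpa using this
  refine squeeze_zero (fun _ => norm_nonneg _) (fun k => ?_) h2
  have hb : ∀ q : (Fin m → ℝ) → ℝ, Integrable q → Integrable (fun x => ψ x * q x) := fun q hq =>
    hq.bdd_mul ψ.continuous.aestronglyMeasurable (ae_of_all _ fun x => ψ.norm_coe_le_norm x)
  rw [← integral_sub (hb _ (hp k)) (hb _ hf), ← integral_const_mul]
  refine norm_integral_le_of_norm_le (((hp k).sub hf).abs.const_mul _) (ae_of_all _ fun x => ?_)
  rw [← mul_sub, norm_mul]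
  exact mul_le_mul_of_nonneg_right (ψ.norm_coe_le_norm x) (norm_nonneg _)

/-- **closing theorem of the equality case** -/
theorem equality_close {f : (Fin m → ℝ) → ℝ} (hf : LCD f)
    {g : ℕ → (Fin m → ℝ) → ℝ} {A : ℕ → Matrix (Fin m) (Fin m) ℝ} (hA : ∀ k, (A k).det ≠ 0)
    {G : ℕ → Fin m → E m → ℝ} {M : ℕ → Fin m → Fin m → E m → ℝ} (hP : ∀ k, Push (G k) (M k) (g k))
    (hL1 : Tendsto (fun k => ∫ x, |aff (g k) (A k) 0 x - f x|) atTop (𝓝 0))
    (hcov : ∀ i j, Tendsto (fun k => densCov (aff (g k) (A k) 0) i j) atTop (𝓝 (densCov f i j)))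
    (hmean : ∀ i, Tendsto (fun k => densMean (aff (g k) (A k) 0) i) atTop (𝓝 (densMean f i)))
    (hM : ∃ φ : ℕ → ℕ, StrictMono φ ∧ ∃ U : Matrix (Fin m) (Fin m) ℝ, U.transpose * U = 1 ∧
      ∀ i j, Tendsto (fun n => ∫ t, (M (φ n) i j t - Minf U i j t) ^ 2 ∂(gam m)) atTop (𝓝 0)) :
    ∃ (M : Matrix (Fin m) (Fin m) ℝ) (b : Fin m → ℝ), M.det ≠ 0 ∧
          f =ᵐ[volume] fun x => |M.det|⁻¹ *
            Set.indicator {y : Fin m → ℝ | ∀ i, 0 ≤ (M⁻¹.mulVec (y - b)) i}
              (fun y => Real.exp (- ∑ i, (M⁻¹.mulVec (y - b)) i)) x := by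
  obtain ⟨φ, hφ, U, hU, hMU⟩ := hM
  have hφt := hφ.tendsto_atTop
  have hfi : Integrable f := integrable_of_int_one hf.int1
  have hpi : ∀ k, Integrable (aff (g k) (A k) 0) := by
    intro k
    apply integrable_of_int_one
    have := integral_aff (hP k) (hA k) (ψ := fun _ => 1) measurable_const
    simpa using this
  have key := law_final hf.meas hf.nonneg hf.int1 hU (fun n => (hP (φ n)).hd) hMU
    (B := fun n => (A (φ n))⁻¹) (b := fun _ => 0) (S := densCov f) (c := densMean f)
    hf.densCov_posDef.det_pos.ne' ?_ ?_ ?_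
  · exact key
  · intro i j
    have h1 := (hcov i j).comp hφt
    refine h1.congr fun n => ?_
    simp only [Function.comp_apply]
    exact densCov_aff' (hP (φ n)) (hA (φ n)) i j
  · intro i
    have h1 := (hmean i).comp hφt
    refine h1.congr fun n => ?_
    simp only [Function.comp_apply, Pi.zero_apply, zero_add]
    exact densMean_aff' (hP (φ n)) (hA (φ n)) i
  · intro ψ
    have h1 := (tendsto_bdd hfi hpi hL1 ψ).comp hφt
    refine h1.congr fun n => ?_
    simp only [Function.comp_apply, zero_add]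
    exact integral_aff (hP (φ n)) (hA (φ n)) ψ.continuous.measurable

end Crest.Agent.R253.EqE747
end
end

-- ▼ part R253/Fin_505

/-!
Row 253 (S0391), helper505: the final assembly `MainN m → ApproxN m → S0391`.
-/

set_option autoImplicit false

open MeasureTheory ProbabilityTheory Real Set Filter Topology
open scoped ContDiff

noncomputable section

namespace Crest.Agent.R253.Fin505

open Crest.Agent.R238.Gap Crest.Agent.R238.GapPoinc Crest.Agent.R238.GapPc
open Crest.Agent.R253.Meh74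
open Crest.Agent.R253.Frame321 (Zf)
open Crest.Agent.R253.SpecField321 (hs MF)
open Crest.Agent.R253.SpecCalc999 (Mat)
open Crest.Agent.R253.ChVar56 (Push Gp)
open Crest.Agent.R253.Lim140 Crest.Agent.R253.Cpt435
open Crest.GeometryTopology.Isotropic

variable {n : ℕ}

theorem Mar_nonneg (M : Fld n) : 0 ≤ Mar M :=
  add_nonneg (integral_nonneg fun _ => SpecField321.hs_nonneg _) (SpecField321.hs_nonneg _)

theorem Tk_symm {M : Fld n} {lo hi : ℝ} (hM : MF M lo hi) (k i j : Fin n) :
    Tk M k i j = Tk M k j i := by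
  unfold Tk
  simp only [Matrix.of_apply]
  rw [Frame321.Zf_symm hM i j]

/-- the weakest form of MAIN used by the assembly: nonnegativity, and `DFun → 0 ⟹ Mar → 0` -/
def MainQ (n : ℕ) : Prop :=
  (∀ (G : Fin n → E n → ℝ) (M N : Fld n) (V : E n → ℝ) (lo hi : ℝ), Dat G M N V lo hi → Nz M →
    0 ≤ DFun G M) ∧
  ∀ ε : ℝ, 0 < ε → ∃ δ : ℝ, 0 < δ ∧ ∀ (G : Fin n → E n → ℝ) (M N : Fld n) (V : E n → ℝ)
    (lo hi : ℝ), Dat G M N V lo hi → Nz M → DFun G M < δ → Mar M ≤ ε

/-- MAIN with a truncated margin -/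
def MainW (n : ℕ) : Prop := ∃ c : ℝ, 0 < c ∧ ∀ (G : Fin n → E n → ℝ) (M N : Fld n)
  (V : E n → ℝ) (lo hi : ℝ), Dat G M N V lo hi → Nz M → c * min 1 (Mar M) ≤ DFun G M

theorem MainN.toW (h : MainN n) : MainW n := by
  obtain ⟨c, hc, H⟩ := h
  exact ⟨c, hc, fun G M N V lo hi hD hz =>
    (mul_le_mul_of_nonneg_left (min_le_right _ _) hc.le).trans (H G M N V lo hi hD hz)⟩

theorem MainW.toQ (h : MainW n) : MainQ n := by
  obtain ⟨c, hc, H⟩ := h
  refine ⟨fun G M N V lo hi hD hz => (mul_nonneg hc.le (le_min zero_le_one (Mar_nonneg M))).trans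
    (H G M N V lo hi hD hz), fun ε hε => ⟨c * min 1 ε, by positivity,
      fun G M N V lo hi hD hz hlt => ?_⟩⟩
  have h1 := (H G M N V lo hi hD hz).trans_lt hlt
  have h2 := lt_of_mul_lt_mul_left h1 hc.le
  by_contra hcon
  push Not at hcon
  exact absurd h2 (not_lt.2 (min_le_min_left _ hcon.le))

/-- inequality -/
theorem DD_nonneg_of (hM : MainQ n) (hA : ApproxN n) {f : (Fin n → ℝ) → ℝ} (hf : LCD f) :
    0 ≤ DD f := by
  refine (hA f hf).nonneg fun g hg => ?_
  obtain ⟨-, G, M, N, V, lo, hi, hD, hz, hP⟩ := hg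
  rw [DD_eq hP]
  exact hM.1 G M N V lo hi hD hz

/-- equality -/
theorem ae_of_DD_eq_zero (hM : MainQ n) (hA : ApproxN n) {f : (Fin n → ℝ) → ℝ} (hf : LCD f)
    (h0 : DD f = 0) :
    ∃ (M : Matrix (Fin n) (Fin n) ℝ) (b : Fin n → ℝ), M.det ≠ 0 ∧
          f =ᵐ[volume] fun x => |M.det|⁻¹ *
            Set.indicator {y : Fin n → ℝ | ∀ i, 0 ≤ (M⁻¹.mulVec (y - b)) i}
              (fun y => Real.exp (- ∑ i, (M⁻¹.mulVec (y - b)) i)) x := by
  obtain ⟨g, A, hG, hpos, hL1, hDD, hcov, hmean⟩ := hA f hf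
  choose hl G M N V lo hi hD hz hP using hG
  rw [h0] at hDD
  have hmar : Tendsto (fun k => Mar (M k)) atTop (𝓝 0) := by
    rw [Metric.tendsto_atTop]
    intro ε hε
    obtain ⟨δ, hδ, H⟩ := hM.2 (ε / 2) (by positivity)
    obtain ⟨K, hK⟩ := Metric.tendsto_atTop.1 hDD δ hδ
    refine ⟨K, fun k hk => ?_⟩
    have h1 := hK k hk
    rw [Real.dist_eq, sub_zero, DD_eq (hP k)] at h1
    have h2 := H (G k) (M k) (N k) (V k) (lo k) (hi k) (hD k) (hz k)
      ((le_abs_self _).trans_lt h1)
    rw [Real.dist_eq, sub_zero, abs_of_nonneg (Mar_nonneg _)]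
    linarith
  have h1 : Tendsto (fun k => ∫ x, hs (SpecField321.Mx (Zf (M k)) x - ∑ j, x j • Tk (M k) j)
      ∂(gam n)) atTop (𝓝 0) :=
    squeeze_zero (fun k => integral_nonneg fun _ => SpecField321.hs_nonneg _)
      (fun k => le_add_of_nonneg_right (SpecField321.hs_nonneg _)) hmar
  have h2 : Tendsto (fun k => hs (1 - ∑ j, Tk (M k) j * Tk (M k) j)) atTop (𝓝 0) :=
    squeeze_zero (fun k => SpecField321.hs_nonneg _)
      (fun k => le_add_of_nonneg_left (integral_nonneg fun _ => SpecField321.hs_nonneg _)) hmar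
  have hC1 : ∀ k i j, C1 (Zf (M k) i j) := fun k i j =>
    Frame321.c1_Zf (hD k).mf (hD k).lo_pos i j
  obtain ⟨φ, hφ, U, hU, -, hlim⟩ := EqT593.eq_tail (fun k => (hD k).ma.hd)
    (ζ := fun k x => SpecField321.Mx (Zf (M k)) x)
    (fun k i j => (hC1 k i j).cont) (fun k i j => (hC1 k i j).g)
    (fun k x => (Frame321.mf_Zf (hD k).mf (hD k).lo_pos).h x)
    (fun k x i j => congrFun (congrFun (congrFun (Frame321.M_eq (hD k).mf (hD k).lo_pos) i) j) x)
    (T := fun k => Tk (M k)) (fun k => Tk_symm (hD k).mf) h1 h2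
  exact EqE747.equality_close hf (fun k => (hpos k).det_pos.ne') hP hL1 hcov hmean
    ⟨φ, hφ, U, hU, hlim⟩

/-- **S0391 from the two inputs** -/
theorem S0391_ofQ (hM : MainQ n) (hA : ApproxN n)
    (f : (Fin n → ℝ) → ℝ) (hf : Measurable f) (hf0 : ∀ x, 0 ≤ f x) (hf1 : ∫ x, f x = 1)
    (hfc : Convex ℝ {x | 0 < f x}) (hfl : ConcaveOn ℝ {x | 0 < f x} (fun x => Real.log (f x))) :
    (n : ℝ) + Real.log (densCov f).det / 2 ≤ diffEntropy f ∧
      (diffEntropy f = (n : ℝ) + Real.log (densCov f).det / 2 ↔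
        ∃ (M : Matrix (Fin n) (Fin n) ℝ) (b : Fin n → ℝ), M.det ≠ 0 ∧
          f =ᵐ[volume] fun x => |M.det|⁻¹ *
            Set.indicator {y : Fin n → ℝ | ∀ i, 0 ≤ (M⁻¹.mulVec (y - b)) i}
              (fun y => Real.exp (- ∑ i, (M⁻¹.mulVec (y - b)) i)) x) := by
  have hL : LCD f := LCD.of_S0391 f hf hf0 hf1 hfc hfl
  refine ⟨(DD_nonneg_iff f).1 (DD_nonneg_of hM hA hL), fun h => ?_, fun h => ?_⟩
  · exact ae_of_DD_eq_zero hM hA hL ((DD_eq_zero_iff f).2 h)
  · exact EqEasy505.equality_of_ae f h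


end Crest.Agent.R253.Fin505
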