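import Crest.Agent.R253.V2_451
import Crest.Agent.R253.SlackPair_688

/-!
# Row 253, B-form (723): the one-variable functions `χ = v (1 + v')`, `h = χ' - v'²`, `q = χ' - 2 v'²`
(helper741)

`v = H0`, `v' = aa = 1 - e v`, `v'' = ww * H0 - ee`, `k = kk`, `μ = mu`.
-/

open MeasureTheory Set Filter Topology Real

namespace Crest.Agent.R253.HFn741

open Crest.Agent.R253.Mills37 Crest.Agent.R253.Slack688 Crest.Agent.R253.V2451

noncomputable section

/-- `χ = v (1 + v')` -/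
def chi (z : ℝ) : ℝ := H0 z * (1 + aa z)

/-- `h = v' + v v'' = χ' - v'²` -/
def hh (z : ℝ) : ℝ := aa z + H0 z * (ww z * H0 z - ee z)

/-- `χ' = v'² + h` -/
def chi' (z : ℝ) : ℝ := aa z ^ 2 + hh z

/-- `q = χ' - 2 v'²` -/
def qq (z : ℝ) : ℝ := cc z * H0 z ^ 2

/-- `v'' ` -/
def bb2 (z : ℝ) : ℝ := ww z * H0 z - ee z

lemma aa_has' (z : ℝ) : HasDerivAt aa (bb2 z) z := aa_has z

lemma mu_H0 (z : ℝ) : mu z * H0 z = kk z := by
  have := (mu_pos z).ne'
  unfold H0; field_simp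

/-- `v'' = z v' + v - μ` -/
lemma bb2_eq (z : ℝ) : bb2 z = z * aa z + H0 z - mu z := by
  unfold bb2 ww aa; rw [mu_eq]; ring

lemma chi_has (z : ℝ) : HasDerivAt chi (chi' z) z := by
  refine ((H0_has z).mul ((aa_has z).const_add 1)).congr_deriv ?_
  unfold chi' hh; ring

/-- `-v' + z v = k - 1` -/
lemma zv_sub (z : ℝ) : z * H0 z - aa z = kk z - 1 := by
  have h := mu_H0 z
  rw [mu_eq] at h
  unfold aa; linarith

/-- **`2 k - v² - v'² = 1 + z χ - χ'`** -/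
theorem chi_id (z : ℝ) : 2 * kk z - H0 z ^ 2 - aa z ^ 2 = 1 + z * chi z - chi' z := by
  have h := mu_H0 z
  have h1 := mu_eq z
  have h2 : kk z = (z + ee z) * H0 z := by rw [← h1, h]
  rw [h2]
  unfold chi chi' hh ww aa
  ring

/-- **`h = v'² + c v²`**, `c = 1 - μ e` -/
theorem hh_eq (z : ℝ) : hh z = aa z ^ 2 + qq z := by
  unfold hh qq ww cc aa; rw [mu_eq]; ring

lemma hh_eq' (z : ℝ) : hh z = 1 - 2 * ee z * H0 z + ww z * H0 z ^ 2 := by
  unfold hh aa; ring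


lemma qq_pos (z : ℝ) : 0 < qq z := by
  have := cc_pos z
  have := H0_pos z
  unfold qq; positivity

lemma hh_pos (z : ℝ) : 0 < hh z := by
  rw [hh_eq]
  have := qq_pos z
  positivity


/-- **`h = g + v''² / w`**, `g = c / w` -/
theorem hh_gg (z : ℝ) : hh z = gg z + bb2 z ^ 2 / ww z := by
  have hw := (ww_pos z).ne'
  rw [hh_eq']
  unfold gg bb2
  have : cc z = ww z - ee z ^ 2 := by unfold cc ww; rw [mu_eq]; ring
  rw [this]
  field_simp
  ring

lemma gg_lt_hh (z : ℝ) : gg z < hh z := by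
  rw [hh_gg]
  have h1 := ww_pos z
  have h2 : 0 < bb2 z := H0_deriv2_pos z
  have : 0 < bb2 z ^ 2 / ww z := by positivity
  linarith

lemma aa_lt (z : ℝ) : aa z < 1 / 2 := H0_deriv_lt z

lemma bb2_pos (z : ℝ) : 0 < bb2 z := H0_deriv2_pos z

lemma bb2_lt (z : ℝ) : bb2 z < 1 / 10 := H0_deriv2_lt z


end

end Crest.Agent.R253.HFn741
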