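import Crest.Agent.R253.SpecField_321
import Crest.Agent.R253.LamB_301
import Crest.Agent.R253.HFn_741
import Crest.Agent.R253.FrameT_321
import Crest.Agent.R253.DualPB_973
import Crest.Agent.R253.ErrT_378
import Crest.Agent.R253.FinDefs_505
import Crest.Agent.R253.Chaos_74
import Crest.Agent.R253.V2_451
import Crest.Agent.R253.Fin_505

-- ▼ part R253/TrC_80
section

/-!
# Row 253: from constant matrices to one real variable (helper80)

`S` Hermitian (later `S = Σ_k T_k T_k`), `TR g S = tr g(S) = Σ_i g(x_i)`.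
-/

set_option autoImplicit false

open Matrix Set Filter Topology

noncomputable section

namespace Crest.Agent.R253.TrC80

open Crest.Agent.R253.SpecCalc999 Crest.Agent.R253.SpecField321

variable {m n : ℕ}

/-- `tr g(S)` -/
def TR (g : ℝ → ℝ) (S : Mat m) : ℝ := (_root_.cfc g S).trace

/-! ### frames -/

lemma trace_conj {U : Mat m} (h : U * Uᵀ = 1) (X : Mat m) : (Uᵀ * X * U).trace = X.trace := by
  rw [Matrix.mul_assoc, Matrix.trace_mul_comm, Matrix.mul_assoc, h, Matrix.mul_one]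

lemma TR_frame {S U : Mat m} {s : Fin m → ℝ} (h : Fr S U s) (g : ℝ → ℝ) :
    TR g S = ∑ i, g (s i) := by
  unfold TR
  rw [← trace_conj h.o', h.cfc, Matrix.trace_diagonal]

lemma tr_mul_frame {S U : Mat m} {s : Fin m → ℝ} (h : Fr S U s) (g : ℝ → ℝ) (X : Mat m) :
    (_root_.cfc g S * X).trace = ∑ i, g (s i) * (Uᵀ * X * U) i i := by
  have e : Uᵀ * (_root_.cfc g S * X) * U = (Uᵀ * _root_.cfc g S * U) * (Uᵀ * X * U) := by
    calc Uᵀ * (_root_.cfc g S * X) * U = Uᵀ * _root_.cfc g S * 1 * X * U := by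
          simp only [Matrix.mul_assoc, Matrix.mul_one]
      _ = Uᵀ * _root_.cfc g S * (U * Uᵀ) * X * U := by rw [h.o']
      _ = _ := by simp only [Matrix.mul_assoc]
  rw [← trace_conj h.o', e, h.cfc]
  unfold Matrix.trace
  exact Finset.sum_congr rfl fun i _ => by rw [Matrix.diag_apply, Matrix.diagonal_mul]

lemma conj_eq {S U : Mat m} {s : Fin m → ℝ} (h : Fr S U s) {X Y : Mat m}
    (e : Uᵀ * X * U = Uᵀ * Y * U) : X = Y := conj_inj h.o' e

lemma conj_mul {U : Mat m} (h : U * Uᵀ = 1) (X Y : Mat m) :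
    Uᵀ * (X * Y) * U = (Uᵀ * X * U) * (Uᵀ * Y * U) := by
  calc Uᵀ * (X * Y) * U = Uᵀ * X * 1 * Y * U := by
        simp only [Matrix.mul_assoc, Matrix.mul_one]
    _ = Uᵀ * X * (U * Uᵀ) * Y * U := by rw [h]
    _ = _ := by simp only [Matrix.mul_assoc]

/-! ### algebra of `cfc` without continuity -/

lemma cfc_mul' {S : Mat m} (hS : S.IsHermitian) (f g : ℝ → ℝ) :
    _root_.cfc f S * _root_.cfc g S = _root_.cfc (fun x => f x * g x) S := by
  obtain ⟨U, h⟩ := exists_fr hS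
  apply conj_eq h
  rw [conj_mul h.o', h.cfc, h.cfc, h.cfc, Matrix.diagonal_mul_diagonal]

lemma cfc_add' {S : Mat m} (hS : S.IsHermitian) (f g : ℝ → ℝ) :
    _root_.cfc f S + _root_.cfc g S = _root_.cfc (fun x => f x + g x) S := by
  obtain ⟨U, h⟩ := exists_fr hS
  apply conj_eq h
  rw [Matrix.mul_add, Matrix.add_mul, h.cfc, h.cfc, h.cfc, Matrix.diagonal_add]

lemma cfc_sub' {S : Mat m} (hS : S.IsHermitian) (f g : ℝ → ℝ) :
    _root_.cfc f S - _root_.cfc g S = _root_.cfc (fun x => f x - g x) S := by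
  obtain ⟨U, h⟩ := exists_fr hS
  apply conj_eq h
  rw [Matrix.mul_sub, Matrix.sub_mul, h.cfc, h.cfc, h.cfc, Matrix.diagonal_sub]

lemma cfc_smul' {S : Mat m} (hS : S.IsHermitian) (c : ℝ) (f : ℝ → ℝ) :
    c • _root_.cfc f S = _root_.cfc (fun x => c * f x) S := by
  obtain ⟨U, h⟩ := exists_fr hS
  apply conj_eq h
  rw [Matrix.mul_smul, Matrix.smul_mul, h.cfc, h.cfc]
  ext i j
  by_cases hij : i = j
  · subst hij; simp
  · simp [Matrix.diagonal_apply_ne _ hij]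

lemma cfc_one' {S : Mat m} (hS : S.IsHermitian) : _root_.cfc (fun _ : ℝ => (1 : ℝ)) S = 1 := by
  obtain ⟨U, h⟩ := exists_fr hS
  apply conj_eq h
  rw [h.cfc, Matrix.mul_one, h.o, Matrix.diagonal_one]

lemma cfc_id'' {S : Mat m} (hS : S.IsHermitian) : _root_.cfc (fun x : ℝ => x) S = S := by
  obtain ⟨U, h⟩ := exists_fr hS
  apply conj_eq h
  rw [h.cfc, h.d]

lemma cfc_tr {S : Mat m} (hS : S.IsHermitian) (g : ℝ → ℝ) :
    (_root_.cfc g S)ᵀ = _root_.cfc g S := by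
  obtain ⟨U, h⟩ := exists_fr hS
  apply conj_eq h
  have e : Uᵀ * (_root_.cfc g S)ᵀ * U = (Uᵀ * _root_.cfc g S * U)ᵀ := by
    rw [Matrix.transpose_mul, Matrix.transpose_mul, Matrix.transpose_transpose, Matrix.mul_assoc]
  rw [e, h.cfc, Matrix.diagonal_transpose]


/-- every real number in the spectrum of a positive semidefinite matrix is `≥ 0` -/
lemma spec_nonneg {S : Mat m} (hS : S.PosSemidef) {x : ℝ} (hx : x ∈ spectrum ℝ S) : 0 ≤ x := by
  rw [hS.isHermitian.spectrum_real_eq_range_eigenvalues] at hx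
  obtain ⟨i, rfl⟩ := hx
  exact hS.eigenvalues_nonneg i

/-! ### the trace functional -/

lemma TR_congr {S : Mat m} {f g : ℝ → ℝ} (h : ∀ x ∈ spectrum ℝ S, f x = g x) :
    TR f S = TR g S := by
  unfold TR; rw [cfc_congr h]


lemma TR_sub {S : Mat m} (hS : S.IsHermitian) (f g : ℝ → ℝ) :
    TR (fun x => f x - g x) S = TR f S - TR g S := by
  obtain ⟨U, h⟩ := exists_fr hS
  simp only [TR_frame h, Finset.sum_sub_distrib]

lemma TR_smul {S : Mat m} (hS : S.IsHermitian) (c : ℝ) (f : ℝ → ℝ) :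
    TR (fun x => c * f x) S = c * TR f S := by
  obtain ⟨U, h⟩ := exists_fr hS
  simp only [TR_frame h, Finset.mul_sum]


lemma TR_mono_spec {S : Mat m} (hS : S.IsHermitian) {f g : ℝ → ℝ}
    (h : ∀ x ∈ spectrum ℝ S, f x ≤ g x) : TR f S ≤ TR g S := by
  obtain ⟨U, hU⟩ := exists_fr hS
  rw [TR_frame hU, TR_frame hU]
  exact Finset.sum_le_sum fun i _ => h _ (hU.mem_spec i)

lemma TR_mono {S : Mat m} (hS : S.PosSemidef) {f g : ℝ → ℝ} (h : ∀ x, 0 ≤ x → f x ≤ g x) :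
    TR f S ≤ TR g S :=
  TR_mono_spec hS.isHermitian fun x hx => h x (spec_nonneg hS hx)



/-- weighted traces of a positive semidefinite matrix are monotone -/
lemma tr_mul_mono {S X : Mat m} (hS : S.PosSemidef) (hX : X.PosSemidef) {f g : ℝ → ℝ}
    (h : ∀ x, 0 ≤ x → f x ≤ g x) :
    (_root_.cfc f S * X).trace ≤ (_root_.cfc g S * X).trace := by
  obtain ⟨U, hU⟩ := exists_fr hS.isHermitian
  rw [tr_mul_frame hU, tr_mul_frame hU]
  refine Finset.sum_le_sum fun i _ => mul_le_mul_of_nonneg_right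
    (h _ (spec_nonneg hS (hU.mem_spec i))) ?_
  have := hX.conjTranspose_mul_mul_same U
  rw [conjTranspose_eq_transpose_of_trivial] at this
  exact this.diag_nonneg

/-! ### the weight `P = p(S) = CᵀC` -/

/-- `C = √p(S)` -/
def CC (p : ℝ → ℝ) (S : Mat m) : Mat m := _root_.cfc (fun x => Real.sqrt (p x)) S

lemma CC_tr {S : Mat m} (hS : S.IsHermitian) (p : ℝ → ℝ) : (CC p S)ᵀ = CC p S := cfc_tr hS _

lemma CC_mul {S : Mat m} (hS : S.PosSemidef) {p : ℝ → ℝ} (hp : ∀ x, 0 ≤ x → 0 ≤ p x) :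
    CC p S * CC p S = _root_.cfc p S := by
  unfold CC
  rw [cfc_mul' hS.isHermitian]
  exact cfc_congr fun x hx => Real.mul_self_sqrt (hp x (spec_nonneg hS hx))

lemma ctc_CC {S : Mat m} (hS : S.PosSemidef) {p : ℝ → ℝ} (hp : ∀ x, 0 ≤ x → 0 ≤ p x) :
    (CC p S)ᵀ * CC p S = _root_.cfc p S := by rw [CC_tr hS.isHermitian, CC_mul hS hp]

lemma det_cfc {S U : Mat m} {s : Fin m → ℝ} (h : Fr S U s) (g : ℝ → ℝ) :
    (_root_.cfc g S).det = ∏ i, g (s i) := by
  have e : (Uᵀ * _root_.cfc g S * U).det = (_root_.cfc g S).det := by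
    rw [Matrix.det_mul, Matrix.det_mul, mul_comm, ← mul_assoc, ← Matrix.det_mul, h.o',
      Matrix.det_one, one_mul]
  rw [← e, h.cfc, Matrix.det_diagonal]

/-- **`log det p(S) = tr log p (S)`** -/
theorem logdet_cfc {S : Mat m} (hS : S.PosSemidef) {p : ℝ → ℝ} (hp : ∀ x, 0 ≤ x → 0 < p x) :
    Real.log (_root_.cfc p S).det = TR (fun x => Real.log (p x)) S := by
  obtain ⟨U, h⟩ := exists_fr hS.isHermitian
  rw [det_cfc h, TR_frame h, Real.log_prod]
  exact fun i _ => (hp _ (spec_nonneg hS (h.mem_spec i))).ne'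

theorem logdet_CC {S : Mat m} (hS : S.PosSemidef) {p : ℝ → ℝ} (hp : ∀ x, 0 ≤ x → 0 < p x) :
    Real.log ((CC p S)ᵀ * CC p S).det = TR (fun x => Real.log (p x)) S := by
  rw [ctc_CC hS fun x hx => (hp x hx).le, logdet_cfc hS hp]

theorem det_CC_ne {S : Mat m} (hS : S.PosSemidef) {p : ℝ → ℝ} (hp : ∀ x, 0 ≤ x → 0 < p x) :
    (CC p S).det ≠ 0 := by
  obtain ⟨U, h⟩ := exists_fr hS.isHermitian
  unfold CC
  rw [det_cfc h]
  exact Finset.prod_ne_zero_iff.2 fun i _ =>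
    (Real.sqrt_pos.2 (hp _ (spec_nonneg hS (h.mem_spec i)))).ne'

/-! ### Hilbert–Schmidt norms -/

lemma hs_eq' (X : Mat m) : hs X = (X * Xᵀ).trace := by
  rw [hs_eq, Matrix.trace_mul_comm]


lemma hs_cfc_mul {S : Mat m} (hS : S.IsHermitian) (g : ℝ → ℝ) (X : Mat m) :
    hs (_root_.cfc g S * X) = (_root_.cfc (fun x => g x ^ 2) S * (X * Xᵀ)).trace := by
  rw [hs_eq', Matrix.transpose_mul, cfc_tr hS]
  have e : _root_.cfc g S * X * (Xᵀ * _root_.cfc g S) =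
      (_root_.cfc g S * (X * Xᵀ)) * _root_.cfc g S := by simp only [Matrix.mul_assoc]
  rw [e, Matrix.trace_mul_comm, ← Matrix.mul_assoc, cfc_mul' hS]
  simp only [sq]

lemma hs_cfc {S : Mat m} (hS : S.IsHermitian) (g : ℝ → ℝ) :
    hs (_root_.cfc g S) = TR (fun x => g x ^ 2) S := by
  have := hs_cfc_mul hS g 1
  rwa [Matrix.mul_one, Matrix.transpose_one, Matrix.mul_one, Matrix.mul_one] at this


lemma hs_cfc_le {S : Mat m} (hS : S.IsHermitian) {g : ℝ → ℝ} {K : ℝ}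
    (hg : ∀ x ∈ spectrum ℝ S, g x ^ 2 ≤ K) (X : Mat m) :
    hs (_root_.cfc g S * X) ≤ K * hs X := by
  obtain ⟨U, h⟩ := exists_fr hS
  rw [← hs_conj h.o' (_root_.cfc g S * X), conj_mul h.o', h.cfc, ← hs_conj h.o' X]
  unfold hs
  rw [Finset.mul_sum]
  refine Finset.sum_le_sum fun i _ => ?_
  rw [Finset.mul_sum]
  refine Finset.sum_le_sum fun j _ => ?_
  rw [Matrix.diagonal_mul, mul_pow]
  exact mul_le_mul_of_nonneg_right (hg _ (h.mem_spec i)) (sq_nonneg _)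

/-- `hPn` of the dual bound -/
lemma hs_CC_le {S : Mat m} (hS : S.PosSemidef) {p : ℝ → ℝ} {K : ℝ} (hp : ∀ x, 0 ≤ x → 0 ≤ p x)
    (hK : ∀ x, 0 ≤ x → p x ≤ K) (X : Mat m) : hs (CC p S * X) ≤ K * hs X := by
  refine hs_cfc_le hS.isHermitian (fun x hx => ?_) X
  rw [Real.sq_sqrt (hp x (spec_nonneg hS hx))]
  exact hK x (spec_nonneg hS hx)

/-! ### inner products of families -/

/-- `Σ_k <A_k, B_k>` -/
def ipS (A B : Fin n → Mat m) : ℝ := ∑ k, ∑ i, ∑ j, A k i j * B k i j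

lemma ip_sq_le (A B : Fin n → Mat m) :
    ipS A B ^ 2 ≤ (∑ k, hs (A k)) * ∑ k, hs (B k) := by
  have e1 : ∀ F : Fin n → Fin m → Fin m → ℝ,
      ∑ k, ∑ i, ∑ j, F k i j = ∑ p : Fin n × Fin m × Fin m, F p.1 p.2.1 p.2.2 := by
    intro F
    rw [Fintype.sum_prod_type]
    exact Finset.sum_congr rfl fun k _ => by rw [Fintype.sum_prod_type]
  unfold ipS hs
  rw [e1, e1, e1]
  exact Finset.sum_mul_sq_le_sq_mul_sq _ _ _


/-! ### the family `T_k`, `S = Σ T_k T_k` -/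

/-- `T_k` symmetric, `S = Σ_k T_k T_k` -/
structure Ts (T : Fin n → Mat m) (S : Mat m) : Prop where
  s : ∀ k, (T k)ᵀ = T k
  e : S = ∑ k, T k * T k

lemma Ts.psd {T : Fin n → Mat m} {S : Mat m} (h : Ts T S) : S.PosSemidef := by
  rw [h.e]
  refine Matrix.posSemidef_sum _ fun k _ => ?_
  have := Matrix.posSemidef_conjTranspose_mul_self (T k)
  rwa [conjTranspose_eq_transpose_of_trivial, h.s k] at this

lemma Ts.herm {T : Fin n → Mat m} {S : Mat m} (h : Ts T S) : S.IsHermitian := h.psd.isHermitian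

/-- **`Σ_k |g(S) T_k|² = tr (x g²)(S)`** -/
theorem Ts.sum_hs {T : Fin n → Mat m} {S : Mat m} (h : Ts T S) (g : ℝ → ℝ) :
    ∑ k, hs (_root_.cfc g S * T k) = TR (fun x => g x ^ 2 * x) S := by
  have e : ∀ k, hs (_root_.cfc g S * T k) =
      (_root_.cfc (fun x => g x ^ 2) S * (T k * T k)).trace := fun k => by
    rw [hs_cfc_mul h.herm, h.s k]
  simp only [e]
  rw [← Matrix.trace_sum, ← Matrix.mul_sum, ← h.e]
  unfold TR
  conv_lhs => rw [show _root_.cfc (fun x => g x ^ 2) S * S =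
    _root_.cfc (fun x => g x ^ 2) S * _root_.cfc (fun x : ℝ => x) S by rw [cfc_id'' h.herm]]
  rw [cfc_mul' h.herm]


/-- **`hK1` of the dual bound** -/
theorem Ts.hs_sum_le {T : Fin n → Mat m} {S : Mat m} (h : Ts T S) {g : ℝ → ℝ} {K : ℝ}
    (hK0 : 0 ≤ K) (hK : ∀ x, 0 ≤ x → g x ^ 2 * x ≤ K) (B : Fin n → Mat m) :
    hs (∑ k, _root_.cfc g S * T k * B k) ≤ K * ∑ k, hs (B k) := by
  set Z : Mat m := ∑ k, _root_.cfc g S * T k * B k with hZ
  set G : Mat m := _root_.cfc g S with hG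
  have hGt : Gᵀ = G := cfc_tr h.herm g
  -- `hs Z = Σ_k <(G T_k)ᵀ Z, B_k>`
  have e1 : hs Z = ∑ k, ∑ i, ∑ j, (T k * G * Z) i j * B k i j := by
    have e2 : ∀ k, (Zᵀ * (G * T k * B k)).trace = ∑ i, ∑ j, (T k * G * Z) i j * B k i j := by
      intro k
      have e3 : Zᵀ * (G * T k * B k) = (T k * G * Z)ᵀ * B k := by
        rw [Matrix.transpose_mul, Matrix.transpose_mul, h.s k, hGt]
        simp only [Matrix.mul_assoc]
      rw [e3, Matrix.trace, Finset.sum_comm]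
      refine Finset.sum_congr rfl fun j _ => ?_
      rw [Matrix.diag_apply, Matrix.mul_apply]
      exact Finset.sum_congr rfl fun i _ => by rw [Matrix.transpose_apply]
    rw [hs_eq]
    conv_lhs => rw [show Zᵀ * Z = Zᵀ * ∑ k, G * T k * B k by rw [← hZ]]
    rw [Matrix.mul_sum, Matrix.trace_sum]
    exact Finset.sum_congr rfl fun k _ => e2 k
  have e4 : ∑ k, hs (T k * G * Z) ≤ K * hs Z := by
    have e5 : ∀ k, hs (T k * G * Z) = (Zᵀ * (G * (T k * T k) * G) * Z).trace := by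
      intro k
      rw [hs_eq, Matrix.transpose_mul, Matrix.transpose_mul, h.s k, hGt]
      simp only [Matrix.mul_assoc]
    have e6 : ∑ k, hs (T k * G * Z) = (Zᵀ * (G * S * G) * Z).trace := by
      simp only [e5]
      rw [← Matrix.trace_sum, ← Matrix.sum_mul, ← Matrix.mul_sum, ← Matrix.sum_mul,
        ← Matrix.mul_sum, ← h.e]
    have e7 : G * S * G = _root_.cfc (fun x => g x ^ 2 * x) S := by
      rw [hG]
      conv_lhs => rw [show _root_.cfc g S * S * _root_.cfc g S =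
        _root_.cfc g S * _root_.cfc (fun x : ℝ => x) S * _root_.cfc g S by rw [cfc_id'' h.herm]]
      rw [cfc_mul' h.herm, cfc_mul' h.herm]
      exact cfc_congr fun x _ => by ring
    have e8 : (Zᵀ * (G * S * G) * Z).trace = (_root_.cfc (fun x => g x ^ 2 * x) S * (Z * Zᵀ)).trace := by
      rw [e7, Matrix.trace_mul_comm, ← Matrix.mul_assoc, Matrix.trace_mul_comm]
    have hZZ : (Z * Zᵀ).PosSemidef := by
      have := Matrix.posSemidef_self_mul_conjTranspose Z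
      rwa [conjTranspose_eq_transpose_of_trivial] at this
    rw [e6, e8]
    refine (tr_mul_mono h.psd hZZ (g := fun _ => K) hK).trans (le_of_eq ?_)
    have e9 : _root_.cfc (fun _ : ℝ => K) S = K • (1 : Mat m) := by
      rw [← cfc_one' h.herm, cfc_smul' h.herm]; simp
    rw [e9, Matrix.smul_mul, Matrix.one_mul, Matrix.trace_smul, smul_eq_mul, hs_eq']
  have e10 := ip_sq_le (fun k => T k * G * Z) B
  have h0 : 0 ≤ hs Z := hs_nonneg Z
  have hB0 : 0 ≤ ∑ k, hs (B k) := Finset.sum_nonneg fun k _ => hs_nonneg _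
  unfold ipS at e10
  rw [← e1] at e10
  have e11 : hs Z ^ 2 ≤ K * hs Z * ∑ k, hs (B k) :=
    e10.trans (mul_le_mul_of_nonneg_right e4 hB0)
  rcases h0.eq_or_lt with h1 | h1
  · rw [← h1]; exact mul_nonneg hK0 hB0
  · nlinarith

/-! ### cross terms with constant matrices -/



/-! ### splitting the spectrum -/

/-- near part -/
def nr (X0 : ℝ) (g : ℝ → ℝ) (x : ℝ) : ℝ := if x ≤ X0 then g x else 0




end Crest.Agent.R253.TrC80
end
end

-- ▼ part R253/LamI_301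
section

/-!
# R253: `Λ(B)` in the letters of the spine (helper301)

* `wip_tr`: `wip P A B x = tr P B Aᵀ`.
* `lam_wip`: the term of `spineB` is `E tr B (2k(ζ) - U²) - Σ E tr B U_k²`.
* `lamI`: the exact centred identity for it at `ζ = Zf M` (letters `Tm`, `ef`, `dk` of `DualP_973`).
* `split_dk`, `split_hs`: `E Σ|C ζ_k|² = Σ|C T_k|² + E Σ|C p_k|²`, `E|C ζ|² = Σ|C T_k|² + E|C η|²`.
-/

set_option autoImplicit false

open MeasureTheory ProbabilityTheory Set Filter Topology Matrix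
open scoped ContDiff

noncomputable section

namespace Crest.Agent.R253.LamI301

open Crest.Agent.R238.Gap Crest.Agent.R253.SpecCalc999 Crest.Agent.R253.Meh74
  Crest.Agent.R253.SpecField321 Crest.Agent.R253.S3 Crest.Agent.R253.LamB301
open Crest.Agent.R253.DualP973 (Tm ef Lx MTm Mx_eq dk_eq c1_ef)
open Crest.Agent.R253.Frame321 (Zf Uf Ff Uf_eq M_eq mf_Zf Zf_symm)
open Crest.Agent.R253.Mills37 (mu H0 kk)
open Crest.Agent.R253.Slack688 (aa H0_has)
open Crest.Agent.R253.ScalE688 (zf)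
open Crest.Agent.R253.HFn741 (chi chi' hh)

variable {n : ℕ}

lemma wip_tr (P : Mat n) (A B : Fld n) (x : E n) :
    wip P A B x = (P * (Mx B x * (Mx A x)ᵀ)).trace := by
  unfold wip Matrix.trace
  refine Finset.sum_congr rfl fun p _ => ?_
  rw [Matrix.diag_apply, Matrix.mul_apply]
  refine Finset.sum_congr rfl fun q _ => ?_
  rw [Matrix.mul_apply]
  congr 1
  refine Finset.sum_congr rfl fun j _ => ?_
  rw [Matrix.transpose_apply]
  exact mul_comm _ _

section field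

variable {ζ : Fld n} {lo hi : ℝ}

lemma Mx_ef (h0 : ∀ i j, EE (ζ i j) = 0) (x : E n) : Mx (ef ζ) x = eta0 ζ (Tm ζ) x := by
  have h := Mx_eq h0 x
  unfold eta0
  rw [h]
  unfold Lx
  abel

lemma Mx_dk_ef (hζ : MF ζ lo hi) (k : Fin n) (x : E n) : Mx (dk k (ef ζ)) x = pk ζ (Tm ζ) k x := by
  have h := dk_eq hζ k x
  unfold pk
  have e : S3.dZ ζ k x = Mx (dk k ζ) x := rfl
  rw [e, h]
  abel

lemma Tm_t (hζ : MF ζ lo hi) (k : Fin n) : (Tm ζ k)ᵀ = Tm ζ k := by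
  have h : ∀ a b, ζ a b = ζ b a := fun a b => by
    funext y
    have := congrFun (congrFun (Mx_t hζ y) b) a
    simpa [Mx, Matrix.transpose_apply] using this
  ext a b
  change EE (pd k (ζ b a)) = EE (pd k (ζ a b))
  rw [h]

lemma EM_ζ (h0 : ∀ i j, EE (ζ i j) = 0) : EM (Mx ζ) = 0 := by
  ext i j
  exact h0 i j

lemma EM_p (hζ : MF ζ lo hi) (k : Fin n) : EM (fun x => Mx (dk k (ef ζ)) x) = 0 := by
  have h := EM_pk hζ (T := Tm ζ) (fun k => rfl) k
  have e : (fun x => Mx (dk k (ef ζ)) x) = pk ζ (Tm ζ) k := funext fun x => Mx_dk_ef hζ k x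
  rw [e]; exact h

lemma EM_xη (hζ : MF ζ lo hi) (h0 : ∀ i j, EE (ζ i j) = 0) (k : Fin n) :
    EM (fun x => x k • Mx (ef ζ) x) = 0 := by
  have h := EM_x_eta hζ (Tm ζ) (fun k => rfl) k
  have e : (fun x : E n => x k • Mx (ef ζ) x) = fun x => x k • eta0 ζ (Tm ζ) x :=
    funext fun x => by rw [Mx_ef h0]
  rw [e]; exact h

lemma cgm_p (hζ : MF ζ lo hi) (k : Fin n) : CGm (fun x => Mx (dk k (ef ζ)) x) := fun i j =>
  (c1_ef hζ i j).cgp k

lemma cgm_η (hζ : MF ζ lo hi) : CGm (fun x => Mx (ef ζ) x) := fun i j => (c1_ef hζ i j).cg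

lemma hs_add_eq (X Y : Mat n) : hs (X + Y) = hs X + hs Y + 2 * (Xᵀ * Y).trace := by
  have h : (Xᵀ * Y).trace = ∑ i, ∑ j, X i j * Y i j := by
    rw [Matrix.trace, Finset.sum_comm]
    refine Finset.sum_congr rfl fun j _ => ?_
    rw [Matrix.diag_apply, Matrix.mul_apply]
    exact Finset.sum_congr rfl fun i _ => by rw [Matrix.transpose_apply]
  rw [h]
  unfold hs
  rw [Finset.mul_sum, ← Finset.sum_add_distrib, ← Finset.sum_add_distrib]
  refine Finset.sum_congr rfl fun i _ => ?_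
  rw [Finset.mul_sum, ← Finset.sum_add_distrib, ← Finset.sum_add_distrib]
  refine Finset.sum_congr rfl fun j _ => ?_
  rw [Matrix.add_apply]
  ring

/-- `E|C ζ_k|² = |C T_k|² + E|C p_k|²` -/
theorem split_dk1 (hζ : MF ζ lo hi) (C : Mat n) (k : Fin n) :
    EE (fun x => hs (C * Mx (dk k ζ) x)) = hs (C * Tm ζ k) +
      EE (fun x => hs (C * Mx (dk k (ef ζ)) x)) := by
  have cp := cgm_p hζ k
  have cCp : CGm (fun x => C * Mx (dk k (ef ζ)) x) := (cgm_const C).mul cp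
  have e : ∀ x, hs (C * Mx (dk k ζ) x) = hs (C * Tm ζ k) + hs (C * Mx (dk k (ef ζ)) x) +
      2 * (((C * Tm ζ k)ᵀ * C) * Mx (dk k (ef ζ)) x).trace := fun x => by
    rw [dk_eq hζ k x, Matrix.mul_add, hs_add_eq, Matrix.mul_assoc (C * Tm ζ k)ᵀ]
  have c1 : CG (fun x => (((C * Tm ζ k)ᵀ * C) * Mx (dk k (ef ζ)) x).trace) :=
    ((cgm_const _).mul cp).trace
  have h2 : EE (fun x => (((C * Tm ζ k)ᵀ * C) * Mx (dk k (ef ζ)) x).trace) = 0 := by
    have := TE_AF cp ((C * Tm ζ k)ᵀ * C)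
    rw [EM_p hζ k, Matrix.mul_zero, Matrix.trace_zero] at this
    exact this
  rw [EE_congr e, EE_add ((cg_const _).add (cg_hs cCp)) (c1.smul 2),
    EE_add (cg_const _) (cg_hs cCp), EE_const, EE_smul, h2]
  ring

theorem split_dk (hζ : MF ζ lo hi) (C : Mat n) :
    EE (fun x => ∑ k, hs (C * Mx (dk k ζ) x)) = (∑ k, hs (C * Tm ζ k)) +
      EE (fun x => ∑ k, hs (C * Mx (dk k (ef ζ)) x)) := by
  have c1 : ∀ k, CG (fun x => hs (C * Mx (dk k ζ) x)) := fun k =>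
    cg_hs ((cgm_const C).mul (fun i j => (hζ.c i j).cgp k))
  have c2 : ∀ k, CG (fun x => hs (C * Mx (dk k (ef ζ)) x)) := fun k =>
    cg_hs ((cgm_const C).mul (cgm_p hζ k))
  rw [EE_sum fun k _ => c1 k, EE_sum fun k _ => c2 k, ← Finset.sum_add_distrib]
  exact Finset.sum_congr rfl fun k _ => split_dk1 hζ C k

/-- `E|C ζ|² = Σ|C T_k|² + E|C η|²` -/
theorem split_hs (hζ : MF ζ lo hi) (h0 : ∀ i j, EE (ζ i j) = 0) (C : Mat n) :
    EE (fun x => hs (C * Mx ζ x)) = (∑ k, hs (C * Tm ζ k)) +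
      EE (fun x => hs (C * Mx (ef ζ) x)) := by
  have cη := cgm_η hζ
  have cCη : CGm (fun x => C * Mx (ef ζ) x) := (cgm_const C).mul cη
  have cL : CGm (fun x : E n => ∑ k, x k • (C * Tm ζ k)) :=
    CGm.sum fun k _ => CGm.smul (cg_coord k) (cgm_const (C * Tm ζ k))
  have ck : ∀ k, CG (fun x : E n => (((C * Tm ζ k)ᵀ * C) * (x k • Mx (ef ζ) x)).trace) := fun k =>
    ((cgm_const _).mul (CGm.smul (cg_coord k) cη)).trace
  have e : ∀ x, hs (C * Mx ζ x) = hs (∑ k, x k • (C * Tm ζ k)) + hs (C * Mx (ef ζ) x) +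
      2 * ∑ k, (((C * Tm ζ k)ᵀ * C) * (x k • Mx (ef ζ) x)).trace := fun x => by
    have e1 : C * Lx ζ x = ∑ k, x k • (C * Tm ζ k) := by
      unfold Lx
      rw [Matrix.mul_sum]
      exact Finset.sum_congr rfl fun k _ => Matrix.mul_smul _ _ _
    rw [Mx_eq h0 x, Matrix.mul_add, hs_add_eq, e1]
    congr 2
    rw [Matrix.transpose_sum, Matrix.sum_mul, Matrix.trace_sum]
    refine Finset.sum_congr rfl fun k _ => ?_
    rw [Matrix.transpose_smul, Matrix.smul_mul, Matrix.mul_smul, Matrix.mul_assoc]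
  have h2 : ∀ k, EE (fun x : E n => (((C * Tm ζ k)ᵀ * C) * (x k • Mx (ef ζ) x)).trace) = 0 := by
    intro k
    have := TE_AF (CGm.smul (cg_coord k) cη) ((C * Tm ζ k)ᵀ * C)
    rw [EM_xη hζ h0 k, Matrix.mul_zero, Matrix.trace_zero] at this
    exact this
  rw [EE_congr e, EE_add ((cg_hs cL).add (cg_hs cCη)) ((CG.sum fun k _ => ck k).smul 2),
    EE_add (cg_hs cL) (cg_hs cCη), EE_smul, EE_sum fun k _ => ck k,
    Finset.sum_congr rfl fun k _ => h2 k, DualP973.EE_hs_lin, Finset.sum_const_zero]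
  ring

/-- the first chaos cancels -/
theorem split_N (hζ : MF ζ lo hi) (h0 : ∀ i j, EE (ζ i j) = 0) (C : Mat n) :
    EE (fun x => ∑ k, hs (C * Mx (dk k ζ) x)) - EE (fun x => hs (C * Mx ζ x)) =
      EE (fun x => ∑ k, hs (C * Mx (dk k (ef ζ)) x)) - EE (fun x => hs (C * Mx (ef ζ) x)) := by
  rw [split_dk hζ C, split_hs hζ h0 C]; ring

/-- unweighted version in the letters of the spine -/
theorem split_spine (hζ : MF ζ lo hi) (h0 : ∀ i j, EE (ζ i j) = 0) :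
    EE (dh2 ζ) - EE (hs2 ζ) =
      EE (fun x => ∑ k, hs (Mx (dk k (ef ζ)) x)) - EE (fun x => hs (Mx (ef ζ) x)) := by
  have h := split_N hζ h0 1
  simp only [Matrix.one_mul] at h
  rw [← h]
  congr 1
  refine EE_congr fun x => ?_
  rw [Frame321.dh2_eq]
  rfl

end field

/-! ### the term of the spine -/

section spine

variable {M : Fld n} {lo hi : ℝ}

lemma Mx_M (hM : MF M lo hi) (hlo : 0 < lo) (x : E n) : Mx M x = sf mu (Zf M) x := by
  have h := M_eq hM hlo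
  have : Mx M x = Mx (Ff mu M) x := congrArg (fun A : Fld n => Mx A x) h
  rw [this]
  rfl

lemma Mx_U (hM : MF M lo hi) (x : E n) : Mx (Uf M) x = sf H0 (Zf M) x := by
  rw [Uf_eq hM]
  rfl

lemma Mx_dkU (hM : MF M lo hi) (hlo : 0 < lo) (k : Fin n) (x : E n) :
    Mx (dk k (Uf M)) x = DK H0 aa (Mx (Zf M) x) (Mx (dk k (Zf M)) x) :=
  Frame321.dM_Uf' hM hlo x k

lemma aa_cont : Continuous aa := continuous_iff_continuousAt.2 fun z =>
  (HFn741.aa_has' z).continuousAt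

/-- **the `Λ` term of `spineB`** -/
theorem lam_wip (hM : MF M lo hi) (hlo : 0 < lo) (B : Mat n) :
    EE (fun x => 2 * wip B (Uf M) M x - wip B (Uf M) (Uf M) x -
        ∑ k, wip B (dk k (Uf M)) (dk k (Uf M)) x) =
      TE (fun x => B * sf (fun z => 2 * kk z - H0 z ^ 2) (Zf M) x) -
        ∑ k, TE (fun x => B * (DK H0 aa (Mx (Zf M) x) (S3.dZ (Zf M) k x) *
          DK H0 aa (Mx (Zf M) x) (S3.dZ (Zf M) k x))) := by
  have hZ := mf_Zf hM hlo
  have hH : ∀ z ∈ Icc (zf lo) (zf hi), HasDerivAt H0 (aa z) z := fun z _ => H0_has z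
  have hac : ContinuousOn aa (Icc (zf lo) (zf hi)) := aa_cont.continuousOn
  have cD := fun k => cgm_DK hZ hH hac k
  have cH : Continuous H0 := continuous_iff_continuousAt.2 fun z => (H0_has z).continuousAt
  have ck : Continuous (fun z => 2 * kk z - H0 z ^ 2) := by
    have e : (fun z => 2 * kk z - H0 z ^ 2) = fun z => 2 * (1 + z * H0 z - aa z) - H0 z ^ 2 := by
      funext z
      have := HFn741.zv_sub z
      linarith
    rw [e]
    exact (continuous_const.mul ((continuous_const.add (continuous_id.mul cH)).sub aa_cont)).sub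
      (cH.pow 2)
  have c1 : CGm (fun x => B * sf (fun z => 2 * kk z - H0 z ^ 2) (Zf M) x) :=
    (cgm_const B).mul (cgm_cfc hZ ck.continuousOn)
  have c2 : ∀ k, CGm (fun x => B * (DK H0 aa (Mx (Zf M) x) (S3.dZ (Zf M) k x) *
      DK H0 aa (Mx (Zf M) x) (S3.dZ (Zf M) k x))) := fun k =>
    (cgm_const B).mul ((cD k).mul (cD k))
  unfold TE
  rw [← EE_sum fun k _ => (c2 k).trace, ← EE_sub c1.trace (CG.sum fun k _ => (c2 k).trace)]
  refine EE_congr fun x => ?_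
  have e1 : 2 * wip B (Uf M) M x - wip B (Uf M) (Uf M) x =
      (B * sf (fun z => 2 * kk z - H0 z ^ 2) (Zf M) x).trace := by
    rw [wip_tr, wip_tr, Mx_M hM hlo, Mx_U hM, sf_t, sf_mul hZ, sf_mul hZ,
      ← smul_eq_mul (2 : ℝ), ← Matrix.trace_smul, ← Matrix.mul_smul, ← Matrix.trace_sub,
      ← Matrix.mul_sub]
    congr 2
    unfold sf
    obtain ⟨U, hU⟩ := exists_fr (hZ.h x)
    apply conj_inj hU.o'
    rw [hU.cfc, Matrix.mul_sub, Matrix.sub_mul, Matrix.mul_smul, Matrix.smul_mul, hU.cfc, hU.cfc]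
    ext i j
    rw [Matrix.sub_apply, Matrix.smul_apply]
    by_cases h : i = j
    · subst h
      simp only [Matrix.diagonal_apply_eq, smul_eq_mul]
      have := HFn741.mu_H0 ((hZ.h x).eigenvalues i)
      rw [this, sq]
    · simp only [Matrix.diagonal_apply_ne _ h, smul_zero, sub_zero]
  have e2 : ∀ k, wip B (dk k (Uf M)) (dk k (Uf M)) x =
      (B * (DK H0 aa (Mx (Zf M) x) (S3.dZ (Zf M) k x) *
        DK H0 aa (Mx (Zf M) x) (S3.dZ (Zf M) k x))).trace := fun k => by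
    rw [wip_tr, Mx_dkU hM hlo]
    have e3 : Mx (dk k (Zf M)) x = S3.dZ (Zf M) k x := rfl
    rw [e3, DK_t _ _ _ _ (dZ_t hZ k x)]
  rw [e1, Finset.sum_congr rfl fun k _ => e2 k]

lemma chi'_cont : Continuous chi' := by
  have h : chi' = fun z => z * chi z + 1 - (2 * kk z - H0 z ^ 2 - aa z ^ 2) := by
    funext z
    have := HFn741.chi_id z
    linarith
  have cH : Continuous H0 := continuous_iff_continuousAt.2 fun z => (H0_has z).continuousAt
  have cc : Continuous chi := continuous_iff_continuousAt.2 fun z =>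
    (HFn741.chi_has z).continuousAt
  have ck : Continuous kk := by
    have e : kk = fun z => 1 + z * H0 z - aa z := by
      funext z
      have := HFn741.zv_sub z
      linarith
    rw [e]
    exact (continuous_const.add (continuous_id.mul cH)).sub aa_cont
  rw [h]
  exact ((continuous_id.mul cc).add continuous_const).sub
    (((continuous_const.mul ck).sub (cH.pow 2)).sub (aa_cont.pow 2))


end spine

end Crest.Agent.R253.LamI301
end
end

-- ▼ part R253/TrI_80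
section

/-!
# Row 253: `TrC_80` in the letters of the spine (helper80)

`S = M_T = MTm ζ`, `T_k = Tm ζ k`, `P_k = Mx (dk k (ef ζ)) x`, `η = Mx (ef ζ) x`.

* `ts` : `Ts (Tm ζ) (MTm ζ)`.
* `PW w ζ = E Σ tr w(S) P_k P_kᵀ`, `HW w ζ = E tr w(S) η ηᵀ`: additive, monotone in `w`,
  `2 HW w ≤ PW w` for `w ≥ 0`.
* `SW b g ζ = E tr b(S) g(ζ)`: additive, monotone.
-/

set_option autoImplicit false

open MeasureTheory ProbabilityTheory Set Filter Topology Matrix
open scoped ContDiff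

noncomputable section

namespace Crest.Agent.R253.TrC80

open Crest.Agent.R238.Gap Crest.Agent.R253.SpecCalc999 Crest.Agent.R253.Meh74
  Crest.Agent.R253.SpecField321 Crest.Agent.R253.S3 Crest.Agent.R253.LamB301
  Crest.Agent.R253.LamI301
open Crest.Agent.R253.DualP973 (Tm ef Lx MTm Mx_eq dk_eq c1_ef)

variable {n : ℕ} {ζ : Fld n} {lo hi : ℝ}

theorem ts (hζ : MF ζ lo hi) : Ts (Tm ζ) (MTm ζ) := ⟨fun k => Tm_t hζ k, rfl⟩

/-! ### the weighted second Poincaré inequality -/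

lemma int_pd_ef (hζ : MF ζ lo hi) (i j k : Fin n) : ∫ x, pd k (ef ζ i j) x ∂(gam n) = 0 :=
  integral_pd_eta (hζ.c i j) k

lemma int_ef (hζ : MF ζ lo hi) (i j : Fin n) : ∫ x, ef ζ i j x ∂(gam n) = 0 :=
  integral_eta (hζ.c i j)

lemma hs_mul_Mx (C : Mat n) (A : Fld n) (x : E n) :
    hs (C * Mx A x) = ∑ i, ∑ j, LM (fun i j => C i j) A i j x ^ 2 := by
  unfold hs LM Mx
  simp only [Matrix.mul_apply, Matrix.of_apply]

theorem two_hs_le (hζ : MF ζ lo hi) (C : Mat n) :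
    2 * EE (fun x => hs (C * Mx (ef ζ) x)) ≤
      EE (fun x => ∑ k, hs (C * Mx (dk k (ef ζ)) x)) := by
  have c1e : ∀ i j, C1 (ef ζ i j) := fun i j => c1_ef hζ i j
  have cL : ∀ i j, C1 (LM (fun i j => C i j) (ef ζ) i j) := fun i j => c1_LM c1e i j
  have h1 : ∀ i j, 2 * EE (fun x => LM (fun i j => C i j) (ef ζ) i j x ^ 2) ≤
      ∑ k, EE (fun x => pd k (LM (fun i j => C i j) (ef ζ) i j) x ^ 2) := by
    intro i j
    refine poincare2 (cL i j) ?_ fun k => ?_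
    · have : (∫ x, LM (fun i j => C i j) (ef ζ) i j x ∂(gam n)) = ∑ p, C i p * ∫ x, ef ζ p j x ∂(gam n) := by
        unfold LM
        rw [integral_finsetSum _ fun p _ => ((c1e p j).cg.int).const_mul (C i p)]
        exact Finset.sum_congr rfl fun p _ => integral_const_mul _ _
      rw [this]
      exact Finset.sum_eq_zero fun p _ => by rw [int_ef hζ, mul_zero]
    · have e : ∀ x, pd k (LM (fun i j => C i j) (ef ζ) i j) x = ∑ p, C i p * pd k (ef ζ p j) x := fun x => by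
        rw [pd_LM c1e]; rfl
      simp_rw [e]
      rw [integral_finsetSum _ fun p _ => (((c1e p j).cgp k).int).const_mul (C i p)]
      exact Finset.sum_eq_zero fun p _ => by rw [integral_const_mul, int_pd_ef hζ, mul_zero]
  have e1 : EE (fun x => hs (C * Mx (ef ζ) x)) = ∑ i, ∑ j, EE (fun x => LM (fun i j => C i j) (ef ζ) i j x ^ 2) := by
    rw [EE_congr fun x => hs_mul_Mx C (ef ζ) x]
    exact EE_sum2 (f := fun i j x => LM (fun i j => C i j) (ef ζ) i j x ^ 2) fun i j => (cL i j).cg.sq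
  have e2 : EE (fun x => ∑ k, hs (C * Mx (dk k (ef ζ)) x)) =
      ∑ i, ∑ j, ∑ k, EE (fun x => pd k (LM (fun i j => C i j) (ef ζ) i j) x ^ 2) := by
    have a1 : ∀ x, ∑ k, hs (C * Mx (dk k (ef ζ)) x) =
        ∑ i, ∑ j, ∑ k, pd k (LM (fun i j => C i j) (ef ζ) i j) x ^ 2 := fun x => by
      have : ∀ k, hs (C * Mx (dk k (ef ζ)) x) = ∑ i, ∑ j, pd k (LM (fun i j => C i j) (ef ζ) i j) x ^ 2 := fun k => by
        rw [hs_mul_Mx]
        refine Finset.sum_congr rfl fun i _ => Finset.sum_congr rfl fun j _ => ?_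
        rw [pd_LM (C := fun i j => C i j) c1e]
      rw [Finset.sum_congr rfl fun k _ => this k, Finset.sum_comm]
      exact Finset.sum_congr rfl fun i _ => Finset.sum_comm
    rw [EE_congr a1]
    have := EE_sum2 (f := fun i j x => ∑ k, pd k (LM (fun i j => C i j) (ef ζ) i j) x ^ 2) fun i j =>
      CG.sum fun k _ => ((cL i j).cgp k).sq
    refine this.trans ?_
    exact Finset.sum_congr rfl fun i _ => Finset.sum_congr rfl fun j _ =>
      EE_sum fun k _ => ((cL i j).cgp k).sq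
  rw [e1, e2, Finset.mul_sum]
  refine Finset.sum_le_sum fun i _ => ?_
  rw [Finset.mul_sum]
  exact Finset.sum_le_sum fun j _ => h1 i j

/-! ### weights -/

/-- `E Σ_k tr w(S) p_k p_kᵀ` -/
def PW (w : ℝ → ℝ) (ζ : Fld n) : ℝ := EE fun x => ∑ k,
  (_root_.cfc w (MTm ζ) * (Mx (dk k (ef ζ)) x * (Mx (dk k (ef ζ)) x)ᵀ)).trace

/-- `E tr w(S) η ηᵀ` -/
def HW (w : ℝ → ℝ) (ζ : Fld n) : ℝ := EE fun x =>
  (_root_.cfc w (MTm ζ) * (Mx (ef ζ) x * (Mx (ef ζ) x)ᵀ)).trace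

/-- `E tr b(S) g(ζ)` -/
def SW (b g : ℝ → ℝ) (ζ : Fld n) : ℝ := EE fun x =>
  (_root_.cfc b (MTm ζ) * _root_.cfc g (Mx ζ x)).trace

lemma cgm_tr' {F : E n → Mat n} (hF : CGm F) : CGm (fun x => (F x)ᵀ) := fun i j => hF j i


lemma cg_HW (hζ : MF ζ lo hi) (w : ℝ → ℝ) : CG fun x =>
    (_root_.cfc w (MTm ζ) * (Mx (ef ζ) x * (Mx (ef ζ) x)ᵀ)).trace :=
  ((cgm_const _).mul ((cgm_η hζ).mul (cgm_tr' (cgm_η hζ)))).trace

lemma psd_mul_tr (X : Mat n) : (X * Xᵀ).PosSemidef := by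
  have := Matrix.posSemidef_self_mul_conjTranspose X
  rwa [conjTranspose_eq_transpose_of_trivial] at this




lemma HW_add (hζ : MF ζ lo hi) (v w : ℝ → ℝ) : HW (fun x => v x + w x) ζ = HW v ζ + HW w ζ := by
  unfold HW
  rw [← EE_add (cg_HW hζ v) (cg_HW hζ w)]
  refine EE_congr fun x => ?_
  rw [← cfc_add' (ts hζ).herm, Matrix.add_mul, Matrix.trace_add]




lemma HW_sub (hζ : MF ζ lo hi) (v w : ℝ → ℝ) : HW (fun x => v x - w x) ζ = HW v ζ - HW w ζ := by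
  have h := HW_add hζ (fun x => v x - w x) w
  simp only [sub_add_cancel] at h
  linarith

/-- `E Σ |C p_k|² = PW p`, `C = √p(S)` -/
theorem PW_CC (hζ : MF ζ lo hi) {p : ℝ → ℝ} (hp : ∀ x, 0 ≤ x → 0 ≤ p x) :
    EE (fun x => ∑ k, hs (CC p (MTm ζ) * Mx (dk k (ef ζ)) x)) = PW p ζ := by
  refine EE_congr fun x => Finset.sum_congr rfl fun k _ => ?_
  unfold CC
  rw [hs_cfc_mul (ts hζ).herm]
  congr 2
  exact cfc_congr fun x hx => Real.sq_sqrt (hp x (spec_nonneg (ts hζ).psd hx))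

theorem HW_CC (hζ : MF ζ lo hi) {p : ℝ → ℝ} (hp : ∀ x, 0 ≤ x → 0 ≤ p x) :
    EE (fun x => hs (CC p (MTm ζ) * Mx (ef ζ) x)) = HW p ζ := by
  refine EE_congr fun x => ?_
  unfold CC
  rw [hs_cfc_mul (ts hζ).herm]
  congr 2
  exact cfc_congr fun x hx => Real.sq_sqrt (hp x (spec_nonneg (ts hζ).psd hx))

theorem PW_one (hζ : MF ζ lo hi) :
    PW (fun _ => 1) ζ = EE (fun x => ∑ k, hs (Mx (dk k (ef ζ)) x)) := by
  refine EE_congr fun x => Finset.sum_congr rfl fun k _ => ?_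
  rw [cfc_one' (ts hζ).herm, Matrix.one_mul, hs_eq']

theorem HW_one (hζ : MF ζ lo hi) : HW (fun _ => 1) ζ = EE (fun x => hs (Mx (ef ζ) x)) := by
  refine EE_congr fun x => ?_
  rw [cfc_one' (ts hζ).herm, Matrix.one_mul, hs_eq']




/-! ### `E tr b(S) g(ζ)` -/

lemma psd_cfc {A : Mat n} (hA : A.IsHermitian) {g : ℝ → ℝ} (hg : ∀ x ∈ spectrum ℝ A, 0 ≤ g x) :
    (_root_.cfc g A).PosSemidef := by
  have e : _root_.cfc g A = _root_.cfc (fun x => Real.sqrt (g x)) A *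
      (_root_.cfc (fun x => Real.sqrt (g x)) A)ᵀ := by
    rw [cfc_tr hA, cfc_mul' hA]
    exact cfc_congr fun x hx => (Real.mul_self_sqrt (hg x hx)).symm
  rw [e]
  exact psd_mul_tr _

lemma cg_SW (hζ : MF ζ lo hi) (b : ℝ → ℝ) {g : ℝ → ℝ} (hg : ContinuousOn g (Icc lo hi)) :
    CG fun x => (_root_.cfc b (MTm ζ) * _root_.cfc g (Mx ζ x)).trace :=
  ((cgm_const _).mul (cgm_cfc hζ hg)).trace



lemma SW_add_b (hζ : MF ζ lo hi) (b c : ℝ → ℝ) {g : ℝ → ℝ} (hg : ContinuousOn g (Icc lo hi)) :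
    SW (fun x => b x + c x) g ζ = SW b g ζ + SW c g ζ := by
  unfold SW
  rw [← EE_add (cg_SW hζ b hg) (cg_SW hζ c hg)]
  refine EE_congr fun x => ?_
  rw [← cfc_add' (ts hζ).herm, Matrix.add_mul, Matrix.trace_add]





/-- `E tr b(S) ζ = 0` -/
lemma SW_id (hζ : MF ζ lo hi) (h0 : ∀ i j, EE (ζ i j) = 0) (b : ℝ → ℝ) :
    SW b (fun z => z) ζ = 0 := by
  unfold SW
  rw [EE_congr fun x => by rw [cfc_id'' (hζ.h x)]]
  have := TE_AF (cgm_Mx hζ) (_root_.cfc b (MTm ζ))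
  rw [EM_ζ h0, Matrix.mul_zero, Matrix.trace_zero] at this
  exact this

/-- `E tr b(S) ζ² = tr (x b)(S) + E tr b(S) ηηᵀ` -/
lemma SW_sq (hζ : MF ζ lo hi) (h0 : ∀ i j, EE (ζ i j) = 0) {b : ℝ → ℝ}
    (hb : ∀ x, 0 ≤ x → 0 ≤ b x) :
    SW b (fun z => z ^ 2) ζ = TR (fun x => b x * x) (MTm ζ) + HW b ζ := by
  have h := split_hs hζ h0 (CC b (MTm ζ))
  have e1 : EE (fun x => hs (CC b (MTm ζ) * Mx ζ x)) = SW b (fun z => z ^ 2) ζ := by
    refine EE_congr fun x => ?_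
    unfold CC
    rw [hs_cfc_mul (ts hζ).herm]
    congr 2
    · exact cfc_congr fun x hx => Real.sq_sqrt (hb x (spec_nonneg (ts hζ).psd hx))
    · have e2 : (Mx ζ x)ᵀ = Mx ζ x := Mx_t hζ x
      rw [e2]
      conv_lhs => rw [← cfc_id'' (hζ.h x)]
      rw [cfc_mul' (hζ.h x)]
      exact cfc_congr fun z _ => by ring
  have e3 : ∑ k, hs (CC b (MTm ζ) * Tm ζ k) = TR (fun x => b x * x) (MTm ζ) := by
    unfold CC
    rw [(ts hζ).sum_hs]
    exact TR_congr fun x hx => by rw [Real.sq_sqrt (hb x (spec_nonneg (ts hζ).psd hx))]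
  rw [e1, e3, HW_CC hζ hb] at h
  exact h

end Crest.Agent.R253.TrC80
end
end

-- ▼ part R253/NearR_80
section

/-!
# Row 253: the near part and the main term in one real variable (helper80)

* `SW_rows`: `E tr β(S) g(ζ) ≥ tr (β (a - e x))(S) - E tr (β e)(S) ηη` for row dependent minorants
  `a(x) + c(x) z - e(x) z² ≤ g(z)`.
* `lam_ge_R`: 378's `lam_ge` for `b = b₁(S)`.
-/

set_option autoImplicit false

open MeasureTheory ProbabilityTheory Set Filter Topology Matrix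
open scoped ContDiff

noncomputable section

namespace Crest.Agent.R253.TrC80

open Crest.Agent.R238.Gap Crest.Agent.R253.SpecCalc999 Crest.Agent.R253.Meh74
  Crest.Agent.R253.SpecField321 Crest.Agent.R253.S3 Crest.Agent.R253.LamB301
  Crest.Agent.R253.LamI301
open Crest.Agent.R253.DualP973 (Tm ef Lx MTm Mx_eq dk_eq c1_ef)
open Crest.Agent.R253.ErrT378 (Lam lam_ge)
open Crest.Agent.R253.Stein378 (ky)

variable {n : ℕ} {ζ : Fld n} {lo hi : ℝ}

/-! ### second moments, any sign -/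

lemma SW_sub_b (hζ : MF ζ lo hi) (b c : ℝ → ℝ) {g : ℝ → ℝ} (hg : ContinuousOn g (Icc lo hi)) :
    SW (fun x => b x - c x) g ζ = SW b g ζ - SW c g ζ := by
  have h := SW_add_b hζ (fun x => b x - c x) c hg
  simp only [sub_add_cancel] at h
  linarith

/-- `E tr b(S) ζ² = tr (x b)(S) + E tr b(S) ηηᵀ`, `b` of any sign -/
theorem SW_sq' (hζ : MF ζ lo hi) (h0 : ∀ i j, EE (ζ i j) = 0) (b : ℝ → ℝ) :
    SW b (fun z => z ^ 2) ζ = TR (fun x => b x * x) (MTm ζ) + HW b ζ := by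
  have e : b = fun x => max (b x) 0 - max (-b x) 0 := by
    funext x
    rcases le_total 0 (b x) with h | h
    · rw [max_eq_left h, max_eq_right (by linarith)]; ring
    · rw [max_eq_right h, max_eq_left (by linarith)]; ring
  have hp := SW_sq hζ h0 (b := fun x => max (b x) 0) fun x _ => le_max_right _ _
  have hm := SW_sq hζ h0 (b := fun x => max (-b x) 0) fun x _ => le_max_right _ _
  have hc : ContinuousOn (fun z : ℝ => z ^ 2) (Icc lo hi) := (continuous_pow 2).continuousOn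
  have h1 := SW_sub_b hζ (fun x => max (b x) 0) (fun x => max (-b x) 0) hc
  have h2 := HW_sub hζ (fun x => max (b x) 0) (fun x => max (-b x) 0)
  have h3 := TR_sub (ts hζ).herm (fun x => max (b x) 0 * x) (fun x => max (-b x) 0 * x)
  rw [← e] at h1 h2
  have e2 : (fun x => max (b x) 0 * x - max (-b x) 0 * x) = fun x => b x * x := by
    funext x
    rw [← sub_mul]
    congr 1
    exact (congrFun e x).symm
  rw [e2] at h3
  rw [h1, hp, hm, h2, h3]
  ring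

lemma tr_rows {S Z : Mat n} (hS : S.PosSemidef) (hZ : Z.IsHermitian) {β a c e g : ℝ → ℝ}
    (hβ : ∀ x, 0 ≤ x → 0 ≤ β x)
    (h : ∀ x, 0 ≤ x → ∀ z ∈ spectrum ℝ Z, a x + c x * z - e x * z ^ 2 ≤ g z) :
    TR (fun x => β x * a x) S + (_root_.cfc (fun x => β x * c x) S *
      _root_.cfc (fun z : ℝ => z) Z).trace -
      (_root_.cfc (fun x => β x * e x) S * _root_.cfc (fun z : ℝ => z ^ 2) Z).trace ≤
      (_root_.cfc β S * _root_.cfc g Z).trace := by
  obtain ⟨U, hU⟩ := exists_fr hS.isHermitian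
  rw [TR_frame hU, tr_mul_frame hU, tr_mul_frame hU, tr_mul_frame hU, ← Finset.sum_add_distrib,
    ← Finset.sum_sub_distrib]
  refine Finset.sum_le_sum fun i _ => ?_
  set s := hS.isHermitian.eigenvalues i with hs
  have hs0 : 0 ≤ s := spec_nonneg hS (hU.mem_spec i)
  have hp : (_root_.cfc (fun z => g z - (a s + c s * z - e s * z ^ 2)) Z).PosSemidef :=
    psd_cfc hZ fun z hz => by have := h s hs0 z hz; linarith
  have e1 : _root_.cfc (fun z => g z - (a s + c s * z - e s * z ^ 2)) Z =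
      _root_.cfc g Z - (a s • (1 : Mat n) + c s • _root_.cfc (fun z : ℝ => z) Z -
        e s • _root_.cfc (fun z : ℝ => z ^ 2) Z) := by
    rw [← cfc_one' hZ, cfc_smul' hZ, cfc_smul' hZ, cfc_smul' hZ, cfc_add' hZ, cfc_sub' hZ,
      cfc_sub' hZ]
    simp only [mul_one]
  have h2 := hp.conjTranspose_mul_mul_same U
  rw [conjTranspose_eq_transpose_of_trivial] at h2
  have h3 : 0 ≤ (Uᵀ * _root_.cfc (fun z => g z - (a s + c s * z - e s * z ^ 2)) Z * U) i i :=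
    h2.diag_nonneg
  have e2 : Uᵀ * (_root_.cfc g Z - (a s • (1 : Mat n) + c s • _root_.cfc (fun z : ℝ => z) Z -
        e s • _root_.cfc (fun z : ℝ => z ^ 2) Z)) * U =
      Uᵀ * _root_.cfc g Z * U - (a s • (1 : Mat n) + c s • (Uᵀ * _root_.cfc (fun z : ℝ => z) Z * U) -
        e s • (Uᵀ * _root_.cfc (fun z : ℝ => z ^ 2) Z * U)) := by
    simp only [Matrix.mul_sub, Matrix.sub_mul, Matrix.mul_add, Matrix.add_mul, Matrix.mul_smul,
      Matrix.smul_mul, Matrix.mul_one, hU.o]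
  rw [e1, e2] at h3
  simp only [Matrix.sub_apply, Matrix.add_apply, Matrix.smul_apply, smul_eq_mul,
    Matrix.one_apply_eq, mul_one] at h3
  have h4 := mul_nonneg (hβ s hs0) h3
  nlinarith [h4]

/-- **main term with row dependent quadratic minorants** -/
theorem SW_rows (hζ : MF ζ lo hi) (h0 : ∀ i j, EE (ζ i j) = 0) {β a c e g : ℝ → ℝ}
    (hg : ContinuousOn g (Icc lo hi)) (hβ : ∀ x, 0 ≤ x → 0 ≤ β x)
    (h : ∀ x, 0 ≤ x → ∀ z ∈ Icc lo hi, a x + c x * z - e x * z ^ 2 ≤ g z) :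
    TR (fun x => β x * a x) (MTm ζ) - TR (fun x => β x * e x * x) (MTm ζ) -
      HW (fun x => β x * e x) ζ ≤ SW β g ζ := by
  have hc : ContinuousOn (fun z : ℝ => z ^ 2) (Icc lo hi) := (continuous_pow 2).continuousOn
  have hi' : ContinuousOn (fun z : ℝ => z) (Icc lo hi) := continuousOn_id
  have h1 : EE (fun x => TR (fun x => β x * a x) (MTm ζ) +
      (_root_.cfc (fun x => β x * c x) (MTm ζ) * _root_.cfc (fun z : ℝ => z) (Mx ζ x)).trace -
      (_root_.cfc (fun x => β x * e x) (MTm ζ) *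
        _root_.cfc (fun z : ℝ => z ^ 2) (Mx ζ x)).trace) ≤ SW β g ζ :=
    EE_mono (((cg_const _).add (cg_SW hζ _ hi')).sub (cg_SW hζ _ hc)) (cg_SW hζ β hg) fun x =>
      tr_rows (ts hζ).psd (hζ.h x) hβ fun y hy z hz => h y hy z (hζ.s x hz)
  rw [EE_sub ((cg_const _).add (cg_SW hζ _ hi')) (cg_SW hζ _ hc),
    EE_add (cg_const _) (cg_SW hζ _ hi'), EE_const] at h1
  have h2 := SW_id hζ h0 (fun x => β x * c x)
  have h3 := SW_sq' hζ h0 (fun x => β x * e x)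
  unfold SW at h1 h2 h3 ⊢
  linarith

/-! ### 378's bound for `b = b₁(S)` -/

lemma pk_t (hζ : MF ζ lo hi) (k : Fin n) (x : E n) :
    (Mx (dk k (ef ζ)) x)ᵀ = Mx (dk k (ef ζ)) x := by
  rw [Mx_dk_ef hζ]
  unfold pk
  rw [Matrix.transpose_sub, dZ_t hζ, Tm_t hζ]

lemma ef_t (hζ : MF ζ lo hi) (h0 : ∀ i j, EE (ζ i j) = 0) (x : E n) :
    (Mx (ef ζ) x)ᵀ = Mx (ef ζ) x := by
  rw [Mx_ef h0]
  exact ErrT378.eta0_t hζ (fun k => Tm_t hζ k) x

theorem lam_ge_R (hζ : MF ζ lo hi) (h0 : ∀ i j, EE (ζ i j) = 0) {v v1 χ χ1 F h : ℝ → ℝ}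
    (hv : ∀ z ∈ Icc lo hi, HasDerivAt v (v1 z) z) (hv1 : ContinuousOn v1 (Icc lo hi))
    (hχ : ∀ z ∈ Icc lo hi, HasDerivAt χ (χ1 z) z) (hχ1 : ContinuousOn χ1 (Icc lo hi))
    (hF : ∀ z ∈ Icc lo hi, F z = 1 + z * χ z - χ1 z + v1 z ^ 2)
    (hh : ∀ z ∈ Icc lo hi, χ1 z - v1 z ^ 2 = h z)
    {sl : ℝ → ℝ → ℝ} {Sl : E n → ℝ} (cSl : CG Sl)
    (hSl : ∀ x, ∃ U s, Fr (Mx ζ x) U s ∧ ∑ k, Jord192.slk sl U s (S3.dZ ζ k x) ≤ Sl x)
    {Cy Cw Ce c ρ κ bo bn θ1 θ2 θ3 θ4 c3 c4 a5 c5 e5 : ℝ}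
    (hy : ∀ a ∈ Icc lo hi, ∀ b ∈ Icc lo hi, ky v v1 χ χ1 a b ^ 2 ≤ Cy * sl a b)
    (hw : ∀ a ∈ Icc lo hi, ∀ b ∈ Icc lo hi, (v1 a * (dd1 v v1 b a - v1 a)) ^ 2 ≤ Cw * sl a b)
    (he : ∀ a ∈ Icc lo hi, ∀ b ∈ Icc lo hi, (dd1 v v1 a b - v1 b) ^ 2 ≤ Ce * sl a b)
    (hρ : ∀ a ∈ Icc lo hi, ∀ b ∈ Icc lo hi, |χ1 b - v1 b ^ 2 - v1 a ^ 2 - c| ≤ ρ)
    (hκ : ∀ a ∈ Icc lo hi, |v1 a| ≤ κ)
    (hg : ∀ z ∈ Icc lo hi, (χ z - c3 - c4 * z) ^ 2 ≤ a5 + c5 * z + e5 * z ^ 2)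
    (hC0 : 0 ≤ Cy) (hC1 : 0 ≤ Cw) (hC2 : 0 ≤ Ce)
    (hθ1 : 0 < θ1) (hθ2 : 0 < θ2) (hθ3 : 0 < θ3) (hθ4 : 0 < θ4) {b : ℝ → ℝ}
    (hbo : ∀ x, 0 ≤ x → b x ^ 2 ≤ bo ^ 2) (hbn : ∀ x, 0 ≤ x → b x ≤ bn) (hbn0 : 0 ≤ bn) :
    TR b (MTm ζ) + SW (fun x => b x * (x - 1)) h ζ -
      (θ1 / 2 + θ2 / 2) * TR (fun x => b x ^ 2 * x) (MTm ζ) -
      (ρ ^ 2 / (2 * θ1) + θ3 * bo ^ 2) * PW (fun _ => 1) ζ -
      κ ^ 2 * PW (fun x => max (b x) 0) ζ -
      (Cy / (2 * θ2) + Cw / θ3 + bn * Ce) * EE Sl -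
      (θ4 / 2 * (a5 * TR (fun x => b x ^ 2) (MTm ζ) + e5 * (TR (fun x => b x ^ 2 * x) (MTm ζ) +
        HW (fun x => b x ^ 2) ζ)) + 1 / (2 * θ4) * HW (fun _ => 1) ζ) +
      c4 * HW b ζ ≤ Lam F v v1 ζ (_root_.cfc b (MTm ζ)) := by
  have hS := (ts hζ).herm
  have hP := (ts hζ).psd
  have e0 : ∑ k, Tm ζ k * Tm ζ k = MTm ζ := rfl
  have h1 := lam_ge hζ hv hv1 hχ hχ1 hF (T := Tm ζ) (fun k => Tm_t hζ k) (fun k => rfl)
    (EM_ζ h0) cSl hSl hy hw he hρ hκ hg hC0 hC1 hC2 hθ1 hθ2 hθ3 hθ4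
    (b := _root_.cfc b (MTm ζ)) (Q := _root_.cfc (fun x => max (b x) 0) (MTm ζ)) (bo := bo)
    (bn := bn) (cfc_tr hS b) (psd_cfc hS fun x _ => le_max_right _ _) ?_ ?_ ?_ hbn0
  · refine le_trans (le_of_eq ?_) h1
    rw [e0, cfc_mul' hS]
    have a1 : ((_root_.cfc (fun x => b x * b x) (MTm ζ)) * MTm ζ).trace =
        TR (fun x => b x ^ 2 * x) (MTm ζ) := by
      unfold TR
      conv_lhs => rw [show _root_.cfc (fun x => b x * b x) (MTm ζ) * MTm ζ =
        _root_.cfc (fun x => b x * b x) (MTm ζ) * _root_.cfc (fun x : ℝ => x) (MTm ζ) by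
          rw [cfc_id'' hS]]
      rw [cfc_mul' hS]
      simp only [sq]
    have a2 : (_root_.cfc (fun x => b x * b x) (MTm ζ)).trace = TR (fun x => b x ^ 2) (MTm ζ) := by
      unfold TR; simp only [sq]
    have a3 : TE (fun x => _root_.cfc b (MTm ζ) * (MTm ζ - 1) *
        sf (fun z => χ1 z - v1 z ^ 2) ζ x) = SW (fun x => b x * (x - 1)) h ζ := by
      refine EE_congr fun x => ?_
      have b1 : _root_.cfc b (MTm ζ) * (MTm ζ - 1) =
          _root_.cfc (fun x => b x * (x - 1)) (MTm ζ) := by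
        conv_lhs => rw [show MTm ζ - 1 = _root_.cfc (fun x : ℝ => x) (MTm ζ) -
          _root_.cfc (fun _ : ℝ => (1 : ℝ)) (MTm ζ) by rw [cfc_id'' hS, cfc_one' hS]]
        rw [cfc_sub' hS, cfc_mul' hS]
      have b2 : sf (fun z => χ1 z - v1 z ^ 2) ζ x = _root_.cfc h (Mx ζ x) :=
        cfc_congr fun z hz => hh z (hζ.s x hz)
      beta_reduce
      rw [b1, b2]
    have a4 : ∑ k, EE (fun x => hs (pk ζ (Tm ζ) k x)) = PW (fun _ => 1) ζ := by
      rw [PW_one hζ, EE_sum fun k _ => cg_hs (cgm_p hζ k)]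
      exact Finset.sum_congr rfl fun k _ => EE_congr fun x => by rw [Mx_dk_ef hζ]
    have a5' : ∑ k, TE (fun x => _root_.cfc (fun x => max (b x) 0) (MTm ζ) *
        (pk ζ (Tm ζ) k x * pk ζ (Tm ζ) k x)) = PW (fun x => max (b x) 0) ζ := by
      unfold PW TE
      rw [EE_sum fun k _ => ((cgm_const _).mul ((cgm_p hζ k).mul (cgm_tr' (cgm_p hζ k)))).trace]
      refine Finset.sum_congr rfl fun k _ => EE_congr fun x => ?_
      beta_reduce
      rw [pk_t hζ, Mx_dk_ef hζ]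
    have a6 : ∀ w : ℝ → ℝ, TE (fun x => _root_.cfc w (MTm ζ) *
        (eta0 ζ (Tm ζ) x * eta0 ζ (Tm ζ) x)) = HW w ζ := fun w => by
      refine EE_congr fun x => ?_
      beta_reduce
      rw [ef_t hζ h0, Mx_ef h0]
    have a7 : EE (fun x => hs (eta0 ζ (Tm ζ) x)) = HW (fun _ => 1) ζ := by
      rw [HW_one hζ]
      exact EE_congr fun x => by rw [Mx_ef h0]
    have a8 : HW (fun x => b x * b x) ζ = HW (fun x => b x ^ 2) ζ := by simp only [sq]
    rw [a1, a2, a3, a4, a5', a6, a6, a7, a8]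
    rfl
  · rw [cfc_sub' hS]
    exact psd_cfc hS fun x _ => sub_nonneg.2 (le_max_left _ _)
  · intro X
    exact hs_cfc_le hS (fun x hx => hbo x (spec_nonneg hP hx)) X
  · intro X
    have := tr_mul_mono hP (psd_mul_tr X) (f := fun x => max (b x) 0) (g := fun _ => bn)
      fun x hx => max_le (hbn x hx) hbn0
    refine this.trans (le_of_eq ?_)
    have e9 : _root_.cfc (fun _ : ℝ => bn) (MTm ζ) = bn • (1 : Mat n) := by
      rw [← cfc_one' hS, cfc_smul' hS]; simp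
    rw [e9, Matrix.smul_mul, Matrix.one_mul, Matrix.trace_smul, smul_eq_mul, hs_eq']

end Crest.Agent.R253.TrC80
end
end

-- ▼ part R253/RowR_80
section

/-!
# Row 253: `TR`, `PW`, `HW` as finite sums over the eigenvalues of `M_T` (helper80)

`rows`: there are `s P H : Fin n → ℝ` with `0 ≤ s i`, `0 ≤ H i`, `2 H i ≤ P i` and
`TR g S = Σ g (s i)`, `PW w ζ = Σ w (s i) P i`, `HW w ζ = Σ w (s i) H i` for all `g, w`.
-/

set_option autoImplicit false

open MeasureTheory ProbabilityTheory Set Filter Topology Matrix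
open scoped ContDiff

noncomputable section

namespace Crest.Agent.R253.TrC80

open Crest.Agent.R238.Gap Crest.Agent.R253.SpecCalc999 Crest.Agent.R253.Meh74
  Crest.Agent.R253.SpecField321 Crest.Agent.R253.S3 Crest.Agent.R253.LamB301
  Crest.Agent.R253.LamI301
open Crest.Agent.R253.DualP973 (Tm ef Lx MTm Mx_eq dk_eq c1_ef)

variable {n : ℕ} {ζ : Fld n} {lo hi : ℝ}

/-- one row -/
def rowM (U : Mat n) (i : Fin n) : Mat n := Matrix.single i i 1 * Uᵀ

lemma hs_rowM (U X : Mat n) (i : Fin n) : hs (rowM U i * X) = (Uᵀ * (X * Xᵀ) * U) i i := by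
  have e1 : Uᵀ * (X * Xᵀ) * U = (Uᵀ * X) * (Uᵀ * X)ᵀ := by
    rw [Matrix.transpose_mul, Matrix.transpose_transpose]
    simp only [Matrix.mul_assoc]
  rw [e1, Matrix.mul_apply]
  unfold hs rowM
  rw [Matrix.mul_assoc]
  rw [Finset.sum_eq_single i]
  · refine Finset.sum_congr rfl fun j _ => ?_
    rw [Matrix.single_mul_apply_same, one_mul, Matrix.transpose_apply, sq]
  · intro a _ ha
    refine Finset.sum_eq_zero fun j _ => ?_
    rw [Matrix.single_mul_apply_of_ne _ _ _ _ _ ha]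
    norm_num
  · intro h; exact absurd (Finset.mem_univ _) h

theorem rows (hζ : MF ζ lo hi) : ∃ s P H : Fin n → ℝ, (∀ i, 0 ≤ s i) ∧ (∀ i, 0 ≤ H i) ∧
    (∀ i, 2 * H i ≤ P i) ∧ (∀ g, TR g (MTm ζ) = ∑ i, g (s i)) ∧
    (∀ w, PW w ζ = ∑ i, w (s i) * P i) ∧ ∀ w, HW w ζ = ∑ i, w (s i) * H i := by
  obtain ⟨U, hU⟩ := exists_fr (ts hζ).herm
  have cP : ∀ i, CG fun x => ∑ k, hs (rowM U i * Mx (dk k (ef ζ)) x) := fun i =>
    CG.sum fun k _ => cg_hs ((cgm_const _).mul (cgm_p hζ k))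
  have cH : ∀ i, CG fun x => hs (rowM U i * Mx (ef ζ) x) := fun i =>
    cg_hs ((cgm_const _).mul (cgm_η hζ))
  refine ⟨_, fun i => EE (fun x => ∑ k, hs (rowM U i * Mx (dk k (ef ζ)) x)),
    fun i => EE (fun x => hs (rowM U i * Mx (ef ζ) x)),
    fun i => spec_nonneg (ts hζ).psd (hU.mem_spec i), fun i => EE_nonneg fun x => hs_nonneg _,
    fun i => two_hs_le hζ _, fun g => TR_frame hU g, fun w => ?_, fun w => ?_⟩
  · unfold PW
    have e : ∀ x, ∑ k, (_root_.cfc w (MTm ζ) *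
        (Mx (dk k (ef ζ)) x * (Mx (dk k (ef ζ)) x)ᵀ)).trace =
        ∑ i, w ((ts hζ).herm.eigenvalues i) * ∑ k, hs (rowM U i * Mx (dk k (ef ζ)) x) := by
      intro x
      simp only [Finset.mul_sum]
      rw [Finset.sum_comm]
      refine Finset.sum_congr rfl fun k _ => ?_
      rw [tr_mul_frame hU]
      exact Finset.sum_congr rfl fun i _ => by rw [hs_rowM]
    rw [EE_congr e, EE_sum fun i _ => (cP i).smul _]
    exact Finset.sum_congr rfl fun i _ => EE_smul _ _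
  · unfold HW
    have e : ∀ x, (_root_.cfc w (MTm ζ) * (Mx (ef ζ) x * (Mx (ef ζ) x)ᵀ)).trace =
        ∑ i, w ((ts hζ).herm.eigenvalues i) * hs (rowM U i * Mx (ef ζ) x) := by
      intro x
      rw [tr_mul_frame hU]
      exact Finset.sum_congr rfl fun i _ => by rw [hs_rowM]
    rw [EE_congr e, EE_sum fun i _ => (cH i).smul _]
    exact Finset.sum_congr rfl fun i _ => EE_smul _ _

end Crest.Agent.R253.TrC80
end
end

-- ▼ part R253/Trunc_518
section

/-!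
# R253, E-route: facts on the constant matrices `M_T = Σ T_k²`, `b(M_T)`, `K = k(M_T)` (helper518)

Everything is for a symmetric real matrix `A` (mostly `A = MT T`) and its functional calculus `cfc f A`.
-/

set_option autoImplicit false
open Matrix Finset

noncomputable section

namespace Crest.Agent.R253.Trunc518

open Crest.Agent.R253.SpecCalc999 Crest.Agent.R253.SpecField321

variable {m n : ℕ}

/-! ### traces of spectral functions -/

lemma Fr.tr {A U : Mat m} {s : Fin m → ℝ} (h : Fr A U s) (f : ℝ → ℝ) :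
    (cfc f A).trace = ∑ i, f (s i) := by
  have h1 : (Uᵀ * (cfc f A) * U).trace = (cfc f A).trace := by
    rw [Matrix.trace_mul_comm, ← Matrix.mul_assoc, h.o', Matrix.one_mul]
  rw [← h1, h.cfc f, Matrix.trace_diagonal]


lemma cfc_tr {A : Mat m} (f : ℝ → ℝ) (hA : A.IsHermitian) : (cfc f A)ᵀ = cfc f A := by
  obtain ⟨U, hU⟩ := exists_fr hA
  have e : ∀ X : Mat m, (Uᵀ * X * U)ᵀ = Uᵀ * Xᵀ * U := fun X => by
    rw [Matrix.transpose_mul, Matrix.transpose_mul, Matrix.transpose_transpose, Matrix.mul_assoc]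
  apply conj_inj hU.o'
  rw [← e, hU.cfc f, Matrix.diagonal_transpose]


lemma cfc_mul_cfc {A : Mat m} (f g : ℝ → ℝ) :
    cfc f A * cfc g A = cfc (fun x => f x * g x) A :=
  (cfc_mul f g A (contOn_spec _ _) (contOn_spec _ _)).symm









/-- `|f(A)|²_HS = tr f²(A)` -/
theorem hs_cfc {A : Mat m} (hA : A.IsHermitian) (f : ℝ → ℝ) :
    hs (cfc f A) = (cfc (fun x => f x ^ 2) A).trace := by
  rw [hs_eq, cfc_tr f hA, cfc_mul_cfc]
  congr 2
  funext x; ring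

/-! ### quadratic forms -/

lemma quad_frame {A U : Mat m} {s : Fin m → ℝ} (h : Fr A U s) (f : ℝ → ℝ) (w : Fin m → ℝ) :
    w ⬝ᵥ (cfc f A *ᵥ w) = ∑ i, f (s i) * ((Uᵀ *ᵥ w) i) ^ 2 := by
  have e : cfc f A = U * Matrix.diagonal (fun i => f (s i)) * Uᵀ := by
    rw [← h.cfc f]
    calc cfc f A = (U * Uᵀ) * cfc f A * (U * Uᵀ) := by rw [h.o', Matrix.one_mul, Matrix.mul_one]
      _ = U * (Uᵀ * cfc f A * U) * Uᵀ := by simp only [Matrix.mul_assoc]
  rw [e, ← Matrix.mulVec_mulVec, ← Matrix.mulVec_mulVec, Matrix.dotProduct_mulVec,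
    ← Matrix.mulVec_transpose]
  simp only [dotProduct, Matrix.mulVec_diagonal]
  exact Finset.sum_congr rfl fun i _ => by ring

lemma norm_frame {A U : Mat m} {s : Fin m → ℝ} (h : Fr A U s) (w : Fin m → ℝ) :
    ∑ i, ((Uᵀ *ᵥ w) i) ^ 2 = ∑ i, w i ^ 2 := by
  have e : (Uᵀ *ᵥ w) ⬝ᵥ (Uᵀ *ᵥ w) = w ⬝ᵥ w := by
    rw [Matrix.dotProduct_mulVec, Matrix.vecMul_transpose, Matrix.mulVec_mulVec, h.o',
      Matrix.one_mulVec]
  simp only [dotProduct] at e
  calc ∑ i, ((Uᵀ *ᵥ w) i) ^ 2 = ∑ i, (Uᵀ *ᵥ w) i * (Uᵀ *ᵥ w) i :=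
        Finset.sum_congr rfl fun i _ => by ring
    _ = ∑ i, w i * w i := e
    _ = _ := Finset.sum_congr rfl fun i _ => by ring


theorem le_quad {A : Mat m} (hA : A.IsHermitian) {f : ℝ → ℝ} {c : ℝ}
    (h : ∀ x ∈ spectrum ℝ A, c ≤ f x) (w : Fin m → ℝ) :
    c * ∑ i, w i ^ 2 ≤ w ⬝ᵥ (cfc f A *ᵥ w) := by
  obtain ⟨U, hU⟩ := exists_fr hA
  rw [quad_frame hU, ← norm_frame hU w, Finset.mul_sum]
  exact Finset.sum_le_sum fun i _ => mul_le_mul_of_nonneg_right (h _ (hU.mem_spec i)) (sq_nonneg _)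



/-! ### products -/










/-! ### the matrix `M_T = Σ T_k²` -/




















/-! ### the cut-off functions -/

/-- `b(x) = min(1, (K₀/x)^{1/2})` -/
def bf (K0 : ℝ) (x : ℝ) : ℝ := if x ≤ K0 then 1 else Real.sqrt (K0 / x)











end Crest.Agent.R253.Trunc518
end
end

-- ▼ part R253/BF_321
section

/-!
# R253 (L0): the B-form of the spine on the fields `Zf M`, `Uf M` (helper321)
-/

set_option autoImplicit false

open MeasureTheory ProbabilityTheory Real Set Filter Topology Matrix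
open scoped ContDiff

noncomputable section

namespace Crest.Agent.R253.BF321

open Crest.Agent.R238.Gap Crest.Agent.R238.GapPoinc Crest.Agent.R238.GapPc
open Crest.Agent.R253.SpecCalc999 Crest.Agent.R253.Meh74 Crest.Agent.R253.SpecField321
open Crest.Agent.R253.Frame321 (Zf Uf Slk)

variable {n : ℕ} {G : Fin n → E n → ℝ} {M N : Fld n} {V : E n → ℝ} {lo hi : ℝ}

/-- `⟨w, M w⟩ ≥ lo |w|²` -/
lemma quad_M (hM : MF M lo hi) (x : E n) (w : Fin n → ℝ) :
    lo * ∑ i, w i ^ 2 ≤ w ⬝ᵥ (Mx M x *ᵥ w) := by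
  have h1 := Trunc518.le_quad (hM.h x) (f := fun t => t) (c := lo)
    (fun t ht => (hM.s x ht).1) w
  rwa [cfc_id'' (hM.h x)] at h1

/-- **the covariance is positive definite** -/
theorem covM_posDef (h : MA G M N V) (hM : MF M lo hi) (hlo : 0 < lo) : (covM G).PosDef := by
  refine Matrix.PosDef.of_dotProduct_mulVec_pos ?_ ?_
  · unfold Matrix.IsHermitian
    rw [conjTranspose_eq_transpose_of_trivial]
    ext i j
    simp only [Matrix.transpose_apply, covM, Matrix.of_apply]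
    rw [mul_comm (EE (G j))]
    congr 1
    exact EE_congr fun x => mul_comm _ _
  · intro w hw
    set f : E n → ℝ := fun x => ∑ i, w i * G i x with hf
    have cf : C1 f := C1.sum fun i _ => (h.hd.g i).smul (w i)
    have cG : ∀ i, CG (G i) := fun i => (h.hd.g i).cg
    have e1 : star w ⬝ᵥ (covM G *ᵥ w) = EE (fun x => f x ^ 2) - EE f ^ 2 := by
      have a1 : EE f = ∑ i, w i * EE (G i) := by
        rw [hf, EE_sum fun i _ => (cG i).smul (w i)]
        exact Finset.sum_congr rfl fun i _ => EE_smul _ _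
      have a2 : EE (fun x => f x ^ 2) = ∑ i, ∑ j, w i * w j * EE (fun x => G i x * G j x) := by
        have b1 : ∀ x, f x ^ 2 = ∑ i, ∑ j, w i * w j * (G i x * G j x) := fun x => by
          rw [hf, sq, Finset.sum_mul_sum]
          exact Finset.sum_congr rfl fun i _ => Finset.sum_congr rfl fun j _ => by ring
        rw [EE_congr b1, EE_sum fun i _ => CG.sum fun j _ => ((cG i).mul (cG j)).smul _]
        refine Finset.sum_congr rfl fun i _ => ?_
        rw [EE_sum fun j _ => ((cG i).mul (cG j)).smul _]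
        exact Finset.sum_congr rfl fun j _ => EE_smul _ _
      rw [a1, a2, sq, Finset.sum_mul_sum, ← Finset.sum_sub_distrib]
      unfold dotProduct Matrix.mulVec dotProduct
      refine Finset.sum_congr rfl fun i _ => ?_
      rw [Finset.mul_sum, ← Finset.sum_sub_distrib]
      refine Finset.sum_congr rfl fun j _ => ?_
      simp only [covM, Matrix.of_apply, Pi.star_apply, star_trivial]
      ring
    have hs := sq_split cf
    have e2 : EE (fun x => f x ^ 2) - EE f ^ 2 =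
        (∑ k, (∫ y, pd k f y ∂(gam n)) ^ 2) + ∫ x, eta f x ^ 2 ∂(gam n) := by
      unfold EE
      rw [hs]; ring
    have h3 : 0 ≤ ∫ x, eta f x ^ 2 ∂(gam n) := integral_nonneg fun x => sq_nonneg _
    have h4 : 0 < ∑ k, (∫ y, pd k f y ∂(gam n)) ^ 2 := by
      by_contra hc
      have hz : ∑ k, (∫ y, pd k f y ∂(gam n)) ^ 2 = 0 :=
        le_antisymm (not_lt.1 hc) (Finset.sum_nonneg fun _ _ => sq_nonneg _)
      have hk : ∀ k, ∫ y, pd k f y ∂(gam n) = 0 := fun k => by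
        have := (Finset.sum_eq_zero_iff_of_nonneg (fun k _ => sq_nonneg _)).1 hz k
          (Finset.mem_univ k)
        exact pow_eq_zero_iff (two_ne_zero) |>.1 this
      have hpd : ∀ k x, pd k f x = ∑ i, w i * M i k x := fun k x => by
        rw [hf, pd_sum' (f := fun i x => w i * G i x) fun i _ => (h.hd.g i).smul (w i)]
        refine Finset.sum_congr rfl fun i _ => ?_
        rw [(c1_const (w i)).pd_mul (h.hd.g i), h.hd.d i k]
        have : pd k (fun _ : E n => w i) x = 0 := by simp [pd]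
        rw [this]; ring
      have h5 : EE (fun x => w ⬝ᵥ (Mx M x *ᵥ w)) = 0 := by
        have b1 : ∀ x, w ⬝ᵥ (Mx M x *ᵥ w) = ∑ k, w k * pd k f x := fun x => by
          unfold dotProduct Matrix.mulVec dotProduct
          refine Finset.sum_congr rfl fun k _ => ?_
          rw [hpd k x]
          congr 1
          refine Finset.sum_congr rfl fun i _ => ?_
          simp only [Mx, Matrix.of_apply]
          rw [h.hd.s k i, mul_comm]
        rw [EE_congr b1, EE_sum fun k _ => (cf.cgp k).smul (w k)]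
        refine Finset.sum_eq_zero fun k _ => ?_
        rw [EE_smul]
        have : EE (pd k f) = 0 := hk k
        rw [this, mul_zero]
      have h6 : lo * ∑ i, w i ^ 2 ≤ EE (fun x => w ⬝ᵥ (Mx M x *ᵥ w)) := by
        rw [← EE_const (n := n) (lo * ∑ i, w i ^ 2)]
        refine EE_mono (cg_const _) ?_ fun x => quad_M hM x w
        have : (fun x => w ⬝ᵥ (Mx M x *ᵥ w)) = fun x => ∑ i, w i * ∑ j, M i j x * w j := by
          funext x
          rfl
        rw [this]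
        exact CG.sum fun i _ => (CG.sum fun j _ => ((h.hd.m i j).cg).mulc (w j)).smul (w i)
      have h7 : 0 < ∑ i, w i ^ 2 := by
        obtain ⟨i, hi⟩ : ∃ i, w i ≠ 0 := by
          by_contra hc'
          push Not at hc'
          exact hw (funext hc')
        exact Finset.sum_pos' (fun _ _ => sq_nonneg _)
          ⟨i, Finset.mem_univ _, by positivity⟩
      have h8 : 0 < lo * ∑ i, w i ^ 2 := mul_pos hlo h7
      rw [h5] at h6
      linarith
    rw [e1, e2]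
    linarith

/-- **(L0)**: the B-form on the fields `Zf M`, `Uf M`, weak test field, in `wip` letters -/
theorem bf (h : MA G M N V) (hM : MF M lo hi) (hlo : 0 < lo)
    (hV : ∀ y, (Matrix.of fun k l => pd l (pd k V) y).PosSemidef)
    {Y : Fin n → Fld n} {Gf : Fld n} (hY : ∀ k i j, CG (Y k i j)) (hG : ∀ i j, CG (Gf i j))
    (hW : WkF M (Uf M) Y Gf) {B C : Mat n} (hC : C.det ≠ 0) (hCB : Cᵀ * C = 1 + B) :
    (Real.log ((1 + B).det) -
        EE (fun x => 2 * wip B (Uf M) M x - wip B (Uf M) (Uf M) x -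
          ∑ k, wip B (dk k (Uf M)) (dk k (Uf M)) x)) +
      EE (Slk M N) + (EE (dh2 (Zf M)) - EE (hs2 (Zf M))) -
      EE (fun x => ∑ k, hs (C * (Mx (dk k (Uf M)) x - Mx (Y k) x))) -
      EE (fun x => hs (C * Mx Gf x)) ≤ DFun G M := by
  have hc : ∀ p q, ctc C p q = dl p q + B p q := by
    intro p q
    have h1 := congrFun (congrFun hCB p) q
    rw [Matrix.add_apply, Matrix.mul_apply] at h1
    unfold ctc dl
    rw [Matrix.one_apply] at h1
    rw [← h1]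
    exact Finset.sum_congr rfl fun i _ => by rw [Matrix.transpose_apply]
  have hC' : (Matrix.of C).det ≠ 0 := hC
  have h2 := spineB h (U := Uf M) (Z := Zf M) (fun i j => Frame321.c1_Uf hM hlo i j)
    (fun i j => Frame321.Uf_symm hM i j) (fun i j => Frame321.c1_Zf hM hlo i j) hY hG hW
    (B := B) (C := C) hC' hc (covM_posDef h hM hlo) hV (fun x => Frame321.hlog hM hlo x)
  refine le_trans (le_of_eq ?_) h2
  have e1 : ((Matrix.of C).transpose * Matrix.of C).det = (1 + B).det := by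
    rw [← hCB]; rfl
  have e2 : EE (fun x => RR M N (Uf M) dl x - dh2 (Zf M) x + dh2 (Uf M) x) = EE (Slk M N) := rfl
  have e3 : EE (fun x => ∑ k, wip (ctc C) (sbf (dk k (Uf M)) (Y k)) (sbf (dk k (Uf M)) (Y k)) x) =
      EE (fun x => ∑ k, hs (C * (Mx (dk k (Uf M)) x - Mx (Y k) x))) := by
    refine EE_congr fun x => Finset.sum_congr rfl fun k _ => ?_
    have := DualP973.wip_eq C (sbf (dk k (Uf M)) (Y k)) x
    exact this
  have e4 : EE (wip (ctc C) Gf Gf) = EE (fun x => hs (C * Mx Gf x)) :=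
    EE_congr fun x => DualP973.wip_eq C Gf x
  rw [e1, e2, e3, e4]

end Crest.Agent.R253.BF321
end
end

-- ▼ part R253/L0R_80
section

/-!
# Row 253: the spine in one real variable (helper80)

`l0R`: `DFun ≥ tr log A(S) + Λ(b₁(S)) + Λ(b₂(S)) + E Slk + PW 1 - HW 1 - loss`, `A = 1 - b₁ - b₂`.
-/

set_option autoImplicit false

open MeasureTheory ProbabilityTheory Set Filter Topology Matrix
open scoped ContDiff

noncomputable section

namespace Crest.Agent.R253.TrC80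

open Crest.Agent.R238.Gap Crest.Agent.R253.SpecCalc999 Crest.Agent.R253.Meh74
  Crest.Agent.R253.SpecField321 Crest.Agent.R253.S3 Crest.Agent.R253.LamB301
  Crest.Agent.R253.LamI301
open Crest.Agent.R253.DualP973 (Tm ef Lx MTm Mx_eq dk_eq c1_ef)
open Crest.Agent.R253.ErrT378 (Lam lam_ge)
open Crest.Agent.R253.Frame321 (Zf Uf Ff Uf_eq M_eq mf_Zf Zf_symm Slk)
open Crest.Agent.R253.Mills37 (mu H0 kk)
open Crest.Agent.R253.Slack688 (aa H0_has)
open Crest.Agent.R253.ScalE688 (zf)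
open Crest.Agent.R253.HFn741 (chi chi' hh)
open Crest.Agent.R253.BF321 (bf)

variable {n : ℕ} {ζ : Fld n} {lo hi : ℝ}

/-- `Λ` is additive in `b` -/
theorem Lam_add (hζ : MF ζ lo hi) {v v1 F : ℝ → ℝ}
    (hv : ∀ z ∈ Icc lo hi, HasDerivAt v (v1 z) z) (hv1 : ContinuousOn v1 (Icc lo hi))
    (hF : ContinuousOn F (Icc lo hi)) (b c : Mat n) :
    Lam F v v1 ζ (b + c) = Lam F v v1 ζ b + Lam F v v1 ζ c := by
  have cF := cgm_cfc hζ hF
  have cD := fun k => cgm_DK hζ hv hv1 k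
  unfold Lam
  have e1 : TE (fun x => (b + c) * sf F ζ x) =
      TE (fun x => b * sf F ζ x) + TE (fun x => c * sf F ζ x) := by
    rw [← TE_add ((cgm_const b).mul cF) ((cgm_const c).mul cF)]
    exact TE_congr fun x => Matrix.add_mul _ _ _
  have e2 : ∀ k, TE (fun x => (b + c) * (DK v v1 (Mx ζ x) (S3.dZ ζ k x) *
      DK v v1 (Mx ζ x) (S3.dZ ζ k x))) =
      TE (fun x => b * (DK v v1 (Mx ζ x) (S3.dZ ζ k x) * DK v v1 (Mx ζ x) (S3.dZ ζ k x))) +
      TE (fun x => c * (DK v v1 (Mx ζ x) (S3.dZ ζ k x) * DK v v1 (Mx ζ x) (S3.dZ ζ k x))) := by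
    intro k
    rw [← TE_add ((cgm_const b).mul ((cD k).mul (cD k))) ((cgm_const c).mul ((cD k).mul (cD k)))]
    exact TE_congr fun x => Matrix.add_mul _ _ _
  rw [e1, Finset.sum_congr rfl fun k _ => e2 k, Finset.sum_add_distrib]
  ring

theorem Lam_neg {v v1 F : ℝ → ℝ} (b : Mat n) : Lam F v v1 ζ (-b) = -Lam F v v1 ζ b := by
  unfold Lam
  have e : ∀ G : E n → Mat n, TE (fun x => -b * G x) = -TE (fun x => b * G x) := fun G => by
    unfold TE
    rw [← EE_neg]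
    exact EE_congr fun x => by
      beta_reduce
      rw [Matrix.neg_mul, Matrix.trace_neg]
  rw [e, Finset.sum_congr rfl fun k _ => e _, Finset.sum_neg_distrib]
  ring

/-- the scalar function `2k - v²` -/
def F0 (z : ℝ) : ℝ := 2 * kk z - H0 z ^ 2

lemma cont_F0 : Continuous F0 := by
  have cH : Continuous H0 := continuous_iff_continuousAt.2 fun z => (H0_has z).continuousAt
  have e : F0 = fun z => 2 * (1 + z * H0 z - aa z) - H0 z ^ 2 := by
    funext z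
    have := HFn741.zv_sub z
    unfold F0
    have h2 : kk z = 1 + z * H0 z - aa z := by linarith
    rw [h2]
  rw [e]
  exact ((continuous_const.mul ((continuous_const.add (continuous_id.mul cH)).sub aa_cont)).sub
    (cH.pow 2))

variable {G : Fin n → E n → ℝ} {M N : Fld n} {V : E n → ℝ}

/-- **(L0) in one real variable** -/
theorem l0R (h : MA G M N V) (hM : MF M lo hi) (hlo : 0 < lo)
    (hV : ∀ y, (Matrix.of fun k l => pd l (pd k V) y).PosSemidef)
    (h0 : ∀ i j, EE (Zf M i j) = 0)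
    {Y : Fin n → Fld n} {Gf : Fld n} (hY : ∀ k i j, CG (Y k i j)) (hG : ∀ i j, CG (Gf i j))
    (hW : WkF M (Uf M) Y Gf) {A b1 b2 : ℝ → ℝ} (hA : ∀ x, 0 ≤ x → 0 < A x)
    (hb : ∀ x, 0 ≤ x → 1 - A x = b1 x + b2 x) :
    TR (fun x => Real.log (A x)) (MTm (Zf M)) +
      Lam F0 H0 aa (Zf M) (_root_.cfc b1 (MTm (Zf M))) +
      Lam F0 H0 aa (Zf M) (_root_.cfc b2 (MTm (Zf M))) +
      EE (Slk M N) + (PW (fun _ => 1) (Zf M) - HW (fun _ => 1) (Zf M)) -
      EE (fun x => ∑ k, hs (CC A (MTm (Zf M)) * (Mx (dk k (Uf M)) x - Mx (Y k) x))) -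
      EE (fun x => hs (CC A (MTm (Zf M)) * Mx Gf x)) ≤ DFun G M := by
  have hZ := mf_Zf hM hlo
  have hS := (ts hZ).herm
  have hP := (ts hZ).psd
  set S := MTm (Zf M) with hSd
  have e1 : (CC A S)ᵀ * CC A S = 1 + _root_.cfc (fun x => A x - 1) S := by
    rw [ctc_CC hP fun x hx => (hA x hx).le, ← cfc_sub' hS, cfc_one' hS]
    abel
  have h1 := bf h hM hlo hV hY hG hW (B := _root_.cfc (fun x => A x - 1) S) (C := CC A S)
    (det_CC_ne hP hA) e1
  refine le_trans (le_of_eq ?_) h1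
  have e2 : Real.log (1 + _root_.cfc (fun x => A x - 1) S).det =
      TR (fun x => Real.log (A x)) S := by
    rw [← e1, logdet_CC hP hA]
  have e3 := lam_wip hM hlo (_root_.cfc (fun x => A x - 1) S)
  have e3' : TE (fun x => _root_.cfc (fun x => A x - 1) S *
        sf (fun z => 2 * kk z - H0 z ^ 2) (Zf M) x) -
        ∑ k, TE (fun x => _root_.cfc (fun x => A x - 1) S *
          (DK H0 aa (Mx (Zf M) x) (S3.dZ (Zf M) k x) *
          DK H0 aa (Mx (Zf M) x) (S3.dZ (Zf M) k x))) =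
      Lam F0 H0 aa (Zf M) (_root_.cfc (fun x => A x - 1) S) := rfl
  have e4 : _root_.cfc (fun x => A x - 1) S = -(_root_.cfc b1 S + _root_.cfc b2 S) := by
    rw [cfc_add' hS]
    have : _root_.cfc (fun x => A x - 1) S = _root_.cfc (fun x => (-1) * (b1 x + b2 x)) S :=
      cfc_congr fun x hx => by
        have := hb x (spec_nonneg hP hx)
        linarith
    rw [this, ← cfc_smul' hS, neg_one_smul]
  have e5 : Lam F0 H0 aa (Zf M) (_root_.cfc (fun x => A x - 1) S) =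
      -(Lam F0 H0 aa (Zf M) (_root_.cfc b1 S) + Lam F0 H0 aa (Zf M) (_root_.cfc b2 S)) := by
    rw [e4, Lam_neg, Lam_add hZ (fun z _ => H0_has z) aa_cont.continuousOn cont_F0.continuousOn]
  rw [e2, e3, e3', e5, split_spine hZ h0, ← PW_one hZ, ← HW_one hZ]
  ring

end Crest.Agent.R253.TrC80
end
end

-- ▼ part R253/LossC_80
section

/-!
# Row 253: the terms of the dual loss in one real variable (helper80)
-/

set_option autoImplicit false

open MeasureTheory ProbabilityTheory Set Filter Topology Matrix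
open scoped ContDiff

noncomputable section

namespace Crest.Agent.R253.TrC80

open Crest.Agent.R253.SpecCalc999 Crest.Agent.R253.SpecField321

variable {m n : ℕ}

lemma one_sub_cfc {S : Mat m} (hS : S.IsHermitian) (r : ℝ → ℝ) :
    1 - _root_.cfc r S = _root_.cfc (fun x => 1 - r x) S := by
  rw [← cfc_one' hS, cfc_sub' hS]

lemma CC_mul_cfc {S : Mat m} (hS : S.IsHermitian) (A r : ℝ → ℝ) :
    CC A S * _root_.cfc r S = _root_.cfc (fun x => Real.sqrt (A x) * r x) S := by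
  unfold CC
  rw [cfc_mul' hS]

/-- `Σ |C (1-r) T_k|² = tr (A (1-r)² x)` -/
theorem Ts.loss1 {T : Fin n → Mat m} {S : Mat m} (h : Ts T S) {A : ℝ → ℝ} (r : ℝ → ℝ)
    (hA : ∀ x, 0 ≤ x → 0 ≤ A x) :
    ∑ k, hs (CC A S * ((1 - _root_.cfc r S) * T k)) = TR (fun x => A x * (1 - r x) ^ 2 * x) S := by
  have e : ∀ k, hs (CC A S * ((1 - _root_.cfc r S) * T k)) =
      hs (_root_.cfc (fun x => Real.sqrt (A x) * (1 - r x)) S * T k) := fun k => by
    rw [one_sub_cfc h.herm, ← Matrix.mul_assoc, CC_mul_cfc h.herm]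
  rw [Finset.sum_congr rfl fun k _ => e k, h.sum_hs]
  exact TR_congr fun x hx => by rw [mul_pow, Real.sq_sqrt (hA x (spec_nonneg h.psd hx))]


/-- `|C (1 - r M_T)|² = tr (A (1 - r x)²)` -/
theorem loss2 {S : Mat m} (hS : S.PosSemidef) {A : ℝ → ℝ} (r : ℝ → ℝ)
    (hA : ∀ x, 0 ≤ x → 0 ≤ A x) :
    hs (CC A S * (1 - _root_.cfc r S * S)) = TR (fun x => A x * (1 - r x * x) ^ 2) S := by
  have hH := hS.isHermitian
  have e1 : _root_.cfc r S * S = _root_.cfc (fun x => r x * x) S := by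
    conv_lhs => rw [show _root_.cfc r S * S =
      _root_.cfc r S * _root_.cfc (fun x : ℝ => x) S by rw [cfc_id'' hH]]
    rw [cfc_mul' hH]
  rw [e1, one_sub_cfc hH, CC_mul_cfc hH, hs_cfc hH]
  exact TR_congr fun x hx => by rw [mul_pow, Real.sq_sqrt (hA x (spec_nonneg hS hx))]


/-- `hK1` -/
theorem Ts.lossK {T : Fin n → Mat m} {S : Mat m} (h : Ts T S) {A r : ℝ → ℝ} {K : ℝ}
    (hA : ∀ x, 0 ≤ x → 0 ≤ A x) (hK0 : 0 ≤ K) (hK : ∀ x, 0 ≤ x → A x * r x ^ 2 * x ≤ K)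
    (B : Fin n → Mat m) :
    hs (∑ k, CC A S * _root_.cfc r S * T k * B k) ≤ K * ∑ k, hs (B k) := by
  rw [CC_mul_cfc h.herm]
  refine h.hs_sum_le hK0 (fun x hx => ?_) B
  rw [mul_pow, Real.sq_sqrt (hA x hx)]
  exact hK x hx


end Crest.Agent.R253.TrC80
end
end

-- ▼ part R253/Inst_321
section

/-!
# R253: the instantiation layer on the data `Dat G M N V lo hi`, `Nz M` (helper321)
-/

set_option autoImplicit false

open MeasureTheory ProbabilityTheory Real Set Filter Topology Matrix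
open scoped ContDiff

noncomputable section

namespace Crest.Agent.R253.Inst321

open Crest.Agent.R238.Gap Crest.Agent.R238.GapPoinc Crest.Agent.R238.GapPc
open Crest.Agent.R253.SpecCalc999 Crest.Agent.R253.Meh74 Crest.Agent.R253.SpecField321
open Crest.Agent.R253.Frame321 (Zf Uf Slk mf_Zf)
open Crest.Agent.R253.DualP973 Crest.Agent.R253.ErrT378
open Crest.Agent.R253.S3 (TE EM sf pk eta0)
open Crest.Agent.R253.ScalE688 (zf rho)
open Crest.Agent.R253.Mills37 (mu kk H0 ee)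
open Crest.Agent.R253.Slack688 (aa H0_has)
open Crest.Agent.R253.HFn741 (chi chi' hh bb2 chi_has chi_id bb2_eq aa_has' aa_lt bb2_pos bb2_lt)

variable {n : ℕ} {G : Fin n → E n → ℝ} {M N : Fld n} {V : E n → ℝ} {lo hi : ℝ}

/-- `F = 2k - v²` -/
def FF (z : ℝ) : ℝ := 2 * kk z - H0 z ^ 2

/-- `w = v' - 1/4` -/
def wq (z : ℝ) : ℝ := aa z - 1 / 4

lemma FF_eq (z : ℝ) : FF z = 1 + z * chi z - chi' z + aa z ^ 2 := by
  have := chi_id z
  unfold FF; linarith

lemma wq_add : (fun t => wq t + 1 / 4) = aa := by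
  funext t; unfold wq; ring

lemma wq_has (z : ℝ) : HasDerivAt wq (bb2 z) z := by
  have := (aa_has' z).sub_const (1 / 4)
  exact this

lemma abs_wq_le (z : ℝ) : |wq z| ≤ 1 / 4 := by
  have h1 := aa_lt z
  have h2 := Crest.Agent.R253.Slack688.aa_pos z
  unfold wq
  rw [abs_le]
  constructor <;> linarith

lemma bb2_cont : Continuous bb2 := by
  unfold bb2
  have h1 : Continuous Crest.Agent.R253.Mills37.ww := by
    unfold Crest.Agent.R253.Mills37.ww
    exact continuous_const.sub (continuous_id.mul Crest.Agent.R253.ScalE688.ee_cont)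
  exact (h1.mul Crest.Agent.R253.ScalE688.H0_cont).sub Crest.Agent.R253.ScalE688.ee_cont

lemma aa_cont' : Continuous aa := Crest.Agent.R253.ScalE688.aa_cont

lemma wq_cont : Continuous wq := aa_cont'.sub continuous_const

section dat

variable (D : Fin505.Dat G M N V lo hi) (hz : Fin505.Nz M)

include D

/-- `ζ` is a matrix field -/
lemma mfZ : MF (Zf M) (zf lo) (zf hi) := mf_Zf D.mf D.lo_pos

lemma cgS : CG (Slk M N) := Frame321.cg_Slk D.ma D.mf D.lo_pos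

lemma slk_nonneg (x : E n) : 0 ≤ Slk M N x := Frame321.Slk_nonneg D.ma D.mf D.lo_pos x

lemma EE_slk_nonneg : 0 ≤ EE (Slk M N) := EE_nonneg (slk_nonneg D)

/-- the slack hypothesis of `lam_ge`, `eo_ge`, ... -/
theorem hSl (x : E n) : ∃ U s, Fr (Mx (Zf M) x) U s ∧
    ∑ k, Jord192.slk rho U s (S3.dZ (Zf M) k x) ≤ Slk M N x := by
  obtain ⟨U, hU⟩ := exists_fr (D.mf.h x)
  exact ⟨U, _, Frame321.fr_Zf hU, Frame321.slk_le D.ma D.mf D.lo_pos x hU⟩

/-- right kernels are paid by the slack -/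
theorem sum_KR_le {f f' : ℝ → ℝ} {C : ℝ} (hC : 0 ≤ C)
    (hk : ∀ a b, (dd1 f f' a b - f' b) ^ 2 ≤ C * rho a b) (x : E n) :
    (∑ k, hs (DualP973.KR f f' (Mx (Zf M) x) (Mx (dk k (Zf M)) x))) ≤ C * Slk M N x := by
  obtain ⟨U, s, hU, h1⟩ := hSl D x
  refine le_trans ?_ (mul_le_mul_of_nonneg_left h1 hC)
  rw [Finset.mul_sum]
  exact Finset.sum_le_sum fun k _ => DualP973.hs_KR_le hU (fun a _ b _ => hk a b) _

/-- `M − U = ζ (w + 1/4) − v''` -/
theorem hMU (x : E n) : Mx M x - Mx (Uf M) x =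
    Mx (Zf M) x * (_root_.cfc wq (Mx (Zf M) x) + (1 / 4 : ℝ) • 1) -
      _root_.cfc bb2 (Mx (Zf M) x) := by
  have hZ := mfZ D
  have hA := hZ.h x
  have h1 : Mx M x = _root_.cfc mu (Mx (Zf M) x) := LamI301.Mx_M D.mf D.lo_pos x
  have h2 : Mx (Uf M) x = _root_.cfc H0 (Mx (Zf M) x) := LamI301.Mx_U D.mf x
  have h3 : _root_.cfc wq (Mx (Zf M) x) + (1 / 4 : ℝ) • (1 : Mat n) =
      _root_.cfc aa (Mx (Zf M) x) := by
    rw [← cfc_add_const hA wq (1 / 4), wq_add]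
  rw [h1, h2, h3]
  obtain ⟨U, hU⟩ := exists_fr hA
  refine conj_inj hU.o' ?_
  have e1 : Uᵀ * (_root_.cfc mu (Mx (Zf M) x) - _root_.cfc H0 (Mx (Zf M) x)) * U =
      Matrix.diagonal fun i => mu (hA.eigenvalues i) - H0 (hA.eigenvalues i) := by
    rw [Matrix.mul_sub, Matrix.sub_mul, hU.cfc, hU.cfc, Matrix.diagonal_sub]
  have e2 : Uᵀ * (Mx (Zf M) x * _root_.cfc aa (Mx (Zf M) x) - _root_.cfc bb2 (Mx (Zf M) x)) * U =
      Matrix.diagonal fun i => hA.eigenvalues i * aa (hA.eigenvalues i) -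
        bb2 (hA.eigenvalues i) := by
    have e3 : Uᵀ * (Mx (Zf M) x * _root_.cfc aa (Mx (Zf M) x)) * U =
        (Uᵀ * Mx (Zf M) x * U) * (Uᵀ * _root_.cfc aa (Mx (Zf M) x) * U) := by
      calc Uᵀ * (Mx (Zf M) x * _root_.cfc aa (Mx (Zf M) x)) * U =
          Uᵀ * Mx (Zf M) x * 1 * _root_.cfc aa (Mx (Zf M) x) * U := by
            rw [Matrix.mul_one]; simp only [Matrix.mul_assoc]
        _ = _ := by rw [← hU.o']; simp only [Matrix.mul_assoc]
    rw [Matrix.mul_sub, Matrix.sub_mul, e3, hU.d, hU.cfc, hU.cfc, Matrix.diagonal_mul_diagonal,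
      Matrix.diagonal_sub]
  rw [e1, e2]
  congr 1
  funext i
  rw [bb2_eq]; ring

include hz in
/-- **the weak identity with 973's field**, `r` any constant matrix -/
theorem wk (r : Mat n) : WkF M (Uf M) (Yf (Zf M) wq r) (Gf (Zf M) wq bb2 r) :=
  wkf (mfZ D) (fun i j => hz i j) (fun z _ => wq_has z) bb2_cont.continuousOn
    (fun i j => (D.ma.hd.m i j).cg) (fun i j => (Frame321.c1_Uf D.mf D.lo_pos i j).cg)
    (hMU D) r

lemma cgY (r : Mat n) (k i j : Fin n) : CG (Yf (Zf M) wq r k i j) := by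
  have h1 := (c1_Y0 (mfZ D) (fun z _ => wq_has z) bb2_cont.continuousOn r k i j).cg
  have h2 : CG (pd k (Rs (ef (Zf M) i j))) := (c1_Rs (c1_ef (mfZ D) i j)).cgp k
  exact h1.add (h2.smul (1 / 2))

lemma cgG (r : Mat n) (i j : Fin n) : CG (Gf (Zf M) wq bb2 r i j) := by
  have hZ := mfZ D
  have cW := cg_cfc hZ wq_cont.continuousOn
  have cV2 := cg_cfc hZ bb2_cont.continuousOn
  have ce : CM (fun x => Mx (ef (Zf M)) x) := CM.mx fun i j => (c1_ef hZ i j).cg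
  have cp : ∀ k, CM (fun x => Mx (dk k (ef (Zf M))) x) := fun k =>
    CM.mx fun i j => (c1_ef hZ i j).cgp k
  have cd : ∀ k, CM (fun x => Mx (dk k (Zf M)) x) := fun k => CM.mx fun i j => (hZ.c i j).cgp k
  have cDK : ∀ k, CM (fun x => DK wq bb2 (Mx (Zf M) x) (Mx (dk k (Zf M)) x)) := fun k i j => by
    have h1 := (SpecField321.c1_cfc hZ (fun z _ => wq_has z) bb2_cont.continuousOn i j).cgp k
    have e : (fun x => DK wq bb2 (Mx (Zf M) x) (Mx (dk k (Zf M)) x) i j) =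
        pd k (fun x => _root_.cfc wq (Mx (Zf M) x) i j) := by
      funext x
      exact (SpecField321.pd_cfc hZ (fun z _ => wq_has z) x i j k).symm
    rw [e]; exact h1
  have cL : CM (fun x => Lx (Zf M) x) := CM.sum fun k _ => CM.fsmul (cg_coord k) (CM.const _)
  have cG0 : CM (fun x => G0 (Zf M) wq bb2 r x) := by
    unfold G0
    refine CM.add (CM.sub (CM.add (CM.add ?_ ?_) ?_) ?_) ?_
    · exact (ce.mul cW).add (ce.smul _)
    · exact CM.cmul _ (CM.sum fun k _ => CM.cmul _ ((cDK k).sub ((cd k).mul cV2)))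
    · exact (CM.cmul _ cL).mul cW
    · exact (CM.const _).mul cV2
    · exact (CM.cmul _ (CM.sum fun k _ => CM.cmul _ (cp k))).mul cV2
  have h2 : CG (fun x => ef (Zf M) i j x - Rs (ef (Zf M) i j) x) :=
    ((c1_ef hZ i j).cg).sub (c1_Rs (c1_ef hZ i j)).cg
  exact (cG0 i j).sub (h2.smul (1 / 2))

include hz in
/-- **(L0)** in the letters of `lam_ge`: `A = 1 - b = Cᵀ C` -/
theorem l0 {Y : Fin n → Fld n} {Gg : Fld n} (hY : ∀ k i j, CG (Y k i j)) (hG : ∀ i j, CG (Gg i j))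
    (hW : WkF M (Uf M) Y Gg) {b C : Mat n} (hC : C.det ≠ 0) (hCb : Cᵀ * C = 1 - b) :
    Real.log ((1 - b).det) + Lam FF H0 aa (Zf M) b + EE (Slk M N) +
      (EE (fun x => ∑ k, hs (Mx (dk k (ef (Zf M))) x)) - EE (fun x => hs (Mx (ef (Zf M)) x))) -
      (EE (fun x => ∑ k, hs (C * (Mx (dk k (Uf M)) x - Mx (Y k) x))) +
        EE (fun x => hs (C * Mx Gg x))) ≤ DFun G M := by
  have h1 := BF321.bf D.ma D.mf D.lo_pos D.hV hY hG hW (B := -b) (C := C) hC
    (by rw [hCb, sub_eq_add_neg])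
  have h2 := LamI301.lam_wip D.mf D.lo_pos (-b)
  rw [h2, LamI301.split_spine (mfZ D) fun i j => hz i j] at h1
  have e1 : ∀ F : E n → Mat n, TE (fun x => -b * F x) = -TE (fun x => b * F x) := by
    intro F
    unfold TE
    rw [← EE_neg]
    refine EE_congr fun x => ?_
    change (-b * F x).trace = -(b * F x).trace
    rw [Matrix.neg_mul, Matrix.trace_neg]
  have e2 : TE (fun x => -b * sf (fun z => 2 * kk z - H0 z ^ 2) (Zf M) x) -
        ∑ k, TE (fun x => -b * (DK H0 aa (Mx (Zf M) x) (S3.dZ (Zf M) k x) *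
          DK H0 aa (Mx (Zf M) x) (S3.dZ (Zf M) k x))) = -Lam FF H0 aa (Zf M) b := by
    unfold Lam
    rw [e1]
    have : ∀ k, TE (fun x => -b * (DK H0 aa (Mx (Zf M) x) (S3.dZ (Zf M) k x) *
          DK H0 aa (Mx (Zf M) x) (S3.dZ (Zf M) k x))) =
        -TE (fun x => b * (DK H0 aa (Mx (Zf M) x) (S3.dZ (Zf M) k x) *
          DK H0 aa (Mx (Zf M) x) (S3.dZ (Zf M) k x))) := fun k => e1 _
    simp only [this, Finset.sum_neg_distrib]
    change -TE (fun x => b * sf FF (Zf M) x) - _ = _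
    ring
  rw [e2, ← sub_eq_add_neg] at h1
  refine le_trans (le_of_eq ?_) h1
  ring

end dat

end Crest.Agent.R253.Inst321
end
end

-- ▼ part R253/TrA_395
section

/-!
# R253: a priori trace bound `E|Dζ|² ≤ K n`, and MAIN from the weak margin (helper395)

* `dh2_U_le`   : `|DU|² ≤ (1/4) |Dζ|²`;
* `trace_bound`: `E |Dζ|² ≤ 8 H0(0)² n` for normalised data;
* `sum_hs_Tk_le`, `MT`, `MT_psd`, `MT_eig_le`;
* `main_of_weak`: MAIN from `c (E|p|² + Σ (1-x_i)²/(1+x_i)) ≤ D`, `x_i` the eigenvalues of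
  `M_T = Σ T_k T_k`.
-/

set_option autoImplicit false

open MeasureTheory ProbabilityTheory Real Set Filter Topology Matrix
open scoped ContDiff

noncomputable section

namespace Crest.Agent.R253.TrB395

open Crest.Agent.R238.Gap Crest.Agent.R238.GapPoinc Crest.Agent.R238.GapPc
open Crest.Agent.R253.Meh74 hiding ip
open Crest.Agent.R253.Frame321
open Crest.Agent.R253.SpecField321 Crest.Agent.R253.SpecCalc999
open Crest.Agent.R253.Mills37 (mu H0 kk ph Q ee)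
open Crest.Agent.R253.Slack688 (aa H0_has aa_pos)
open Crest.Agent.R253.ScalE688 (zf uf)

variable {n : ℕ} {G : Fin n → E n → ℝ} {M N : Fld n} {V : E n → ℝ} {lo hi : ℝ}

lemma aa_lt (z : ℝ) : aa z < 1 / 2 := Crest.Agent.R253.V2451.H0_deriv_lt z

/-- `|DU|² ≤ (1/4) |Dζ|²` -/
theorem dh2_U_le (hM : MF M lo hi) (hlo : 0 < lo) (x : E n) :
    dh2 (Uf M) x ≤ (1 / 4) * dh2 (Zf M) x := by
  rw [dh2_eq, dh2_eq, Finset.mul_sum]
  refine Finset.sum_le_sum fun c _ => ?_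
  rw [dM_Uf' hM hlo]
  have hz := mf_Zf hM hlo
  have h := hs_DK_le (hz.h x) (f := H0) (f' := aa) (C := 1 / 2) (fun a ha b hb =>
    abs_dd1_le (lo := zf lo) (hi := zf hi) (fun z _ => H0_has z)
      (fun z _ => by rw [abs_of_pos (aa_pos z)]; exact (aa_lt z).le) (hz.s x ha) (hz.s x hb))
    (dM (Zf M) x c)
  calc _ ≤ _ := h
    _ = _ := by norm_num

/-- the scalar bound -/
lemma H0_sq_le (z : ℝ) : H0 z ^ 2 ≤ (1 / 2) * z ^ 2 + 2 * H0 0 ^ 2 := by
  have h0 : 0 < H0 z := Crest.Agent.R253.Mills37.H0_pos z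
  have h00 : 0 < H0 0 := Crest.Agent.R253.Mills37.H0_pos 0
  have h1 : |H0 z - H0 0| ≤ (1 / 2) * |z - 0| := by
    have := (convex_univ).norm_image_sub_le_of_norm_hasDerivWithin_le
      (f := H0) (f' := aa) (C := 1 / 2) (fun z _ => (H0_has z).hasDerivWithinAt)
      (fun z _ => by
        rw [Real.norm_eq_abs, abs_of_pos (aa_pos z)]; exact (aa_lt z).le) (mem_univ 0) (mem_univ z)
    simpa using this
  rw [sub_zero] at h1
  have h2 : H0 z ≤ H0 0 + (1 / 2) * |z| := by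
    have := (abs_le.1 h1).2
    linarith
  have h3 : H0 z ^ 2 ≤ (H0 0 + (1 / 2) * |z|) ^ 2 := pow_le_pow_left₀ h0.le h2 2
  have h4 : (H0 0 + (1 / 2) * |z|) ^ 2 ≤ 2 * H0 0 ^ 2 + (1 / 2) * |z| ^ 2 := by
    nlinarith [sq_nonneg (H0 0 - (1 / 2) * |z|)]
  rw [sq_abs] at h4
  linarith

/-- `|U|² ≤ (1/2)|ζ|² + 2 H0(0)² n` -/
lemma hs2_U_le (hM : MF M lo hi) (x : E n) :
    hs2 (Uf M) x ≤ (1 / 2) * hs2 (Zf M) x + 2 * H0 0 ^ 2 * n := by
  obtain ⟨U, hU⟩ := exists_fr (hM.h x)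
  set e := (hM.h x).eigenvalues with he
  have key : ∀ f : ℝ → ℝ, hs (_root_.cfc f (Mx M x)) = ∑ i, f (e i) ^ 2 := by
    intro f
    rw [← hs_conj hU.o', hU.cfc]
    unfold hs
    refine Finset.sum_congr rfl fun i _ => ?_
    rw [Finset.sum_eq_single i]
    · rw [Matrix.diagonal_apply_eq]
    · intro j _ hj; rw [Matrix.diagonal_apply_ne _ (Ne.symm hj)]; ring
    · intro hh; exact absurd (Finset.mem_univ _) hh
  have e1 : hs2 (Uf M) x = ∑ i, uf (e i) ^ 2 := key uf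
  have e2 : hs2 (Zf M) x = ∑ i, zf (e i) ^ 2 := key zf
  rw [e1, e2, Finset.mul_sum]
  have h1 : ∀ i, uf (e i) ^ 2 ≤ 1 / 2 * zf (e i) ^ 2 + 2 * H0 0 ^ 2 := fun i => H0_sq_le (zf (e i))
  have h2 := Finset.sum_le_sum fun i (_ : i ∈ Finset.univ) => h1 i
  rw [Finset.sum_add_distrib, Finset.sum_const, Finset.card_univ, Fintype.card_fin,
    nsmul_eq_mul] at h2
  linarith

/-- Poincaré for the field `ζ` -/
lemma hs2_Z_le (hM : MF M lo hi) (hlo : 0 < lo) (hN : ∀ i j, ∫ x, Zf M i j x ∂(gam n) = 0) :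
    EE (hs2 (Zf M)) ≤ EE (dh2 (Zf M)) := by
  have c : ∀ i j, C1 (Zf M i j) := fun i j => c1_Zf hM hlo i j
  have e1 : EE (hs2 (Zf M)) = ∑ i, ∑ j, ∫ x, Zf M i j x ^ 2 ∂(gam n) := by
    unfold hs2
    rw [EE_sum fun i _ => CG.sum fun j _ => (c i j).cg.sq]
    refine Finset.sum_congr rfl fun i _ => ?_
    rw [EE_sum fun j _ => (c i j).cg.sq]
    rfl
  have e2 : EE (dh2 (Zf M)) = ∑ i, ∑ j, ∑ k, ∫ x, pd k (Zf M i j) x ^ 2 ∂(gam n) := by
    unfold dh2
    rw [EE_sum fun i _ => CG.sum fun j _ => CG.sum fun k _ => ((c i j).cgp k).sq]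
    refine Finset.sum_congr rfl fun i _ => ?_
    rw [EE_sum fun j _ => CG.sum fun k _ => ((c i j).cgp k).sq]
    refine Finset.sum_congr rfl fun j _ => ?_
    rw [EE_sum fun k _ => ((c i j).cgp k).sq]
    rfl
  rw [e1, e2]
  exact Finset.sum_le_sum fun i _ => Finset.sum_le_sum fun j _ =>
    poincare_mean0 (c i j) (hN i j)

/-- **the a priori trace bound** -/
theorem trace_bound (h : MA G M N V) (hM : MF M lo hi) (hlo : 0 < lo)
    (hV : ∀ y, (Matrix.of fun k l => pd l (pd k V) y).PosSemidef) (hN : ∀ i j, ∫ x, Zf M i j x ∂(gam n) = 0) :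
    EE (dh2 (Zf M)) ≤ 8 * H0 0 ^ 2 * n := by
  have cU : ∀ i j, C1 (Uf M i j) := fun i j => c1_Uf hM hlo i j
  have cZ : ∀ i j, C1 (Zf M i j) := fun i j => c1_Zf hM hlo i j
  have h0 := hs2_ge h cU (fun i j => Uf_symm hM i j) (S := fun _ _ => 0)
    (by
      have : (Matrix.of fun p q : Fin n => dl p q - (0 : ℝ)) = 1 := by
        ext p q; simp [dl, Matrix.one_apply]
      rw [this]; exact Matrix.PosSemidef.one) hV
  have z1 : EE (trK (Uf M) fun _ _ => 0) = 0 := by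
    have : ∀ x, trK (Uf M) (fun _ _ => (0 : ℝ)) x = 0 := fun x => by
      unfold trK UKU; simp
    rw [EE_congr this, EE_const]
  have z2 : EE (RR M N (Uf M) fun _ _ => 0) = 0 := by
    have : ∀ x, RR M N (Uf M) (fun _ _ => (0 : ℝ)) x = 0 := fun x => by
      have hz : UKU (Uf M) (fun _ _ => (0 : ℝ)) = fun _ _ _ => 0 := by
        funext i j y; unfold UKU; simp
      unfold RR
      rw [hz]
      simp [pd]
    rw [EE_congr this, EE_const]
  rw [z1, z2] at h0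
  have h1 : EE (RR M N (Uf M) dl) = EE (dh2 (Zf M)) - EE (dh2 (Uf M)) + EE (Slk M N) := by
    have c1 := cg_dh2 cZ
    have c2 := cg_dh2 cU
    rw [← EE_sub c1 c2, ← EE_add (c1.sub c2) (cg_Slk h hM hlo)]
    exact EE_congr fun x => RR1_eq x
  have h2 : 0 ≤ EE (Slk M N) := EE_nonneg fun x => Slk_nonneg h hM hlo x
  have h3 : EE (dh2 (Uf M)) ≤ (1 / 4) * EE (dh2 (Zf M)) := by
    rw [← EE_smul]
    exact EE_mono (cg_dh2 cU) ((cg_dh2 cZ).smul _) fun x => dh2_U_le hM hlo x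
  have h4 : EE (hs2 (Uf M)) ≤ (1 / 2) * EE (hs2 (Zf M)) + 2 * H0 0 ^ 2 * n := by
    have c3 := cg_hs2 fun i j => (cZ i j).cg
    have : (1 / 2) * EE (hs2 (Zf M)) + 2 * H0 0 ^ 2 * n =
        EE (fun x => (1 / 2) * hs2 (Zf M) x + 2 * H0 0 ^ 2 * n) := by
      rw [EE_add (c3.smul _) (cg_const _), EE_smul, EE_const]
    rw [this]
    exact EE_mono (cg_hs2 fun i j => (cU i j).cg) ((c3.smul _).add (cg_const _))
      fun x => hs2_U_le hM x
  have h5 := hs2_Z_le hM hlo hN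
  linarith

/-! ### the matrix `M_T` -/

/-- `T_k = E ∂_k ζ` (the same as `Fin505.Tk`) -/
def Tz (M : Fld n) (k : Fin n) : Mat n := Matrix.of fun i j => ∫ x, pd k (Zf M i j) x ∂(gam n)

/-- `M_T = Σ T_k T_k` -/
def MTz (M : Fld n) : Mat n := ∑ k, Tz M k * Tz M k

lemma Tz_symm (hM : MF M lo hi) (k : Fin n) : (Tz M k)ᵀ = Tz M k := by
  ext i j
  simp only [Tz, Matrix.transpose_apply, Matrix.of_apply]
  rw [Zf_symm hM j i]

/-- the energy of the centred part: `P = E|p|²` -/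
def Pz (M : Fld n) : ℝ := ∑ i, ∑ j, ∑ k, ∫ x, pd k (eta (Zf M i j)) x ^ 2 ∂(gam n)

lemma Pz_nonneg : 0 ≤ Pz M :=
  Finset.sum_nonneg fun _ _ => Finset.sum_nonneg fun _ _ => Finset.sum_nonneg fun _ _ =>
    integral_nonneg fun _ => sq_nonneg _

/-- `E|Dζ|² = Σ |T_k|² + E|p|²` -/
theorem dh2_split (hM : MF M lo hi) (hlo : 0 < lo) :
    EE (dh2 (Zf M)) = (∑ k, hs (Tz M k)) + Pz M := by
  have c : ∀ i j, C1 (Zf M i j) := fun i j => c1_Zf hM hlo i j
  have e2 : EE (dh2 (Zf M)) = ∑ i, ∑ j, ∑ k, ∫ x, pd k (Zf M i j) x ^ 2 ∂(gam n) := by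
    unfold dh2
    rw [EE_sum fun i _ => CG.sum fun j _ => CG.sum fun k _ => ((c i j).cgp k).sq]
    refine Finset.sum_congr rfl fun i _ => ?_
    rw [EE_sum fun j _ => CG.sum fun k _ => ((c i j).cgp k).sq]
    refine Finset.sum_congr rfl fun j _ => ?_
    rw [EE_sum fun k _ => ((c i j).cgp k).sq]
    rfl
  have e3 : (∑ k, hs (Tz M k)) = ∑ i, ∑ j, ∑ k, (∫ x, pd k (Zf M i j) x ∂(gam n)) ^ 2 := by
    unfold hs Tz
    simp only [Matrix.of_apply]
    rw [Finset.sum_comm]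
    exact Finset.sum_congr rfl fun i _ => Finset.sum_comm
  rw [e2, e3, Pz, ← Finset.sum_add_distrib]
  refine Finset.sum_congr rfl fun i _ => ?_
  rw [← Finset.sum_add_distrib]
  refine Finset.sum_congr rfl fun j _ => ?_
  rw [← Finset.sum_add_distrib]
  exact Finset.sum_congr rfl fun k _ => pd_sq_split (c i j) k

/-- `∫ |ζ - Σ x_k T_k|² ≤ (1/2) E|p|²` -/
theorem eta_le (hM : MF M lo hi) (hlo : 0 < lo) (hN : ∀ i j, ∫ x, Zf M i j x ∂(gam n) = 0) :
    (∫ x, hs (Mx (Zf M) x - ∑ k, x k • Tz M k) ∂(gam n)) ≤ (1 / 2) * Pz M := by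
  have c : ∀ i j, C1 (Zf M i j) := fun i j => c1_Zf hM hlo i j
  have e1 : ∀ x, hs (Mx (Zf M) x - ∑ k, x k • Tz M k) = ∑ i, ∑ j, eta (Zf M i j) x ^ 2 := by
    intro x
    unfold hs
    refine Finset.sum_congr rfl fun i _ => Finset.sum_congr rfl fun j _ => ?_
    congr 1
    rw [Matrix.sub_apply, Matrix.sum_apply]
    unfold eta
    rw [hN i j, sub_zero]
    congr 1
    refine Finset.sum_congr rfl fun k _ => ?_
    rw [Matrix.smul_apply, smul_eq_mul, Tz, Matrix.of_apply, mul_comm]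
  have e2 : (∫ x, hs (Mx (Zf M) x - ∑ k, x k • Tz M k) ∂(gam n)) =
      ∑ i, ∑ j, ∫ x, eta (Zf M i j) x ^ 2 ∂(gam n) := by
    simp only [e1]
    have c2 : ∀ i j, CG fun x => eta (Zf M i j) x ^ 2 := fun i j => (c1_eta (c i j)).cg.sq
    have := EE_sum (s := Finset.univ) (f := fun i x => ∑ j, eta (Zf M i j) x ^ 2)
      fun i _ => CG.sum fun j _ => c2 i j
    unfold EE at this
    rw [this]
    refine Finset.sum_congr rfl fun i _ => ?_
    have h2 := EE_sum (s := Finset.univ) (f := fun j x => eta (Zf M i j) x ^ 2)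
      fun j _ => c2 i j
    unfold EE at h2
    exact h2
  rw [e2, Pz, Finset.mul_sum]
  refine Finset.sum_le_sum fun i _ => ?_
  rw [Finset.mul_sum]
  refine Finset.sum_le_sum fun j _ => ?_
  have := eta_poincare (c i j)
  linarith

/-- trace of `M_T` -/
lemma tr_MTz (hM : MF M lo hi) : (MTz M).trace = ∑ k, hs (Tz M k) := by
  unfold MTz
  rw [Matrix.trace_sum]
  refine Finset.sum_congr rfl fun k _ => ?_
  rw [hs_eq, Tz_symm hM]

lemma MTz_herm (hM : MF M lo hi) : (MTz M).IsHermitian := by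
  unfold MTz Matrix.IsHermitian
  rw [Matrix.conjTranspose_eq_transpose_of_trivial, Matrix.transpose_sum]
  refine Finset.sum_congr rfl fun k _ => ?_
  rw [Matrix.transpose_mul, Tz_symm hM]

/-- eigenvalues of `M_T` are nonnegative -/
lemma MTz_eig_nonneg (hM : MF M lo hi) {U : Mat n} {x : Fin n → ℝ} (h : Fr (MTz M) U x)
    (i : Fin n) : 0 ≤ x i := by
  have h1 : (Uᵀ * MTz M * U) i i = x i := by rw [h.d, Matrix.diagonal_apply_eq]
  have h2 : Uᵀ * MTz M * U = ∑ k, (Tz M k * U)ᵀ * (Tz M k * U) := by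
    unfold MTz
    rw [Matrix.mul_sum, Matrix.sum_mul]
    refine Finset.sum_congr rfl fun k _ => ?_
    rw [Matrix.transpose_mul, Tz_symm hM]
    simp only [Matrix.mul_assoc]
  rw [← h1, h2, Matrix.sum_apply]
  refine Finset.sum_nonneg fun k _ => ?_
  rw [Matrix.mul_apply]
  exact Finset.sum_nonneg fun a _ => by rw [Matrix.transpose_apply]; exact mul_self_nonneg _

lemma fr_trace {A U : Mat n} {x : Fin n → ℝ} (h : Fr A U x) : A.trace = ∑ i, x i := by
  rw [h.eq, Matrix.trace_mul_comm, ← Matrix.mul_assoc, h.o, Matrix.one_mul, Matrix.trace_diagonal]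

lemma fr_hs_one_sub {A U : Mat n} {x : Fin n → ℝ} (h : Fr A U x) :
    hs (1 - A) = ∑ i, (1 - x i) ^ 2 := by
  rw [← hs_conj h.o', Matrix.mul_sub, Matrix.sub_mul, Matrix.mul_one, h.o, h.d]
  unfold hs
  refine Finset.sum_congr rfl fun i _ => ?_
  rw [Finset.sum_eq_single i]
  · rw [Matrix.sub_apply, Matrix.one_apply_eq, Matrix.diagonal_apply_eq]
  · intro j _ hj
    rw [Matrix.sub_apply, Matrix.one_apply_ne (Ne.symm hj), Matrix.diagonal_apply_ne _ (Ne.symm hj)]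
    ring
  · intro hh; exact absurd (Finset.mem_univ _) hh

/-- every eigenvalue of `M_T` is at most `8 H0(0)² n` -/
theorem MTz_eig_le (h : MA G M N V) (hM : MF M lo hi) (hlo : 0 < lo)
    (hV : ∀ y, (Matrix.of fun k l => pd l (pd k V) y).PosSemidef)
    (hN : ∀ i j, ∫ x, Zf M i j x ∂(gam n) = 0) {U : Mat n} {x : Fin n → ℝ}
    (hU : Fr (MTz M) U x) (i : Fin n) : x i ≤ 8 * H0 0 ^ 2 * n := by
  have h1 := trace_bound h hM hlo hV hN
  rw [dh2_split hM hlo, ← tr_MTz hM, fr_trace hU] at h1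
  have h2 := Finset.single_le_sum (f := x) (fun j _ => MTz_eig_nonneg hM hU j) (Finset.mem_univ i)
  have h3 : 0 ≤ Pz M := Pz_nonneg
  linarith

/-- **from the weak margin to the quadratic margin** -/
theorem margin_of_weak (h : MA G M N V) (hM : MF M lo hi) (hlo : 0 < lo)
    (hV : ∀ y, (Matrix.of fun k l => pd l (pd k V) y).PosSemidef)
    (hN : ∀ i j, ∫ x, Zf M i j x ∂(gam n) = 0) {U : Mat n} {x : Fin n → ℝ}
    (hU : Fr (MTz M) U x) {c : ℝ} (hc : 0 < c)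
    (hD : c * (Pz M + ∑ i, (1 - x i) ^ 2 / (1 + x i)) ≤ DFun G M) :
    (c / (1 + 8 * H0 0 ^ 2 * n)) * ((∫ x, hs (Mx (Zf M) x - ∑ k, x k • Tz M k) ∂(gam n)) +
      hs (1 - MTz M)) ≤ DFun G M := by
  set K : ℝ := 8 * H0 0 ^ 2 * n with hK
  have hK0 : 0 ≤ K := by positivity
  have h1 := eta_le hM hlo hN
  have hP : 0 ≤ Pz M := Pz_nonneg
  have h2 : hs (1 - MTz M) ≤ (1 + K) * ∑ i, (1 - x i) ^ 2 / (1 + x i) := by
    rw [fr_hs_one_sub hU, Finset.mul_sum]
    refine Finset.sum_le_sum fun i _ => ?_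
    have hx0 := MTz_eig_nonneg hM hU i
    have hx1 := MTz_eig_le h hM hlo hV hN hU i
    rw [← mul_div_assoc, le_div_iff₀ (by linarith)]
    nlinarith [sq_nonneg (1 - x i)]
  have hW : 0 ≤ ∑ i, (1 - x i) ^ 2 / (1 + x i) := Finset.sum_nonneg fun i _ =>
    div_nonneg (sq_nonneg _) (by linarith [MTz_eig_nonneg hM hU i])
  set W := ∑ i, (1 - x i) ^ 2 / (1 + x i) with hWd
  set Q := (∫ x, hs (Mx (Zf M) x - ∑ k, x k • Tz M k) ∂(gam n)) with hQ
  have h3 : Q + hs (1 - MTz M) ≤ (1 + K) * (Pz M + W) := by nlinarith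
  calc c / (1 + K) * (Q + hs (1 - MTz M)) ≤ c / (1 + K) * ((1 + K) * (Pz M + W)) :=
        mul_le_mul_of_nonneg_left h3 (by positivity)
    _ = c * (Pz M + W) := by field_simp
    _ ≤ _ := hD

end Crest.Agent.R253.TrB395
end
end

-- ▼ part R253/FinQ_214
section

/-!
# Row 253 (S0391), helper214: from the trace form of the margin to `MainN`

`MainTR n` : `c * (E Σ |p_k|² + tr ((1-x)²/(1+x))(M_T)) ≤ DFun` for all normalised data, in the
letters of 973 (`ef`, `dk`, `MTm`) and 80 (`TR`).  `MainTR n → MainN n` (395's trace bound).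
-/

set_option autoImplicit false

open MeasureTheory ProbabilityTheory Real Set Filter Topology Matrix
open scoped ContDiff

noncomputable section

namespace Crest.Agent.R253.FinQ214

open Crest.Agent.R238.Gap Crest.Agent.R238.GapPoinc Crest.Agent.R238.GapPc
open Crest.Agent.R253.Meh74 hiding ip
open Crest.Agent.R253.Frame321
open Crest.Agent.R253.SpecField321 Crest.Agent.R253.SpecCalc999
open Crest.Agent.R253.Fin505 Crest.Agent.R253.TrB395 Crest.Agent.R253.TrC80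
open Crest.Agent.R253.DualP973

variable {n : ℕ} {G : Fin n → E n → ℝ} {M N : Fld n} {V : E n → ℝ} {lo hi : ℝ}

/-- the margin function -/
def mg (x : ℝ) : ℝ := (1 - x) ^ 2 / (1 + x)

/-- `E Σ |p_k|²` -/
def p2 (M : Fld n) : ℝ := EE fun x => ∑ k, hs (Mx (dk k (ef (Zf M))) x)

/-- `E |η|²` -/
def e2 (M : Fld n) : ℝ := EE fun x => hs (Mx (ef (Zf M)) x)

/-- MAIN in trace form -/
def MainTR (n : ℕ) : Prop := ∃ c : ℝ, 0 < c ∧ ∀ (G : Fin n → E n → ℝ) (M N : Fld n)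
  (V : E n → ℝ) (lo hi : ℝ), Dat G M N V lo hi → Nz M →
    c * (p2 M + TR mg (MTm (Zf M))) ≤ DFun G M

theorem MTm_eq (M : Fld n) : MTm (Zf M) = MTz M := rfl

theorem p2_eq (hM : MF M lo hi) (hlo : 0 < lo) : p2 M = Pz M := by
  have c : ∀ i j, C1 (Zf M i j) := fun i j => c1_Zf hM hlo i j
  have ce : ∀ i j, C1 (eta (Zf M i j)) := fun i j => c1_eta (c i j)
  unfold p2 Pz
  have e1 : ∀ x, (∑ k, hs (Mx (dk k (ef (Zf M))) x)) =
      ∑ i, ∑ j, ∑ k, pd k (eta (Zf M i j)) x ^ 2 := by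
    intro x
    unfold hs
    rw [Finset.sum_comm]
    refine Finset.sum_congr rfl fun i _ => ?_
    rw [Finset.sum_comm]
    rfl
  rw [EE_congr e1]
  rw [EE_sum fun i _ => CG.sum fun j _ => CG.sum fun k _ => ((ce i j).cgp k).sq]
  refine Finset.sum_congr rfl fun i _ => ?_
  rw [EE_sum fun j _ => CG.sum fun k _ => ((ce i j).cgp k).sq]
  refine Finset.sum_congr rfl fun j _ => ?_
  rw [EE_sum fun k _ => ((ce i j).cgp k).sq]
  rfl




theorem p2_nonneg : 0 ≤ p2 M := EE_nonneg fun _ => Finset.sum_nonneg fun _ _ => hs_nonneg _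

theorem MTm_Ts (hM : MF M lo hi) : Ts (Tm (Zf M)) (MTm (Zf M)) :=
  ⟨fun k => Tz_symm hM k, rfl⟩

theorem MTm_psd (hM : MF M lo hi) : (MTm (Zf M)).PosSemidef := (MTm_Ts hM).psd

/-- **the quantifiers of MAIN** -/
theorem mainN_of_TR (h : MainTR n) : MainN n := by
  obtain ⟨c, hc, H⟩ := h
  refine ⟨c / (1 + 8 * Mills37.H0 0 ^ 2 * n), by positivity,
    fun G M N V lo hi hD hz => ?_⟩
  have h1 := H G M N V lo hi hD hz
  have hM := hD.mf
  have hlo := hD.lo_pos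
  obtain ⟨U, hU⟩ := exists_fr (MTz_herm hM)
  rw [MTm_eq, TR_frame hU, p2_eq hM hlo] at h1
  exact margin_of_weak hD.ma hM hlo hD.hV hz hU hc h1

/-- version with an arbitrary function of `M_T` -/
theorem mainTR_of_fun {c : ℝ} (hc : 0 < c) {Φ : ℝ → ℝ} (hΦ : ∀ x, 0 ≤ x → c * mg x ≤ Φ x)
    (H : ∀ (G : Fin n → E n → ℝ) (M N : Fld n) (V : E n → ℝ) (lo hi : ℝ),
      Dat G M N V lo hi → Nz M → c * p2 M + TR Φ (MTm (Zf M)) ≤ DFun G M) : MainTR n := by
  refine ⟨c, hc, fun G M N V lo hi hD hz => le_trans ?_ (H G M N V lo hi hD hz)⟩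
  have hS := MTm_psd hD.mf
  rw [mul_add, ← TR_smul hS.isHermitian]
  exact add_le_add_right (TR_mono hS hΦ) _

/-- version with an arbitrary function of `M_T`, directly to `MainN` -/
theorem mainN_of_fun {c : ℝ} (hc : 0 < c) {Φ : ℝ → ℝ} (hΦ : ∀ x, 0 ≤ x → c * mg x ≤ Φ x)
    (H : ∀ (G : Fin n → E n → ℝ) (M N : Fld n) (V : E n → ℝ) (lo hi : ℝ),
      Dat G M N V lo hi → Nz M → c * p2 M + TR Φ (MTm (Zf M)) ≤ DFun G M) : MainN n :=
  mainN_of_TR (mainTR_of_fun hc hΦ H)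


end Crest.Agent.R253.FinQ214
end
end

-- ▼ part R253/AsmR_80

/-!
# Row 253: assembly of MAIN in one real variable (helper80)

`comb`: near part, far part and loss, each as
`tr f(S) - PW u ζ - HW h ζ - k E Slk`, give `c p2 + tr Φ(S) ≤ DFun`.
-/

set_option autoImplicit false

open MeasureTheory ProbabilityTheory Set Filter Topology Matrix
open scoped ContDiff

noncomputable section

namespace Crest.Agent.R253.TrC80

open Crest.Agent.R238.Gap Crest.Agent.R253.SpecCalc999 Crest.Agent.R253.Meh74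
  Crest.Agent.R253.SpecField321 Crest.Agent.R253.S3 Crest.Agent.R253.LamB301
  Crest.Agent.R253.LamI301
open Crest.Agent.R253.DualP973 (Tm ef Lx MTm Mx_eq dk_eq c1_ef Yf Gf)
open Crest.Agent.R253.ErrT378 (Lam lam_ge)
open Crest.Agent.R253.Frame321 (Zf Uf Ff Uf_eq M_eq mf_Zf Zf_symm Slk)
open Crest.Agent.R253.Mills37 (mu H0 kk ee)
open Crest.Agent.R253.Slack688 (aa H0_has)
open Crest.Agent.R253.ScalE688 (zf)
open Crest.Agent.R253.HFn741 (chi chi' hh bb2)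
open Crest.Agent.R253.Inst321
open Crest.Agent.R253.Stein378 (ky)

variable {n : ℕ} {G : Fin n → E n → ℝ} {M N : Fld n} {V : E n → ℝ} {lo hi : ℝ}

/-- the loss of the dual bound with `C = √A(S)`, `r = r(S)` -/
def LossF (M : Fld n) (A r : ℝ → ℝ) : ℝ :=
  EE (fun x => ∑ k, hs (CC A (MTm (Zf M)) * (Mx (dk k (Uf M)) x -
    Mx (Yf (Zf M) wq (_root_.cfc r (MTm (Zf M))) k) x))) +
  EE (fun x => hs (CC A (MTm (Zf M)) * Mx (Gf (Zf M) wq bb2 (_root_.cfc r (MTm (Zf M)))) x))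

/-- (L0) on 505's data -/
theorem l0D (D : Fin505.Dat G M N V lo hi) (hz : Fin505.Nz M) {A b1 b2 r : ℝ → ℝ}
    (hA : ∀ x, 0 ≤ x → 0 < A x) (hb : ∀ x, 0 ≤ x → 1 - A x = b1 x + b2 x) :
    TR (fun x => Real.log (A x)) (MTm (Zf M)) +
      Lam FF H0 aa (Zf M) (_root_.cfc b1 (MTm (Zf M))) +
      Lam FF H0 aa (Zf M) (_root_.cfc b2 (MTm (Zf M))) +
      EE (Slk M N) + (PW (fun _ => 1) (Zf M) - HW (fun _ => 1) (Zf M)) - LossF M A r ≤
      DFun G M := by
  have h := l0R D.ma D.mf D.lo_pos D.hV (fun i j => hz i j)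
    (Y := Yf (Zf M) wq (_root_.cfc r (MTm (Zf M))))
    (Gf := Gf (Zf M) wq bb2 (_root_.cfc r (MTm (Zf M))))
    (fun k i j => cgY D _ k i j) (fun i j => cgG D _ i j) (wk D hz _) hA hb
  have e : (F0 : ℝ → ℝ) = FF := rfl
  rw [e] at h
  unfold LossF
  linarith

/-- **the combination**: everything in one real variable -/
theorem comb (D : Fin505.Dat G M N V lo hi) (hz : Fin505.Nz M) {A b1 b2 r : ℝ → ℝ}
    (hA : ∀ x, 0 ≤ x → 0 < A x) (hb : ∀ x, 0 ≤ x → 1 - A x = b1 x + b2 x)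
    {f1 f2 f3 u1 u2 u3 h1 h2 h3 : ℝ → ℝ} {k1 k2 k3 : ℝ}
    (near : TR f1 (MTm (Zf M)) - PW u1 (Zf M) - HW h1 (Zf M) - k1 * EE (Slk M N) ≤
      Lam FF H0 aa (Zf M) (_root_.cfc b1 (MTm (Zf M))))
    (far : TR f2 (MTm (Zf M)) - PW u2 (Zf M) - HW h2 (Zf M) - k2 * EE (Slk M N) ≤
      Lam FF H0 aa (Zf M) (_root_.cfc b2 (MTm (Zf M))))
    (loss : LossF M A r ≤ TR f3 (MTm (Zf M)) + PW u3 (Zf M) + HW h3 (Zf M) +
      k3 * EE (Slk M N))
    {c : ℝ} {Φ : ℝ → ℝ} (hk : k1 + k2 + k3 ≤ 1)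
    (hΦ : ∀ x, 0 ≤ x → Φ x ≤ Real.log (A x) + f1 x + f2 x - f3 x)
    (hP : ∀ x, 0 ≤ x → c ≤ 1 - u1 x - u2 x - u3 x)
    (hH : ∀ x, 0 ≤ x → 2 * c ≤ 2 * (1 - u1 x - u2 x - u3 x) - (1 + h1 x + h2 x + h3 x)) :
    c * FinQ214.p2 M + TR Φ (MTm (Zf M)) ≤ DFun G M := by
  have h0 := l0D D hz (r := r) hA hb
  obtain ⟨s, P, H, hs0, hH0, hPH, eT, eP, eH⟩ := rows (mfZ D)
  have hS := EE_slk_nonneg D
  have ep2 : FinQ214.p2 M = ∑ i, P i := by
    have := eP (fun _ => 1)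
    rw [PW_one (mfZ D)] at this
    simp only [one_mul] at this
    exact this
  rw [eT, eP, eH] at near far loss
  rw [eT, eP, eH] at h0
  rw [ep2, eT, Finset.mul_sum]
  have key : ∑ i, (c * P i) + ∑ i, Φ (s i) ≤
      ∑ i, Real.log (A (s i)) + ∑ i, f1 (s i) + ∑ i, f2 (s i) - ∑ i, f3 (s i) +
      (∑ i, 1 * P i - ∑ i, u1 (s i) * P i - ∑ i, u2 (s i) * P i - ∑ i, u3 (s i) * P i) -
      (∑ i, 1 * H i + ∑ i, h1 (s i) * H i + ∑ i, h2 (s i) * H i + ∑ i, h3 (s i) * H i) := by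
    simp only [← Finset.sum_add_distrib, ← Finset.sum_sub_distrib]
    refine Finset.sum_le_sum fun i _ => ?_
    have a1 := hΦ (s i) (hs0 i)
    have a2 := hP (s i) (hs0 i)
    have a3 := hH (s i) (hs0 i)
    have a4 := hH0 i
    have a5 := hPH i
    -- `(w - c) P ≥ 2 (w - c) H ≥ (wH) H`
    have a6 : 0 ≤ (1 - u1 (s i) - u2 (s i) - u3 (s i) - c) * (P i - 2 * H i) :=
      mul_nonneg (by linarith) (by linarith)
    have a7 : 0 ≤ (2 * (1 - u1 (s i) - u2 (s i) - u3 (s i)) -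
        (1 + h1 (s i) + h2 (s i) + h3 (s i)) - 2 * c) * H i := mul_nonneg (by linarith) a4
    nlinarith [a6, a7]
  have h9 : (k1 + k2 + k3) * EE (Slk M N) ≤ 1 * EE (Slk M N) :=
    mul_le_mul_of_nonneg_right hk hS
  linarith

/-! ### the near part -/

/-- `f` of the near part -/
def nf (b a e : ℝ → ℝ) (θ1 θ2 θ4 a5 e5 : ℝ) (x : ℝ) : ℝ :=
  b x + b x * (x - 1) * (a x - e x * x) - (θ1 / 2 + θ2 / 2) * (b x ^ 2 * x) -
    θ4 / 2 * (a5 * b x ^ 2 + e5 * (b x ^ 2 * x))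
/-- `u` of the near part -/
def nu (b : ℝ → ℝ) (ρ κ bo θ1 θ3 : ℝ) (x : ℝ) : ℝ :=
  ρ ^ 2 / (2 * θ1) + θ3 * bo ^ 2 + κ ^ 2 * max (b x) 0
/-- `h` of the near part -/
def nh (b e : ℝ → ℝ) (θ4 e5 c4 : ℝ) (x : ℝ) : ℝ :=
  b x * (x - 1) * e x + θ4 / 2 * e5 * b x ^ 2 + 1 / (2 * θ4) - c4 * b x

/-- **the near part in one real variable** -/
theorem nearR {ζ : Fld n} (hζ : MF ζ lo hi) (h0 : ∀ i j, EE (ζ i j) = 0)
    {v v1 χ χ1 F h : ℝ → ℝ}
    (hv : ∀ z ∈ Icc lo hi, HasDerivAt v (v1 z) z) (hv1 : ContinuousOn v1 (Icc lo hi))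
    (hχ : ∀ z ∈ Icc lo hi, HasDerivAt χ (χ1 z) z) (hχ1 : ContinuousOn χ1 (Icc lo hi))
    (hF : ∀ z ∈ Icc lo hi, F z = 1 + z * χ z - χ1 z + v1 z ^ 2)
    (hh : ∀ z ∈ Icc lo hi, χ1 z - v1 z ^ 2 = h z)
    {sl : ℝ → ℝ → ℝ} {Sl : E n → ℝ} (cSl : CG Sl)
    (hSl : ∀ x, ∃ U s, Fr (Mx ζ x) U s ∧ ∑ k, Jord192.slk sl U s (S3.dZ ζ k x) ≤ Sl x)
    {Cy Cw Ce c ρ κ bo bn θ1 θ2 θ3 θ4 c3 c4 a5 c5 e5 : ℝ}
    (hy : ∀ a ∈ Icc lo hi, ∀ b ∈ Icc lo hi, ky v v1 χ χ1 a b ^ 2 ≤ Cy * sl a b)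
    (hw : ∀ a ∈ Icc lo hi, ∀ b ∈ Icc lo hi, (v1 a * (dd1 v v1 b a - v1 a)) ^ 2 ≤ Cw * sl a b)
    (he : ∀ a ∈ Icc lo hi, ∀ b ∈ Icc lo hi, (dd1 v v1 a b - v1 b) ^ 2 ≤ Ce * sl a b)
    (hρ : ∀ a ∈ Icc lo hi, ∀ b ∈ Icc lo hi, |χ1 b - v1 b ^ 2 - v1 a ^ 2 - c| ≤ ρ)
    (hκ : ∀ a ∈ Icc lo hi, |v1 a| ≤ κ)
    (hg : ∀ z ∈ Icc lo hi, (χ z - c3 - c4 * z) ^ 2 ≤ a5 + c5 * z + e5 * z ^ 2)
    (hC0 : 0 ≤ Cy) (hC1 : 0 ≤ Cw) (hC2 : 0 ≤ Ce)
    (hθ1 : 0 < θ1) (hθ2 : 0 < θ2) (hθ3 : 0 < θ3) (hθ4 : 0 < θ4) {b α γ ε : ℝ → ℝ}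
    (hbo : ∀ x, 0 ≤ x → b x ^ 2 ≤ bo ^ 2) (hbn : ∀ x, 0 ≤ x → b x ≤ bn) (hbn0 : 0 ≤ bn)
    (hbx : ∀ x, 0 ≤ x → 0 ≤ b x * (x - 1))
    (hm : ∀ x, 0 ≤ x → ∀ z, α x + γ x * z - ε x * z ^ 2 ≤ h z) :
    TR (nf b α ε θ1 θ2 θ4 a5 e5) (MTm ζ) - PW (nu b ρ κ bo θ1 θ3) ζ -
      HW (nh b ε θ4 e5 c4) ζ - (Cy / (2 * θ2) + Cw / θ3 + bn * Ce) * EE Sl ≤
      Lam F v v1 ζ (_root_.cfc b (MTm ζ)) := by
  have h1 := lam_ge_R hζ h0 hv hv1 hχ hχ1 hF hh cSl hSl hy hw he hρ hκ hg hC0 hC1 hC2 hθ1 hθ2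
    hθ3 hθ4 (b := b) hbo hbn hbn0
  have hhc : ContinuousOn h (Icc lo hi) :=
    (hχ1.sub (hv1.pow 2)).congr fun z hz => (hh z hz).symm
  have h2 := SW_rows hζ h0 (β := fun x => b x * (x - 1)) (a := α) (c := γ) (e := ε) hhc hbx
    fun x hx z _ => hm x hx z
  obtain ⟨s, P, H, hs0, hH0, hPH, eT, eP, eH⟩ := rows hζ
  simp only [eT, eP, eH] at h1 h2 ⊢
  have e1 : ∑ i, nf b α ε θ1 θ2 θ4 a5 e5 (s i) - ∑ i, nu b ρ κ bo θ1 θ3 (s i) * P i -
      ∑ i, nh b ε θ4 e5 c4 (s i) * H i =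
      ∑ i, b (s i) + (∑ i, b (s i) * (s i - 1) * α (s i) -
        ∑ i, b (s i) * (s i - 1) * ε (s i) * s i - ∑ i, b (s i) * (s i - 1) * ε (s i) * H i) -
      (θ1 / 2 + θ2 / 2) * ∑ i, b (s i) ^ 2 * s i -
      (ρ ^ 2 / (2 * θ1) + θ3 * bo ^ 2) * ∑ i, 1 * P i -
      κ ^ 2 * ∑ i, max (b (s i)) 0 * P i -
      (θ4 / 2 * (a5 * ∑ i, b (s i) ^ 2 + e5 * (∑ i, b (s i) ^ 2 * s i +
        ∑ i, b (s i) ^ 2 * H i)) + 1 / (2 * θ4) * ∑ i, 1 * H i) +
      c4 * ∑ i, b (s i) * H i := by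
    simp only [Finset.mul_sum, ← Finset.sum_add_distrib, ← Finset.sum_sub_distrib]
    refine Finset.sum_congr rfl fun i _ => ?_
    unfold nf nu nh
    ring
  linarith

end Crest.Agent.R253.TrC80
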