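import Crest.Agent.R238.StepLin
import Crest.Agent.R238.EStep

-- ▼ part R253/BrYB_175
section

/-!
Row 253, T6 (smooth Brenier map), node B4 (helper175): Banach space `YB n a` of bounded Hölder
functions (no evenness), multiplication, matrices of such functions as operators.
Port of `R238/HolDefs` (YS) and `R238/StepK` (helper718, helper487).
-/

set_option autoImplicit false

open MeasureTheory Set Filter
open scoped ContDiff Topology BoundedContinuousFunction

namespace Crest.Agent.R253.BrSt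

open Crest.Agent.R238 Crest.Agent.R238.Step

variable {n : ℕ}

/-- Banach space of bounded `a`-Hölder functions: pairs (`f`, Hölder quotient). -/
def YB (n : ℕ) (a : ℝ) : Submodule ℝ ((E n →ᵇ ℝ) × (PR n →ᵇ ℝ)) where
  carrier := {q | ∀ p : PR n, q.2 p * ‖p.1.1 - p.1.2‖ ^ a = q.1 p.1.1 - q.1 p.1.2}
  add_mem' := by
    intro p q hp hq z
    have h1 := hp z
    have h2 := hq z
    simp only [Prod.snd_add, Prod.fst_add, BoundedContinuousFunction.coe_add, Pi.add_apply]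
    linear_combination h1 + h2
  zero_mem' := by
    intro z; simp
  smul_mem' := by
    intro c q hq z
    have h2 := hq z
    simp only [Prod.smul_snd, Prod.smul_fst, BoundedContinuousFunction.coe_smul, smul_eq_mul]
    linear_combination c * h2

/-- the function -/
def YB.fn {a : ℝ} (r : YB n a) : E n → ℝ := fun x => r.1.1 x

theorem isClosed_YB (n : ℕ) (a : ℝ) :
    IsClosed (YB n a : Set ((E n →ᵇ ℝ) × (PR n →ᵇ ℝ))) := by
  have h : (YB n a : Set ((E n →ᵇ ℝ) × (PR n →ᵇ ℝ)))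
      = ⋂ p : PR n, {q | q.2 p * ‖p.1.1 - p.1.2‖ ^ a = q.1 p.1.1 - q.1 p.1.2} := by
    ext q
    simp only [SetLike.mem_coe, mem_iInter, Set.mem_ofPred_eq]
    rfl
  rw [h]
  have c1 : ∀ x : E n, Continuous fun q : (E n →ᵇ ℝ) × (PR n →ᵇ ℝ) => q.1 x := fun x =>
    (BoundedContinuousFunction.evalCLM ℝ x).continuous.comp continuous_fst
  have c2 : ∀ p : PR n, Continuous fun q : (E n →ᵇ ℝ) × (PR n →ᵇ ℝ) => q.2 p := fun p =>
    (BoundedContinuousFunction.evalCLM ℝ p).continuous.comp continuous_snd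
  exact isClosed_iInter fun p => isClosed_eq ((c2 p).mul continuous_const) ((c1 _).sub (c1 _))

instance (n : ℕ) (a : ℝ) : CompleteSpace (YB n a) := (isClosed_YB n a).completeSpace_coe

theorem YB.hb {a : ℝ} (ha : 0 < a) (r : YB n a) : HB a ‖r‖ (YB.fn r) := by
  have h1 : ‖r.1.1‖ ≤ ‖r‖ := norm_fst_le r.1
  have h2 : ‖r.1.2‖ ≤ ‖r‖ := norm_snd_le r.1
  refine ⟨fun x => ((r.1.1.norm_coe_le_norm x).trans h1), fun x y => ?_⟩
  by_cases hxy : x = y
  · subst hxy
    simp [Real.zero_rpow ha.ne']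
  · have h3 := r.2 ⟨(x, y), hxy⟩
    have h4 : |r.1.2 ⟨(x, y), hxy⟩| ≤ ‖r‖ := (r.1.2.norm_coe_le_norm _).trans h2
    have h5 : 0 ≤ ‖x - y‖ ^ a := Real.rpow_nonneg (norm_nonneg _) a
    show |r.1.1 x - r.1.1 y| ≤ _
    rw [← h3, abs_mul, abs_of_nonneg h5]
    exact mul_le_mul_of_nonneg_right h4 h5

theorem YB.exists_of_hb {a M : ℝ} (ha : 0 < a) {f : E n → ℝ} (h : HB a M f) : ∃ r : YB n a, YB.fn r = f ∧ ‖r‖ ≤ M := by
  have hM : 0 ≤ M := (abs_nonneg _).trans (h.1 0)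
  have hc := h.continuous ha
  let f1 : E n →ᵇ ℝ := BoundedContinuousFunction.ofNormedAddCommGroup f hc M h.1
  have hpos : ∀ p : PR n, 0 < ‖p.1.1 - p.1.2‖ := fun p => norm_pos_iff.2 (sub_ne_zero.2 p.2)
  have hc2 : Continuous fun p : PR n => (f p.1.1 - f p.1.2) / ‖p.1.1 - p.1.2‖ ^ a := by
    have hfst : Continuous fun p : PR n => p.1.1 := continuous_fst.comp continuous_subtype_val
    have hsnd : Continuous fun p : PR n => p.1.2 := continuous_snd.comp continuous_subtype_val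
    refine ((hc.comp hfst).sub (hc.comp hsnd)).div
      ((continuous_norm.comp (hfst.sub hsnd)).rpow_const fun p => Or.inr ha.le) fun p => ?_
    exact (Real.rpow_pos_of_pos (hpos p) a).ne'
  have hb2 : ∀ p : PR n, ‖(f p.1.1 - f p.1.2) / ‖p.1.1 - p.1.2‖ ^ a‖ ≤ M := by
    intro p
    have hp := Real.rpow_pos_of_pos (hpos p) a
    rw [norm_div, Real.norm_eq_abs, Real.norm_of_nonneg hp.le, div_le_iff₀ hp]
    exact h.2 _ _
  let f2 : PR n →ᵇ ℝ := BoundedContinuousFunction.ofNormedAddCommGroup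
    (fun p : PR n => (f p.1.1 - f p.1.2) / ‖p.1.1 - p.1.2‖ ^ a) hc2 M hb2
  refine ⟨⟨(f1, f2), fun p => ?_⟩, rfl, ?_⟩
  · show (f p.1.1 - f p.1.2) / ‖p.1.1 - p.1.2‖ ^ a * ‖p.1.1 - p.1.2‖ ^ a = f p.1.1 - f p.1.2
    exact div_mul_cancel₀ _ (Real.rpow_pos_of_pos (hpos p) a).ne'
  · show ‖(f1, f2)‖ ≤ M
    rw [Prod.norm_def]
    refine max_le ?_ ?_
    · exact BoundedContinuousFunction.norm_ofNormedAddCommGroup_le hc hM h.1
    · exact BoundedContinuousFunction.norm_ofNormedAddCommGroup_le hc2 hM hb2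

theorem YB.ext_fn {a : ℝ} {r s : YB n a} (h : YB.fn r = YB.fn s) : r = s := by
  have h1 : r.1.1 = s.1.1 := by
    ext x; exact congrFun h x
  refine Subtype.ext (Prod.ext h1 ?_)
  ext p
  have hp : 0 < ‖p.1.1 - p.1.2‖ ^ a :=
    Real.rpow_pos_of_pos (norm_pos_iff.2 (sub_ne_zero.2 p.2)) a
  have h2 := r.2 p
  have h3 := s.2 p
  rw [h1, ← h3] at h2
  exact mul_right_cancel₀ hp.ne' h2


variable {a : ℝ}

/-- type synonym of `YB n a` (fast instance search) -/
def YZ (n : ℕ) (a : ℝ) : Type := ↥(YB n a)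

noncomputable instance instNAG : NormedAddCommGroup (YZ n a) :=
  inferInstanceAs (NormedAddCommGroup ↥(YB n a))

noncomputable instance instNS : NormedSpace ℝ (YZ n a) :=
  inferInstanceAs (NormedSpace ℝ ↥(YB n a))

instance instCS : CompleteSpace (YZ n a) := inferInstanceAs (CompleteSpace ↥(YB n a))

/-- the function -/
def fn (r : YZ n a) : E n → ℝ := YB.fn (show ↥(YB n a) from r)

theorem fn_add (r s : YZ n a) (x : E n) : fn (r + s) x = fn r x + fn s x := rfl

theorem fn_sub (r s : YZ n a) (x : E n) : fn (r - s) x = fn r x - fn s x := rfl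

theorem fn_neg (r : YZ n a) (x : E n) : fn (-r) x = - fn r x := rfl

theorem fn_smul (c : ℝ) (r : YZ n a) (x : E n) : fn (c • r) x = c * fn r x := rfl

theorem fn_zero (x : E n) : fn (0 : YZ n a) x = 0 := rfl

theorem fn_sum {ι : Type*} (s : Finset ι) (f : ι → YZ n a) (x : E n) :
    fn (∑ i ∈ s, f i) x = ∑ i ∈ s, fn (f i) x := by
  classical
  induction s using Finset.induction_on with
  | empty => simp [fn_zero]
  | insert i s hi ih => rw [Finset.sum_insert hi, Finset.sum_insert hi, fn_add, ih]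

theorem fn_hb (h0 : 0 < a) (r : YZ n a) : HB a ‖r‖ (fn r) := YB.hb h0 (show ↥(YB n a) from r)

theorem YZext {r s : YZ n a} (h : ∀ x, fn r x = fn s x) : r = s := YB.ext_fn (funext h)

theorem exists_YZ (h0 : 0 < a) {M : ℝ} {f : E n → ℝ} (h : HB a M f) : ∃ r : YZ n a, fn r = f ∧ ‖r‖ ≤ M := by
  obtain ⟨r, h1, h2⟩ := YB.exists_of_hb h0 h
  exact ⟨r, h1, h2⟩

theorem fn_norm_le (h0 : 0 < a) (r : YZ n a) (x : E n) : |fn r x| ≤ ‖r‖ := (fn_hb h0 r).1 x

theorem YZ_norm_le (h0 : 0 < a) {r : YZ n a} {M : ℝ} (h : HB a M (fn r)) : ‖r‖ ≤ M := by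
  obtain ⟨s, hs, hs'⟩ := exists_YZ h0 h
  have : r = s := YZext fun x => by rw [hs]
  rw [this]; exact hs'

/-- evaluation at `x` as a continuous linear map -/
noncomputable def evY (h0 : 0 < a) (x : E n) : YZ n a →L[ℝ] ℝ :=
  LinearMap.mkContinuous
    { toFun := fun r => fn r x
      map_add' := fun r s => fn_add r s x
      map_smul' := fun c r => fn_smul c r x } 1 fun r => by
        rw [one_mul]; exact fn_norm_le h0 r x

@[simp] theorem evY_apply (h0 : 0 < a) (x : E n) (r : YZ n a) : evY h0 x r = fn r x := rfl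

/-! ### multiplication -/

theorem exists_mul (h0 : 0 < a) (r s : YZ n a) :
    ∃ t : YZ n a, (∀ x, fn t x = fn r x * fn s x) ∧ ‖t‖ ≤ 2 * ‖r‖ * ‖s‖ := by
  obtain ⟨t, ht, ht'⟩ := exists_YZ h0 (HB.mul (fn_hb h0 r) (fn_hb h0 s))
  exact ⟨t, fun x => by rw [ht], ht'⟩

/-- multiplication of `YB` functions -/
noncomputable def mulY (h0 : 0 < a) : YZ n a →L[ℝ] YZ n a →L[ℝ] YZ n a :=
  LinearMap.mkContinuous₂ (LinearMap.mk₂ ℝ (fun r s => (exists_mul h0 r s).choose)
    (fun r r' s => YZext fun x => by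
      rw [fn_add, (exists_mul h0 _ _).choose_spec.1, (exists_mul h0 _ _).choose_spec.1,
        (exists_mul h0 _ _).choose_spec.1, fn_add]; ring)
    (fun c r s => YZext fun x => by
      rw [fn_smul, (exists_mul h0 _ _).choose_spec.1, (exists_mul h0 _ _).choose_spec.1,
        fn_smul]; ring)
    (fun r s s' => YZext fun x => by
      rw [fn_add, (exists_mul h0 _ _).choose_spec.1, (exists_mul h0 _ _).choose_spec.1,
        (exists_mul h0 _ _).choose_spec.1, fn_add]; ring)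
    (fun c r s => YZext fun x => by
      rw [fn_smul, (exists_mul h0 _ _).choose_spec.1, (exists_mul h0 _ _).choose_spec.1,
        fn_smul]; ring)) 2 fun r s => (exists_mul h0 r s).choose_spec.2

theorem mulY_fn (h0 : 0 < a) (r s : YZ n a) (x : E n) :
    fn (mulY h0 r s) x = fn r x * fn s x := (exists_mul h0 r s).choose_spec.1 x

theorem mulY_norm (h0 : 0 < a) (r s : YZ n a) : ‖mulY h0 r s‖ ≤ 2 * ‖r‖ * ‖s‖ :=
  (exists_mul h0 r s).choose_spec.2

/-- the constant function `1` -/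
theorem exists_one (h0 : 0 < a) : ∃ t : YZ n a, (∀ x, fn t x = 1) := by
  obtain ⟨t, ht, -⟩ := exists_YZ (n := n) h0 (HB.const (a := a) 1)
  exact ⟨t, fun x => by rw [ht]⟩

noncomputable def oneY (h0 : 0 < a) : YZ n a := (exists_one h0).choose

@[simp] theorem oneY_fn (h0 : 0 < a) (x : E n) : fn (oneY (n := n) h0) x = 1 :=
  (exists_one h0).choose_spec x

/-! ### matrices as operators -/

/-- the Banach algebra of operators on `YB^n` -/
abbrev OpA (n : ℕ) (a : ℝ) : Type := (Fin n → YZ n a) →L[ℝ] (Fin n → YZ n a)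

/-- matrix of `YB` functions as a multiplication operator -/
noncomputable def MO (h0 : 0 < a) (m : Fin n → Fin n → YZ n a) : OpA n a :=
  ContinuousLinearMap.pi fun i => ∑ j, (mulY h0 (m i j)).comp (ContinuousLinearMap.proj j)

theorem MO_apply (h0 : 0 < a) (m : Fin n → Fin n → YZ n a) (w : Fin n → YZ n a) (i : Fin n) :
    MO h0 m w i = ∑ j, mulY h0 (m i j) (w j) := by
  simp [MO]

theorem MO_fn (h0 : 0 < a) (m : Fin n → Fin n → YZ n a) (w : Fin n → YZ n a) (i : Fin n)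
    (x : E n) : fn (MO h0 m w i) x = ∑ j, fn (m i j) x * fn (w j) x := by
  rw [MO_apply, fn_sum]
  exact Finset.sum_congr rfl fun j _ => mulY_fn h0 _ _ _

theorem OpA_ext {p q : OpA n a} (h : ∀ w i x, fn (p w i) x = fn (q w i) x) : p = q := by
  refine ContinuousLinearMap.ext fun w => ?_
  funext i
  exact YZext fun x => h w i x

theorem MO_norm (h0 : 0 < a) (m : Fin n → Fin n → YZ n a) : ‖MO h0 m‖ ≤ 2 * n * ‖m‖ := by
  refine ContinuousLinearMap.opNorm_le_bound _ (by positivity) fun w => ?_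
  refine (pi_norm_le_iff_of_nonneg (by positivity)).2 fun i => ?_
  rw [MO_apply]
  calc ‖∑ j, mulY h0 (m i j) (w j)‖ ≤ ∑ j : Fin n, 2 * ‖m‖ * ‖w‖ := by
        refine norm_sum_le_of_le _ fun j _ => ?_
        refine (mulY_norm h0 _ _).trans ?_
        gcongr
        · exact (norm_le_pi_norm (m i) j).trans (norm_le_pi_norm m i)
        · exact norm_le_pi_norm w j
    _ = 2 * n * ‖m‖ * ‖w‖ := by simp; ring

/-- `MO` as a continuous linear map -/
noncomputable def MOL (n : ℕ) (h0 : 0 < a) : (Fin n → Fin n → YZ n a) →L[ℝ] OpA n a :=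
  LinearMap.mkContinuous
    { toFun := fun m => MO h0 m
      map_add' := fun m m' => OpA_ext fun w i x => by
        show fn (MO h0 (m + m') w i) x = fn (MO h0 m w i + MO h0 m' w i) x
        rw [MO_fn, fn_add, MO_fn, MO_fn, ← Finset.sum_add_distrib]
        refine Finset.sum_congr rfl fun j _ => ?_
        rw [Pi.add_apply, Pi.add_apply, fn_add]; ring
      map_smul' := fun c m => OpA_ext fun w i x => by
        show fn (MO h0 (c • m) w i) x = fn (c • MO h0 m w i) x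
        rw [MO_fn, fn_smul, MO_fn, Finset.mul_sum]
        refine Finset.sum_congr rfl fun j _ => ?_
        rw [Pi.smul_apply, Pi.smul_apply, fn_smul]; ring } (2 * n) fun m => MO_norm h0 m

@[simp] theorem MOL_apply (h0 : 0 < a) (m : Fin n → Fin n → YZ n a) :
    MOL n h0 m = MO h0 m := rfl

/-- the trace -/
noncomputable def trY (n : ℕ) (h0 : 0 < a) : OpA n a →L[ℝ] YZ n a :=
  ∑ i, (ContinuousLinearMap.proj i).comp
    (ContinuousLinearMap.apply ℝ (Fin n → YZ n a) (Pi.single i (oneY h0)))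

theorem trY_apply (h0 : 0 < a) (p : OpA n a) :
    trY n h0 p = ∑ i, p (Pi.single i (oneY h0)) i := by
  simp [trY]

theorem trY_MO (h0 : 0 < a) (m : Fin n → Fin n → YZ n a) (x : E n) :
    fn (trY n h0 (MO h0 m)) x = ∑ i, fn (m i i) x := by
  rw [trY_apply, fn_sum]
  refine Finset.sum_congr rfl fun i _ => ?_
  rw [MO_fn, Finset.sum_eq_single i]
  · simp
  · intro j _ hj
    rw [Pi.single_eq_of_ne hj, fn_zero, mul_zero]
  · simp

/-- product of matrices of `YB` functions -/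
noncomputable def mm (h0 : 0 < a) (m m' : Fin n → Fin n → YZ n a) : Fin n → Fin n → YZ n a :=
  fun i k => ∑ j, mulY h0 (m i j) (m' j k)

theorem mm_fn (h0 : 0 < a) (m m' : Fin n → Fin n → YZ n a) (i k : Fin n) (x : E n) :
    fn (mm h0 m m' i k) x = ∑ j, fn (m i j) x * fn (m' j k) x := by
  rw [mm, fn_sum]
  exact Finset.sum_congr rfl fun j _ => mulY_fn h0 _ _ _

theorem MO_mul (h0 : 0 < a) (m m' : Fin n → Fin n → YZ n a) :
    MO h0 m * MO h0 m' = MO h0 (mm h0 m m') := by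
  refine OpA_ext fun w i x => ?_
  show fn (MO h0 m (MO h0 m' w) i) x = _
  rw [MO_fn, MO_fn]
  simp only [MO_fn, mm_fn]
  simp only [Finset.mul_sum, Finset.sum_mul]
  rw [Finset.sum_comm]
  refine Finset.sum_congr rfl fun k _ => Finset.sum_congr rfl fun j _ => by ring

/-- identity matrix of `YB` functions -/
noncomputable def idY (n : ℕ) (h0 : 0 < a) : Fin n → Fin n → YZ n a :=
  fun i j => if i = j then oneY h0 else 0

theorem idY_fn (h0 : 0 < a) (i j : Fin n) (x : E n) :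
    fn (idY n h0 i j) x = (1 : Matrix (Fin n) (Fin n) ℝ) i j := by
  unfold idY
  rw [Matrix.one_apply]
  split_ifs <;> simp [fn_zero]

theorem MO_id (h0 : 0 < a) : MO h0 (idY n h0) = 1 := by
  refine OpA_ext fun w i x => ?_
  rw [MO_fn]
  simp only [idY_fn, Matrix.one_apply, ite_mul, one_mul, zero_mul, Finset.sum_ite_eq,
    Finset.mem_univ, if_true]
  rfl

end Crest.Agent.R253.BrSt
end

-- ▼ part R253/BrODE_175

/-! Row 253, T6, node B4 (helper175): abstract continuity step with a bilinear drift term.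
Port of `R238/EStep` (helper487). -/

set_option linter.unusedVariables false

open Set Metric

namespace Crest.Agent.R253.BrSt

open Crest.Agent.R238.EStep

section Main

variable {Y A : Type*} [NormedAddCommGroup Y] [NormedSpace ℝ Y] [CompleteSpace Y]
  [NormedRing A] [NormedAlgebra ℝ A] [CompleteSpace A]

/-- the linearised operator with the quadratic drift term -/
noncomputable def DQ (K : Y →L[ℝ] A) (T : A →L[ℝ] Y) (Q : Y →L[ℝ] Y →L[ℝ] Y) (r : Y) :
    Y →L[ℝ] Y := DK K T (ginv K r) - Q r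

/-- the vector field of the continuity path: `r' = - DΦ(r)⁻¹ P`. -/
noncomputable def vfQ (K : Y →L[ℝ] A) (T : A →L[ℝ] Y) (Q : Y →L[ℝ] Y →L[ℝ] Y) (P : Y) (r : Y) :
    Y := - (Ring.inverse (DQ K T Q r)) P

/-- the good set: `1 + K r` and the linearisation are invertible -/
def GoodQ (K : Y →L[ℝ] A) (T : A →L[ℝ] Y) (Q : Y →L[ℝ] Y →L[ℝ] Y) (r : Y) : Prop :=
  IsUnit (1 + K r) ∧ IsUnit (DQ K T Q r)

/-- Uniform step: from a good `r₀` with bounds `M0, M2` one can follow the ODE for a time `t₀`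
depending only on `M0, M2, K, T, P`. -/
theorem ode_stepQ (K : Y →L[ℝ] A) (T : A →L[ℝ] Y) (Q : Y →L[ℝ] Y →L[ℝ] Y) (NP : ℝ) (M0 M2 d0 : ℝ) (hM0 : 0 < M0)
    (hM2 : 0 < M2) (hd0 : 0 < d0) (hNP : 0 ≤ NP) :
    ∃ t₀ > 0, ∀ P : Y, ‖P‖ ≤ NP → ∀ r₀ : Y, GoodQ K T Q r₀ → ‖ginv K r₀‖ ≤ M0 →
      ‖Ring.inverse (DQ K T Q r₀)‖ ≤ M2 → ∀ a : ℝ, ∃ α : ℝ → Y, α a = r₀ ∧
        ∀ t ∈ Icc a (a + t₀), GoodQ K T Q (α t) ∧
          HasDerivWithinAt α (vfQ K T Q P (α t)) (Icc a (a + t₀)) t ∧ ‖α t - r₀‖ ≤ d0 := by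
  set k : ℝ := ‖K‖ + 1 with hk
  set τ : ℝ := ‖T‖ + 1 with hτ
  set q : ℝ := ‖Q‖ + 1 with hq
  have hk0 : 0 < k := by positivity
  have hτ0 : 0 < τ := by positivity
  have hq0 : 0 < q := by positivity
  set L4 : ℝ := τ * k * ((2 * M0) ^ 2 * k) + q with hL4
  have hL40 : 0 < L4 := by positivity
  -- radius
  set δ : ℝ := min (min (1 / (2 * M0 * k)) (1 / (2 * M2 * L4))) d0
    with hδ
  have hδ0 : 0 < δ := by positivity
  have hδd : δ ≤ d0 := min_le_right _ _
  have hδ1 : k * δ ≤ 1 / (2 * M0) := by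
    calc k * δ ≤ k * (1 / (2 * M0 * k)) := by
          gcongr; exact (min_le_left _ _).trans (min_le_left _ _)
      _ = 1 / (2 * M0) := by field_simp
  have hδ2 : L4 * δ ≤ 1 / (2 * M2) := by
    calc L4 * δ ≤ L4 * (1 / (2 * M2 * L4)) := by
          gcongr; exact (min_le_left _ _).trans (min_le_right _ _)
      _ = 1 / (2 * M2) := by field_simp
  set Lb : ℝ := 2 * M2 * NP + 1 with hLb
  have hLb0 : 0 < Lb := by positivity
  refine ⟨δ / Lb, by positivity, ?_⟩
  intro P hP r₀ hg hi0 hi2 a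
  -- facts in the ball
  have f1 : ∀ r ∈ closedBall r₀ δ, ‖(1 + K r) - (1 + K r₀)‖ ≤ k * ‖r - r₀‖ := by
    intro r _
    have : (1 + K r) - (1 + K r₀) = K (r - r₀) := by rw [map_sub]; abel
    rw [this]
    calc ‖K (r - r₀)‖ ≤ ‖K‖ * ‖r - r₀‖ := K.le_opNorm _
      _ ≤ k * ‖r - r₀‖ := by gcongr; linarith
  have f1' : ∀ r ∈ closedBall r₀ δ, ‖(1 + K r) - (1 + K r₀)‖ ≤ 1 / (2 * M0) := by
    intro r hr
    have h2 : ‖r - r₀‖ ≤ δ := by simpa [dist_eq_norm] using hr
    calc ‖(1 + K r) - (1 + K r₀)‖ ≤ k * ‖r - r₀‖ := f1 r hr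
      _ ≤ k * δ := by gcongr
      _ ≤ _ := hδ1
  have f2 : ∀ r ∈ closedBall r₀ δ, IsUnit (1 + K r) := fun r hr =>
    isUnit_near hM0 hg.1 hi0 (f1' r hr)
  have f3 : ∀ r ∈ closedBall r₀ δ, ∀ r' ∈ closedBall r₀ δ,
      ‖ginv K r - ginv K r'‖ ≤ (2 * M0) ^ 2 * (k * ‖r - r'‖) := by
    intro r hr r' hr'
    calc ‖ginv K r - ginv K r'‖ ≤ (2 * M0) ^ 2 * ‖(1 + K r) - (1 + K r')‖ :=
          inverse_lip hM0 hg.1 hi0 (f1' r hr) (f1' r' hr')
      _ ≤ (2 * M0) ^ 2 * (k * ‖r - r'‖) := by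
          gcongr
          have : (1 + K r) - (1 + K r') = K (r - r') := by rw [map_sub]; abel
          rw [this]
          calc ‖K (r - r')‖ ≤ ‖K‖ * ‖r - r'‖ := K.le_opNorm _
            _ ≤ k * ‖r - r'‖ := by gcongr; linarith
  have hr0 : r₀ ∈ closedBall r₀ δ := mem_closedBall_self hδ0.le
  have f4 : ∀ r ∈ closedBall r₀ δ, ∀ r' ∈ closedBall r₀ δ,
      ‖DQ K T Q r - DQ K T Q r'‖ ≤ L4 * ‖r - r'‖ := by
    intro r hr r' hr'
    have h1 : ‖DK K T (ginv K r) - DK K T (ginv K r')‖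
        ≤ τ * k * ((2 * M0) ^ 2 * (k * ‖r - r'‖)) := by
      calc ‖DK K T (ginv K r) - DK K T (ginv K r')‖ ≤ ‖T‖ * ‖K‖ * ‖ginv K r - ginv K r'‖ :=
            DK_sub_le _ _ _ _
        _ ≤ τ * k * ((2 * M0) ^ 2 * (k * ‖r - r'‖)) := by
            gcongr
            · linarith
            · linarith
            · exact f3 r hr r' hr'
    have h2 : ‖Q r - Q r'‖ ≤ q * ‖r - r'‖ := by
      rw [← map_sub]
      calc ‖Q (r - r')‖ ≤ ‖Q‖ * ‖r - r'‖ := Q.le_opNorm _
        _ ≤ q * ‖r - r'‖ := by gcongr; linarith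
    have h3 : DQ K T Q r - DQ K T Q r'
        = (DK K T (ginv K r) - DK K T (ginv K r')) - (Q r - Q r') := by
      unfold DQ; abel
    rw [h3]
    calc _ ≤ ‖DK K T (ginv K r) - DK K T (ginv K r')‖ + ‖Q r - Q r'‖ := norm_sub_le _ _
      _ ≤ τ * k * ((2 * M0) ^ 2 * (k * ‖r - r'‖)) + q * ‖r - r'‖ := add_le_add h1 h2
      _ = L4 * ‖r - r'‖ := by rw [hL4]; ring
  have f4' : ∀ r ∈ closedBall r₀ δ, ‖DQ K T Q r - DQ K T Q r₀‖ ≤ 1 / (2 * M2) := by
    intro r hr
    have h2 : ‖r - r₀‖ ≤ δ := by simpa [dist_eq_norm] using hr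
    calc ‖DQ K T Q r - DQ K T Q r₀‖ ≤ L4 * ‖r - r₀‖ := f4 r hr r₀ hr0
      _ ≤ L4 * δ := by gcongr
      _ ≤ _ := hδ2
  have f5 : ∀ r ∈ closedBall r₀ δ, IsUnit (DQ K T Q r) := fun r hr =>
    isUnit_near hM2 hg.2 hi2 (f4' r hr)
  have f6 : ∀ r ∈ closedBall r₀ δ, ‖Ring.inverse (DQ K T Q r)‖ ≤ 2 * M2 := fun r hr =>
    inverse_le hM2 hg.2 hi2 (f4' r hr)
  have f7 : ∀ r ∈ closedBall r₀ δ, ∀ r' ∈ closedBall r₀ δ,
      ‖Ring.inverse (DQ K T Q r) - Ring.inverse (DQ K T Q r')‖ ≤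
        (2 * M2) ^ 2 * (L4 * ‖r - r'‖) := by
    intro r hr r' hr'
    calc _ ≤ (2 * M2) ^ 2 * ‖DQ K T Q r - DQ K T Q r'‖ :=
          inverse_lip hM2 hg.2 hi2 (f4' r hr) (f4' r' hr')
      _ ≤ _ := by gcongr; exact f4 r hr r' hr'
  -- the truncated vector field
  classical
  set F : ℝ → Y → Y := fun _ r => if r ∈ closedBall r₀ δ then vfQ K T Q P r else 0 with hF
  have hFle : ∀ t r, ‖F t r‖ ≤ Lb := by
    intro t r
    by_cases hr : r ∈ closedBall r₀ δ
    · simp only [hF, if_pos hr, vfQ, norm_neg]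
      calc ‖Ring.inverse (DQ K T Q r) P‖
          ≤ ‖Ring.inverse (DQ K T Q r)‖ * ‖P‖ := ContinuousLinearMap.le_opNorm _ _
        _ ≤ 2 * M2 * NP := by gcongr; exact f6 r hr
        _ ≤ Lb := by linarith
    · simp only [hF, if_neg hr, norm_zero]; exact hLb0.le
  set Kl : ℝ := (2 * M2) ^ 2 * L4 * ‖P‖ with hKl
  have hKl0 : 0 ≤ Kl := by positivity
  have hlip : ∀ t, LipschitzOnWith (Real.toNNReal Kl) (F t) (closedBall r₀ δ) := by
    intro t
    refine LipschitzOnWith.of_dist_le_mul fun r hr r' hr' => ?_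
    rw [dist_eq_norm, dist_eq_norm, Real.coe_toNNReal _ hKl0]
    simp only [hF, if_pos hr, if_pos hr', vfQ]
    have : -(Ring.inverse (DQ K T Q r)) P - -(Ring.inverse (DQ K T Q r')) P =
      - ((Ring.inverse (DQ K T Q r) - Ring.inverse (DQ K T Q r')) P) := by
      simp only [ContinuousLinearMap.sub_apply]; abel
    rw [this, norm_neg]
    calc _ ≤ ‖Ring.inverse (DQ K T Q r) - Ring.inverse (DQ K T Q r')‖ * ‖P‖ :=
          ContinuousLinearMap.le_opNorm _ _
      _ ≤ (2 * M2) ^ 2 * (L4 * ‖r - r'‖) * ‖P‖ := by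
          gcongr; exact f7 r hr r' hr'
      _ = Kl * ‖r - r'‖ := by rw [hKl]; ring
  have ht0 : 0 < δ / Lb := by positivity
  have hle : a ≤ a + δ / Lb := by linarith
  let t0 : Icc a (a + δ / Lb) := ⟨a, left_mem_Icc.2 hle⟩
  have hPL : IsPicardLindelof F t0 r₀ (Real.toNNReal δ) 0 (Real.toNNReal Lb)
      (Real.toNNReal Kl) := by
    refine ⟨?_, ?_, ?_, ?_⟩
    · intro t _
      have := hlip t
      rwa [← Real.coe_toNNReal δ hδ0.le] at this
    · intro x _
      exact continuousOn_const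
    · intro t _ x _
      rw [Real.coe_toNNReal _ hLb0.le]; exact hFle t x
    · have e1 : a + δ / Lb - a = δ / Lb := by ring
      have e2 : a - a = 0 := by ring
      simp only [t0, e1, e2, Real.coe_toNNReal _ hLb0.le, Real.coe_toNNReal _ hδ0.le,
        NNReal.coe_zero, sub_zero]
      rw [max_eq_left ht0.le]
      have : Lb * (δ / Lb) = δ := by field_simp
      rw [this]
  obtain ⟨α, hα0, hα⟩ := hPL.exists_eq_forall_mem_Icc_hasDerivWithinAt₀
  have hα0' : α a = r₀ := hα0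
  -- stays in the ball
  have hball : ∀ t ∈ Icc a (a + δ / Lb), α t ∈ closedBall r₀ δ := by
    intro t ht
    have hd := (convex_Icc a (a + δ / Lb)).norm_image_sub_le_of_norm_hasDerivWithin_le
      (f := α) (f' := fun t => F t (α t)) (C := Lb) hα (fun x _ => hFle x (α x))
      (left_mem_Icc.2 hle) ht
    rw [mem_closedBall, dist_eq_norm, ← hα0']
    refine hd.trans ?_
    rw [Real.norm_of_nonneg (by linarith [ht.1])]
    calc Lb * (t - a) ≤ Lb * (δ / Lb) := by gcongr; linarith [ht.2]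
      _ = δ := by field_simp
  refine ⟨α, hα0', fun t ht => ⟨⟨f2 _ (hball t ht), f5 _ (hball t ht)⟩, ?_, ?_⟩⟩
  · have := hα t ht
    simpa only [hF, if_pos (hball t ht)] using this
  · have := hball t ht
    rw [mem_closedBall, dist_eq_norm] at this
    exact this.trans hδd

end Main

end Crest.Agent.R253.BrSt
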