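import Mathlib
import Crest.Agent.R238.ECal3
import Crest.Agent.R238.ECal7
import Crest.Agent.R253.BrInst_649
import Crest.Agent.R238.ECalFin

-- ▼ part R253/CalB1_957
section

/-!
Row 253, node B6 (Calabi algebra for the Monge--Ampere equation with drift and zero order term),
abstract part: helper957, port of helper254's `R238/ECal1`.
-/

set_option autoImplicit false

namespace Crest.Agent.R253.CalB

open Finset

/-- Abstract Monge--Ampere system: commuting derivations, gradient `u`, Hessian matrix `g = D u`,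
inverse `t`, constant form `be`, differentiated equation
`tau_ab D_e g_ab = be_ac u_c g_ae - (q_e - lam u_e)`. -/
structure SysB (n : ℕ) (A : Type*) [CommRing A] [Algebra ℝ A] where
  D : Fin n → Derivation ℝ A A
  comm : ∀ a b f, D a (D b f) = D b (D a f)
  u : Fin n → A
  g : Fin n → Fin n → A
  Du : ∀ a b, D a (u b) = g a b
  be : Fin n → Fin n → ℝ
  besymm : ∀ a b, be a b = be b a
  gsymm : ∀ a b, g a b = g b a
  gcod : ∀ a b c, D c (g a b) = D a (g c b)
  t : Fin n → Fin n → A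
  tsymm : ∀ a b, t a b = t b a
  tg : ∀ a b, ∑ c, t a c * g c b = if a = b then 1 else 0
  q : Fin n → A
  qcod : ∀ a b, D a (q b) = D b (q a)
  lam : ℝ
  eq : ∀ e, ∑ a, ∑ b, t a b * D e (g a b) =
    ∑ a, (∑ c, be a c • u c) * g a e - (q e - lam • u e)

variable {n : ℕ} {A : Type*} [CommRing A] [Algebra ℝ A] (s : SysB n A)

namespace SysB

/-- the drift vector `x_a = be_ac u_c` -/
def x (a : Fin n) : A := ∑ c, s.be a c • s.u c

/-- the operator `L f = tau_ab D_a D_b f - be_ac u_c D_a f`. -/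
def L (f : A) : A := ∑ a, ∑ b, s.t a b * s.D a (s.D b f) - ∑ a, s.x a * s.D a f

lemma D_x (a b : Fin n) : s.D a (s.x b) = ∑ c, s.be b c • s.g a c := by
  unfold x
  rw [map_sum]
  refine Finset.sum_congr rfl fun c _ => ?_
  rw [Derivation.map_smul, s.Du]

/-- carre du champ. -/
def Gam (f h : A) : A := ∑ a, ∑ b, s.t a b * (s.D a f * s.D b h)

lemma D_mul (a : Fin n) (f h : A) : s.D a (f * h) = f * s.D a h + h * s.D a f := by
  simp [Derivation.leibniz]

lemma D_sum {ι : Type*} (S : Finset ι) (a : Fin n) (f : ι → A) :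
    s.D a (∑ i ∈ S, f i) = ∑ i ∈ S, s.D a (f i) := map_sum (s.D a) f S

lemma D_delta (a i j : Fin n) : s.D a ((if i = j then 1 else 0 : A)) = 0 := by
  split_ifs <;> simp

lemma gt (a b : Fin n) : ∑ c, s.g a c * s.t c b = if a = b then 1 else 0 := by
  have h := s.tg b a
  rw [show (∑ c, s.g a c * s.t c b) = ∑ c, s.t b c * s.g c a from
    Finset.sum_congr rfl fun c _ => by rw [s.gsymm a c, s.tsymm c b]; ring]
  rw [h]
  by_cases hab : a = b
  · subst hab; simp
  · rw [if_neg hab, if_neg (Ne.symm hab)]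

/-- derivative of the inverse. -/
lemma D_t (c a b : Fin n) :
    s.D c (s.t a b) = - ∑ i, ∑ j, s.t a i * s.D c (s.g i j) * s.t j b := by
  have h1 : ∀ k, ∑ i, s.D c (s.t a i) * s.g i k = - ∑ i, s.t a i * s.D c (s.g i k) := by
    intro k
    have h := congrArg (s.D c) (s.tg a k)
    rw [s.D_delta, s.D_sum] at h
    have h2 : ∑ i, s.D c (s.t a i * s.g i k) =
        ∑ i, s.t a i * s.D c (s.g i k) + ∑ i, s.D c (s.t a i) * s.g i k := by
      rw [← Finset.sum_add_distrib]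
      refine Finset.sum_congr rfl fun i _ => ?_
      rw [s.D_mul]; ring
    rw [h2] at h
    linear_combination h
  have h3 : s.D c (s.t a b) = ∑ k, (∑ i, s.D c (s.t a i) * s.g i k) * s.t k b := by
    have : ∑ k, (∑ i, s.D c (s.t a i) * s.g i k) * s.t k b =
        ∑ i, s.D c (s.t a i) * ∑ k, s.g i k * s.t k b := by
      simp only [Finset.sum_mul, Finset.mul_sum]
      rw [Finset.sum_comm]
      refine Finset.sum_congr rfl fun i _ => Finset.sum_congr rfl fun k _ => by ring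
    rw [this]
    simp only [s.gt]
    simp
  rw [h3]
  simp only [h1]
  simp only [neg_mul, Finset.sum_neg_distrib, Finset.sum_mul]
  rw [Finset.sum_comm]

lemma L_mul (f h : A) : s.L (f * h) = f * s.L h + h * s.L f + 2 * s.Gam f h := by
  have e1 : ∀ a b, s.D a (s.D b (f * h)) =
      f * s.D a (s.D b h) + h * s.D a (s.D b f) + s.D a f * s.D b h + s.D b f * s.D a h := by
    intro a b
    rw [s.D_mul b, map_add, s.D_mul, s.D_mul]; ring
  have e2 : ∑ a, ∑ b, s.t a b * (s.D b f * s.D a h) = s.Gam f h := by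
    rw [Finset.sum_comm]
    refine Finset.sum_congr rfl fun a _ => Finset.sum_congr rfl fun b _ => by rw [s.tsymm b a]
  have e3 : ∑ a, ∑ b, s.t a b * s.D a (s.D b (f * h)) =
      f * ∑ a, ∑ b, s.t a b * s.D a (s.D b h) + h * ∑ a, ∑ b, s.t a b * s.D a (s.D b f)
        + s.Gam f h + ∑ a, ∑ b, s.t a b * (s.D b f * s.D a h) := by
    unfold Gam
    simp only [Finset.mul_sum, ← Finset.sum_add_distrib]
    refine Finset.sum_congr rfl fun a _ => Finset.sum_congr rfl fun b _ => ?_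
    rw [e1]; ring
  have e4 : ∑ a, s.x a * s.D a (f * h) = f * ∑ a, s.x a * s.D a h + h * ∑ a, s.x a * s.D a f := by
    simp only [Finset.mul_sum, ← Finset.sum_add_distrib]
    refine Finset.sum_congr rfl fun a _ => ?_
    rw [s.D_mul]; ring
  unfold L
  rw [e3, e4, e2]; ring

lemma L_add (f h : A) : s.L (f + h) = s.L f + s.L h := by
  unfold L
  simp only [map_add, mul_add, Finset.sum_add_distrib]
  ring

lemma L_zero : s.L 0 = 0 := by simp [L]

lemma L_sum {ι : Type*} (S : Finset ι) (f : ι → A) :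
    s.L (∑ i ∈ S, f i) = ∑ i ∈ S, s.L (f i) := by
  classical
  induction S using Finset.induction_on with
  | empty => simp [s.L_zero]
  | insert i S hi ih => rw [Finset.sum_insert hi, Finset.sum_insert hi, s.L_add, ih]

lemma T_symm1 (a b c : Fin n) : s.D c (s.g a b) = s.D c (s.g b a) := by rw [s.gsymm a b]
lemma T_symm2 (a b c : Fin n) : s.D c (s.g a b) = s.D b (s.g a c) := by
  rw [s.gsymm a b, s.gcod b a c, s.gsymm c a]

lemma F_symm (a b e f : Fin n) : s.D f (s.D e (s.g a b)) = s.D a (s.D b (s.g e f)) := by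
  rw [s.gcod a b e, s.comm f a, s.T_symm1 e b f, s.gcod b e f, s.T_symm1 f e b]

/-- (E1) -/
lemma E1 (e f : Fin n) : s.L (s.g e f) =
    ∑ a, ∑ b, ∑ i, ∑ j, s.t a i * s.t b j * (s.D f (s.g i j) * s.D e (s.g a b))
      + ∑ a, (∑ c, s.be a c • s.g f c) * s.g a e - s.D f (s.q e) + s.lam • s.g e f := by
  have h := congrArg (s.D f) (s.eq e)
  rw [map_sub, map_sub, Derivation.map_smul, s.Du, s.D_sum, s.D_sum] at h
  have h1 : ∀ a, s.D f (∑ b, s.t a b * s.D e (s.g a b)) =
      ∑ b, s.t a b * s.D a (s.D b (s.g e f)) -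
        ∑ b, ∑ i, ∑ j, s.t a i * s.t b j * (s.D f (s.g i j) * s.D e (s.g a b)) := by
    intro a
    rw [s.D_sum, ← Finset.sum_sub_distrib]
    refine Finset.sum_congr rfl fun b _ => ?_
    rw [s.D_mul, s.D_t, s.F_symm]
    simp only [mul_neg, Finset.mul_sum]
    rw [sub_eq_add_neg]
    congr 2
    refine Finset.sum_congr rfl fun i _ => Finset.sum_congr rfl fun j _ => ?_
    rw [s.tsymm j b]; ring
  have h2 : ∀ a, s.D f ((∑ c, s.be a c • s.u c) * s.g a e) = s.x a * s.D a (s.g e f) +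
      (∑ c, s.be a c • s.g f c) * s.g a e := by
    intro a
    rw [s.D_mul]
    have h3 : s.D f (∑ c, s.be a c • s.u c) = ∑ c, s.be a c • s.g f c := s.D_x f a
    rw [h3, s.gcod a e f, s.T_symm1 f e a]
    unfold x
    ring
  simp only [h1, h2, Finset.sum_sub_distrib, Finset.sum_add_distrib] at h
  unfold L
  rw [s.gsymm e f]
  rw [s.gsymm e f] at h
  linear_combination h

end SysB

end Crest.Agent.R253.CalB
end

-- ▼ part R253/CalB2_957
section

/-!
Row 253, node B6: evaluation at a point where `g = 1`; helper957, port of helper254's ECal2.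
-/

set_option autoImplicit false

namespace Crest.Agent.R253.CalB

open Finset

namespace SysB

variable {n : ℕ} {A : Type*} [CommRing A] [Algebra ℝ A] (s : SysB n A) (ev : A →+* ℝ)

def T (a b c : Fin n) : ℝ := ev (s.D c (s.g a b))
def F (a b c d : Fin n) : ℝ := ev (s.D d (s.D c (s.g a b)))
def Q2 (a b : Fin n) : ℝ := ev (s.D b (s.q a))
def Q3 (a b c : Fin n) : ℝ := ev (s.D c (s.D b (s.q a)))
def M (a b : Fin n) : ℝ := ∑ i, ∑ j, s.T ev a i j * s.T ev b i j

lemma T_12 (a b c : Fin n) : s.T ev a b c = s.T ev b a c := by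
  unfold T; rw [s.T_symm1]
lemma T_23 (a b c : Fin n) : s.T ev a b c = s.T ev a c b := by
  unfold T; rw [s.T_symm2]
lemma T_13 (a b c : Fin n) : s.T ev a b c = s.T ev c b a := by
  unfold T; rw [s.gcod]

lemma F_12 (a b c d : Fin n) : s.F ev a b c d = s.F ev b a c d := by
  unfold F; rw [s.T_symm1 a b c]
lemma F_23 (a b c d : Fin n) : s.F ev a b c d = s.F ev a c b d := by
  unfold F; rw [s.T_symm2 a b c]
lemma F_34 (a b c d : Fin n) : s.F ev a b c d = s.F ev a b d c := by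
  unfold F; rw [s.comm d c]


variable {ev}
variable (hev : ∀ a b, ev (s.g a b) = if a = b then 1 else 0)
include hev

omit hev in
lemma ev_real (r : ℝ) : ev (algebraMap ℝ A r) = r := by
  have h : ev.comp (algebraMap ℝ A) = RingHom.id ℝ := Subsingleton.elim _ _
  exact DFunLike.congr_fun h r

omit hev in
lemma ev_smul (r : ℝ) (f : A) : ev (r • f) = r * ev f := by
  rw [Algebra.smul_def, map_mul, ev_real]

lemma ev_t (a b : Fin n) : ev (s.t a b) = if a = b then 1 else 0 := by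
  have h := congrArg ev (s.tg a b)
  rw [map_sum] at h
  simp only [map_mul, hev] at h
  simpa [apply_ite ev] using h

lemma ev_Dt (a b c : Fin n) : ev (s.D c (s.t a b)) = - s.T ev a b c := by
  rw [s.D_t]
  simp only [map_neg, map_sum, map_mul, s.ev_t hev, T]
  simp

lemma ev_DDt (a b c d : Fin n) : ev (s.D d (s.D c (s.t a b))) =
    ∑ i, (s.T ev a i d * s.T ev i b c + s.T ev a i c * s.T ev i b d) - s.F ev a b c d := by
  rw [s.D_t, map_neg, s.D_sum, map_neg, map_sum]
  have h : ∀ i, ev (s.D d (∑ j, s.t a i * s.D c (s.g i j) * s.t j b)) =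
      - (s.T ev a i d * s.T ev i b c) - (∑ j, (if a = i then 1 else 0) * (s.T ev i j c * s.T ev j b d))
        + (if a = i then 1 else 0) * s.F ev i b c d := by
    intro i
    rw [s.D_sum, map_sum]
    have h2 : ∀ j, ev (s.D d (s.t a i * s.D c (s.g i j) * s.t j b)) =
        - (s.T ev a i d * s.T ev i j c * (if j = b then 1 else 0))
        - (if a = i then 1 else 0) * (s.T ev i j c * s.T ev j b d)
        + (if a = i then 1 else 0) * (s.F ev i j c d * (if j = b then 1 else 0)) := by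
      intro j
      rw [s.D_mul, s.D_mul]
      simp only [map_add, map_mul, s.ev_Dt hev, s.ev_t hev]
      unfold F
      rw [show ev (s.D c (s.g i j)) = s.T ev i j c from rfl]
      ring
    simp only [h2, Finset.sum_add_distrib, Finset.sum_sub_distrib]
    simp
  simp only [h, Finset.sum_add_distrib, Finset.sum_sub_distrib]
  simp only [Finset.sum_neg_distrib]
  rw [Finset.sum_comm (s := univ) (t := univ)]
  simp only [ite_mul, one_mul, zero_mul, Finset.sum_ite_eq, Finset.mem_univ, if_true]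
  have h5 : ∑ i, s.T ev a i c * s.T ev i b d = ∑ x, s.T ev a x c * s.T ev x b d := rfl
  linarith

lemma ev_L (f : A) : ev (s.L f) = ∑ a, ev (s.D a (s.D a f)) - ∑ a, ev (s.x a) * ev (s.D a f) := by
  unfold L
  simp only [map_sub, map_sum, map_mul, s.ev_t hev]
  simp

lemma ev_Gam (f h : A) : ev (s.Gam f h) = ∑ a, ev (s.D a f) * ev (s.D a h) := by
  unfold Gam
  simp only [map_sum, map_mul, s.ev_t hev]
  simp

lemma ev_Lg (e f : Fin n) : ev (s.L (s.g e f)) =
    s.M ev e f + s.be e f - s.Q2 ev e f + s.lam * (if e = f then 1 else 0) := by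
  rw [s.E1]
  simp only [map_add, map_sub, map_sum, map_mul, s.ev_t hev, hev, ev_smul]
  unfold Q2
  have h1 : ∑ a, (∑ c, s.be a c * (if f = c then (1:ℝ) else 0)) * (if a = e then 1 else 0) =
      s.be e f := by simp
  rw [h1]
  congr 3
  have : ∀ a b, ∑ i, ∑ j, ((if a = i then (1:ℝ) else 0) * (if b = j then 1 else 0)) *
      (ev (s.D f (s.g i j)) * ev (s.D e (s.g a b))) = s.T ev a b f * s.T ev a b e := by
    intro a b; unfold T; simp
  simp only [this]
  unfold M
  refine Finset.sum_congr rfl fun i _ => Finset.sum_congr rfl fun j _ => ?_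
  rw [s.T_13 ev e i j, s.T_13 ev f i j, s.T_12 ev j i e, s.T_12 ev j i f]; ring

lemma ev_Lt (a b : Fin n) : ev (s.L (s.t a b)) =
    s.M ev a b - s.be a b + s.Q2 ev a b - s.lam * (if a = b then 1 else 0) := by
  have h1 := s.ev_Lg hev a b
  rw [s.ev_L hev] at h1 ⊢
  simp only [s.ev_DDt hev, s.ev_Dt hev]
  simp only [Finset.sum_sub_distrib, Finset.sum_add_distrib]
  have h2 : ∑ a_1, ev (s.D a_1 (s.D a_1 (s.g a b))) = ∑ c, s.F ev a b c c := rfl
  have h3 : ∀ c, ev (s.D c (s.g a b)) = s.T ev a b c := fun c => rfl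
  have h4 : ∑ x, ∑ x_1, s.T ev a x_1 x * s.T ev x_1 b x = s.M ev a b := by
    unfold M; rw [Finset.sum_comm]
    refine Finset.sum_congr rfl fun i _ => Finset.sum_congr rfl fun j _ => ?_
    rw [s.T_12 ev i b j]
  simp only [h3] at h1
  rw [h2] at h1
  rw [h4]
  simp only [mul_neg, Finset.sum_neg_distrib]
  linarith

/-- the quartic/cubic contractions -/
lemma ev_LT (e f h : Fin n) : ev (s.L (s.D h (s.g e f))) =
    (∑ i, s.be e i * s.T ev i f h + ∑ i, s.be f i * s.T ev e i h + ∑ i, s.be h i * s.T ev e f i)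
      + ∑ p, ∑ q, (s.T ev h p q * s.F ev p q e f + s.T ev f p q * s.F ev p q e h
          + s.T ev e p q * s.F ev p q f h)
      - 2 * ∑ p, ∑ q, ∑ r, s.T ev e p q * s.T ev f q r * s.T ev h r p
      - s.Q3 ev e f h + s.lam * s.T ev e f h := by
  -- D_h of (E1)
  have key : s.D h (s.L (s.g e f)) = s.L (s.D h (s.g e f))
      + ∑ a, ∑ b, s.D h (s.t a b) * s.D a (s.D b (s.g e f))
      - ∑ a, (∑ c, s.be a c • s.g h c) * s.D a (s.g e f) := by
    unfold L
    rw [map_sub, s.D_sum, s.D_sum]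
    have h1 : ∀ a, s.D h (∑ b, s.t a b * s.D a (s.D b (s.g e f))) =
        ∑ b, s.t a b * s.D a (s.D b (s.D h (s.g e f))) +
          ∑ b, s.D h (s.t a b) * s.D a (s.D b (s.g e f)) := by
      intro a
      rw [s.D_sum, ← Finset.sum_add_distrib]
      refine Finset.sum_congr rfl fun b _ => ?_
      rw [s.D_mul, s.comm h a, s.comm h b]; ring
    have h2 : ∀ a, s.D h (s.x a * s.D a (s.g e f)) =
        s.x a * s.D a (s.D h (s.g e f)) + (∑ c, s.be a c • s.g h c) * s.D a (s.g e f) := by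
      intro a
      rw [s.D_mul, s.D_x, s.comm h a]; ring
    simp only [h1, h2, Finset.sum_add_distrib]
    ring
  have k2 := congrArg (s.D h) (s.E1 e f)
  rw [key] at k2
  have k3 := congrArg ev k2
  simp only [map_add, map_sub, Derivation.map_smul, ev_smul] at k3
  have e1 : ev (∑ a, ∑ b, s.D h (s.t a b) * s.D a (s.D b (s.g e f))) =
      - ∑ p, ∑ q, s.T ev h p q * s.F ev p q e f := by
    simp only [map_sum, map_mul, s.ev_Dt hev, ← Finset.sum_neg_distrib]
    refine Finset.sum_congr rfl fun p _ => Finset.sum_congr rfl fun q _ => ?_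
    rw [← s.F_symm]
    rw [s.T_23 ev p q h, s.T_12 ev p h q]
    unfold F
    rw [s.comm f e]; ring
  have e2 : ev (s.D h (∑ a, ∑ b, ∑ i, ∑ j, s.t a i * s.t b j *
      (s.D f (s.g i j) * s.D e (s.g a b)))) =
      ∑ p, ∑ q, (s.T ev f p q * s.F ev p q e h + s.T ev e p q * s.F ev p q f h)
        - 2 * ∑ p, ∑ q, ∑ r, s.T ev e p q * s.T ev f q r * s.T ev h r p := by
    have t0 : ∀ a b i j, ev (s.D h (s.t a i * s.t b j * (s.D f (s.g i j) * s.D e (s.g a b)))) =
        - (s.T ev a i h * (if b = j then 1 else 0)) * (s.T ev i j f * s.T ev a b e)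
        - ((if a = i then 1 else 0) * s.T ev b j h) * (s.T ev i j f * s.T ev a b e)
        + ((if a = i then 1 else 0) * (if b = j then 1 else 0)) *
          (s.F ev i j f h * s.T ev a b e + s.T ev i j f * s.F ev a b e h) := by
      intro a b i j
      rw [s.D_mul, s.D_mul, s.D_mul]
      simp only [map_add, map_mul, s.ev_Dt hev, s.ev_t hev]
      unfold F T
      ring
    simp only [s.D_sum, map_sum, t0, Finset.sum_add_distrib, Finset.sum_sub_distrib]
    have s1 : ∑ a, ∑ b, ∑ i, ∑ j, - (s.T ev a i h * (if b = j then 1 else 0)) *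
        (s.T ev i j f * s.T ev a b e) =
        - ∑ p, ∑ q, ∑ r, s.T ev e p q * s.T ev f q r * s.T ev h r p := by
      simp only [← Finset.sum_neg_distrib]
      have : ∀ a b i, ∑ j, - (s.T ev a i h * (if b = j then 1 else 0)) *
          (s.T ev i j f * s.T ev a b e) = - (s.T ev e a b * s.T ev f b i * s.T ev h i a) := by
        intro a b i
        have : ∀ j, - (s.T ev a i h * (if b = j then (1:ℝ) else 0)) *
          (s.T ev i j f * s.T ev a b e) = if b = j then - (s.T ev a i h *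
          (s.T ev i j f * s.T ev a b e)) else 0 := by
          intro j; split_ifs <;> ring
        simp only [this, Finset.sum_ite_eq, Finset.mem_univ, if_true]
        rw [s.T_13 ev a i h, s.T_13 ev i b f, s.T_13 ev a b e, s.T_12 ev e b a, s.T_23 ev b e a,
          s.T_12 ev b a e, s.T_13 ev a b e, s.T_23 ev e b a]
        ring
      simp only [this]
    have s2 : ∑ a, ∑ b, ∑ i, ∑ j, ((if a = i then (1:ℝ) else 0) * s.T ev b j h) *
        (s.T ev i j f * s.T ev a b e) =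
        ∑ p, ∑ q, ∑ r, s.T ev e p q * s.T ev f q r * s.T ev h r p := by
      have : ∀ a b, ∑ i, ∑ j, ((if a = i then (1:ℝ) else 0) * s.T ev b j h) *
          (s.T ev i j f * s.T ev a b e) = ∑ j, s.T ev e b a * s.T ev f a j * s.T ev h j b := by
        intro a b
        rw [Finset.sum_comm]
        refine Finset.sum_congr rfl fun j _ => ?_
        have : ∀ i, ((if a = i then (1:ℝ) else 0) * s.T ev b j h) *
          (s.T ev i j f * s.T ev a b e) = if a = i then s.T ev b j h *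
          (s.T ev i j f * s.T ev a b e) else 0 := by
          intro i; split_ifs <;> ring
        simp only [this, Finset.sum_ite_eq, Finset.mem_univ, if_true]
        rw [s.T_13 ev b j h, s.T_13 ev a j f, s.T_13 ev a b e, s.T_23 ev f j a]
        ring
      simp only [this]
      rw [Finset.sum_comm]
    have s3 : ∑ a, ∑ b, ∑ i, ∑ j, ((if a = i then (1:ℝ) else 0) * (if b = j then 1 else 0)) *
          (s.F ev i j f h * s.T ev a b e + s.T ev i j f * s.F ev a b e h) =
        ∑ p, ∑ q, (s.T ev f p q * s.F ev p q e h + s.T ev e p q * s.F ev p q f h) := by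
      refine Finset.sum_congr rfl fun a _ => Finset.sum_congr rfl fun b _ => ?_
      have : ∀ i j, ((if a = i then (1:ℝ) else 0) * (if b = j then 1 else 0)) *
          (s.F ev i j f h * s.T ev a b e + s.T ev i j f * s.F ev a b e h) =
          if a = i then (if b = j then (s.F ev i j f h * s.T ev a b e + s.T ev i j f * s.F ev a b e h)
            else 0) else 0 := by
        intro i j; split_ifs <;> ring
      simp only [this]
      simp only [Finset.sum_ite_eq, Finset.mem_univ, if_true, Finset.sum_const_zero,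
        Finset.sum_ite_irrel]
      rw [s.T_13 ev a b e, s.T_13 ev a b f, s.T_23 ev e b a, s.T_23 ev f b a]
      ring
    have s3' := s3
    simp only [mul_add, Finset.sum_add_distrib] at s3'
    simp only [mul_add, Finset.sum_add_distrib]
    rw [s1, s2]
    linarith
  have e3 : ev (s.D h (s.D f (s.q e))) = s.Q3 ev e f h := rfl
  have e5 : ev (∑ a, (∑ c, s.be a c • s.g h c) * s.D a (s.g e f)) =
      ∑ i, s.be h i * s.T ev e f i := by
    simp only [map_sum, map_mul, ev_smul, hev]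
    refine Finset.sum_congr rfl fun i _ => ?_
    have : ∑ c, s.be i c * (if h = c then (1:ℝ) else 0) = s.be h i := by
      simp [s.besymm i h]
    rw [this]; rfl
  have e6 : ev (s.D h (∑ a, (∑ c, s.be a c • s.g f c) * s.g a e)) =
      ∑ i, s.be e i * s.T ev i f h + ∑ i, s.be f i * s.T ev e i h := by
    simp only [s.D_sum, s.D_mul, Derivation.map_smul, map_sum, map_mul, map_add, ev_smul, hev,
      Finset.sum_add_distrib]
    have a1 : ∑ a, (∑ c, s.be a c * (if f = c then (1:ℝ) else 0)) * ev (s.D h (s.g a e)) =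
        ∑ i, s.be f i * s.T ev e i h := by
      refine Finset.sum_congr rfl fun i _ => ?_
      have : ∑ c, s.be i c * (if f = c then (1:ℝ) else 0) = s.be f i := by
        simp [s.besymm i f]
      rw [this, s.T_12 ev e i h]; rfl
    have a2 : ∑ a, (if a = e then (1:ℝ) else 0) * ∑ c, s.be a c * ev (s.D h (s.g f c)) =
        ∑ i, s.be e i * s.T ev i f h := by
      simp only [ite_mul, one_mul, zero_mul, Finset.sum_ite_eq', Finset.mem_univ, if_true]
      refine Finset.sum_congr rfl fun i _ => ?_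
      rw [s.T_12 ev i f h]; rfl
    rw [a1, a2]; ring
  have e4 : ev (s.D h (s.g e f)) = s.T ev e f h := rfl
  rw [e1, e2, e3, e4, e5, e6] at k3
  simp only [Finset.sum_add_distrib] at k3 ⊢
  linarith

end SysB

end Crest.Agent.R253.CalB
end

-- ▼ part R253/CalB3_957
section

/-!
Row 253, node B6: `L S` at a point where `g = 1`; helper957, port of helper254's ECal4, ECal5.
-/

set_option autoImplicit false

namespace Crest.Agent.R253.CalB

open Finset
open Crest.Agent.R238.ECal (Sym3 Sym4 St Mt dt c4 X1 A1 A2 A3 Q sum4 TW1 TW2 TW3 TX1 TX2 TX3 TA2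
  TA3 TA3' FA1 FA2 FA3 F_sq_ge c4_le_dt St_sq_le St_eq_trM)

namespace SysB

variable {n : ℕ} {A : Type*} [CommRing A] [Algebra ℝ A] (s : SysB n A)

def T1 (a b c : Fin n) : A := ∑ i, s.t a i * s.D c (s.g i b)
def T2 (a b c : Fin n) : A := ∑ i, s.t b i * s.T1 a i c
def T3 (a b c : Fin n) : A := ∑ i, s.t c i * s.T2 a b i
/-- the Calabi scalar `S = |D³u|²_g` -/
def S : A := ∑ a, ∑ b, ∑ c, s.T3 a b c * s.D c (s.g a b)

variable {s} {ev : A →+* ℝ}

lemma sym3 : Sym3 (s.T ev) := ⟨s.T_12 ev, s.T_23 ev⟩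
lemma sym4 : Sym4 (s.F ev) := ⟨s.F_12 ev, s.F_23 ev, s.F_34 ev⟩

variable (hev : ∀ a b, ev (s.g a b) = if a = b then 1 else 0)
include hev

lemma ev_tV (a : Fin n) (V : Fin n → A) : ev (∑ i, s.t a i * V i) = ev (V a) := by
  simp only [map_sum, map_mul, s.ev_t hev]
  simp

lemma ev_DtV (a d : Fin n) (V : Fin n → A) : ev (s.D d (∑ i, s.t a i * V i)) =
    ev (s.D d (V a)) - ∑ i, s.T ev a i d * ev (V i) := by
  simp only [s.D_sum, s.D_mul, map_sum, map_add, map_mul, s.ev_t hev, s.ev_Dt hev,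
    Finset.sum_add_distrib]
  have : ∑ i, ev (V i) * -s.T ev a i d = - ∑ i, s.T ev a i d * ev (V i) := by
    rw [← Finset.sum_neg_distrib]; exact Finset.sum_congr rfl fun i _ => by ring
  rw [this]
  simp only [ite_mul, one_mul, zero_mul, Finset.sum_ite_eq, Finset.mem_univ, if_true]
  ring

lemma ev_LtV (a : Fin n) (V : Fin n → A) : ev (s.L (∑ i, s.t a i * V i)) =
    ev (s.L (V a)) + ∑ i, (s.M ev a i - s.be a i + s.Q2 ev a i - s.lam * (if a = i then 1 else 0)) * ev (V i)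
      - 2 * ∑ i, ∑ d, s.T ev a i d * ev (s.D d (V i)) := by
  simp only [s.L_sum, s.L_mul, map_sum, map_add, map_mul, s.ev_t hev, s.ev_Lt hev,
    s.ev_Gam hev, s.ev_Dt hev, Finset.sum_add_distrib]
  have e1 : ∑ i, (if a = i then (1:ℝ) else 0) * ev (s.L (V i)) = ev (s.L (V a)) := by simp
  have e2 : ∑ i, ev (V i) * (s.M ev a i - s.be a i + s.Q2 ev a i - s.lam * (if a = i then 1 else 0)) =
      ∑ i, (s.M ev a i - s.be a i + s.Q2 ev a i - s.lam * (if a = i then 1 else 0)) * ev (V i) :=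
    Finset.sum_congr rfl fun i _ => by ring
  have e3 : ∑ i, ev (2:A) * ∑ d, -s.T ev a i d * ev (s.D d (V i)) =
      - (2 * ∑ i, ∑ d, s.T ev a i d * ev (s.D d (V i))) := by
    rw [← Finset.mul_sum, map_ofNat]
    simp only [neg_mul, Finset.sum_neg_distrib]
    ring
  rw [e1, e2, e3]
  ring

lemma ev_T1 (a b c : Fin n) : ev (s.T1 a b c) = s.T ev a b c := by
  unfold T1; rw [ev_tV hev]; rfl

lemma ev_T2 (a b c : Fin n) : ev (s.T2 a b c) = s.T ev a b c := by
  unfold T2; rw [ev_tV hev, ev_T1 hev]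

lemma ev_T3 (a b c : Fin n) : ev (s.T3 a b c) = s.T ev a b c := by
  unfold T3; rw [ev_tV hev, ev_T2 hev]

lemma ev_S : ev s.S = St (s.T ev) := by
  unfold S St
  simp only [map_sum, map_mul, ev_T3 hev]
  refine Finset.sum_congr rfl fun a _ => Finset.sum_congr rfl fun b _ =>
    Finset.sum_congr rfl fun c _ => ?_
  rw [pow_two]; rfl

lemma ev_DT1 (a b c d : Fin n) : ev (s.D d (s.T1 a b c)) =
    s.F ev a b c d - A1 (s.T ev) a b c d := by
  unfold T1 A1; rw [ev_DtV hev]; rfl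

lemma ev_DT2 (a b c d : Fin n) : ev (s.D d (s.T2 a b c)) =
    s.F ev a b c d - A1 (s.T ev) a b c d - A2 (s.T ev) a b c d := by
  unfold T2; rw [ev_DtV hev, ev_DT1 hev]; unfold A2
  simp only [ev_T1 hev]

lemma ev_DT3 (a b c d : Fin n) : ev (s.D d (s.T3 a b c)) =
    s.F ev a b c d - Q (s.T ev) a b c d := by
  unfold T3; rw [ev_DtV hev, ev_DT2 hev]; unfold Q A3
  simp only [ev_T2 hev]
  ring

lemma ev_LT1 (a b c : Fin n) : ev (s.L (s.T1 a b c)) =
    ev (s.L (s.D c (s.g a b)))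
      + ∑ i, (s.M ev a i - s.be a i + s.Q2 ev a i - s.lam * (if a = i then 1 else 0)) * s.T ev i b c
      - 2 * ∑ i, ∑ d, s.T ev a i d * s.F ev i b c d := by
  unfold T1; rw [ev_LtV hev]; rfl

lemma ev_LT2 (a b c : Fin n) : ev (s.L (s.T2 a b c)) =
    ev (s.L (s.T1 a b c))
      + ∑ i, (s.M ev b i - s.be b i + s.Q2 ev b i - s.lam * (if b = i then 1 else 0)) * s.T ev a i c
      - 2 * ∑ i, ∑ d, s.T ev b i d * (s.F ev a i c d - A1 (s.T ev) a i c d) := by
  unfold T2; rw [ev_LtV hev]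
  simp only [ev_T1 hev, ev_DT1 hev]

lemma ev_LT3 (a b c : Fin n) : ev (s.L (s.T3 a b c)) =
    ev (s.L (s.T2 a b c))
      + ∑ i, (s.M ev c i - s.be c i + s.Q2 ev c i - s.lam * (if c = i then 1 else 0)) * s.T ev a b i
      - 2 * ∑ i, ∑ d, s.T ev c i d *
        (s.F ev a b i d - A1 (s.T ev) a b i d - A2 (s.T ev) a b i d) := by
  unfold T3; rw [ev_LtV hev]
  simp only [ev_T2 hev, ev_DT2 hev]

lemma ev_LS : ev (s.L s.S) =
    ∑ a, ∑ b, ∑ c, (s.T ev a b c * ev (s.L (s.D c (s.g a b)))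
      + s.T ev a b c * ev (s.L (s.T3 a b c))
      + 2 * ∑ d, (s.F ev a b c d - Q (s.T ev) a b c d) * s.F ev a b c d) := by
  unfold S
  simp only [s.L_sum, s.L_mul, map_sum, map_add, map_mul, ev_T3 hev, s.ev_Gam hev, ev_DT3 hev,
    map_ofNat]
  rfl

end SysB

namespace SysB

variable {n : ℕ} {A : Type*} [CommRing A] [Algebra ℝ A] {s : SysB n A} {ev : A →+* ℝ}
variable (hev : ∀ a b, ev (s.g a b) = if a = b then 1 else 0)

lemma TBT : ∑ a, ∑ b, ∑ c, s.T ev a b c * (∑ i, s.be a i * s.T ev i b c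
      + ∑ i, s.be b i * s.T ev a i c + ∑ i, s.be c i * s.T ev a b i) =
    3 * ∑ a, ∑ b, s.be a b * Mt (s.T ev) a b := by
  have hT : Sym3 (s.T ev) := sym3
  simp only [mul_add, Finset.sum_add_distrib]
  rw [TW1, TW2 hT, TW3 hT]
  ring

include hev in
lemma TLT : ∑ a, ∑ b, ∑ c, s.T ev a b c * ev (s.L (s.D c (s.g a b))) =
    3 * (∑ a, ∑ b, s.be a b * Mt (s.T ev) a b) + 3 * X1 (s.T ev) (s.F ev) - 2 * c4 (s.T ev)
      - ∑ a, ∑ b, ∑ c, s.T ev a b c * s.Q3 ev a b c + s.lam * St (s.T ev) := by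
  have hT : Sym3 (s.T ev) := sym3
  have hF : Sym4 (s.F ev) := sym4
  simp only [s.ev_LT hev]
  have e : ∀ a b c, s.T ev a b c * ((∑ i, s.be a i * s.T ev i b c
      + ∑ i, s.be b i * s.T ev a i c + ∑ i, s.be c i * s.T ev a b i)
      + ∑ p, ∑ q, (s.T ev c p q * s.F ev p q a b + s.T ev b p q * s.F ev p q a c
          + s.T ev a p q * s.F ev p q b c)
      - 2 * ∑ p, ∑ q, ∑ r, s.T ev a p q * s.T ev b q r * s.T ev c r p
      - s.Q3 ev a b c + s.lam * s.T ev a b c) =
      s.T ev a b c * (∑ i, s.be a i * s.T ev i b c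
      + ∑ i, s.be b i * s.T ev a i c + ∑ i, s.be c i * s.T ev a b i)
      + s.T ev a b c * ∑ p, ∑ q, s.T ev c p q * s.F ev a b p q
      + s.T ev a b c * ∑ p, ∑ q, s.T ev b p q * s.F ev a p c q
      + s.T ev a b c * ∑ p, ∑ q, s.T ev a p q * s.F ev p b c q
      - 2 * ∑ p, ∑ q, ∑ r, s.T ev a b c * (s.T ev a p q * s.T ev b q r * s.T ev c r p)
      - s.T ev a b c * s.Q3 ev a b c + s.lam * s.T ev a b c ^ 2 := by
    intro a b c
    have f1 : ∀ p q, s.F ev p q a b = s.F ev a b p q := fun p q => by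
      rw [hF.h23 p q a b, hF.h12 p a q b, hF.h34 a p q b, hF.h23 a p b q]
    have f2 : ∀ p q, s.F ev p q a c = s.F ev a p c q := fun p q => by
      rw [hF.h23 p q a c, hF.h12 p a q c, hF.h34 a p q c]
    have f3 : ∀ p q, s.F ev p q b c = s.F ev p b c q := fun p q => by
      rw [hF.h23 p q b c, hF.h34 p b q c]
    simp only [f1, f2, f3, Finset.sum_add_distrib, ← Finset.mul_sum]
    ring
  simp only [e]
  simp only [Finset.sum_sub_distrib, Finset.sum_add_distrib]
  have hB := TBT (s := s) (ev := ev)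
  rw [hB, TX3 hT hF, TX2 hT hF, TX1 hF]
  unfold St c4
  simp only [Finset.mul_sum]
  ring

include hev

lemma ev_LS_eq : ev (s.L s.S) =
    (∑ a, ∑ b, ∑ c, ∑ d, 2 * (s.F ev a b c d * s.F ev a b c d) - 6 * X1 (s.T ev) (s.F ev))
      + 2 * c4 (s.T ev) + 3 * dt (s.T ev) + 3 * (∑ a, ∑ b, s.be a b * Mt (s.T ev) a b)
      + 3 * (∑ a, ∑ b, s.Q2 ev a b * Mt (s.T ev) a b) - s.lam * St (s.T ev)
      - 2 * ∑ a, ∑ b, ∑ c, s.T ev a b c * s.Q3 ev a b c := by
  have hT : Sym3 (s.T ev) := sym3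
  have hF : Sym4 (s.F ev) := sym4
  rw [ev_LS hev]
  obtain ⟨W, hW⟩ : ∃ W, W = dt (s.T ev) - (∑ a, ∑ b, s.be a b * Mt (s.T ev) a b)
      + (∑ a, ∑ b, s.Q2 ev a b * Mt (s.T ev) a b) - s.lam * St (s.T ev) := ⟨_, rfl⟩
  have eW : ∑ a, ∑ b, (s.M ev a b - s.be a b + s.Q2 ev a b
      - s.lam * (if a = b then 1 else 0)) * Mt (s.T ev) a b = W := by
    rw [hW]
    have e1 : ∀ a b, (s.M ev a b - s.be a b + s.Q2 ev a b
        - s.lam * (if a = b then (1:ℝ) else 0)) *
        Mt (s.T ev) a b = Mt (s.T ev) a b ^ 2 - s.be a b * Mt (s.T ev) a b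
          + s.Q2 ev a b * Mt (s.T ev) a b - s.lam * (if a = b then Mt (s.T ev) a b else 0) := by
      intro a b
      have : s.M ev a b = Mt (s.T ev) a b := rfl
      rw [this]; split_ifs <;> ring
    simp only [e1, Finset.sum_add_distrib, Finset.sum_sub_distrib, ← Finset.mul_sum]
    rw [St_eq_trM]
    unfold dt
    simp
  have h1 : ∑ a, ∑ b, ∑ c, s.T ev a b c * ev (s.L (s.T1 a b c)) =
      ∑ a, ∑ b, ∑ c, s.T ev a b c * ev (s.L (s.D c (s.g a b)))
        + W
        - 2 * X1 (s.T ev) (s.F ev) := by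
    rw [← eW, ← TX1 (T := s.T ev) hF, ← TW1 (s.T ev)]
    simp only [ev_LT1 hev, mul_sub, mul_add, Finset.sum_sub_distrib, Finset.sum_add_distrib]
    congr 1
    simp only [Finset.mul_sum]
    refine Finset.sum_congr rfl fun a _ => Finset.sum_congr rfl fun b _ =>
      Finset.sum_congr rfl fun c _ => Finset.sum_congr rfl fun p _ =>
      Finset.sum_congr rfl fun q _ => by ring
  have h2 : ∑ a, ∑ b, ∑ c, s.T ev a b c * ev (s.L (s.T2 a b c)) =
      ∑ a, ∑ b, ∑ c, s.T ev a b c * ev (s.L (s.T1 a b c))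
        + W
        - 2 * (X1 (s.T ev) (s.F ev) - c4 (s.T ev)) := by
    rw [← eW, ← TX2 hT hF, ← TA2 hT, ← TW2 hT]
    simp only [ev_LT2 hev, mul_sub, mul_add, Finset.sum_sub_distrib, Finset.sum_add_distrib]
    have : ∀ a b c, s.T ev a b c * (2 * ∑ x, ∑ x_1, s.T ev b x x_1 * s.F ev a x c x_1) =
      2 * (s.T ev a b c * ∑ x, ∑ x_1, s.T ev b x x_1 * s.F ev a x c x_1) := by
      intro a b c; ring
    simp only [this]
    have : ∀ a b c, s.T ev a b c * (2 * ∑ x, ∑ x_1, s.T ev b x x_1 * A1 (s.T ev) a x c x_1) =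
      2 * (s.T ev a b c * ∑ x, ∑ x_1, s.T ev b x x_1 * A1 (s.T ev) a x c x_1) := by
      intro a b c; ring
    simp only [this, ← Finset.mul_sum]
  have h3 : ∑ a, ∑ b, ∑ c, s.T ev a b c * ev (s.L (s.T3 a b c)) =
      ∑ a, ∑ b, ∑ c, s.T ev a b c * ev (s.L (s.T2 a b c))
        + W
        - 2 * (X1 (s.T ev) (s.F ev) - c4 (s.T ev) - c4 (s.T ev)) := by
    rw [← eW, ← TW3 hT]
    nth_rewrite 1 [← TA3 hT]
    rw [← TA3' hT, ← TX3 hT hF]
    simp only [ev_LT3 hev, mul_sub, mul_add, Finset.sum_sub_distrib, Finset.sum_add_distrib]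
    have : ∀ a b c, s.T ev a b c * (2 * ∑ x, ∑ x_1, s.T ev c x x_1 * s.F ev a b x x_1) =
      2 * (s.T ev a b c * ∑ x, ∑ x_1, s.T ev c x x_1 * s.F ev a b x x_1) := by
      intro a b c; ring
    simp only [this]
    have : ∀ a b c, s.T ev a b c * (2 * ∑ x, ∑ x_1, s.T ev c x x_1 * A1 (s.T ev) a b x x_1) =
      2 * (s.T ev a b c * ∑ x, ∑ x_1, s.T ev c x x_1 * A1 (s.T ev) a b x x_1) := by
      intro a b c; ring
    simp only [this]
    have : ∀ a b c, s.T ev a b c * (2 * ∑ x, ∑ x_1, s.T ev c x x_1 * A2 (s.T ev) a b x x_1) =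
      2 * (s.T ev a b c * ∑ x, ∑ x_1, s.T ev c x x_1 * A2 (s.T ev) a b x x_1) := by
      intro a b c; ring
    simp only [this, ← Finset.mul_sum]
  have h4 : ∑ a, ∑ b, ∑ c, 2 * ∑ d, (s.F ev a b c d - Q (s.T ev) a b c d) * s.F ev a b c d =
      ∑ a, ∑ b, ∑ c, ∑ d, 2 * (s.F ev a b c d * s.F ev a b c d) - 6 * X1 (s.T ev) (s.F ev) := by
    have e : ∀ a b c, 2 * ∑ d, (s.F ev a b c d - Q (s.T ev) a b c d) * s.F ev a b c d =
        ∑ d, (2 * (s.F ev a b c d * s.F ev a b c d) - 2 * (s.F ev a b c d * A1 (s.T ev) a b c d)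
          - 2 * (s.F ev a b c d * A2 (s.T ev) a b c d)
          - 2 * (s.F ev a b c d * A3 (s.T ev) a b c d)) := by
      intro a b c
      rw [Finset.mul_sum]
      refine Finset.sum_congr rfl fun d _ => ?_
      unfold Q; ring
    simp only [e, Finset.sum_sub_distrib, ← Finset.mul_sum]
    rw [FA1 hT hF, FA2 hT hF, FA3 hT hF]
    ring
  simp only [Finset.sum_add_distrib]
  rw [h4, h3, h2, h1, TLT hev, hW]
  ring

omit hev in
lemma form_Mt_nonneg {W : Fin n → Fin n → ℝ}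
    (hP : ∀ v : Fin n → ℝ, 0 ≤ ∑ a, ∑ b, W a b * (v a * v b)) (T : Fin n → Fin n → Fin n → ℝ) :
    0 ≤ ∑ a, ∑ b, W a b * Mt T a b := by
  have : ∑ a, ∑ b, W a b * Mt T a b =
      ∑ i, ∑ j, ∑ a, ∑ b, W a b * (T a i j * T b i j) := by
    unfold Mt
    simp only [Finset.mul_sum]
    rw [sum4 (fun a b i j => W a b * (T a i j * T b i j)),
      sum4 (fun i j a b => W a b * (T a i j * T b i j))]
    refine Fintype.sum_equiv ⟨fun x => (x.2.2.1, x.2.2.2, x.1, x.2.1),
      fun y => (y.2.2.1, y.2.2.2, y.1, y.2.1),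
      fun x => rfl, fun y => rfl⟩ _ _ ?_
    rintro ⟨a, b, i, j⟩
    rfl
  rw [this]
  exact Finset.sum_nonneg fun i _ => Finset.sum_nonneg fun j _ => hP fun a => T a i j

/-- (E4) at a point where `g = 1`. -/
theorem ev_LS_ge (hn : 0 < n) (hB : ∀ v : Fin n → ℝ, 0 ≤ ∑ a, ∑ b, s.be a b * (v a * v b))
    (hP : ∀ v : Fin n → ℝ, 0 ≤ ∑ a, ∑ b, s.Q2 ev a b * (v a * v b)) :
    ev s.S ^ 2 / (2 * n) - s.lam * ev s.S
      - 2 * ∑ a, ∑ b, ∑ c, s.T ev a b c * s.Q3 ev a b c ≤ ev (s.L s.S) := by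
  have hT : Sym3 (s.T ev) := sym3
  have hF : Sym4 (s.F ev) := sym4
  rw [ev_LS_eq hev, ev_S hev]
  have h1 := F_sq_ge hT hF
  have h2 := c4_le_dt hT
  have h3 := St_sq_le (s.T ev)
  have h4 := form_Mt_nonneg hP (s.T ev)
  have h6 := form_Mt_nonneg hB (s.T ev)
  have hn' : (0:ℝ) < n := by exact_mod_cast hn
  have h5 : St (s.T ev) ^ 2 / (2 * n) ≤ dt (s.T ev) / 2 := by
    rw [div_le_iff₀ (by positivity)]
    nlinarith
  linarith

end SysB

end Crest.Agent.R253.CalB
end

-- ▼ part R253/CalB4_957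
section

/-!
Row 253, node B6: change of frame; helper957, port of helper254's ECal6, ECal7.
-/

set_option autoImplicit false

namespace Crest.Agent.R253.CalB

open Finset
open Crest.Agent.R238.ECal (Frame contr contr2 swap2 sum4A sum4 exists_frame frame_bound
  frame_bound' tensor_bound cs3 St)
open Crest.Agent.R238.ECal.Sys (bt gt' bt_gt gt_bt contr3 ev_alg ev_bt ev_gt')

namespace SysB

variable {n : ℕ} {A : Type*} [CommRing A] [Algebra ℝ A] (s : SysB n A) (fr : Frame n)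

lemma D_bt (a k l : Fin n) (f : A) : s.D a (bt A fr k l * f) = bt A fr k l * s.D a f := by
  rw [s.D_mul]; simp [bt]


/-- new derivations -/
def Dn (a : Fin n) : Derivation ℝ A A := ∑ k, bt A fr k a • s.D k

lemma Dn_apply (a : Fin n) (f : A) : s.Dn fr a f = ∑ k, bt A fr k a * s.D k f := by
  have h := congrFun (map_sum (Derivation.coeFnAddMonoidHom (R := ℝ) (A := A) (M := A))
    (fun k => bt A fr k a • s.D k) univ) f
  rw [Finset.sum_apply] at h
  exact h

lemma Dn_Dn (a b : Fin n) (f : A) : s.Dn fr a (s.Dn fr b f) =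
    ∑ k, bt A fr k a * ∑ l, bt A fr l b * s.D k (s.D l f) := by
  rw [Dn_apply, Dn_apply]
  simp only [s.D_sum, s.D_bt]

/-- lower index object -/
def gn (a b : Fin n) : A := ∑ k, bt A fr k a * ∑ l, bt A fr l b * s.g k l
def tn (a b : Fin n) : A := ∑ k, gt' A fr a k * ∑ l, gt' A fr b l * s.t k l
def xn (a : Fin n) : A := ∑ k, gt' A fr a k * s.x k
def un (a : Fin n) : A := ∑ k, bt A fr k a * s.u k
def qn (a : Fin n) : A := ∑ k, bt A fr k a * s.q k
def ben (a b : Fin n) : ℝ := ∑ k, fr.C a k * ∑ l, fr.C b l * s.be k l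

lemma ben_symm (a b : Fin n) : s.ben fr a b = s.ben fr b a := by
  unfold ben
  rw [swap2]
  refine Finset.sum_congr rfl fun k _ => ?_
  congr 1
  refine Finset.sum_congr rfl fun l _ => ?_
  rw [s.besymm]

lemma ben_u (a : Fin n) : ∑ c, s.ben fr a c • s.un fr c = s.xn fr a := by
  have e1 : ∀ c, s.ben fr a c • s.un fr c =
      (∑ l, gt' A fr c l * ∑ k, gt' A fr a k * algebraMap ℝ A (s.be k l)) *
        (∑ m, bt A fr m c * s.u m) := by
    intro c
    rw [Algebra.smul_def]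
    congr 1
    unfold ben
    rw [swap2, map_sum]
    refine Finset.sum_congr rfl fun l _ => ?_
    rw [map_mul, map_sum]
    congr 1
    refine Finset.sum_congr rfl fun k _ => ?_
    rw [map_mul]; rfl
  simp only [e1]
  rw [contr (bt_gt fr)]
  unfold xn x
  simp only [Finset.mul_sum, Finset.sum_mul]
  rw [Finset.sum_comm]
  refine Finset.sum_congr rfl fun k _ => Finset.sum_congr rfl fun l _ => ?_
  rw [Algebra.smul_def]; ring

lemma Dn_gn (a b c : Fin n) : s.Dn fr c (s.gn fr a b) =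
    ∑ m, bt A fr m c * ∑ k, bt A fr k a * ∑ l, bt A fr l b * s.D m (s.g k l) := by
  rw [Dn_apply]; unfold gn
  simp only [s.D_sum, s.D_bt]

lemma Dn_gn' (a b c : Fin n) : s.Dn fr c (s.gn fr a b) =
    ∑ k, bt A fr k a * ∑ l, bt A fr l b * ∑ m, bt A fr m c * s.D m (s.g k l) := by
  rw [Dn_gn]
  rw [swap2]
  refine Finset.sum_congr rfl fun k _ => ?_
  congr 1
  rw [swap2]

lemma gn_symm (a b : Fin n) : s.gn fr a b = s.gn fr b a := by
  unfold gn
  rw [swap2]
  refine Finset.sum_congr rfl fun k _ => ?_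
  congr 1
  refine Finset.sum_congr rfl fun l _ => ?_
  rw [s.gsymm]

lemma tn_symm (a b : Fin n) : s.tn fr a b = s.tn fr b a := by
  unfold tn
  rw [swap2]
  refine Finset.sum_congr rfl fun k _ => ?_
  congr 1
  refine Finset.sum_congr rfl fun l _ => ?_
  rw [s.tsymm]

/-- raising one index -/
lemma raise (a : Fin n) (V : Fin n → A) : ∑ i, s.tn fr a i * (∑ k, bt A fr k i * V k) =
    ∑ k, gt' A fr a k * ∑ j, s.t k j * V j := by
  have e : ∀ i, s.tn fr a i = ∑ l, gt' A fr i l * ∑ k, gt' A fr a k * s.t k l := by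
    intro i; unfold tn; rw [swap2]
  simp only [e]
  rw [contr (bt_gt fr)]
  simp only [Finset.mul_sum, Finset.sum_mul]
  rw [Finset.sum_comm]
  refine Finset.sum_congr rfl fun k _ => Finset.sum_congr rfl fun l _ => by ring

/-- the system in the new frame -/
def chg : SysB n A where
  D := s.Dn fr
  comm a b f := by
    rw [Dn_Dn, Dn_Dn, swap2]
    refine Finset.sum_congr rfl fun k _ => ?_
    congr 1
    refine Finset.sum_congr rfl fun l _ => ?_
    rw [s.comm]
  u := s.un fr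
  Du a b := by
    rw [Dn_apply]; unfold un gn
    simp only [s.D_sum, s.D_bt, s.Du]
  be := s.ben fr
  besymm := s.ben_symm fr
  lam := s.lam
  g := s.gn fr
  gsymm := s.gn_symm fr
  gcod a b c := by
    rw [Dn_gn, Dn_gn, swap2]
    refine Finset.sum_congr rfl fun k _ => ?_
    congr 1
    refine Finset.sum_congr rfl fun l _ => ?_
    congr 1
    refine Finset.sum_congr rfl fun m _ => ?_
    rw [s.gcod]
  t := s.tn fr
  tsymm := s.tn_symm fr
  tg a b := by
    have h := s.raise fr a (fun k => ∑ l, bt A fr l b * s.g k l)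
    have e : ∑ c, s.tn fr a c * s.gn fr c b =
        ∑ i, s.tn fr a i * ∑ k, bt A fr k i * ∑ l, bt A fr l b * s.g k l := rfl
    rw [e, h]
    have e2 : ∀ k, ∑ j, s.t k j * ∑ l, bt A fr l b * s.g j l = bt A fr k b := by
      intro k
      rw [swap2 (fun j => s.t k j)]
      simp only [s.tg]
      simp
    simp only [e2]
    exact gt_bt fr a b
  q := s.qn fr
  qcod a b := by
    rw [Dn_apply, Dn_apply]; unfold qn
    simp only [s.D_sum, s.D_bt]
    rw [swap2]
    refine Finset.sum_congr rfl fun k _ => ?_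
    congr 1
    refine Finset.sum_congr rfl fun l _ => ?_
    rw [s.qcod]
  eq e := by
    have e1 : ∑ a, ∑ b, s.tn fr a b * s.Dn fr e (s.gn fr a b) =
        ∑ k, ∑ l, s.t k l * ∑ m, bt A fr m e * s.D m (s.g k l) := by
      simp only [Dn_gn']
      exact contr2 (bt_gt fr) _ _
    have e2 : ∑ k, ∑ l, s.t k l * ∑ m, bt A fr m e * s.D m (s.g k l) =
        ∑ m, bt A fr m e * ∑ k, ∑ l, s.t k l * s.D m (s.g k l) := by
      simp only [Finset.mul_sum]
      have e3 : ∀ k, ∑ l, ∑ m, s.t k l * (bt A fr m e * s.D m (s.g k l)) =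
          ∑ m, ∑ l, bt A fr m e * (s.t k l * s.D m (s.g k l)) := by
        intro k
        rw [Finset.sum_comm]
        refine Finset.sum_congr rfl fun m _ => Finset.sum_congr rfl fun l _ => by ring
      simp only [e3]
      rw [Finset.sum_comm]
    have e4 : ∑ a, s.xn fr a * s.gn fr a e = ∑ k, s.x k * ∑ l, bt A fr l e * s.g k l :=
      contr (bt_gt fr) _ _
    have e5 : ∀ k, ∑ c, s.be k c • s.u c = s.x k := fun k => rfl
    simp only [ben_u]
    rw [e1, e2, e4]
    simp only [s.eq, mul_sub, Finset.sum_sub_distrib, e5]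
    have e6 : ∑ k, s.x k * ∑ l, bt A fr l e * s.g k l =
        ∑ l, bt A fr l e * ∑ k, s.x k * s.g k l := swap2 _ _ _
    have e7 : ∑ m, bt A fr m e * s.lam • s.u m = s.lam • s.un fr e := by
      unfold un
      rw [Finset.smul_sum]
      refine Finset.sum_congr rfl fun m _ => ?_
      rw [mul_smul_comm]
    rw [e6, e7]
    unfold qn
    ring

lemma chg_L (f : A) : (s.chg fr).L f = s.L f := by
  unfold L
  have e1 : ∑ a, ∑ b, (s.chg fr).t a b * (s.chg fr).D a ((s.chg fr).D b f) =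
      ∑ a, ∑ b, s.t a b * s.D a (s.D b f) := by
    show ∑ a, ∑ b, s.tn fr a b * s.Dn fr a (s.Dn fr b f) = _
    simp only [Dn_Dn]
    exact contr2 (bt_gt fr) _ _
  have e2 : ∑ a, (s.chg fr).x a * (s.chg fr).D a f = ∑ a, s.x a * s.D a f := by
    have e5 : ∀ a, (s.chg fr).x a = s.xn fr a := fun a => s.ben_u fr a
    simp only [e5]
    show ∑ a, s.xn fr a * s.Dn fr a f = _
    simp only [Dn_apply]
    exact contr (bt_gt fr) _ _
  rw [e1, e2]

lemma chg_T1 (a b c : Fin n) : (s.chg fr).T1 a b c =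
    ∑ l, bt A fr l b * ∑ k, gt' A fr a k * ∑ m, bt A fr m c * s.T1 k l m := by
  have h := s.raise fr a (fun k => ∑ l, bt A fr l b * ∑ m, bt A fr m c * s.D m (s.g k l))
  have e : (s.chg fr).T1 a b c = ∑ i, s.tn fr a i * s.Dn fr c (s.gn fr i b) := rfl
  rw [e]
  simp only [Dn_gn']
  rw [h]
  unfold T1
  simp only [Finset.mul_sum]
  rw [sum4A, sum4A]
  refine Fintype.sum_equiv ⟨fun x => (x.2.2.1, x.1, x.2.2.2, x.2.1),
    fun y => (y.2.1, y.2.2.2, y.1, y.2.2.1), fun x => rfl, fun y => rfl⟩ _ _ ?_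
  rintro ⟨k, j, l, m⟩
  simp only [Equiv.coe_fn_mk]
  ring

lemma chg_T2 (a b c : Fin n) : (s.chg fr).T2 a b c =
    ∑ m, bt A fr m c * ∑ k, gt' A fr a k * ∑ l, gt' A fr b l * s.T2 k l m := by
  have h := s.raise fr b (fun l => ∑ k, gt' A fr a k * ∑ m, bt A fr m c * s.T1 k l m)
  have e : (s.chg fr).T2 a b c = ∑ i, s.tn fr b i * (s.chg fr).T1 a i c := rfl
  rw [e]
  simp only [chg_T1]
  rw [h]
  unfold T2
  simp only [Finset.mul_sum]
  rw [sum4A, sum4A]
  refine Fintype.sum_equiv ⟨fun x => (x.2.2.2, x.2.2.1, x.1, x.2.1),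
    fun y => (y.2.2.1, y.2.2.2, y.2.1, y.1), fun x => rfl, fun y => rfl⟩ _ _ ?_
  rintro ⟨k, j, l, m⟩
  simp only [Equiv.coe_fn_mk]
  ring

lemma chg_T3 (a b c : Fin n) : (s.chg fr).T3 a b c =
    ∑ k, gt' A fr a k * ∑ l, gt' A fr b l * ∑ m, gt' A fr c m * s.T3 k l m := by
  have h := s.raise fr c (fun m => ∑ k, gt' A fr a k * ∑ l, gt' A fr b l * s.T2 k l m)
  have e : (s.chg fr).T3 a b c = ∑ i, s.tn fr c i * (s.chg fr).T2 a b i := rfl
  rw [e]
  simp only [chg_T2]
  rw [h]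
  unfold T3
  simp only [Finset.mul_sum]
  rw [sum4A, sum4A]
  refine Fintype.sum_equiv ⟨fun x => (x.2.2.1, x.2.2.2, x.1, x.2.1),
    fun y => (y.2.2.1, y.2.2.2, y.1, y.2.1), fun x => rfl, fun y => rfl⟩ _ _ ?_
  rintro ⟨k, j, l, m⟩
  simp only [Equiv.coe_fn_mk]
  ring

lemma chg_S : (s.chg fr).S = s.S := by
  unfold S
  have : ∀ a b c, (s.chg fr).D c ((s.chg fr).g a b) = s.Dn fr c (s.gn fr a b) := fun _ _ _ => rfl
  simp only [this, chg_T3, Dn_gn']
  exact contr3 (bt_gt fr) _ _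

variable (ev : A →+* ℝ)

/-- `<T, D³Ψ>` -/
def TP : A := ∑ a, ∑ b, ∑ c, s.T3 a b c * s.D c (s.D b (s.q a))

lemma Dn_qn2 (a b c : Fin n) : s.Dn fr c (s.Dn fr b (s.qn fr a)) =
    ∑ k, bt A fr k a * ∑ l, bt A fr l b * ∑ m, bt A fr m c * s.D m (s.D l (s.q k)) := by
  rw [Dn_Dn]
  unfold qn
  simp only [s.D_sum, s.D_bt]
  have e1 : ∀ (u v w : Fin n → A) (V : Fin n → Fin n → Fin n → A),
      ∑ k, u k * ∑ l, v l * ∑ m, w m * V k l m = ∑ m, w m * ∑ l, v l * ∑ k, u k * V k l m := by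
    intro u v w V
    rw [swap2]
    have : ∀ l, ∑ k, u k * ∑ m, w m * V k l m = ∑ m, w m * ∑ k, u k * V k l m :=
      fun l => swap2 _ _ _
    simp only [this]
    rw [swap2]
  exact e1 _ _ _ _

lemma chg_TP : (s.chg fr).TP = s.TP := by
  unfold TP
  have : ∀ a b c, (s.chg fr).D c ((s.chg fr).D b ((s.chg fr).q a)) =
    s.Dn fr c (s.Dn fr b (s.qn fr a)) := fun _ _ _ => rfl
  simp only [this, chg_T3, Dn_qn2]
  exact contr3 (bt_gt fr) _ _

variable {s ev}

/-- everything about a point: a frame with `g = 1` there -/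
lemma exists_good_frame {lo : ℝ} (hlo : 0 < lo)
    (hG : ∀ z : Fin n → ℝ, lo * ∑ i, z i ^ 2 ≤ ∑ i, ∑ j, ev (s.g i j) * z i * z j) :
    ∃ fr : Frame n, (∀ a b, ev ((s.chg fr).g a b) = if a = b then 1 else 0) ∧
      (∀ V : Fin n → ℝ, ∑ a, (∑ k, fr.B k a * V k) ^ 2 ≤ lo⁻¹ * ∑ k, V k ^ 2) ∧
      ∀ hi : ℝ, (∀ z : Fin n → ℝ, ∑ i, ∑ j, ev (s.g i j) * z i * z j ≤ hi * ∑ i, z i ^ 2) →
        ∀ V : Fin n → ℝ, ∑ k, (∑ a, fr.C a k * V a) ^ 2 ≤ hi * ∑ a, V a ^ 2 := by
  have hPD : (Matrix.of fun i j => ev (s.g i j)).PosDef := by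
    refine Matrix.PosDef.of_dotProduct_mulVec_pos ?_ ?_
    · ext i j
      simp [Matrix.conjTranspose_apply, s.gsymm i j]
    · intro z hz
      have h1 := hG z
      have h2 : 0 < ∑ i, z i ^ 2 := by
        obtain ⟨i, hi⟩ := Function.ne_iff.1 hz
        exact Finset.sum_pos' (fun i _ => sq_nonneg _) ⟨i, Finset.mem_univ i, by
          have : z i ≠ 0 := hi
          positivity⟩
      have h3 : star z ⬝ᵥ (Matrix.of fun i j => ev (s.g i j)).mulVec z =
          ∑ i, ∑ j, ev (s.g i j) * z i * z j := by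
        simp only [dotProduct, Matrix.mulVec, Matrix.of_apply, Finset.mul_sum, Pi.star_apply,
          star_trivial]
        refine Finset.sum_congr rfl fun i _ => Finset.sum_congr rfl fun j _ => by ring
      rw [h3]
      exact lt_of_lt_of_le (mul_pos hlo h2) h1
  obtain ⟨fr, hfr⟩ := exists_frame _ hPD
  refine ⟨fr, fun a b => ?_, frame_bound fr.B (fun i j => ev (s.g i j)) hlo hG ?_,
    fun hi hG' => frame_bound' fr.B fr.C (fun i j => ev (s.g i j)) hG' ?_ fr.BC⟩
  · rw [show (s.chg fr).g a b = s.gn fr a b from rfl]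
    unfold gn
    simp only [map_sum, map_mul, ev_bt]
    exact hfr a b
  · exact hfr
  · exact hfr

lemma ev_chgT (a b c : Fin n) : (s.chg fr).T ev a b c =
    ∑ k, fr.B k a * ∑ l, fr.B l b * ∑ m, fr.B m c * s.T ev k l m := by
  unfold T
  rw [show (s.chg fr).D c ((s.chg fr).g a b) = s.Dn fr c (s.gn fr a b) from rfl, Dn_gn']
  simp only [map_sum, map_mul, ev_bt]

lemma ev_chgQ3 (a b c : Fin n) : (s.chg fr).Q3 ev a b c =
    ∑ k, fr.B k a * ∑ l, fr.B l b * ∑ m, fr.B m c * s.Q3 ev k l m := by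
  unfold Q3
  rw [show (s.chg fr).D c ((s.chg fr).D b ((s.chg fr).q a)) =
    s.Dn fr c (s.Dn fr b (s.qn fr a)) from rfl, Dn_qn2]
  simp only [map_sum, map_mul, ev_bt]

lemma ev_chgQ2 (a b : Fin n) : (s.chg fr).Q2 ev a b =
    ∑ k, fr.B k a * ∑ l, fr.B l b * s.Q2 ev k l := by
  unfold Q2
  rw [show (s.chg fr).D b ((s.chg fr).q a) = s.Dn fr b (s.qn fr a) from rfl, Dn_apply]
  unfold qn
  simp only [s.D_sum, s.D_bt, map_sum, map_mul, ev_bt]
  rw [swap2]

/-- upper bound of `S` by the euclidean norm of `D³u` -/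
lemma S_le {lo : ℝ} (hlo : 0 < lo)
    (hG : ∀ z : Fin n → ℝ, lo * ∑ i, z i ^ 2 ≤ ∑ i, ∑ j, ev (s.g i j) * z i * z j) :
    0 ≤ ev s.S ∧ ev s.S ≤ lo⁻¹ ^ 3 * ∑ a, ∑ b, ∑ c, s.T ev a b c ^ 2 := by
  obtain ⟨fr, hfr, hb, -⟩ := exists_good_frame hlo hG
  have h1 := ev_S hfr
  rw [chg_S] at h1
  rw [h1]
  unfold St
  refine ⟨by positivity, ?_⟩
  simp only [ev_chgT]
  exact tensor_bound fr.B (inv_nonneg.2 hlo.le) hb _

/-- the euclidean norm of `D³u` is bounded by `S` -/
lemma S_ge {lo hi : ℝ} (hlo : 0 < lo) (hhi : 0 ≤ hi)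
    (hG : ∀ z : Fin n → ℝ, lo * ∑ i, z i ^ 2 ≤ ∑ i, ∑ j, ev (s.g i j) * z i * z j)
    (hG' : ∀ z : Fin n → ℝ, ∑ i, ∑ j, ev (s.g i j) * z i * z j ≤ hi * ∑ i, z i ^ 2) :
    ∑ a, ∑ b, ∑ c, s.T ev a b c ^ 2 ≤ hi ^ 3 * ev s.S := by
  obtain ⟨fr, hfr, -, hb⟩ := exists_good_frame hlo hG
  have h1 := ev_S hfr
  rw [chg_S] at h1
  rw [h1]
  have h2 := tensor_bound (fun k a => fr.C k a) hhi (fun V => hb hi hG' V) ((s.chg fr).T ev)
  have h3 : ∀ a b c, (∑ k, fr.C k a * ∑ l, fr.C l b * ∑ m, fr.C m c * (s.chg fr).T ev k l m) =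
      s.T ev a b c := by
    intro a b c
    have key : ∀ (a : Fin n) (V : Fin n → ℝ), ∑ k, fr.C k a * ∑ i, fr.B i k * V i = V a := by
      intro a V
      simp only [Finset.mul_sum]
      rw [Finset.sum_comm]
      have : ∀ i, ∑ k, fr.C k a * (fr.B i k * V i) = (if i = a then 1 else 0) * V i := by
        intro i
        rw [← fr.BC, Finset.sum_mul]
        exact Finset.sum_congr rfl fun a _ => by ring
      simp only [this]
      simp
    simp only [ev_chgT]
    have k1 : ∀ l m, ∑ k, fr.C k a * ∑ i, fr.B i k * ∑ j, fr.B j l * ∑ p, fr.B p m * s.T ev i j p =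
        ∑ j, fr.B j l * ∑ p, fr.B p m * s.T ev a j p := fun l m => key a _
    have k2 : ∑ k, fr.C k a * ∑ l, fr.C l b * ∑ m, fr.C m c *
        ∑ i, fr.B i k * ∑ j, fr.B j l * ∑ p, fr.B p m * s.T ev i j p =
        ∑ l, fr.C l b * ∑ m, fr.C m c * ∑ k, fr.C k a *
          ∑ i, fr.B i k * ∑ j, fr.B j l * ∑ p, fr.B p m * s.T ev i j p := by
      rw [swap2]
      refine Finset.sum_congr rfl fun l _ => ?_
      congr 1
      exact swap2 _ _ _
    rw [k2]
    simp only [k1]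
    have k3 : ∀ m, ∑ l, fr.C l b * ∑ j, fr.B j l * ∑ p, fr.B p m * s.T ev a j p =
        ∑ p, fr.B p m * s.T ev a b p := fun m => key b _
    rw [swap2]
    simp only [k3]
    exact key c _
  simp only [h3] at h2
  exact h2

/-- (E4) at an arbitrary point -/
theorem E4_pt (hn : 0 < n) {lo : ℝ} (hlo : 0 < lo)
    (hG : ∀ z : Fin n → ℝ, lo * ∑ i, z i ^ 2 ≤ ∑ i, ∑ j, ev (s.g i j) * z i * z j)
    (hB : ∀ z : Fin n → ℝ, 0 ≤ ∑ i, ∑ j, s.be i j * z i * z j)
    (hP : ∀ z : Fin n → ℝ, 0 ≤ ∑ i, ∑ j, ev (s.D j (s.q i)) * z i * z j) :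
    ev s.S ^ 2 / (2 * n) - s.lam * ev s.S - 2 * ev s.TP ≤ ev (s.L s.S) := by
  obtain ⟨fr, hfr, hb, -⟩ := exists_good_frame hlo hG
  have h1 := ev_LS_ge hfr hn (by
    intro v
    have h2 := hB (fun k => ∑ a, fr.C a k * v a)
    have e : ∑ a, ∑ b, (s.chg fr).be a b * (v a * v b) =
        ∑ i, ∑ j, s.be i j * (∑ a, fr.C a i * v a) * ∑ a, fr.C a j * v a := by
      have e0 : ∀ a b, (s.chg fr).be a b = ∑ k, fr.C a k * ∑ l, fr.C b l * s.be k l :=
        fun _ _ => rfl
      simp only [e0]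
      simp only [Finset.mul_sum, Finset.sum_mul]
      rw [sum4 (fun a b k l => fr.C a k * (fr.C b l * s.be k l) * (v a * v b)),
        sum4 (fun i j a b => s.be i j * (fr.C b i * v b) * (fr.C a j * v a))]
      refine Fintype.sum_equiv ⟨fun x => (x.2.2.1, x.2.2.2, x.2.1, x.1),
        fun y => (y.2.2.2, y.2.2.1, y.1, y.2.1), fun x => rfl, fun y => rfl⟩ _ _ ?_
      rintro ⟨a, b, i, j⟩
      simp only [Equiv.coe_fn_mk]
      ring
    rw [e]; exact h2) (by
    intro v
    have h2 := hP (fun k => ∑ a, fr.B k a * v a)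
    have e : ∑ a, ∑ b, (s.chg fr).Q2 ev a b * (v a * v b) =
        ∑ i, ∑ j, ev (s.D j (s.q i)) * (∑ a, fr.B i a * v a) * ∑ a, fr.B j a * v a := by
      simp only [ev_chgQ2]
      simp only [Finset.mul_sum, Finset.sum_mul]
      rw [sum4 (fun a b k l => fr.B k a * (fr.B l b * s.Q2 ev k l) * (v a * v b)),
        sum4 (fun i j a b => ev (s.D j (s.q i)) * (fr.B i b * v b) * (fr.B j a * v a))]
      refine Fintype.sum_equiv ⟨fun x => (x.2.2.1, x.2.2.2, x.2.1, x.1),
        fun y => (y.2.2.2, y.2.2.1, y.1, y.2.1), fun x => rfl, fun y => rfl⟩ _ _ ?_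
      rintro ⟨a, b, i, j⟩
      simp only [Equiv.coe_fn_mk]
      unfold Q2
      ring
    rw [e]; exact h2)
  rw [chg_S, chg_L] at h1
  have h3 : ev s.TP = ∑ a, ∑ b, ∑ c, (s.chg fr).T ev a b c * (s.chg fr).Q3 ev a b c := by
    rw [← chg_TP s fr]
    unfold TP
    simp only [map_sum, map_mul, ev_T3 hfr]
    rfl
  rw [h3]
  exact h1

/-- Cauchy-Schwarz for the cubic term -/
theorem TP_le {lo : ℝ} (hlo : 0 < lo)
    (hG : ∀ z : Fin n → ℝ, lo * ∑ i, z i ^ 2 ≤ ∑ i, ∑ j, ev (s.g i j) * z i * z j) :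
    ev s.TP ^ 2 ≤ ev s.S * (lo⁻¹ ^ 3 * ∑ a, ∑ b, ∑ c, s.Q3 ev a b c ^ 2) := by
  obtain ⟨fr, hfr, hb, -⟩ := exists_good_frame hlo hG
  have h3 : ev s.TP = ∑ a, ∑ b, ∑ c, (s.chg fr).T ev a b c * (s.chg fr).Q3 ev a b c := by
    rw [← chg_TP s fr]
    unfold TP
    simp only [map_sum, map_mul, ev_T3 hfr]
    rfl
  have h1 := ev_S hfr
  rw [chg_S] at h1
  have h4 := cs3 ((s.chg fr).T ev) ((s.chg fr).Q3 ev)
  rw [← h3] at h4
  have h5 : ∑ a, ∑ b, ∑ c, (s.chg fr).Q3 ev a b c ^ 2 ≤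
      lo⁻¹ ^ 3 * ∑ a, ∑ b, ∑ c, s.Q3 ev a b c ^ 2 := by
    simp only [ev_chgQ3]
    exact tensor_bound fr.B (inv_nonneg.2 hlo.le) hb _
  have h6 : 0 ≤ ev s.S := (S_le hlo hG).1
  calc ev s.TP ^ 2 ≤ _ := h4
    _ = ev s.S * ∑ a, ∑ b, ∑ c, (s.chg fr).Q3 ev a b c ^ 2 := by rw [h1]; rfl
    _ ≤ _ := mul_le_mul_of_nonneg_left h5 h6

end SysB

end Crest.Agent.R253.CalB
end

-- ▼ part R253/CalB5_957

/-!
Row 253, T6, node B6 (helper957): Calabi's inequality for a smooth solution of `MAb P lam s v`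
(port of helper254's `ECalFin`).
-/

set_option autoImplicit false

open scoped ContDiff Topology
open Set Filter Finset

noncomputable section

namespace Crest.Agent.R253.CalB

open Crest.Agent.R238 Crest.Agent.R238.XInst Crest.Agent.R253.Br
open Crest.Agent.R238.ECal (D3)

variable {n : ℕ}

section abs

variable {A : Type*} [CommRing A] [Algebra ℝ A]

/-- 649's system as a system with constant form `be = 1` -/
def ofB (s : BrCal.SysB n A) (lam : ℝ) : SysB n A where
  D := s.D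
  comm := s.comm
  u := s.X
  g := s.g
  Du := s.DX
  be a b := if a = b then 1 else 0
  besymm a b := by simp only [eq_comm]
  gsymm := s.gsymm
  gcod := s.gcod
  t := s.t
  tsymm := s.tsymm
  tg := s.tg
  q a := s.p a + lam • s.X a
  qcod a b := by
    rw [map_add, map_add, Derivation.map_smul, Derivation.map_smul, s.pcod a b, s.DX, s.DX,
      s.gsymm a b]
  lam := lam
  eq e := by
    have h : ∀ a, ∑ c, (if a = c then (1:ℝ) else 0) • s.X c = s.X a := by
      intro a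
      simp [ite_smul]
    simp only [h, s.eq]
    ring

lemma ofB_L (s : BrCal.SysB n A) (lam : ℝ) (f : A) : (ofB s lam).L f = s.L f := by
  unfold SysB.L BrCal.SysB.L
  have h : ∀ a, (ofB s lam).x a = s.X a := by
    intro a
    unfold SysB.x
    have : ∀ c, (ofB s lam).be a c • (ofB s lam).u c = (if a = c then (1:ℝ) else 0) • s.X c :=
      fun c => rfl
    simp [this, ite_smul]
  simp only [h]
  rfl

end abs

/-- **B6, pointwise**: Calabi's inequality. `S` is smooth, comparable to `|D³v|²`, and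
`S²/(2n) - lam S - 2 √(lo⁻³ K) √S ≤ (L - ∇v·∇) S`. -/
theorem calabi_ineqB (hn : 0 < n) {v P : E n → ℝ} (hv : ContDiff ℝ ∞ v) (hP : ContDiff ℝ ∞ P)
    {lam s lo hi : ℝ} (hlam : 0 ≤ lam) (hlo : 0 < lo) (hell : ∀ x, Ell lo hi (gm v x))
    (hma : MAb P lam s v)
    (hconv : ∀ x (z : Fin n → ℝ),
      0 ≤ ∑ i, ∑ j, ((if i = j then 1 else 0) + s * Hs P x i j) * z i * z j)
    {K : ℝ} (hK : ∀ x, ∑ a, ∑ b, ∑ c, (s * D3 P x a b c) ^ 2 ≤ K) :
    ∃ S : E n → ℝ, ContDiff ℝ ∞ S ∧ (∀ x, 0 ≤ S x) ∧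
      (∀ x, S x ≤ lo⁻¹ ^ 3 * ∑ a, ∑ b, ∑ c, D3 v x a b c ^ 2) ∧
      (∀ x, ∑ a, ∑ b, ∑ c, D3 v x a b c ^ 2 ≤ hi ^ 3 * S x) ∧
      ∀ x, S x ^ 2 / (2 * n) - lam * S x - 2 * Real.sqrt (lo⁻¹ ^ 3 * K) * Real.sqrt (S x) ≤
        LA (tauf v) S x - ∑ i, gr v x i * gr S x i := by
  obtain ⟨Y, hY⟩ := BrCal.exists_factsB hv hP hlo hell hma
  set Z : SysB n (SA n) := ofB Y lam with hZ
  have hg : ∀ a b x, (Z.g a b).1 x = gm v x a b := hY.g
  have hT : ∀ x a b c, Z.T (ECal.evr x) a b c = D3 v x a b c := fun x a b c => hY.Dg a b c x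
  have hG : ∀ x (z : Fin n → ℝ),
      lo * ∑ i, z i ^ 2 ≤ ∑ i, ∑ j, ECal.evr x (Z.g i j) * z i * z j := by
    intro x z
    simp only [ECal.evr_apply, hg]
    exact ((hell x).2 z).1
  have hG' : ∀ x (z : Fin n → ℝ),
      ∑ i, ∑ j, ECal.evr x (Z.g i j) * z i * z j ≤ hi * ∑ i, z i ^ 2 := by
    intro x z
    simp only [ECal.evr_apply, hg]
    exact ((hell x).2 z).2
  have hhi : 0 ≤ hi := by
    have h1 := ((hell 0).2 (fun _ => 1)).1.trans ((hell 0).2 (fun _ => 1)).2
    have h2 : (0:ℝ) < ∑ i : Fin n, (1:ℝ) ^ 2 := by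
      simp only [one_pow, Finset.sum_const, Finset.card_univ, Fintype.card_fin, nsmul_eq_mul,
        mul_one]
      exact_mod_cast hn
    have h3 := le_of_mul_le_mul_right h1 h2
    exact hlo.le.trans h3
  -- derivatives of `q`
  have hq2 : ∀ x a b, ECal.evr x (Z.D b (Z.q a)) =
      (1 + lam) * (if a = b then 1 else 0) + s * Hs P x a b := by
    intro x a b
    have h1 : Z.D b (Z.q a) = Y.D b (Y.p a) + lam • Y.g b a := by
      have : Z.D b (Z.q a) = Y.D b (Y.p a + lam • Y.X a) := rfl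
      rw [this, map_add, Derivation.map_smul, Y.DX]
    have h2 : ECal.evr x (Y.D b (Y.p a)) =
        (if a = b then 1 else 0) + s * Hs P x a b - lam * Hs v x a b := hY.Dp hv hP a b x
    have h3 : ECal.evr x (Y.g b a) = gm v x b a := hY.g b a x
    rw [h1, map_add, SysB.ev_smul, h2, h3]
    have h4 : gm v x b a = (if a = b then 1 else 0) + Hs v x a b := by
      simp only [gm, Matrix.add_apply, Matrix.of_apply, Matrix.one_apply]
      rw [Hs_symm (hv.of_le (by norm_cast)) x b a]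
      simp only [eq_comm]
    rw [h4]; ring
  have hq3 : ∀ x a b c, Z.Q3 (ECal.evr x) a b c = s * D3 P x a b c := by
    intro x a b c
    have h1 : Z.D c (Z.D b (Z.q a)) = Y.D c (Y.D b (Y.p a)) + lam • Y.D c (Y.g b a) := by
      have : Z.D c (Z.D b (Z.q a)) = Y.D c (Y.D b (Y.p a + lam • Y.X a)) := rfl
      rw [this, map_add, Derivation.map_smul, Y.DX, map_add, Derivation.map_smul]
    have h2 : ECal.evr x (Y.D c (Y.D b (Y.p a))) = s * D3 P x a b c - lam * D3 v x a b c :=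
      hY.DDp hv hP a b c x
    have h3 : ECal.evr x (Y.D c (Y.g b a)) = D3 v x a b c := by
      rw [Y.gsymm b a]; exact hY.Dg a b c x
    unfold SysB.Q3
    rw [h1, map_add, SysB.ev_smul, h2, h3]; ring
  refine ⟨Z.S.1, Z.S.2, fun x => ?_, fun x => ?_, fun x => ?_, fun x => ?_⟩
  · exact (SysB.S_le hlo (hG x)).1
  · have h := (SysB.S_le hlo (hG x)).2
    simp only [hT] at h
    exact h
  · have h := SysB.S_ge hlo hhi (hG x) (hG' x)
    simp only [hT] at h
    exact h
  · have h1 := SysB.E4_pt hn hlo (hG x) (by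
      intro z
      have e : ∑ i, ∑ j, Z.be i j * z i * z j = ∑ i, z i ^ 2 := by
        refine Finset.sum_congr rfl fun i _ => ?_
        have : ∀ j, Z.be i j * z i * z j = if i = j then z i * z j else 0 := by
          intro j
          have : Z.be i j = if i = j then 1 else 0 := rfl
          rw [this]; split_ifs <;> ring
        simp only [this, Finset.sum_ite_eq, Finset.mem_univ, if_true]
        ring
      rw [e]; positivity) (by
      intro z
      have h2 := hconv x z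
      have e : ∑ i, ∑ j, ECal.evr x (Z.D j (Z.q i)) * z i * z j =
          ∑ i, ∑ j, ((if i = j then 1 else 0) + s * Hs P x i j) * z i * z j
            + lam * ∑ i, z i ^ 2 := by
        rw [Finset.mul_sum, ← Finset.sum_add_distrib]
        refine Finset.sum_congr rfl fun i _ => ?_
        have : lam * z i ^ 2 = ∑ j, (if i = j then lam * (z i * z j) else 0) := by
          simp only [Finset.sum_ite_eq, Finset.mem_univ, if_true]; ring
        rw [this, ← Finset.sum_add_distrib]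
        refine Finset.sum_congr rfl fun j _ => ?_
        rw [hq2]; split_ifs <;> ring
      rw [e]
      have : 0 ≤ lam * ∑ i, z i ^ 2 := by positivity
      linarith)
    have h3 := SysB.TP_le (s := Z) (ev := ECal.evr x) hlo (hG x)
    simp only [hq3] at h3
    have h7 : ECal.evr x (Z.L Z.S) = LA (tauf v) Z.S.1 x - ∑ i, gr v x i * gr Z.S.1 x i := by
      rw [hZ, ofB_L]; exact hY.L _ x
    rw [h7] at h1
    have hS0 : 0 ≤ ECal.evr x Z.S := (SysB.S_le hlo (hG x)).1
    have hlo3 : 0 ≤ lo⁻¹ ^ 3 := by positivity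
    have hK0 : 0 ≤ K := le_trans (by positivity) (hK x)
    have h5 : ECal.evr x Z.TP ≤ Real.sqrt (lo⁻¹ ^ 3 * K) * Real.sqrt (ECal.evr x Z.S) := by
      rw [← Real.sqrt_mul (by positivity)]
      apply Real.le_sqrt_of_sq_le
      calc ECal.evr x Z.TP ^ 2 ≤ _ := h3
        _ ≤ ECal.evr x Z.S * (lo⁻¹ ^ 3 * K) :=
          mul_le_mul_of_nonneg_left (mul_le_mul_of_nonneg_left (hK x) hlo3) hS0
        _ = _ := by ring
    have h6 : ECal.evr x Z.S = Z.S.1 x := rfl
    rw [h6] at h1 h5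
    have h8 : Z.lam = lam := rfl
    rw [h8] at h1
    have h9 : 2 * Real.sqrt (lo⁻¹ ^ 3 * K) * Real.sqrt (Z.S.1 x) =
      2 * (Real.sqrt (lo⁻¹ ^ 3 * K) * Real.sqrt (Z.S.1 x)) := by ring
    rw [h9]
    linarith

end Crest.Agent.R253.CalB
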