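import Mathlib
import Crest.Agent.R332.FullTop
import Crest.Agent.R253.MAI_74
import Crest.Agent.R253.Mills_37
import Crest.Agent.R253.SpecField_321
import Crest.Agent.R253.NormCont_666
import Crest.Agent.R253.Bind_441
import Crest.Agent.R253.ScalE_688

-- ▼ part R253/NormZ_944
section

/-!
Row 253, normalisation (helper944): zero of a REAL SYMMETRIC matrix field on the order interval
`{d ≤ K ≤ R}` (Brouwer type theorem).
-/

set_option autoImplicit false

open Set Metric Matrix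
open scoped InnerProductSpace

namespace Crest.Agent.R253.Norm944

variable {ι : Type*} [Fintype ι] [DecidableEq ι]

/-- the order interval `{d ≤ K ≤ R}` of real symmetric matrices -/
def Box (ι : Type*) [Fintype ι] (d R : ℝ) : Set (Matrix ι ι ℝ) :=
  {K | (∀ i j, K i j = K j i) ∧ (∀ w : ι → ℝ, d * (w ⬝ᵥ w) ≤ w ⬝ᵥ (K *ᵥ w)) ∧
    ∀ w : ι → ℝ, w ⬝ᵥ (K *ᵥ w) ≤ R * (w ⬝ᵥ w)}

omit [DecidableEq ι] in
lemma symm_dot {B : Matrix ι ι ℝ} (hB : ∀ i j, B i j = B j i) (x y : ι → ℝ) :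
    x ⬝ᵥ (B *ᵥ y) = y ⬝ᵥ (B *ᵥ x) := by
  have h : Bᵀ = B := by ext i j; exact hB j i
  rw [dotProduct_mulVec, ← mulVec_transpose, h, dotProduct_comm]

omit [DecidableEq ι] in
/-- Cauchy–Schwarz -/
lemma psd_cs {B : Matrix ι ι ℝ} (hB : ∀ i j, B i j = B j i)
    (h0 : ∀ w : ι → ℝ, 0 ≤ w ⬝ᵥ (B *ᵥ w)) (u : ι → ℝ) {ε : ℝ} (hε : 0 ≤ ε)
    (h : ε * (u ⬝ᵥ (B *ᵥ u)) ≤ 1) (x : ι → ℝ) :
    ε * (x ⬝ᵥ (B *ᵥ u)) ^ 2 ≤ x ⬝ᵥ (B *ᵥ x) := by
  set b := x ⬝ᵥ (B *ᵥ u) with hb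
  have h1 := h0 (x - (ε * b) • u)
  have h2 : (x - (ε * b) • u) ⬝ᵥ (B *ᵥ (x - (ε * b) • u)) =
      x ⬝ᵥ (B *ᵥ x) - 2 * (ε * b) * b + (ε * b) ^ 2 * (u ⬝ᵥ (B *ᵥ u)) := by
    rw [mulVec_sub, dotProduct_sub, sub_dotProduct, sub_dotProduct, mulVec_smul, dotProduct_smul,
      smul_dotProduct, smul_dotProduct, dotProduct_smul, symm_dot hB u x]
    simp only [smul_eq_mul, ← hb]
    ring
  rw [h2] at h1
  have h3 : (ε * b) ^ 2 * (u ⬝ᵥ (B *ᵥ u)) ≤ ε * b ^ 2 := by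
    have h4 : ε * b ^ 2 * (ε * (u ⬝ᵥ (B *ᵥ u))) ≤ ε * b ^ 2 * 1 :=
      mul_le_mul_of_nonneg_left h (by positivity)
    nlinarith
  nlinarith

omit [DecidableEq ι] in
lemma psd_zero {B : Matrix ι ι ℝ} (hB : ∀ i j, B i j = B j i)
    (h0 : ∀ w : ι → ℝ, 0 ≤ w ⬝ᵥ (B *ᵥ w)) {u : ι → ℝ} (hu : u ⬝ᵥ (B *ᵥ u) ≤ 0) : B *ᵥ u = 0 := by
  have hx : ∀ x : ι → ℝ, x ⬝ᵥ (B *ᵥ u) = 0 := by
    intro x
    by_contra hne
    have hpos : 0 < (x ⬝ᵥ (B *ᵥ u)) ^ 2 := by positivity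
    set ε := (x ⬝ᵥ (B *ᵥ x) + 1) / (x ⬝ᵥ (B *ᵥ u)) ^ 2 with hε
    have hx0 := h0 x
    have hε0 : 0 ≤ ε := by positivity
    have h1 := psd_cs hB h0 u hε0 (by nlinarith) x
    have h2 : ε * (x ⬝ᵥ (B *ᵥ u)) ^ 2 = x ⬝ᵥ (B *ᵥ x) + 1 := by
      rw [hε]; field_simp
    linarith
  have h1 := hx (B *ᵥ u)
  exact dotProduct_self_eq_zero.1 h1

/-- the Frobenius pairing -/
def fr (A B : Matrix ι ι ℝ) : ℝ := ∑ i, ∑ j, A i j * B i j

omit [DecidableEq ι] in
lemma fr_vecMulVec (A : Matrix ι ι ℝ) (v : ι → ℝ) (c : ℝ) :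
    fr A (c • vecMulVec v v) = c * (v ⬝ᵥ (A *ᵥ v)) := by
  unfold fr
  simp only [dotProduct, mulVec, Matrix.smul_apply, vecMulVec_apply, smul_eq_mul, Finset.mul_sum]
  exact Finset.sum_congr rfl fun i _ => Finset.sum_congr rfl fun j _ => by ring

/-- matrices as a Euclidean space -/
abbrev EM (ι : Type*) [Fintype ι] := EuclideanSpace ℝ (ι × ι)

/-- the matrix of a vector -/
def toM (x : EM ι) : Matrix ι ι ℝ := fun i j => x (i, j)

/-- the vector of a matrix -/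
noncomputable def ofM (K : Matrix ι ι ℝ) : EM ι := WithLp.toLp 2 fun p => K p.1 p.2

omit [DecidableEq ι] in
lemma toM_ofM (K : Matrix ι ι ℝ) : toM (ofM K) = K := by
  ext i j; rfl


omit [DecidableEq ι] in
lemma inner_ofM (A B : Matrix ι ι ℝ) : ⟪ofM A, ofM B⟫_ℝ = fr A B := by
  rw [PiLp.inner_apply, Fintype.sum_prod_type]
  unfold fr
  refine Finset.sum_congr rfl fun i _ => Finset.sum_congr rfl fun j _ => ?_
  simp only [ofM, RCLike.inner_apply, conj_trivial]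
  ring

omit [DecidableEq ι] in
lemma vmv_form (v w : ι → ℝ) (c : ℝ) : w ⬝ᵥ ((c • vecMulVec v v) *ᵥ w) = c * (w ⬝ᵥ v) ^ 2 := by
  rw [smul_mulVec, dotProduct_smul, vecMulVec_mulVec, smul_eq_mul]
  rw [dotProduct_comm v w]
  simp only [op_smul_eq_smul, dotProduct_smul, smul_eq_mul]
  ring

omit [DecidableEq ι] in
lemma convex_Box (d R : ℝ) : Convex ℝ (toM ⁻¹' (Box ι d R)) := by
  intro x hx y hy a b ha hb hab
  obtain ⟨h1, h2, h3⟩ := hx
  obtain ⟨k1, k2, k3⟩ := hy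
  have he : toM (a • x + b • y) = a • toM x + b • toM y := by
    ext i j
    simp [toM]
  have hq : ∀ w : ι → ℝ, w ⬝ᵥ ((a • toM x + b • toM y) *ᵥ w) =
      a * (w ⬝ᵥ (toM x *ᵥ w)) + b * (w ⬝ᵥ (toM y *ᵥ w)) := fun w => by
    rw [add_mulVec, dotProduct_add, smul_mulVec, smul_mulVec, dotProduct_smul, dotProduct_smul]
    simp only [smul_eq_mul]
  refine ⟨?_, ?_, ?_⟩
  · intro i j
    rw [he]
    simp only [Matrix.add_apply, Matrix.smul_apply, h1 i j, k1 i j]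
  · intro w
    rw [he, hq]
    have := mul_le_mul_of_nonneg_left (h2 w) ha
    have := mul_le_mul_of_nonneg_left (k2 w) hb
    have e : d * (w ⬝ᵥ w) = a * (d * (w ⬝ᵥ w)) + b * (d * (w ⬝ᵥ w)) := by
      rw [← add_mul, hab, one_mul]
    linarith
  · intro w
    rw [he, hq]
    have := mul_le_mul_of_nonneg_left (h3 w) ha
    have := mul_le_mul_of_nonneg_left (k3 w) hb
    have e : R * (w ⬝ᵥ w) = a * (R * (w ⬝ᵥ w)) + b * (R * (w ⬝ᵥ w)) := by
      rw [← add_mul, hab, one_mul]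
    linarith

lemma abs_entry_le {d R : ℝ} {K : Matrix ι ι ℝ} (hK : K ∈ Box ι d R) (i j : ι) :
    |K i j| ≤ 4 * (|d| + |R|) := by
  obtain ⟨h1, h2, h3⟩ := hK
  have hd : ∀ k, |K k k| ≤ |d| + |R| := by
    intro k
    have a1 := h2 (Pi.single k 1)
    have a2 := h3 (Pi.single k 1)
    simp only [dotProduct_single, Pi.single_eq_same, mul_one, mulVec_single, single_dotProduct,
      one_mul, MulOpposite.op_one, one_smul, Matrix.col_apply] at a1 a2
    rw [abs_le]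
    constructor
    · linarith [neg_abs_le d, abs_nonneg R]
    · linarith [le_abs_self R, abs_nonneg d]
  rcases eq_or_ne i j with rfl | hij
  · linarith [hd i, abs_nonneg d, abs_nonneg R]
  · have a1 := h2 (Pi.single i 1 + Pi.single j 1)
    have a2 := h3 (Pi.single i 1 + Pi.single j 1)
    have e1 : ((Pi.single i 1 + Pi.single j 1 : ι → ℝ)) ⬝ᵥ (Pi.single i 1 + Pi.single j 1 : ι → ℝ) = 2 := by
      simp only [dotProduct_add, add_dotProduct, single_dotProduct, one_mul, Pi.single_eq_same,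
        Pi.single_eq_of_ne hij, Pi.single_eq_of_ne hij.symm]
      norm_num
    have e2 : ((Pi.single i 1 + Pi.single j 1 : ι → ℝ)) ⬝ᵥ
        (K *ᵥ (Pi.single i 1 + Pi.single j 1 : ι → ℝ)) = K i i + K j j + 2 * K i j := by
      simp only [mulVec_add, dotProduct_add, add_dotProduct, mulVec_single, single_dotProduct,
        one_mul, MulOpposite.op_one, one_smul, Matrix.col_apply]
      rw [h1 j i]
      ring
    rw [e1, e2] at a1 a2
    have b1 := abs_le.1 (hd i)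
    have b2 := abs_le.1 (hd j)
    rw [abs_le]
    constructor
    · linarith [neg_abs_le d, le_abs_self R, abs_nonneg d, abs_nonneg R]
    · linarith [neg_abs_le d, le_abs_self R, abs_nonneg d, abs_nonneg R]

lemma isCompact_Box (d R : ℝ) : IsCompact (toM ⁻¹' (Box ι d R)) := by
  have hc : ∀ i j, Continuous fun x : EM ι => toM x i j := fun i j => by
    unfold toM; fun_prop
  have hq : ∀ w : ι → ℝ, Continuous fun x : EM ι => w ⬝ᵥ (toM x *ᵥ w) := fun w => by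
    unfold dotProduct mulVec dotProduct
    exact continuous_finsetSum _ fun i _ => continuous_const.mul
      (continuous_finsetSum _ fun j _ => (hc i j).mul continuous_const)
  have hcl : IsClosed (toM ⁻¹' (Box ι d R)) := by
    have : toM ⁻¹' (Box ι d R) = {x : EM ι | ∀ i j, toM x i j = toM x j i} ∩
        ({x | ∀ w : ι → ℝ, d * (w ⬝ᵥ w) ≤ w ⬝ᵥ (toM x *ᵥ w)} ∩
        {x | ∀ w : ι → ℝ, w ⬝ᵥ (toM x *ᵥ w) ≤ R * (w ⬝ᵥ w)}) := rfl
    rw [this]
    refine IsClosed.inter ?_ (IsClosed.inter ?_ ?_)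
    · simp only [Set.ofPred_forall]
      exact isClosed_iInter fun i => isClosed_iInter fun j => isClosed_eq (hc i j) (hc j i)
    · simp only [Set.ofPred_forall]
      exact isClosed_iInter fun w => isClosed_le continuous_const (hq w)
    · simp only [Set.ofPred_forall]
      exact isClosed_iInter fun w => isClosed_le (hq w) continuous_const
  refine Metric.isCompact_of_isClosed_isBounded hcl ?_
  rw [isBounded_iff_forall_norm_le]
  refine ⟨Real.sqrt (∑ _p : ι × ι, (4 * (|d| + |R|)) ^ 2), fun x hx => ?_⟩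
  rw [EuclideanSpace.norm_eq]
  refine Real.sqrt_le_sqrt (Finset.sum_le_sum fun p _ => ?_)
  have := abs_entry_le hx p.1 p.2
  have h2 : ‖x p‖ = |toM x p.1 p.2| := by rw [Real.norm_eq_abs]; rfl
  rw [h2]
  exact pow_le_pow_left₀ (abs_nonneg _) this 2

/-- **zero of a real symmetric matrix field with inward/outward boundary behaviour** -/
theorem exists_zero (d R : ℝ) (hdR : d < R) (T : Matrix ι ι ℝ → Matrix ι ι ℝ)
    (hT : ∀ i j, ContinuousOn (fun x : EM ι => T (toM x) i j) (toM ⁻¹' (Box ι d R)))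
    (hTs : ∀ K ∈ Box ι d R, ∀ i j, T K i j = T K j i)
    (htop : ∀ K ∈ Box ι d R, ∀ v : ι → ℝ, v ≠ 0 → K *ᵥ v = R • v → 0 < v ⬝ᵥ (T K *ᵥ v))
    (hbot : ∀ K ∈ Box ι d R, ∀ v : ι → ℝ, v ≠ 0 → K *ᵥ v = d • v → v ⬝ᵥ (T K *ᵥ v) ≤ 0) :
    ∃ K ∈ Box ι d R, T K = 0 := by
  have hne : (toM ⁻¹' (Box ι d R)).Nonempty := by
    refine ⟨ofM (d • 1), ?_⟩
    show toM (ofM (d • (1 : Matrix ι ι ℝ))) ∈ Box ι d R
    rw [toM_ofM]
    refine ⟨?_, ?_, ?_⟩
    · intro i j
      rw [Matrix.smul_apply, Matrix.smul_apply, Matrix.one_apply, Matrix.one_apply]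
      simp only [eq_comm]
    · intro w
      rw [smul_mulVec, one_mulVec, dotProduct_smul, smul_eq_mul]
    · intro w
      rw [smul_mulVec, one_mulVec, dotProduct_smul, smul_eq_mul]
      have : 0 ≤ w ⬝ᵥ w := Finset.sum_nonneg fun i _ => mul_self_nonneg _
      exact mul_le_mul_of_nonneg_right hdR.le this
  obtain ⟨x, hx, hVI⟩ := Crest.Agent.R332.Full.hartman_stampacchia (toM ⁻¹' (Box ι d R)) hne
    (isCompact_Box d R) (convex_Box d R) (fun x => ofM (T (toM x))) (by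
      have : (fun x : EM ι => ofM (T (toM x))) =
          (WithLp.toLp 2) ∘ fun x : EM ι => fun p : ι × ι => T (toM x) p.1 p.2 := rfl
      rw [this]
      refine (PiLp.continuous_toLp 2 _).comp_continuousOn ?_
      exact continuousOn_pi.2 fun p => hT p.1 p.2)
  set K := toM x with hKx
  have hK : K ∈ Box ι d R := hx
  obtain ⟨hK1, hK2, hK3⟩ := hK
  have hS := hTs K hx
  have hVI' : ∀ D : Matrix ι ι ℝ, K + D ∈ Box ι d R → 0 ≤ fr (T K) D := by
    intro D hD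
    have h1 := hVI (ofM (K + D)) (by
      show toM (ofM (K + D)) ∈ Box ι d R
      rw [toM_ofM]; exact hD)
    have h2 : ofM (K + D) - x = ofM D := by
      ext p
      have : x p = K p.1 p.2 := rfl
      simp only [ofM, PiLp.sub_apply, Matrix.add_apply, this]
      ring
    rw [h2, inner_ofM] at h1
    exact h1
  have hKd : ∀ w : ι → ℝ, w ⬝ᵥ ((K - d • (1 : Matrix ι ι ℝ)) *ᵥ w) =
      w ⬝ᵥ (K *ᵥ w) - d * (w ⬝ᵥ w) := fun w => by
    rw [sub_mulVec, dotProduct_sub, smul_mulVec, one_mulVec, dotProduct_smul, smul_eq_mul]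
  have hKR : ∀ w : ι → ℝ, w ⬝ᵥ ((R • (1 : Matrix ι ι ℝ) - K) *ᵥ w) =
      R * (w ⬝ᵥ w) - w ⬝ᵥ (K *ᵥ w) := fun w => by
    rw [sub_mulVec, dotProduct_sub, smul_mulVec, one_mulVec, dotProduct_smul, smul_eq_mul]
  have hone : ∀ i j, (1 : Matrix ι ι ℝ) i j = (1 : Matrix ι ι ℝ) j i := fun i j => by
    rw [Matrix.one_apply, Matrix.one_apply]; simp only [eq_comm]
  have s1 : ∀ i j, (K - d • (1 : Matrix ι ι ℝ)) i j = (K - d • (1 : Matrix ι ι ℝ)) j i := by
    intro i j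
    rw [Matrix.sub_apply, Matrix.sub_apply, Matrix.smul_apply, Matrix.smul_apply, hK1 i j, hone i j]
  have s2 : ∀ i j, (R • (1 : Matrix ι ι ℝ) - K) i j = (R • (1 : Matrix ι ι ℝ) - K) j i := by
    intro i j
    rw [Matrix.sub_apply, Matrix.sub_apply, Matrix.smul_apply, Matrix.smul_apply, hK1 i j, hone i j]
  have p1 : ∀ w : ι → ℝ, 0 ≤ w ⬝ᵥ ((K - d • (1 : Matrix ι ι ℝ)) *ᵥ w) := fun w => by
    rw [hKd]; linarith [hK2 w]
  have p2 : ∀ w : ι → ℝ, 0 ≤ w ⬝ᵥ ((R • (1 : Matrix ι ι ℝ) - K) *ᵥ w) := fun w => by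
    rw [hKR]; linarith [hK3 w]
  have vs : ∀ (v : ι → ℝ) (i j : ι), vecMulVec v v i j = vecMulVec v v j i := fun v i j => by
    rw [vecMulVec_apply, vecMulVec_apply, mul_comm]
  have eform : ∀ (D : Matrix ι ι ℝ) (w : ι → ℝ), w ⬝ᵥ ((K + D) *ᵥ w) =
      w ⬝ᵥ (K *ᵥ w) + w ⬝ᵥ (D *ᵥ w) := fun D w => by
    rw [add_mulVec, dotProduct_add]
  -- downwards
  have hdown : ∀ u : ι → ℝ, ((K - d • (1 : Matrix ι ι ℝ)) *ᵥ u) ⬝ᵥ
      (T K *ᵥ ((K - d • (1 : Matrix ι ι ℝ)) *ᵥ u)) ≤ 0 := by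
    intro u
    set B := K - d • (1 : Matrix ι ι ℝ) with hBdef
    set q := u ⬝ᵥ (B *ᵥ u) with hq
    have hq0 : 0 ≤ q := p1 u
    have hε : (0 : ℝ) < (1 + q)⁻¹ := by positivity
    have hcs := psd_cs s1 p1 u hε.le (by
      rw [← hq, inv_mul_le_one₀ (by positivity)]; linarith)
    have h2 := hVI' ((-(1 + q)⁻¹) • vecMulVec (B *ᵥ u) (B *ᵥ u)) (by
      refine ⟨?_, ?_, ?_⟩
      · intro i j
        rw [Matrix.add_apply, Matrix.add_apply, Matrix.smul_apply, Matrix.smul_apply, hK1 i j,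
          vs _ i j]
      · intro w
        rw [eform, vmv_form]
        have := hcs w
        rw [hKd] at this
        nlinarith
      · intro w
        rw [eform, vmv_form]
        have := hK3 w
        have h3 : 0 ≤ (1 + q)⁻¹ * (w ⬝ᵥ (B *ᵥ u)) ^ 2 := by positivity
        nlinarith)
    rw [fr_vecMulVec] at h2
    by_contra hcon
    push Not at hcon
    have := mul_pos hε hcon
    linarith
  -- upwards
  have hup : ∀ u : ι → ℝ, 0 ≤ ((R • (1 : Matrix ι ι ℝ) - K) *ᵥ u) ⬝ᵥ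
      (T K *ᵥ ((R • (1 : Matrix ι ι ℝ) - K) *ᵥ u)) := by
    intro u
    set B := R • (1 : Matrix ι ι ℝ) - K with hBdef
    set q := u ⬝ᵥ (B *ᵥ u) with hq
    have hq0 : 0 ≤ q := p2 u
    have hε : (0 : ℝ) < (1 + q)⁻¹ := by positivity
    have hcs := psd_cs s2 p2 u hε.le (by
      rw [← hq, inv_mul_le_one₀ (by positivity)]; linarith)
    have h2 := hVI' (((1 + q)⁻¹) • vecMulVec (B *ᵥ u) (B *ᵥ u)) (by
      refine ⟨?_, ?_, ?_⟩
      · intro i j
        rw [Matrix.add_apply, Matrix.add_apply, Matrix.smul_apply, Matrix.smul_apply, hK1 i j,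
          vs _ i j]
      · intro w
        rw [eform, vmv_form]
        have := hK2 w
        have h3 : 0 ≤ (1 + q)⁻¹ * (w ⬝ᵥ (B *ᵥ u)) ^ 2 := by positivity
        nlinarith
      · intro w
        rw [eform, vmv_form]
        have := hcs w
        rw [hKR] at this
        nlinarith)
    rw [fr_vecMulVec] at h2
    by_contra hcon
    push Not at hcon
    have := mul_pos hε (neg_pos.2 hcon)
    linarith
  -- no top eigenvector
  have hnotop : ∀ v : ι → ℝ, (R • (1 : Matrix ι ι ℝ) - K) *ᵥ v = 0 → v = 0 := by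
    intro v hv
    by_contra hv0
    have hKv : K *ᵥ v = R • v := by
      rw [sub_mulVec, smul_mulVec, one_mulVec, sub_eq_zero] at hv
      exact hv.symm
    have h1 := htop K hx v hv0 hKv
    have h2 := hdown v
    have h3 : (K - d • (1 : Matrix ι ι ℝ)) *ᵥ v = (R - d) • v := by
      rw [sub_mulVec, hKv, smul_mulVec, one_mulVec, ← sub_smul]
    rw [h3, mulVec_smul, smul_dotProduct, dotProduct_smul, smul_eq_mul, smul_eq_mul] at h2
    have h4 : 0 < R - d := by linarith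
    have := mul_pos h4 (mul_pos h4 h1)
    linarith
  have hinj : Function.Injective ((R • (1 : Matrix ι ι ℝ) - K).mulVec) := by
    intro a b hab
    have : (R • (1 : Matrix ι ι ℝ) - K) *ᵥ (a - b) = 0 := by
      rw [mulVec_sub, sub_eq_zero]; exact hab
    exact sub_eq_zero.1 (hnotop _ this)
  have hunit : IsUnit (R • (1 : Matrix ι ι ℝ) - K) := Matrix.mulVec_injective_iff_isUnit.1 hinj
  have hTpsd : ∀ w : ι → ℝ, 0 ≤ w ⬝ᵥ (T K *ᵥ w) := by
    intro w
    obtain ⟨u, hu⟩ : ∃ u, (R • (1 : Matrix ι ι ℝ) - K) *ᵥ u = w := by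
      refine ⟨(R • (1 : Matrix ι ι ℝ) - K)⁻¹ *ᵥ w, ?_⟩
      rw [mulVec_mulVec, Matrix.mul_nonsing_inv _ ((Matrix.isUnit_iff_isUnit_det _).1 hunit),
        one_mulVec]
    have h1 := hup u
    rwa [hu] at h1
  have hTB : ∀ u : ι → ℝ, T K *ᵥ ((K - d • (1 : Matrix ι ι ℝ)) *ᵥ u) = 0 := fun u =>
    psd_zero hS hTpsd (hdown u)
  have hTB' : T K * (K - d • (1 : Matrix ι ι ℝ)) = 0 := by
    apply Matrix.ext_of_mulVec_single
    intro j
    rw [← mulVec_mulVec, hTB, zero_mulVec]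
  have hBT : (K - d • (1 : Matrix ι ι ℝ)) * T K = 0 := by
    have e1 : (T K)ᵀ = T K := by ext i j; exact hS j i
    have e2 : (K - d • (1 : Matrix ι ι ℝ))ᵀ = K - d • (1 : Matrix ι ι ℝ) := by
      ext i j; exact s1 j i
    have h1 := congrArg Matrix.transpose hTB'
    rw [Matrix.transpose_mul, e1, e2, Matrix.transpose_zero] at h1
    exact h1
  refine ⟨K, hx, ?_⟩
  apply Matrix.ext_of_mulVec_single
  intro j
  rw [zero_mulVec]
  set v := T K *ᵥ Pi.single j 1 with hv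
  by_contra hv0
  have hKv : K *ᵥ v = d • v := by
    have h1 : (K - d • (1 : Matrix ι ι ℝ)) *ᵥ v = 0 := by
      rw [hv, mulVec_mulVec, hBT, zero_mulVec]
    rw [sub_mulVec, smul_mulVec, one_mulVec, sub_eq_zero] at h1
    exact h1
  have h1 := hbot K hx v hv0 hKv
  have h3 : T K *ᵥ v = 0 := psd_zero hS hTpsd h1
  have h4 : v ⬝ᵥ v = 0 := by
    have h5 : v ⬝ᵥ v = Pi.single j (1 : ℝ) ⬝ᵥ (T K *ᵥ v) := by
      conv_lhs => rw [hv]
      rw [dotProduct_comm, ← hv, symm_dot hS]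
    rw [h5, h3, dotProduct_zero]
  exact hv0 (dotProduct_self_eq_zero.1 h4)

end Crest.Agent.R253.Norm944
end

-- ▼ part R253/NormA_944
section

/-!
Row 253, normalisation (helper944), part A: the two-sided bound of `⟨w, E z(M) w⟩`.

`zf` is any function with `mu (zf x) = x` for `x > 0` (the inverse of the hazard function).
-/

set_option autoImplicit false

open MeasureTheory Matrix Set
open scoped Real

noncomputable section

namespace Crest.Agent.R253.Norm944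

open Crest.Agent.R253.Mills37 Crest.Agent.R253.Meh74 Crest.Agent.R253.SpecField321

/-! ### one variable -/

lemma tangent {f f' : ℝ → ℝ} (hf : ∀ z, HasDerivAt f (f' z) z) (hm : Monotone f') (z0 z : ℝ) :
    f z0 + f' z0 * (z - z0) ≤ f z := by
  rcases lt_trichotomy z z0 with h | h | h
  · obtain ⟨c, hc, he⟩ := exists_hasDerivAt_eq_slope f f' h
      (fun x _ => (hf x).continuousAt.continuousWithinAt) fun x _ => hf x
    have h1 : f' c ≤ f' z0 := hm hc.2.le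
    rw [eq_div_iff (by linarith)] at he
    nlinarith
  · subst h; simp
  · obtain ⟨c, hc, he⟩ := exists_hasDerivAt_eq_slope f f' h
      (fun x _ => (hf x).continuousAt.continuousWithinAt) fun x _ => hf x
    have h1 : f' z0 ≤ f' c := hm hc.1.le
    rw [eq_div_iff (by linarith)] at he
    nlinarith

lemma ee_zero : ee 0 = mu 0 := by simp [ee]

lemma mu_ee_mono : Monotone fun z => mu z * ee z := by
  refine monotone_of_hasDerivAt_nonneg (f' := fun z => mu z * ss z) (fun z => ?_) fun z =>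
    (mul_pos (mu_pos z) (ss_pos z)).le
  have h := (cc_hasDerivAt z).const_sub 1
  refine (h.congr_deriv (by ring)).congr_of_eventuallyEq (Filter.Eventually.of_forall fun y => ?_)
  simp only [cc]; ring

/-- tangent of the hazard function at `0` -/
lemma mu_tangent (z : ℝ) : mu 0 + mu 0 ^ 2 * z ≤ mu z := by
  have h := tangent mu_hasDerivAt mu_ee_mono 0 z
  simp only [ee_zero, sub_zero] at h
  nlinarith [h]

lemma inv_mu_hasDerivAt (z : ℝ) : HasDerivAt (fun z => (mu z)⁻¹) (-(ee z / mu z)) z := by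
  have h := (mu_hasDerivAt z).inv (mu_pos z).ne'
  refine h.congr_deriv ?_
  have := (mu_pos z).ne'
  field_simp

/-- tangent of the Mills ratio at `0` -/
lemma inv_mu_tangent (z : ℝ) : (mu 0)⁻¹ - z ≤ (mu z)⁻¹ := by
  have hm : Monotone fun z => -(ee z / mu z) := by
    refine monotone_of_hasDerivAt_nonneg (f' := fun z => ww z / mu z) (fun z => ?_) fun z =>
      (div_pos (ww_pos z) (mu_pos z)).le
    have h := ((ee_hasDerivAt z).div (mu_hasDerivAt z) (mu_pos z).ne').neg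
    refine h.congr_deriv ?_
    have h2 := ww_add z
    have h3 := (mu_pos z).ne'
    have h4 : ww z = 1 + ee z ^ 2 - mu z * ee z := by linarith
    rw [h4]
    field_simp
    ring
  have h := tangent inv_mu_hasDerivAt hm 0 z
  simp only [ee_zero, sub_zero, div_self (mu_pos 0).ne'] at h
  linarith

section
variable {zf : ℝ → ℝ} (hz : ∀ x, 0 < x → mu (zf x) = x)
include hz

lemma zf_upper {x : ℝ} (hx : 0 < x) : zf x ≤ (mu 0 ^ 2)⁻¹ * x - (mu 0)⁻¹ := by
  have h := mu_tangent (zf x)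
  rw [hz x hx] at h
  have h0 := mu_pos 0
  have h1 : (mu 0 ^ 2)⁻¹ * (mu 0 + mu 0 ^ 2 * zf x) ≤ (mu 0 ^ 2)⁻¹ * x :=
    mul_le_mul_of_nonneg_left h (by positivity)
  have h2 : (mu 0 ^ 2)⁻¹ * (mu 0 + mu 0 ^ 2 * zf x) = (mu 0)⁻¹ + zf x := by
    field_simp
  linarith

lemma zf_lower {x : ℝ} (hx : 0 < x) : (mu 0)⁻¹ - x⁻¹ ≤ zf x := by
  have h := inv_mu_tangent (zf x)
  rw [hz x hx] at h
  linarith

end

/-! ### quadratic forms of functions of a matrix -/

variable {m n : ℕ}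

lemma qf_cfc {A U : Matrix (Fin m) (Fin m) ℝ} {s : Fin m → ℝ} (h : Fr A U s) (f : ℝ → ℝ)
    (w : Fin m → ℝ) : w ⬝ᵥ (cfc f A *ᵥ w) = ∑ i, f (s i) * (Uᵀ *ᵥ w) i ^ 2 := by
  have h1 : cfc f A = U * Matrix.diagonal (fun i => f (s i)) * Uᵀ := by
    rw [← h.cfc f]
    calc cfc f A = (U * Uᵀ) * cfc f A * (U * Uᵀ) := by rw [h.o', Matrix.one_mul, Matrix.mul_one]
      _ = _ := by simp only [Matrix.mul_assoc]
  rw [h1, Matrix.mul_assoc, ← Matrix.mulVec_mulVec, dotProduct_mulVec, ← Matrix.mulVec_transpose,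
    ← Matrix.mulVec_mulVec]
  simp only [dotProduct, Matrix.mulVec_diagonal]
  exact Finset.sum_congr rfl fun i _ => by ring

lemma qf_self {A U : Matrix (Fin m) (Fin m) ℝ} {s : Fin m → ℝ} (h : Fr A U s)
    (w : Fin m → ℝ) : w ⬝ᵥ (A *ᵥ w) = ∑ i, s i * (Uᵀ *ᵥ w) i ^ 2 := by
  have h1 : A = U * Matrix.diagonal s * Uᵀ := h.eq
  conv_lhs => rw [h1]
  rw [Matrix.mul_assoc, ← Matrix.mulVec_mulVec, dotProduct_mulVec, ← Matrix.mulVec_transpose,
    ← Matrix.mulVec_mulVec]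
  simp only [dotProduct, Matrix.mulVec_diagonal]
  exact Finset.sum_congr rfl fun i _ => by ring

lemma qf_one {A U : Matrix (Fin m) (Fin m) ℝ} {s : Fin m → ℝ} (h : Fr A U s)
    (w : Fin m → ℝ) : w ⬝ᵥ w = ∑ i, (Uᵀ *ᵥ w) i ^ 2 := by
  have h1 : (Uᵀ *ᵥ w) ⬝ᵥ (Uᵀ *ᵥ w) = w ⬝ᵥ w := by
    rw [dotProduct_mulVec, ← Matrix.mulVec_transpose, Matrix.transpose_transpose,
      Matrix.mulVec_mulVec, h.o', Matrix.one_mulVec]
  rw [← h1]
  simp only [dotProduct]
  exact Finset.sum_congr rfl fun i _ => by ring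

lemma qf_inv {A N U : Matrix (Fin m) (Fin m) ℝ} {s : Fin m → ℝ} (h : Fr A U s) (hN : N * A = 1)
    (hs : ∀ i, s i ≠ 0) (w : Fin m → ℝ) : w ⬝ᵥ (N *ᵥ w) = ∑ i, (s i)⁻¹ * (Uᵀ *ᵥ w) i ^ 2 := by
  have h0 : A * (U * Matrix.diagonal (fun i => (s i)⁻¹) * Uᵀ) = 1 := by
    conv_lhs => rw [h.eq]
    calc U * Matrix.diagonal s * Uᵀ * (U * Matrix.diagonal (fun i => (s i)⁻¹) * Uᵀ)
        = U * (Matrix.diagonal s * (Uᵀ * U) * Matrix.diagonal (fun i => (s i)⁻¹)) * Uᵀ := by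
          simp only [Matrix.mul_assoc]
      _ = 1 := by
          rw [h.o, Matrix.mul_one, Matrix.diagonal_mul_diagonal]
          have : (fun i => s i * (s i)⁻¹) = fun _ => (1 : ℝ) := by
            funext i; exact mul_inv_cancel₀ (hs i)
          rw [this, Matrix.diagonal_one, Matrix.mul_one, h.o']
  have h1 : N = U * Matrix.diagonal (fun i => (s i)⁻¹) * Uᵀ := by
    calc N = N * (A * (U * Matrix.diagonal (fun i => (s i)⁻¹) * Uᵀ)) := by
          rw [h0, Matrix.mul_one]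
      _ = _ := by rw [← Matrix.mul_assoc, hN, Matrix.one_mul]
  rw [h1, Matrix.mul_assoc, ← Matrix.mulVec_mulVec, dotProduct_mulVec, ← Matrix.mulVec_transpose,
    ← Matrix.mulVec_mulVec]
  simp only [dotProduct, Matrix.mulVec_diagonal]
  exact Finset.sum_congr rfl fun i _ => by ring

section
variable {zf : ℝ → ℝ} (hz : ∀ x, 0 < x → mu (zf x) = x)
include hz

theorem qf_upper {A : Matrix (Fin m) (Fin m) ℝ} (hA : A.IsHermitian)
    (hp : ∀ x ∈ spectrum ℝ A, 0 < x) (w : Fin m → ℝ) :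
    w ⬝ᵥ (cfc zf A *ᵥ w) ≤ (mu 0 ^ 2)⁻¹ * (w ⬝ᵥ (A *ᵥ w)) - (mu 0)⁻¹ * (w ⬝ᵥ w) := by
  obtain ⟨U, hU⟩ := exists_fr hA
  rw [qf_cfc hU, qf_self hU, qf_one hU, Finset.mul_sum, Finset.mul_sum, ← Finset.sum_sub_distrib]
  refine Finset.sum_le_sum fun i _ => ?_
  have h := zf_upper hz (hp _ (hU.mem_spec i))
  nlinarith [sq_nonneg ((Uᵀ *ᵥ w) i)]

theorem qf_lower {A N : Matrix (Fin m) (Fin m) ℝ} (hA : A.IsHermitian) (hN : N * A = 1)
    (hp : ∀ x ∈ spectrum ℝ A, 0 < x) (w : Fin m → ℝ) :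
    (mu 0)⁻¹ * (w ⬝ᵥ w) - w ⬝ᵥ (N *ᵥ w) ≤ w ⬝ᵥ (cfc zf A *ᵥ w) := by
  obtain ⟨U, hU⟩ := exists_fr hA
  rw [qf_cfc hU, qf_inv hU hN fun i => (hp _ (hU.mem_spec i)).ne', qf_one hU, Finset.mul_sum,
    ← Finset.sum_sub_distrib]
  refine Finset.sum_le_sum fun i _ => ?_
  have h := zf_lower hz (hp _ (hU.mem_spec i))
  nlinarith [sq_nonneg ((Uᵀ *ᵥ w) i)]

end

end Crest.Agent.R253.Norm944
end
end

-- ▼ part R253/NormB_944
section

/-!
Row 253, normalisation (helper944), part B: the integrated two-sided bound and the abstract zero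
theorem for a family of Gaussian gradient data.
-/

set_option autoImplicit false

open MeasureTheory ProbabilityTheory Matrix Set
open scoped Real

noncomputable section

namespace Crest.Agent.R253.Norm944

open Crest.Agent.R253.Mills37 Crest.Agent.R253.Meh74 Crest.Agent.R253.SpecField321
open Crest.Agent.R238.Gap Crest.Agent.R238.GapPoinc Crest.Agent.R238.GapPc

variable {n : ℕ}

/-- `w · x` -/
def lw (w : Fin n → ℝ) (x : E n) : ℝ := ∑ i, w i * x i

lemma c1_lw (w : Fin n → ℝ) : C1 (lw w) := C1.sum fun i _ => (c1_coord i).smul (w i)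

lemma pd_lw (w : Fin n → ℝ) (k : Fin n) (x : E n) : pd k (lw w) x = w k := by
  have h : pd k (lw w) x = ∑ i, pd k (fun x : E n => w i * x i) x :=
    pd_sum' (f := fun i x => w i * x i) (fun i _ => (c1_coord i).smul (w i)) k x
  rw [h]
  have h2 : ∀ i, pd k (fun x : E n => w i * x i) x = w i * (if i = k then 1 else 0) := fun i => by
    rw [(c1_const (w i)).pd_mul (c1_coord i) k x, pd_coord]
    simp [pd]
  simp_rw [h2]
  simp

/-- `E (w·x) f = Σ w_i E ∂_i f` -/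
lemma int_lw {f : E n → ℝ} (hf : C1 f) (w : Fin n → ℝ) :
    ∫ x, lw w x * f x ∂(gam n) = ∑ i, w i * ∫ x, pd i f x ∂(gam n) := by
  have e : ∀ x, lw w x * f x = ∑ i, w i * (f x * x i) := fun x => by
    unfold lw
    rw [Finset.sum_mul]
    exact Finset.sum_congr rfl fun i _ => by ring
  simp_rw [e]
  rw [integral_finsetSum _ fun i _ => ?_]
  · refine Finset.sum_congr rfl fun i _ => ?_
    rw [integral_const_mul, ibp_gam hf.c hf.g i (hf.p i)]
  · exact (integrable_of_PG (hf.cont.mul (c1_coord i).cont) (hf.g.mul (pg_coord i))).const_mul _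

lemma int_lw_sq (w : Fin n → ℝ) : ∫ x, lw w x ^ 2 ∂(gam n) = w ⬝ᵥ w := by
  have h := int_lw (c1_lw w) w
  simp_rw [pd_lw] at h
  simp only [integral_const, measureReal_def, measure_univ, ENNReal.toReal_one, one_smul] at h
  simp_rw [sq]
  rw [h]
  rfl

/-- `w · G` -/
def wG (w : Fin n → ℝ) (G : Fin n → E n → ℝ) (x : E n) : ℝ := ∑ j, w j * G j x

section
variable {G : Fin n → E n → ℝ} {M N : Fin n → Fin n → E n → ℝ} {V : E n → ℝ}

lemma c1_wG (hd : HD G M) (w : Fin n → ℝ) : C1 (wG w G) := C1.sum fun i _ => (hd.g i).smul (w i)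

lemma pd_wG (hd : HD G M) (w : Fin n → ℝ) (k : Fin n) (x : E n) :
    pd k (wG w G) x = ∑ j, w j * M j k x := by
  have h : pd k (wG w G) x = ∑ j, pd k (fun x : E n => w j * G j x) x :=
    pd_sum' (f := fun j x => w j * G j x) (fun j _ => (hd.g j).smul (w j)) k x
  rw [h]
  refine Finset.sum_congr rfl fun j _ => ?_
  rw [(c1_const (w j)).pd_mul (hd.g j) k x, hd.d j k]
  simp [pd]

lemma qf_Mx (A : Fin n → Fin n → E n → ℝ) (w : Fin n → ℝ) (x : E n) :
    w ⬝ᵥ (Mx A x *ᵥ w) = ∑ i, ∑ j, w i * (A i j x * w j) := by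
  simp only [dotProduct, mulVec, Mx, Matrix.of_apply, Finset.mul_sum]

lemma int_qf {A : Fin n → Fin n → E n → ℝ} (hA : ∀ i j, Integrable (A i j) (gam n))
    (w : Fin n → ℝ) : ∫ x, w ⬝ᵥ (Mx A x *ᵥ w) ∂(gam n) =
      w ⬝ᵥ ((Matrix.of fun i j => ∫ x, A i j x ∂(gam n)) *ᵥ w) := by
  simp_rw [qf_Mx]
  rw [integral_finsetSum _ fun i _ => ?_]
  · simp only [dotProduct, mulVec, Matrix.of_apply, Finset.mul_sum]
    refine Finset.sum_congr rfl fun i _ => ?_
    rw [integral_finsetSum _ fun j _ => ((hA i j).mul_const (w j)).const_mul (w i)]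
    refine Finset.sum_congr rfl fun j _ => ?_
    rw [integral_const_mul, integral_mul_const]
  · exact integrable_finsetSum _ fun j _ => ((hA i j).mul_const (w j)).const_mul (w i)

lemma integrable_qf {A : Fin n → Fin n → E n → ℝ} (hA : ∀ i j, Integrable (A i j) (gam n))
    (w : Fin n → ℝ) : Integrable (fun x => w ⬝ᵥ (Mx A x *ᵥ w)) (gam n) := by
  simp_rw [qf_Mx]
  exact integrable_finsetSum _ fun i _ => integrable_finsetSum _ fun j _ =>
    ((hA i j).mul_const (w j)).const_mul (w i)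

/-- `E ⟨w, M w⟩ = E (w·x)(w·G)` -/
lemma int_M (hd : HD G M) (w : Fin n → ℝ) :
    ∫ x, w ⬝ᵥ (Mx M x *ᵥ w) ∂(gam n) = ∫ x, lw w x * wG w G x ∂(gam n) := by
  have hi : ∀ i j, Integrable (M i j) (gam n) := fun i j =>
    integrable_of_PG (hd.m i j).cont (hd.m i j).g
  rw [int_qf hi, int_lw (c1_wG hd w) w]
  simp_rw [pd_wG hd]
  simp only [dotProduct, mulVec, Matrix.of_apply]
  refine Finset.sum_congr rfl fun i _ => ?_
  congr 1
  rw [integral_finsetSum _ fun j _ => (hi j i).const_mul (w j)]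
  refine Finset.sum_congr rfl fun j _ => ?_
  rw [integral_const_mul, hd.s i j, mul_comm]

/-- `∂_w V (G)` -/
def wV (w : Fin n → ℝ) (G : Fin n → E n → ℝ) (V : E n → ℝ) (x : E n) : ℝ :=
  ∑ k, w k * pd k V (Gv G x)

/-- `V_k(G) = Σ_l (x_l N_kl - ∂_l N_kl)` -/
lemma V_div (h : MA G M N V) (x : E n) (k : Fin n) :
    pd k V (Gv G x) = -∑ l, (pd l (N k l) x - x l * N k l x) := by
  rw [h.V_eq x k, Finset.sum_sub_distrib, h.div_N k x]
  unfold MA.be
  simp_rw [mul_add, Finset.sum_add_distrib]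
  have : ∑ l, N k l x * x l = ∑ l, x l * N k l x := Finset.sum_congr rfl fun l _ => by ring
  rw [this]
  ring

/-- `E ⟨w, M⁻¹ w⟩ = E (w·x) (∂_w V)(G)` -/
lemma int_N (h : MA G M N V) (w : Fin n → ℝ) :
    ∫ x, w ⬝ᵥ (Mx N x *ᵥ w) ∂(gam n) = ∫ x, lw w x * wV w G V x ∂(gam n) := by
  have hi : ∀ i j, Integrable (N i j) (gam n) := fun i j =>
    integrable_of_PG (h.n1 i j).cont (h.n1 i j).g
  have hj : ∀ k l, Integrable (fun x => lw w x * (pd l (N k l) x - x l * N k l x)) (gam n) :=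
    fun k l => integrable_of_PG ((c1_lw w).cont.mul (((h.n1 k l).contp l).sub
      ((c1_coord l).cont.mul (h.n1 k l).cont))) ((c1_lw w).g.mul (((h.n1 k l).p l).sub
      ((pg_coord l).mul (h.n1 k l).g)))
  have e : ∀ x, lw w x * wV w G V x =
      ∑ k, ∑ l, -(w k) * (lw w x * (pd l (N k l) x - x l * N k l x)) := fun x => by
    unfold wV
    simp_rw [V_div h x, Finset.mul_sum]
    refine Finset.sum_congr rfl fun k _ => ?_
    rw [← Finset.sum_neg_distrib, Finset.mul_sum, Finset.mul_sum]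
    exact Finset.sum_congr rfl fun l _ => by ring
  simp_rw [e]
  rw [int_qf hi, integral_finsetSum _ fun k _ =>
    integrable_finsetSum _ fun l _ => (hj k l).const_mul _]
  simp only [dotProduct, mulVec, Matrix.of_apply, Finset.mul_sum]
  refine Finset.sum_congr rfl fun k _ => ?_
  rw [integral_finsetSum _ fun l _ => (hj k l).const_mul _]
  refine Finset.sum_congr rfl fun l _ => ?_
  rw [integral_const_mul, ibp_prod (c1_lw w) (h.n1 k l) l]
  simp_rw [pd_lw]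
  rw [integral_const_mul]
  ring

end

end Crest.Agent.R253.Norm944
end
end

-- ▼ part R253/NormC_944
section

/-!
Row 253, normalisation (helper944), part C: signs of `⟨w, E z(M) w⟩` and the zero theorem for a
family of data `P_A`, `d ≤ A ≤ R`.
-/

set_option autoImplicit false

open MeasureTheory ProbabilityTheory Matrix Set
open scoped Real Topology

noncomputable section

namespace Crest.Agent.R253.Norm944

open Crest.Agent.R253.Mills37 Crest.Agent.R253.Meh74 Crest.Agent.R253.SpecField321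
open Crest.Agent.R238.Gap Crest.Agent.R238.GapPoinc Crest.Agent.R238.GapPc
open Crest.Agent.R253.Dual441 Crest.Agent.R253.NormCont666

variable {n : ℕ}

section
variable {G : Fin n → E n → ℝ} {M N : Fin n → Fin n → E n → ℝ} {V : E n → ℝ} {zf : ℝ → ℝ}

lemma int_lw_one (w : Fin n → ℝ) : ∫ x, lw w x ∂(gam n) = 0 := by
  have h := int_lw (c1_const (n := n) 1) w
  simp only [mul_one] at h
  rw [h]
  refine Finset.sum_eq_zero fun i _ => ?_
  have : ∀ x : E n, pd i (fun _ : E n => (1 : ℝ)) x = 0 := fun x => by simp [pd]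
  simp_rw [this]
  simp

lemma young {f : E n → ℝ} (hf : Continuous f) (hg : PG f) {w : Fin n → ℝ} (hw : w ⬝ᵥ w = 1)
    {a : ℝ} (ha : 0 < a) : ∫ x, lw w x * f x ∂(gam n) ≤ a / 2 + 1 / (2 * a) * ∫ x, f x ^ 2 ∂(gam n) := by
  have i1 : Integrable (fun x => lw w x * f x) (gam n) :=
    integrable_of_PG ((c1_lw w).cont.mul hf) ((c1_lw w).g.mul hg)
  have i2 : Integrable (fun x => lw w x ^ 2) (gam n) := by
    simp_rw [sq]
    exact integrable_of_PG ((c1_lw w).cont.mul (c1_lw w).cont) ((c1_lw w).g.mul (c1_lw w).g)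
  have i3 : Integrable (fun x => f x ^ 2) (gam n) := by
    simp_rw [sq]
    exact integrable_of_PG (hf.mul hf) (hg.mul hg)
  calc ∫ x, lw w x * f x ∂(gam n) ≤ ∫ x, (a / 2 * lw w x ^ 2 + 1 / (2 * a) * f x ^ 2) ∂(gam n) := by
        refine integral_mono i1 ((i2.const_mul _).add (i3.const_mul _)) fun x => ?_
        have h1 : 0 ≤ (a * lw w x - f x) ^ 2 / (2 * a) := by positivity
        have h2 : (a * lw w x - f x) ^ 2 / (2 * a) =
            a / 2 * lw w x ^ 2 + 1 / (2 * a) * f x ^ 2 - lw w x * f x := by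
          field_simp
          ring
        simp only
        linarith
    _ = a / 2 + 1 / (2 * a) * ∫ x, f x ^ 2 ∂(gam n) := by
        rw [integral_add (i2.const_mul _) (i3.const_mul _), integral_const_mul, integral_const_mul,
          int_lw_sq, hw, mul_one]

theorem form_upper (hz : ∀ x, 0 < x → mu (zf x) = x) (hd : HD G M)
    (hp : ∀ t, (Mx M t).IsHermitian ∧ ∀ x ∈ spectrum ℝ (Mx M t), 0 < x)
    (hi : ∀ i j, Integrable (fun t => cfc zf (Mx M t) i j) (gam n)) {w : Fin n → ℝ}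
    (hw : w ⬝ᵥ w = 1) (c : ℝ) (hv : ∫ t, (wG w G t - c) ^ 2 ∂(gam n) ≤ mu 0 ^ 2) :
    w ⬝ᵥ ((Matrix.of fun i j => ∫ t, cfc zf (Mx M t) i j ∂(gam n)) *ᵥ w) ≤ 0 := by
  have hM : ∀ i j, Integrable (M i j) (gam n) := fun i j =>
    integrable_of_PG (hd.m i j).cont (hd.m i j).g
  have hA : ∀ t, Mx (fun i j t => cfc zf (Mx M t) i j) t = cfc zf (Mx M t) := fun t => rfl
  have h1 := int_qf (A := fun i j t => cfc zf (Mx M t) i j) hi w
  rw [← h1]
  have i1 := integrable_qf (A := fun i j t => cfc zf (Mx M t) i j) hi w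
  have i2 := integrable_qf hM w
  have m0 := mu_pos 0
  have h2 : ∫ t, w ⬝ᵥ (Mx (fun i j t => cfc zf (Mx M t) i j) t *ᵥ w) ∂(gam n) ≤
      ∫ t, ((mu 0 ^ 2)⁻¹ * (w ⬝ᵥ (Mx M t *ᵥ w)) - (mu 0)⁻¹) ∂(gam n) := by
    refine integral_mono i1 ((i2.const_mul _).sub (integrable_const _)) fun t => ?_
    have := qf_upper hz (hp t).1 (hp t).2 w
    rw [hw, mul_one] at this
    exact this
  rw [integral_sub (i2.const_mul _) (integrable_const _), integral_const_mul, int_M hd w] at h2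
  simp only [integral_const, measureReal_def, measure_univ, ENNReal.toReal_one, one_smul] at h2
  have hc : Continuous fun t => wG w G t - c := (c1_wG hd w).cont.sub continuous_const
  have hg : PG fun t => wG w G t - c := ((c1_wG hd w).sub (c1_const c)).g
  have h3 : ∫ t, lw w t * wG w G t ∂(gam n) = ∫ t, lw w t * (wG w G t - c) ∂(gam n) := by
    have i3 : Integrable (fun t => lw w t * wG w G t) (gam n) :=
      integrable_of_PG ((c1_lw w).cont.mul (c1_wG hd w).cont) ((c1_lw w).g.mul (c1_wG hd w).g)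
    have i4 : Integrable (fun t => lw w t * c) (gam n) :=
      (integrable_of_PG (c1_lw w).cont (c1_lw w).g).mul_const c
    simp_rw [mul_sub]
    rw [integral_sub i3 i4, integral_mul_const, int_lw_one, zero_mul, sub_zero]
  have h4 := young hc hg hw m0
  have h5 : 1 / (2 * mu 0) * ∫ t, (wG w G t - c) ^ 2 ∂(gam n) ≤ 1 / (2 * mu 0) * mu 0 ^ 2 :=
    mul_le_mul_of_nonneg_left hv (by positivity)
  have h6 : mu 0 / 2 + 1 / (2 * mu 0) * mu 0 ^ 2 = mu 0 := by field_simp; ring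
  have h7 : ∫ t, lw w t * wG w G t ∂(gam n) ≤ mu 0 := by rw [h3]; linarith
  have h8 : (mu 0 ^ 2)⁻¹ * ∫ t, lw w t * wG w G t ∂(gam n) ≤ (mu 0 ^ 2)⁻¹ * mu 0 :=
    mul_le_mul_of_nonneg_left h7 (by positivity)
  have h9 : (mu 0 ^ 2)⁻¹ * mu 0 = (mu 0)⁻¹ := by field_simp
  linarith

lemma cont_wV (h : MA G M N V) (w : Fin n → ℝ) :
    Continuous (wV w G V) ∧ PG (wV w G V) := by
  have e : wV w G V = fun x => ∑ k, w k * -∑ l, (pd l (N k l) x - x l * N k l x) := by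
    funext x
    unfold wV
    exact Finset.sum_congr rfl fun k _ => by rw [V_div h x k]
  rw [e]
  constructor
  · exact continuous_finsetSum _ fun k _ => continuous_const.mul (continuous_finsetSum _
      fun l _ => ((h.n1 k l).contp l).sub ((c1_coord l).cont.mul (h.n1 k l).cont)).neg
  · have h2 : (fun x : E n => ∑ k, w k * -∑ l, (pd l (N k l) x - x l * N k l x)) =
        fun x => ∑ k, (-w k) * ∑ l, (pd l (N k l) x - x l * N k l x) := by
      funext x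
      exact Finset.sum_congr rfl fun k _ => by ring
    rw [h2]
    exact PG.sum _ fun k _ => (pg_const _).mul (PG.sum _ fun l _ =>
      ((h.n1 k l).p l).sub ((pg_coord l).mul (h.n1 k l).g))

theorem form_lower (hz : ∀ x, 0 < x → mu (zf x) = x) (h : MA G M N V)
    (hp : ∀ t, (Mx M t).IsHermitian ∧ ∀ x ∈ spectrum ℝ (Mx M t), 0 < x)
    (hi : ∀ i j, Integrable (fun t => cfc zf (Mx M t) i j) (gam n)) {w : Fin n → ℝ}
    (hw : w ⬝ᵥ w = 1) (hv : ∫ t, wV w G V t ^ 2 ∂(gam n) < (mu 0 ^ 2)⁻¹) :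
    0 < w ⬝ᵥ ((Matrix.of fun i j => ∫ t, cfc zf (Mx M t) i j ∂(gam n)) *ᵥ w) := by
  have hN : ∀ i j, Integrable (N i j) (gam n) := fun i j =>
    integrable_of_PG (h.n1 i j).cont (h.n1 i j).g
  have h1 := int_qf (A := fun i j t => cfc zf (Mx M t) i j) hi w
  rw [← h1]
  have i1 := integrable_qf (A := fun i j t => cfc zf (Mx M t) i j) hi w
  have i2 := integrable_qf hN w
  have m0 := mu_pos 0
  have hNM : ∀ t, Mx N t * Mx M t = 1 := fun t => by
    ext i j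
    rw [Matrix.mul_apply, Matrix.one_apply]
    exact h.inv t i j
  have h2 : ∫ t, ((mu 0)⁻¹ - w ⬝ᵥ (Mx N t *ᵥ w)) ∂(gam n) ≤
      ∫ t, w ⬝ᵥ (Mx (fun i j t => cfc zf (Mx M t) i j) t *ᵥ w) ∂(gam n) := by
    refine integral_mono ((integrable_const _).sub i2) i1 fun t => ?_
    have := qf_lower hz (hp t).1 (hNM t) (hp t).2 w
    rw [hw, mul_one] at this
    exact this
  rw [integral_sub (integrable_const _) i2, int_N h w] at h2
  simp only [integral_const, measureReal_def, measure_univ, ENNReal.toReal_one, one_smul] at h2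
  obtain ⟨hc, hg⟩ := cont_wV h w
  have h4 := young hc hg hw (inv_pos.2 m0)
  have h5 : 1 / (2 * (mu 0)⁻¹) * ∫ t, wV w G V t ^ 2 ∂(gam n) <
      1 / (2 * (mu 0)⁻¹) * (mu 0 ^ 2)⁻¹ :=
    mul_lt_mul_of_pos_left hv (by positivity)
  have h6 : (mu 0)⁻¹ / 2 + 1 / (2 * (mu 0)⁻¹) * (mu 0 ^ 2)⁻¹ = (mu 0)⁻¹ := by
    field_simp
    ring
  linarith

end

/-- `∫ (w·x - c)²` on the density side -/
lemma push_var {G : Fin n → E n → ℝ} {M : Fin n → Fin n → E n → ℝ} {f : (Fin n → ℝ) → ℝ}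
    (h : ChVar56.Push G M f) (w : Fin n → ℝ) (c : ℝ) :
    ∫ t, (wG w G t - c) ^ 2 ∂(gam n) = ∫ x, (w ⬝ᵥ x - c) ^ 2 * f x :=
  (h.integral fun x => (w ⬝ᵥ x - c) ^ 2).symm

/-- the derivative of `V` in direction `w`, at a point of `Fin n → ℝ` -/
def dV (w : Fin n → ℝ) (V : E n → ℝ) (x : Fin n → ℝ) : ℝ :=
  ∑ k, w k * pd k V (WithLp.toLp 2 x)

lemma push_fisher {G : Fin n → E n → ℝ} {M : Fin n → Fin n → E n → ℝ} {f : (Fin n → ℝ) → ℝ}
    (h : ChVar56.Push G M f) (w : Fin n → ℝ) (V : E n → ℝ) :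
    ∫ t, wV w G V t ^ 2 ∂(gam n) = ∫ x, dV w V x ^ 2 * f x := by
  rw [h.integral fun x => dV w V x ^ 2]
  refine integral_congr_ae (ae_of_all _ fun t => ?_)
  have : (WithLp.toLp 2 (ChVar56.Gp G t) : E n) = Gv G t := by
    ext i; rw [Gv_apply]; rfl
  simp only [dV, wV, this]

/-- everything about one member of the family -/
structure Sol (P : E n → ℝ) (lam lo hi K : ℝ) (v : E n → ℝ) (G : E n → E n) : Prop where
  sl : Sl P lam lo hi K v
  inv : IsInv v G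
  ma : MA (Gi G) (Mi v G) (Ni v G) (Vl P v lam)
  push : ChVar56.Push (Gi G) (Mi v G) (den P v lam)
  wpsd : ∀ x (z : Fin n → ℝ), 0 ≤ ∑ i, ∑ j, MA.W (Gi G) (Mi v G) (Vl P v lam) i j x * z i * z j

theorem exists_sol (h : Br.ExiU n) (c C2 C3 M0 M1 R0 : ℝ) : ∃ lo hi K : ℝ, 0 < lo ∧ lo ≤ hi ∧
    ∀ P : E n → ℝ, Br.PCB P c C2 C3 M0 M1 R0 → ∀ lam : ℝ, 0 < lam → lam ≤ 1 → lam * hi ≤ c →
      ∃ (v : E n → ℝ) (G : E n → E n), Sol P lam lo hi K v G := by
  obtain ⟨lo, hi, K, hlo, hlohi, H⟩ := exists_Sl h c C2 C3 M0 M1 R0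
  refine ⟨lo, hi, K, hlo, hlohi, fun P hP lam h0 h1 h2 => ?_⟩
  obtain ⟨v, hv⟩ := H P hP lam h0 h1
  obtain ⟨G, hG, hma, _, hW, hpush⟩ := bind hP hv.nice hlo hlohi hv.ell h0.le h2 hv.eq
  exact ⟨v, G, hv, hG, hma, hpush, hW⟩

section
variable {P v : E n → ℝ} {lam lo hi K : ℝ} {G : E n → E n}

lemma Sol.pos (h : Sol P lam lo hi K v G) (hlo : 0 < lo) (hlohi : lo ≤ hi) (t : E n) :
    (Mx (Mi v G) t).IsHermitian ∧ ∀ x ∈ spectrum ℝ (Mx (Mi v G) t), 0 < x := by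
  have he := h.sl.ellM hlo hlohi G t
  refine ⟨ell_herm he, fun x hx => ?_⟩
  have := (ell_spec he hx).1
  have h2 : 0 < 1 / hi := by have := hlo.trans_le hlohi; positivity
  linarith

lemma zf_contOn' (hlo : 0 < lo) (hlohi : lo ≤ hi) :
    ContinuousOn ScalE688.zf (Icc (1 / hi) (1 / lo)) := by
  refine ScalE688.zf_contOn.mono fun x hx => ?_
  have h2 : 0 < 1 / hi := by have := hlo.trans_le hlohi; positivity
  exact lt_of_lt_of_le h2 hx.1

lemma Sol.int_cfc (h : Sol P lam lo hi K v G) (hlo : 0 < lo) (hlohi : lo ≤ hi) (i j : Fin n) :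
    Integrable (fun t => cfc ScalE688.zf (Mx (Mi v G) t) i j) (gam n) := by
  obtain ⟨C, hC⟩ := isCompact_Icc.exists_bound_of_continuousOn (zf_contOn' hlo hlohi)
  have hcont := h.sl.cont_cfc hlo hlohi h.inv (zf_contOn' hlo hlohi) i j
  refine Integrable.of_bound (C := C) hcont.aestronglyMeasurable (Filter.Eventually.of_forall
    fun t => ?_)
  rw [Real.norm_eq_abs]
  exact h.sl.cfc_bd hlo hlohi G (fun x hx => by
    have := hC x hx
    rwa [Real.norm_eq_abs] at this) t i j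

end

end Crest.Agent.R253.Norm944
end
end

-- ▼ part R253/NormD_944

/-!
Row 253, normalisation (helper944), part D: the zero of `A ↦ E z(M_A)` for a family of data.
-/

set_option autoImplicit false

open MeasureTheory ProbabilityTheory Matrix Set
open scoped Real Topology

noncomputable section

namespace Crest.Agent.R253.Norm944

open Crest.Agent.R253.Mills37 Crest.Agent.R253.Meh74 Crest.Agent.R253.SpecField321
open Crest.Agent.R238.Gap Crest.Agent.R238.GapPoinc Crest.Agent.R238.GapPc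
open Crest.Agent.R253.Dual441 Crest.Agent.R253.NormCont666

variable {n : ℕ}

lemma unit_scale {ι : Type*} [Fintype ι] {A T : Matrix ι ι ℝ} {a : ℝ} {v : ι → ℝ} (hv : v ≠ 0)
    (hA : A *ᵥ v = a • v) : ∃ (w : ι → ℝ) (r : ℝ), 0 < r ∧ w ⬝ᵥ w = 1 ∧ A *ᵥ w = a • w ∧
      v ⬝ᵥ (T *ᵥ v) = r * (w ⬝ᵥ (T *ᵥ w)) := by
  have h0 : 0 < v ⬝ᵥ v := by
    have h1 : 0 ≤ v ⬝ᵥ v := Finset.sum_nonneg fun i _ => mul_self_nonneg _
    exact lt_of_le_of_ne h1 fun h => hv (dotProduct_self_eq_zero.1 h.symm)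
  set s := Real.sqrt (v ⬝ᵥ v) with hs
  have hs0 : 0 < s := Real.sqrt_pos.2 h0
  have hss : s * s = v ⬝ᵥ v := Real.mul_self_sqrt h0.le
  refine ⟨s⁻¹ • v, v ⬝ᵥ v, h0, ?_, ?_, ?_⟩
  · rw [smul_dotProduct, dotProduct_smul, smul_eq_mul, smul_eq_mul, ← hss]
    field_simp
  · rw [mulVec_smul, hA, smul_comm]
  · rw [mulVec_smul, smul_dotProduct, dotProduct_smul, smul_eq_mul, smul_eq_mul, ← hss]
    field_simp

/-- **zero of `A ↦ E z(M_A)`** -/
theorem exists_zero_family {d R : ℝ} (hdR : d < R) {lam lo hi K : ℝ}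
    (hlam : 0 < lam) (hlo : 0 < lo) (hlohi : lo ≤ hi) (Pf : Matrix (Fin n) (Fin n) ℝ → E n → ℝ)
    (hex : ∀ A ∈ Box (Fin n) d R, ∃ (v : E n → ℝ) (G : E n → E n), Sol (Pf A) lam lo hi K v G)
    (hPc : ∀ x₀ ∈ toM ⁻¹' (Box (Fin n) d R), ∀ ε : ℝ, 0 < ε →
      ∀ᶠ x in 𝓝[toM ⁻¹' (Box (Fin n) d R)] x₀, ∀ y, |Pf (toM x) y - Pf (toM x₀) y| ≤ ε)
    (hbot : ∀ A ∈ Box (Fin n) d R, ∀ (v : E n → ℝ) (G : E n → E n), Sol (Pf A) lam lo hi K v G →
      ∀ w : Fin n → ℝ, w ⬝ᵥ w = 1 → A *ᵥ w = d • w →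
        ∃ c : ℝ, ∫ x, (w ⬝ᵥ x - c) ^ 2 * den (Pf A) v lam x ≤ mu 0 ^ 2)
    (htop : ∀ A ∈ Box (Fin n) d R, ∀ (v : E n → ℝ) (G : E n → E n), Sol (Pf A) lam lo hi K v G →
      ∀ w : Fin n → ℝ, w ⬝ᵥ w = 1 → A *ᵥ w = R • w →
        ∫ x, dV w (Vl (Pf A) v lam) x ^ 2 * den (Pf A) v lam x < (mu 0 ^ 2)⁻¹) :
    ∃ A ∈ Box (Fin n) d R, ∃ (v : E n → ℝ) (G : E n → E n), Sol (Pf A) lam lo hi K v G ∧
      ∀ i j, ∫ t, cfc ScalE688.zf (Mx (Mi v G) t) i j ∂(gam n) = 0 := by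
  classical
  have hex' : ∀ A : Matrix (Fin n) (Fin n) ℝ, ∃ (v : E n → ℝ) (G : E n → E n),
      A ∈ Box (Fin n) d R → Sol (Pf A) lam lo hi K v G := by
    intro A
    by_cases hA : A ∈ Box (Fin n) d R
    · obtain ⟨v, G, h⟩ := hex A hA
      exact ⟨v, G, fun _ => h⟩
    · exact ⟨fun _ => 0, fun x => x, fun h => absurd h hA⟩
  choose vf Gf hS using hex'
  set T : Matrix (Fin n) (Fin n) ℝ → Matrix (Fin n) (Fin n) ℝ := fun A =>
    Matrix.of fun i j => ∫ t, cfc ScalE688.zf (Mx (Mi (vf A) (Gf A)) t) i j ∂(gam n) with hT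
  have hz : ∀ x, 0 < x → mu (ScalE688.zf x) = x := fun x hx => ScalE688.mu_zf hx
  obtain ⟨A, hA, hA0⟩ := exists_zero (ι := Fin n) d R hdR T
    (fun i j => continuousOn_int_cfc hlam hlo hlohi (S := toM ⁻¹' (Box (Fin n) d R))
      (Pf := fun x => Pf (toM x)) (vf := fun x => vf (toM x)) (Gf := fun x => Gf (toM x))
      (fun x hx => (hS _ hx).sl) (fun x hx => (hS _ hx).inv) hPc (zf_contOn' hlo hlohi) i j)
    (fun A hA i j => by
      have hsym : ∀ t, cfc ScalE688.zf (Mx (Mi (vf A) (Gf A)) t) i j =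
          cfc ScalE688.zf (Mx (Mi (vf A) (Gf A)) t) j i := fun t => by
        have h1 : (cfc ScalE688.zf (Mx (Mi (vf A) (Gf A)) t)).IsHermitian :=
          cfc_predicate ScalE688.zf _
        have := h1.apply j i
        simpa using this
      simp only [hT, Matrix.of_apply, hsym])
    (fun A hA v hv0 hv => by
      obtain ⟨w, r, hr, hw, hw2, hw3⟩ := unit_scale (T := T A) hv0 hv
      rw [hw3]
      refine mul_pos hr ?_
      have h := hS A hA
      refine form_lower hz h.ma (fun t => h.pos hlo hlohi t)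
        (fun i j => h.int_cfc hlo hlohi i j) hw ?_
      rw [push_fisher h.push]
      exact htop A hA _ _ h w hw hw2)
    (fun A hA v hv0 hv => by
      obtain ⟨w, r, hr, hw, hw2, hw3⟩ := unit_scale (T := T A) hv0 hv
      rw [hw3]
      refine mul_nonpos_of_nonneg_of_nonpos hr.le ?_
      have h := hS A hA
      obtain ⟨c, hc⟩ := hbot A hA _ _ h w hw hw2
      refine form_upper hz h.ma.hd (fun t => h.pos hlo hlohi t)
        (fun i j => h.int_cfc hlo hlohi i j) hw c ?_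
      rw [push_var h.push]
      exact hc)
  refine ⟨A, hA, vf A, Gf A, hS A hA, fun i j => ?_⟩
  have := congrFun (congrFun hA0 i) j
  exact this

/-! ### the inverse matrix as a continuous linear map -/

/-- `x ↦ A⁻¹ x` -/
def BA (A : Matrix (Fin n) (Fin n) ℝ) : E n →L[ℝ] E n :=
  Matrix.toEuclideanCLM (𝕜 := ℝ) (n := Fin n) A⁻¹

lemma BA_apply (A : Matrix (Fin n) (Fin n) ℝ) (x : E n) :
    BA A x = WithLp.toLp 2 (A⁻¹ *ᵥ (WithLp.ofLp x)) := rfl

lemma norm_toLp_sq (x : Fin n → ℝ) : ‖(WithLp.toLp 2 x : E n)‖ ^ 2 = x ⬝ᵥ x := by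
  rw [EuclideanSpace.norm_sq_eq]
  simp only [Real.norm_eq_abs, sq_abs, dotProduct]
  exact Finset.sum_congr rfl fun i _ => by ring

section
variable {d R : ℝ} {A : Matrix (Fin n) (Fin n) ℝ}

lemma Box.lower (hA : A ∈ Box (Fin n) d R) (hd : 0 < d) (y : Fin n → ℝ) :
    d ^ 2 * (y ⬝ᵥ y) ≤ (A *ᵥ y) ⬝ᵥ (A *ᵥ y) := by
  have h1 := hA.2.1 y
  -- `|d y - A y|² ≥ 0` and `y·Ay ≥ d |y|²`
  have h2 : 0 ≤ (A *ᵥ y - d • y) ⬝ᵥ (A *ᵥ y - d • y) :=
    Finset.sum_nonneg fun i _ => mul_self_nonneg _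
  rw [sub_dotProduct, dotProduct_sub, dotProduct_sub, smul_dotProduct, smul_dotProduct,
    dotProduct_smul, dotProduct_smul, dotProduct_comm (A *ᵥ y) y] at h2
  simp only [smul_eq_mul] at h2
  nlinarith

lemma Box.upper (hA : A ∈ Box (Fin n) d R) (hd : 0 < d) (hdR : d < R) (y : Fin n → ℝ) :
    (A *ᵥ y) ⬝ᵥ (A *ᵥ y) ≤ R ^ 2 * (y ⬝ᵥ y) := by
  have hp : ∀ w : Fin n → ℝ, 0 ≤ w ⬝ᵥ (A *ᵥ w) := fun w => by
    have h1 := hA.2.1 w
    have h2 : 0 ≤ w ⬝ᵥ w := Finset.sum_nonneg fun i _ => mul_self_nonneg _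
    have := mul_nonneg hd.le h2
    linarith
  have hR : 0 < R := hd.trans hdR
  have hyy : 0 ≤ y ⬝ᵥ y := Finset.sum_nonneg fun i _ => mul_self_nonneg _
  set q := y ⬝ᵥ (A *ᵥ y) with hq
  have hq0 := hp y
  have hqR : q ≤ R * (y ⬝ᵥ y) := hA.2.2 y
  set b := (A *ᵥ y) ⬝ᵥ (A *ᵥ y) with hb
  have hb0 : 0 ≤ b := Finset.sum_nonneg fun i _ => mul_self_nonneg _
  have hbR : (A *ᵥ y) ⬝ᵥ (A *ᵥ (A *ᵥ y)) ≤ R * b := hA.2.2 _
  rcases eq_or_lt_of_le hq0 with h0 | h0
  · have h1 : A *ᵥ y = 0 := psd_zero hA.1 hp (le_of_eq h0.symm)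
    have : b = 0 := by rw [hb, h1]; simp
    rw [this]; positivity
  · have h1 := psd_cs hA.1 hp y (ε := q⁻¹) (by positivity) (by
      rw [← hq, inv_mul_cancel₀ h0.ne']) (A *ᵥ y)
    rw [← hb] at h1
    have h2 : b ^ 2 ≤ q * (R * b) := by
      have h3 : q⁻¹ * b ^ 2 ≤ R * b := h1.trans hbR
      rwa [inv_mul_le_iff₀ h0] at h3
    rcases eq_or_lt_of_le hb0 with h4 | h4
    · rw [← h4]; positivity
    · have h5 : b ≤ q * R := by
        by_contra hcon
        push Not at hcon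
        nlinarith [mul_lt_mul_of_pos_right hcon h4]
      nlinarith [mul_le_mul_of_nonneg_right hqR hR.le]

lemma Box.unit (hA : A ∈ Box (Fin n) d R) (hd : 0 < d) : IsUnit A.det := by
  have hinj : Function.Injective A.mulVec := by
    intro a b hab
    have h1 : A *ᵥ (a - b) = 0 := by rw [mulVec_sub, sub_eq_zero]; exact hab
    have h2 := Box.lower hA hd (a - b)
    rw [h1, dotProduct_zero] at h2
    have h3 : 0 ≤ (a - b) ⬝ᵥ (a - b) := Finset.sum_nonneg fun i _ => mul_self_nonneg _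
    have h4 : (a - b) ⬝ᵥ (a - b) = 0 := by
      have : 0 < d ^ 2 := by positivity
      nlinarith
    exact sub_eq_zero.1 (dotProduct_self_eq_zero.1 h4)
  exact (Matrix.isUnit_iff_isUnit_det _).1 (Matrix.mulVec_injective_iff_isUnit.1 hinj)

/-- `A⁻¹` is between `1/R` and `1/d` -/
lemma BA_mem (hA : A ∈ Box (Fin n) d R) (hd : 0 < d) (hdR : d < R) (x : E n) :
    1 / R * ‖x‖ ≤ ‖BA A x‖ ∧ ‖BA A x‖ ≤ 1 / d * ‖x‖ := by
  have hR : 0 < R := hd.trans hdR
  have hu := Box.unit hA hd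
  set y : Fin n → ℝ := A⁻¹ *ᵥ (WithLp.ofLp x) with hy
  have hAy : A *ᵥ y = WithLp.ofLp x := by
    rw [hy, mulVec_mulVec, Matrix.mul_nonsing_inv _ hu, one_mulVec]
  have e1 : ‖BA A x‖ ^ 2 = y ⬝ᵥ y := by rw [BA_apply, norm_toLp_sq]
  have e2 : ‖x‖ ^ 2 = (A *ᵥ y) ⬝ᵥ (A *ᵥ y) := by
    rw [hAy, ← norm_toLp_sq]
  have h1 := Box.lower hA hd y
  have h2 := Box.upper hA hd hdR y
  rw [← e1, ← e2] at h1 h2
  constructor
  · rw [one_div, inv_mul_le_iff₀ hR]
    refine le_of_sq_le_sq ?_ (by positivity)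
    rw [mul_pow]; exact h2
  · rw [one_div, ← div_eq_inv_mul, le_div_iff₀' hd]
    refine le_of_sq_le_sq ?_ (by positivity)
    rw [mul_pow]; exact h1

end

/-- continuity of `A ↦ A⁻¹` as a linear map, on the box -/
lemma continuousOn_BA {d R : ℝ} (hd : 0 < d) :
    ContinuousOn (fun x : EM (Fin n) => BA (toM x)) (toM ⁻¹' (Box (Fin n) d R)) := by
  have h1 : Continuous fun x : EM (Fin n) => toM x := by
    refine continuous_pi fun i => continuous_pi fun j => ?_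
    unfold toM; fun_prop
  have h2 : ContinuousOn (fun x : EM (Fin n) => (toM x)⁻¹) (toM ⁻¹' (Box (Fin n) d R)) := by
    intro x hx
    have hu := Box.unit hx hd
    have h3 : ContinuousAt Ring.inverse (toM x).det :=
      NormedRing.inverse_continuousAt hu.unit
    exact ((continuousAt_matrix_inv _ h3).comp h1.continuousAt).continuousWithinAt
  have h4 : Continuous (fun M : Matrix (Fin n) (Fin n) ℝ =>
      (Matrix.toEuclideanCLM (𝕜 := ℝ) (n := Fin n) M : E n →L[ℝ] E n)) := by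
    exact LinearMap.continuous_of_finiteDimensional
      ((Matrix.toEuclideanCLM (𝕜 := ℝ) (n := Fin n)).toAlgEquiv.toLinearMap)
  exact h4.comp_continuousOn h2

end Crest.Agent.R253.Norm944
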