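import Crest.Agent.R253.DensA_970
import Crest.Agent.R253.LimLam_140
import Crest.Agent.R253.BrDefs_505
import Crest.Agent.R253.LimSeq_140
import Crest.Agent.R253.Bind_441
import Crest.Agent.R238.HBMat
import Crest.Agent.R253.BrPC_505
import Crest.Agent.R238.MaxPOY
import Crest.Agent.R253.NormD_944
import Crest.Agent.R253.FinDefs_505
import Crest.Agent.R253.Fin_505
import Crest.Agent.R253.Red_505

-- ▼ part R253/DensB_970
section

/-!
# R253: dense class, part B (helper970)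

The Lipschitz regularisation `Lf f N x = inf_y (- log f y + N ‖x - y‖)` of `- log f`, for a
log-concave density `f`: `N`-Lipschitz, convex, `exp (-Lf)` has the exponential majorant of `f`,
and `exp (-Lf f (N k)) → f` a.e. when `N k → ∞`.
-/

set_option autoImplicit false
open MeasureTheory Set Filter Topology
open scoped ENNReal NNReal ContDiff

namespace Crest.Agent.R253.Dens970

open Crest.Agent.R253.Cpt435

variable {m : ℕ}

/-- Lipschitz regularisation of `- log f` -/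
noncomputable def Lf (f : (Fin m → ℝ) → ℝ) (N : ℝ) (x : Fin m → ℝ) : ℝ :=
  ⨅ y : {y : Fin m → ℝ // 0 < f y}, (-Real.log (f y) + N * ‖x - y‖)

section

variable {f : (Fin m → ℝ) → ℝ} (hf : LCD f) {M N : ℝ}

include hf

theorem exists_pos : ∃ y, 0 < f y := by
  obtain ⟨z, r, δ, hr, hδ, hb⟩ := hf.exists_ball
  exact ⟨z, lt_of_lt_of_le hδ (hb z (Metric.mem_ball_self hr))⟩

theorem bddBelow_Lf (hM : ∀ x, f x ≤ M) (hN : 0 ≤ N) (x : Fin m → ℝ) :
    BddBelow (range fun y : {y : Fin m → ℝ // 0 < f y} => -Real.log (f y) + N * ‖x - y‖) := by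
  refine ⟨-Real.log M, ?_⟩
  rintro _ ⟨y, rfl⟩
  have h1 : Real.log (f y) ≤ Real.log M := Real.log_le_log y.2 (hM y)
  have h2 : 0 ≤ N * ‖x - y‖ := by positivity
  simp only
  linarith

theorem Lf_le (hM : ∀ x, f x ≤ M) (hN : 0 ≤ N) (x : Fin m → ℝ) {y : Fin m → ℝ} (hy : 0 < f y) :
    Lf f N x ≤ -Real.log (f y) + N * ‖x - y‖ :=
  ciInf_le (bddBelow_Lf hf hM hN x) (⟨y, hy⟩ : {y : Fin m → ℝ // 0 < f y})

theorem le_Lf {a : ℝ} (x : Fin m → ℝ)
    (h : ∀ y, 0 < f y → a ≤ -Real.log (f y) + N * ‖x - y‖) : a ≤ Lf f N x := by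
  obtain ⟨y0, hy0⟩ := exists_pos hf
  have : Nonempty {y : Fin m → ℝ // 0 < f y} := ⟨⟨y0, hy0⟩⟩
  exact le_ciInf fun y => h y y.2

theorem exists_lt_Lf {a : ℝ} (x : Fin m → ℝ) (h : Lf f N x < a) :
    ∃ y, 0 < f y ∧ -Real.log (f y) + N * ‖x - y‖ < a := by
  obtain ⟨y0, hy0⟩ := exists_pos hf
  have : Nonempty {y : Fin m → ℝ // 0 < f y} := ⟨⟨y0, hy0⟩⟩
  obtain ⟨y, hy⟩ := exists_lt_of_ciInf_lt h
  exact ⟨y, y.2, hy⟩

theorem Lf_lip (hM : ∀ x, f x ≤ M) (hN : 0 ≤ N) (x x' : Fin m → ℝ) :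
    |Lf f N x - Lf f N x'| ≤ N * ‖x - x'‖ := by
  have key : ∀ x x' : Fin m → ℝ, Lf f N x ≤ Lf f N x' + N * ‖x - x'‖ := by
    intro x x'
    rw [← sub_le_iff_le_add]
    refine le_Lf hf x' fun y hy => ?_
    have h1 := Lf_le hf hM hN x hy
    have h2 : ‖x - y‖ ≤ ‖x - x'‖ + ‖x' - y‖ := norm_sub_le_norm_sub_add_norm_sub _ _ _
    have h3 : N * ‖x - y‖ ≤ N * (‖x - x'‖ + ‖x' - y‖) := by gcongr
    linarith [mul_add N ‖x - x'‖ ‖x' - y‖]
  rw [abs_le]
  have h1 := key x x'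
  have h2 := key x' x
  rw [norm_sub_rev] at h2
  constructor <;> linarith

theorem Lf_convex (hM : ∀ x, f x ≤ M) (hN : 0 ≤ N) : ConvexOn ℝ univ (Lf f N) := by
  refine ⟨convex_univ, fun x _ x' _ s t hs ht hst => ?_⟩
  rcases hs.lt_or_eq with hs' | hs'
  swap
  · subst hs'
    simp only [zero_add] at hst
    subst hst
    simp
  rcases ht.lt_or_eq with ht' | ht'
  swap
  · subst ht'
    simp only [add_zero] at hst
    subst hst
    simp
  simp only [smul_eq_mul]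
  refine le_of_forall_pos_le_add fun e he => ?_
  obtain ⟨y, hy, h1⟩ := exists_lt_Lf hf x (a := Lf f N x + e) (N := N) (by linarith)
  obtain ⟨y', hy', h2⟩ := exists_lt_Lf hf x' (a := Lf f N x' + e) (N := N) (by linarith)
  have hpos : 0 < f (s • y + t • y') :=
    lt_of_lt_of_le (by positivity) (hf.logc y y' s t hs' ht' hst)
  have h3 := Lf_le hf hM hN (s • x + t • x') hpos
  have h4 : s * Real.log (f y) + t * Real.log (f y') ≤ Real.log (f (s • y + t • y')) := by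
    have h5 := Real.log_le_log (by positivity) (hf.logc y y' s t hs' ht' hst)
    rwa [Real.log_mul (by positivity) (by positivity), Real.log_rpow hy, Real.log_rpow hy'] at h5
  have h5 : ‖s • x + t • x' - (s • y + t • y')‖ ≤ s * ‖x - y‖ + t * ‖x' - y'‖ := by
    have : s • x + t • x' - (s • y + t • y') = s • (x - y) + t • (x' - y') := by
      rw [smul_sub, smul_sub]; abel
    rw [this]
    refine (norm_add_le _ _).trans ?_
    rw [norm_smul, norm_smul, Real.norm_of_nonneg hs, Real.norm_of_nonneg ht]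
  have h6 : N * ‖s • x + t • x' - (s • y + t • y')‖ ≤ N * (s * ‖x - y‖ + t * ‖x' - y'‖) := by
    gcongr
  have h7 : s * (-Real.log (f y) + N * ‖x - y‖) ≤ s * (Lf f N x + e) := by gcongr
  have h8 : t * (-Real.log (f y') + N * ‖x' - y'‖) ≤ t * (Lf f N x' + e) := by gcongr
  have h9 : s * e + t * e = e := by rw [← add_mul, hst, one_mul]
  nlinarith [h3, h4, h5, h6, h7, h8, h9]

theorem Lf_lower (hM : ∀ x, f x ≤ M) (hN : 0 ≤ N) (x : Fin m → ℝ) : -Real.log M ≤ Lf f N x := by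
  refine le_Lf hf x fun y hy => ?_
  have h1 : Real.log (f y) ≤ Real.log M := Real.log_le_log hy (hM y)
  have h2 : 0 ≤ N * ‖x - y‖ := by positivity
  linarith

/-- the exponential majorant is kept -/
theorem exp_Lf_le {C c : ℝ} (hC : 0 < C) (hc : 0 ≤ c)
    (hb : ∀ x, f x ≤ C * Real.exp (-c * ‖x‖)) (hN : c ≤ N) (x : Fin m → ℝ) :
    Real.exp (-Lf f N x) ≤ C * Real.exp (-c * ‖x‖) := by
  have h1 : -Real.log C + c * ‖x‖ ≤ Lf f N x := by
    refine le_Lf hf x fun y hy => ?_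
    have h2 : Real.log (f y) ≤ Real.log C + -c * ‖y‖ := by
      have h3 := Real.log_le_log hy (hb y)
      rwa [Real.log_mul hC.ne' (Real.exp_pos _).ne', Real.log_exp] at h3
    have h4 : ‖x‖ ≤ ‖x - y‖ + ‖y‖ := by
      have := norm_add_le (x - y) y; rwa [sub_add_cancel] at this
    have h5 : c * ‖x‖ ≤ c * (‖x - y‖ + ‖y‖) := by gcongr
    have h6 : c * ‖x - y‖ ≤ N * ‖x - y‖ := by gcongr
    nlinarith
  calc Real.exp (-Lf f N x) ≤ Real.exp (Real.log C + -c * ‖x‖) := by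
        apply Real.exp_le_exp.mpr; linarith
    _ = C * Real.exp (-c * ‖x‖) := by rw [Real.exp_add, Real.exp_log hC]

/-- `f` is continuous off the frontier of its support -/
theorem continuousAt_off_frontier {x : Fin m → ℝ} (hx : x ∉ frontier {x | 0 < f x}) :
    ContinuousAt f x := by
  have hconv := hf.logc.convex_pos
  by_cases h1 : x ∈ interior {x | 0 < f x}
  · have h2 := hf.logc.concaveOn_log
    have h3 : ContinuousOn (fun x => Real.log (f x)) (interior {x | 0 < f x}) :=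
      h2.continuousOn_interior
    have h4 : ContinuousAt (fun x => Real.log (f x)) x := h3.continuousAt (isOpen_interior.mem_nhds h1)
    have h5 : ContinuousAt (fun x => Real.exp (Real.log (f x))) x := Real.continuous_exp.continuousAt.comp h4
    refine h5.congr ?_
    filter_upwards [isOpen_interior.mem_nhds h1] with y hy
    have h9 : y ∈ {x | 0 < f x} := interior_subset hy
    exact Real.exp_log h9
  · have h2 : x ∉ closure {x | 0 < f x} := fun h => hx ⟨h, h1⟩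
    have h3 : (closure {x | 0 < f x})ᶜ ∈ 𝓝 x := isClosed_closure.isOpen_compl.mem_nhds h2
    have h4 : f =ᶠ[𝓝 x] fun _ => 0 := by
      filter_upwards [h3] with y hy
      have : ¬ (0 < f y) := fun h => hy (subset_closure h)
      exact le_antisymm (not_lt.mp this) (hf.nonneg y)
    exact (continuousAt_congr h4).mpr continuousAt_const

theorem tendsto_exp_Lf {Nk : ℕ → ℝ} (hNk : Tendsto Nk atTop atTop) (hN0 : ∀ k, 0 ≤ Nk k)
    {x : Fin m → ℝ} (hx : ContinuousAt f x) :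
    Tendsto (fun k => Real.exp (-Lf f (Nk k) x)) atTop (𝓝 (f x)) := by
  obtain ⟨M, hM0, hM⟩ := hf.bddAbove
  rw [Metric.tendsto_atTop]
  intro e he
  -- lower bound: `f x ≤ exp (-Lf)`
  have hlow : ∀ k, f x ≤ Real.exp (-Lf f (Nk k) x) := by
    intro k
    rcases (hf.nonneg x).lt_or_eq with h | h
    · have h1 := Lf_le hf hM (hN0 k) x h
      simp only [sub_self, norm_zero, mul_zero, add_zero] at h1
      calc f x = Real.exp (Real.log (f x)) := (Real.exp_log h).symm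
        _ ≤ _ := Real.exp_le_exp.mpr (by linarith)
    · rw [← h]; exact (Real.exp_pos _).le
  -- upper bound
  rw [Metric.continuousAt_iff] at hx
  obtain ⟨r, hr, hb⟩ := hx (e / 2) (by positivity)
  have hlog : 0 < f x + e / 2 := by have := hf.nonneg x; linarith
  have hev : ∀ᶠ k in atTop, Real.log M - Real.log (f x + e / 2) ≤ Nk k * r := by
    have : Tendsto (fun k => Nk k * r) atTop atTop := hNk.atTop_mul_const hr
    exact this.eventually_ge_atTop _
  obtain ⟨k0, hk0⟩ := eventually_atTop.mp hev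
  refine ⟨k0, fun k hk => ?_⟩
  have h1 : -Real.log (f x + e / 2) ≤ Lf f (Nk k) x := by
    refine le_Lf hf x fun y hy => ?_
    by_cases hd : dist y x < r
    · have h2 := hb hd
      rw [Real.dist_eq, abs_lt] at h2
      have h3 : Real.log (f y) ≤ Real.log (f x + e / 2) := Real.log_le_log hy (by linarith)
      have h4 : 0 ≤ Nk k * ‖x - y‖ := mul_nonneg (hN0 k) (norm_nonneg _)
      linarith
    · have h2 : r ≤ ‖x - y‖ := by
        rw [← dist_eq_norm, dist_comm]; exact not_lt.mp hd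
      have h3 : Nk k * r ≤ Nk k * ‖x - y‖ := mul_le_mul_of_nonneg_left h2 (hN0 k)
      have h4 : Real.log (f y) ≤ Real.log M := Real.log_le_log hy (hM y)
      have h5 := hk0 k hk
      linarith
  have h2 : Real.exp (-Lf f (Nk k) x) ≤ f x + e / 2 := by
    calc Real.exp (-Lf f (Nk k) x) ≤ Real.exp (Real.log (f x + e / 2)) :=
          Real.exp_le_exp.mpr (by linarith)
      _ = _ := Real.exp_log hlog
  rw [Real.dist_eq, abs_lt]
  have h3 := hlow k
  constructor <;> linarith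

theorem ae_continuousAt : ∀ᵐ x, ContinuousAt f x := by
  have h1 : volume (frontier {x | 0 < f x}) = 0 := hf.logc.convex_pos.addHaar_frontier _
  have h2 : ∀ᵐ x, x ∉ frontier {x | 0 < f x} := by
    rw [ae_iff]; simpa using h1
  filter_upwards [h2] with x hx
  exact continuousAt_off_frontier hf hx

end

end Crest.Agent.R253.Dens970
end

-- ▼ part R253/DensC_970
section

/-!
# R253: dense class, part C (helper970)

The nice class `κ/2 |x|² + P`, `P ∈ C_c^∞`, with `D² ≥ ε`, is dense in the log-concave densities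
(a.e. convergence with a common exponential majorant; convergence of the moments, of the
covariance and of the entropy).
-/

set_option autoImplicit false
open MeasureTheory Set Filter Topology
open Crest.GeometryTopology.Isotropic
open scoped ENNReal NNReal ContDiff

namespace Crest.Agent.R253.Dens970

open Crest.Agent.R253.Cpt435

variable {m : ℕ}

/-- squared Euclidean norm -/
def sq (x : Fin m → ℝ) : ℝ := ∑ i, x i ^ 2

theorem sq_nonneg' (x : Fin m → ℝ) : 0 ≤ sq x := Finset.sum_nonneg fun i _ => sq_nonneg _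

theorem contDiff_sq : ContDiff ℝ ∞ (sq : (Fin m → ℝ) → ℝ) := by
  unfold sq
  exact ContDiff.sum fun i _ => (contDiff_apply ℝ ℝ i).pow 2

theorem sq_le (x : Fin m → ℝ) : sq x ≤ m * ‖x‖ ^ 2 := by
  unfold sq
  calc ∑ i, x i ^ 2 ≤ ∑ _i : Fin m, ‖x‖ ^ 2 := by
        refine Finset.sum_le_sum fun i _ => ?_
        rw [← sq_abs]
        have h := norm_le_pi_norm x i
        rw [Real.norm_eq_abs] at h
        exact pow_le_pow_left₀ (abs_nonneg _) h 2
    _ = m * ‖x‖ ^ 2 := by simp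

theorem norm_sq_le (x : Fin m → ℝ) : ‖x‖ ^ 2 ≤ sq x := by
  have h1 : ‖x‖ ≤ Real.sqrt (sq x) := by
    rw [pi_norm_le_iff_of_nonneg (Real.sqrt_nonneg _)]
    intro i
    rw [Real.norm_eq_abs, ← Real.sqrt_sq_eq_abs]
    apply Real.sqrt_le_sqrt
    unfold sq
    exact Finset.single_le_sum (f := fun i => x i ^ 2) (fun i _ => sq_nonneg _) (Finset.mem_univ i)
  calc ‖x‖ ^ 2 ≤ Real.sqrt (sq x) ^ 2 := pow_le_pow_left₀ (norm_nonneg _) h1 2
    _ = sq x := Real.sq_sqrt (sq_nonneg' x)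

theorem convexOn_sq : ConvexOn ℝ univ (sq : (Fin m → ℝ) → ℝ) := by
  refine ⟨convex_univ, fun x _ y _ s t hs ht hst => ?_⟩
  simp only [sq, smul_eq_mul, Finset.mul_sum, ← Finset.sum_add_distrib]
  refine Finset.sum_le_sum fun i _ => ?_
  simp only [Pi.add_apply, Pi.smul_apply, smul_eq_mul]
  have ht1 : t = 1 - s := by linarith
  subst ht1
  nlinarith [mul_nonneg hs ht, sq_nonneg (x i - y i), mul_nonneg (mul_nonneg hs ht) (sq_nonneg (x i - y i))]


/-- the nice class -/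
structure Nice (κ ε : ℝ) (P : (Fin m → ℝ) → ℝ) : Prop where
  hκ : 0 < κ
  hε : 0 < ε
  smooth : ContDiff ℝ ∞ P
  cpt : HasCompactSupport P
  conv : ConvexOn ℝ univ (fun x => κ / 2 * sq x + P x - ε / 2 * sq x)

/-- unnormalised density -/
noncomputable def wt (κ : ℝ) (P : (Fin m → ℝ) → ℝ) (x : Fin m → ℝ) : ℝ :=
  Real.exp (-(κ / 2 * sq x + P x))

/-- the density of the potential `κ/2 |x|² + P` -/
noncomputable def dens (κ : ℝ) (P : (Fin m → ℝ) → ℝ) (x : Fin m → ℝ) : ℝ :=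
  wt κ P x / ∫ y, wt κ P y

/-! ### convergence lemma -/

/-- dominated convergence for a common exponential majorant -/
theorem tendsto_int_maj {g : ℕ → (Fin m → ℝ) → ℝ} {f : (Fin m → ℝ) → ℝ} {C c : ℝ} (hc : 0 < c)
    (hm : ∀ k, Measurable (g k)) (h0 : ∀ k x, 0 ≤ g k x)
    (hb : ∀ k x, g k x ≤ C * Real.exp (-c * ‖x‖))
    (hae : ∀ᵐ x, Tendsto (fun k => g k x) atTop (𝓝 (f x))) {ψ : (Fin m → ℝ) → ℝ} (hψ : PB ψ) :
    Tendsto (fun k => ∫ x, ψ x * g k x) atTop (𝓝 (∫ x, ψ x * f x)) := by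
  obtain ⟨K, hK0, hK⟩ := hψ.exp_bound (c := c / 2) (by positivity)
  refine tendsto_integral_of_dominated_convergence
    (fun x => K * C * Real.exp (-(c / 2) * ‖x‖)) ?_ ?_ ?_ ?_
  · intro k; exact (hψ.meas.mul (hm k)).aestronglyMeasurable
  · exact (integrable_exp_neg_norm (by positivity)).const_mul _
  · intro k
    refine ae_of_all _ fun x => ?_
    rw [Real.norm_eq_abs, abs_mul, abs_of_nonneg (h0 k x)]
    have hK1 : 0 ≤ K * Real.exp (c / 2 * ‖x‖) := (abs_nonneg _).trans (hK x)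
    calc |ψ x| * g k x ≤ (K * Real.exp (c / 2 * ‖x‖)) * (C * Real.exp (-c * ‖x‖)) :=
          mul_le_mul (hK x) (hb k x) (h0 k x) hK1
      _ = K * C * (Real.exp (c / 2 * ‖x‖) * Real.exp (-c * ‖x‖)) := by ring
      _ = _ := by rw [← Real.exp_add]; ring_nf
  · filter_upwards [hae] with x h1
    exact h1.const_mul _

/-- convergence of the entropy for a common exponential majorant -/
theorem tendsto_ent_maj {g : ℕ → (Fin m → ℝ) → ℝ} {f : (Fin m → ℝ) → ℝ} {C c : ℝ} (hC : 0 < C)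
    (hc : 0 < c) (hm : ∀ k, Measurable (g k)) (h0 : ∀ k x, 0 ≤ g k x)
    (hb : ∀ k x, g k x ≤ C * Real.exp (-c * ‖x‖))
    (hae : ∀ᵐ x, Tendsto (fun k => g k x) atTop (𝓝 (f x))) :
    Tendsto (fun k => diffEntropy (g k)) atTop (𝓝 (diffEntropy f)) := by
  unfold diffEntropy
  refine Tendsto.neg ?_
  refine tendsto_integral_of_dominated_convergence
    (fun x => 2 * (1 + C) * Real.sqrt C * Real.exp (-(c / 2) * ‖x‖)) ?_ ?_ ?_ ?_
  · intro k
    exact ((hm k).mul (Real.measurable_log.comp (hm k))).aestronglyMeasurable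
  · exact (integrable_exp_neg_norm (by positivity)).const_mul _
  · intro k
    refine ae_of_all _ fun x => ?_
    rw [Real.norm_eq_abs]
    have h1 := hb k x
    have h2 : g k x ≤ C := h1.trans (by
      have : Real.exp (-c * ‖x‖) ≤ 1 := by
        rw [Real.exp_le_one_iff]; have := norm_nonneg x; nlinarith
      nlinarith)
    refine (abs_mul_log_le (h0 k x) h2).trans ?_
    rw [mul_assoc (2 * (1 + C))]
    gcongr
    calc Real.sqrt (g k x) ≤ Real.sqrt (C * Real.exp (-c * ‖x‖)) := Real.sqrt_le_sqrt h1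
      _ = _ := by
        rw [Real.sqrt_mul hC.le, Real.sqrt_eq_rpow (Real.exp _), ← Real.exp_mul]; ring_nf
  · filter_upwards [hae] with x h1
    exact (Real.continuous_mul_log.tendsto (f x)).comp h1

/-- convergence of the covariance for a common exponential majorant -/
theorem tendsto_cov_maj {g : ℕ → (Fin m → ℝ) → ℝ} {f : (Fin m → ℝ) → ℝ} {C c : ℝ} (hc : 0 < c)
    (hg : ∀ k, LCD (g k)) (hf : LCD f)
    (hb : ∀ k x, g k x ≤ C * Real.exp (-c * ‖x‖))
    (hae : ∀ᵐ x, Tendsto (fun k => g k x) atTop (𝓝 (f x))) (i j : Fin m) :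
    Tendsto (fun k => densCov (g k) i j) atTop (𝓝 (densCov f i j)) := by
  rw [densCov_raw hf]
  simp only [fun k => densCov_raw (hg k) i j]
  have T : ∀ ψ : (Fin m → ℝ) → ℝ, PB ψ → Tendsto (fun k => ex (g k) ψ) atTop (𝓝 (ex f ψ)) :=
    fun ψ hψ => tendsto_int_maj hc (fun k => (hg k).meas) (fun k => (hg k).nonneg) hb hae hψ
  exact (T _ ((PB.coord i).mul (PB.coord j))).sub ((T _ (PB.coord i)).mul (T _ (PB.coord j)))

/-! ### one step of the approximation -/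

/-- the quadratic completion of a smooth convex function of linear growth -/
theorem exists_complete {V : (Fin m → ℝ) → ℝ} (hV : ContDiff ℝ ∞ V) (hVc : ConvexOn ℝ univ V)
    {D K r ρ : ℝ} (hr : 0 < r) (hρ : 0 ≤ ρ) (hK : 0 ≤ K) (hlow : ∀ x, -D ≤ V x)
    (hup : ∀ x, V x ≤ D + K * ‖x‖) :
    ∃ (P : (Fin m → ℝ) → ℝ) (W : (Fin m → ℝ) → ℝ) (a : ℝ), Nice (2 * r) r P ∧
      (∀ x, (2 * r) / 2 * sq x + P x = W x + a) ∧ (∀ x, V x + r / 2 * sq x ≤ W x) ∧
      (∀ x, ‖x‖ ≤ ρ → W x = V x + r / 2 * sq x) := by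
  set c1 : ℝ := r / 2 * (m * ρ ^ 2) + |D| with hc1
  let A : (Fin m → ℝ) → ℝ := fun x => V x + r / 2 * sq x
  let B : (Fin m → ℝ) → ℝ := fun x => r * sq x - c1
  let W : (Fin m → ℝ) → ℝ := fun x => rmax (A x) (B x)
  set a : ℝ := c1 + 1 - th 1 with ha
  let P : (Fin m → ℝ) → ℝ := fun x => W x + a - r * sq x
  have hAs : ContDiff ℝ ∞ A := hV.add (contDiff_const.mul contDiff_sq)
  have hBs : ContDiff ℝ ∞ B := (contDiff_const.mul contDiff_sq).sub contDiff_const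
  have hWs : ContDiff ℝ ∞ W := by
    have : W = fun x => A x + th (B x - A x) := rfl
    rw [this]
    exact hAs.add (contDiff_th.comp (hBs.sub hAs))
  have hPs : ContDiff ℝ ∞ P := (hWs.add contDiff_const).sub (contDiff_const.mul contDiff_sq)
  -- far away
  set K1 : ℝ := |D| + D + c1 + 1 with hK1
  have hD := le_abs_self D
  have hD' := neg_abs_le D
  have hc10 : 0 ≤ c1 := by positivity
  have hK10 : 0 ≤ K1 := by linarith
  set R : ℝ := 1 + 2 / r * (K + K1) with hR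
  have hR1 : 1 ≤ R := by
    have : 0 ≤ 2 / r * (K + K1) := by positivity
    linarith
  have hfar : ∀ x : Fin m → ℝ, R ≤ ‖x‖ → P x = 0 := by
    intro x hx
    have h1 : A x + 1 ≤ B x := by
      have h2 := hup x
      have h3 := norm_sq_le x
      have h4 : (K + K1) ≤ r / 2 * ‖x‖ := by
        have : r / 2 * (2 / r * (K + K1)) = K + K1 := by field_simp
        have h5 : 2 / r * (K + K1) ≤ ‖x‖ := by linarith
        calc K + K1 = r / 2 * (2 / r * (K + K1)) := this.symm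
          _ ≤ r / 2 * ‖x‖ := by gcongr
      have h6 : 1 ≤ ‖x‖ := hR1.trans hx
      have h7 : (K + K1) * ‖x‖ ≤ r / 2 * ‖x‖ * ‖x‖ := by gcongr
      have h8 : K1 ≤ K1 * ‖x‖ := by nlinarith
      have h9 : r / 2 * ‖x‖ ^ 2 ≤ r / 2 * sq x := by gcongr
      simp only [A, B]
      nlinarith
    have h2 : W x = B x - 1 + th 1 := rmax_of_ge h1
    simp only [P, h2, B, ha]
    ring
  have hcpt : HasCompactSupport P := by
    apply HasCompactSupport.of_support_subset_isCompact (isCompact_closedBall (0 : Fin m → ℝ) R)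
    intro x hx
    rw [Metric.mem_closedBall, dist_zero_right]
    by_contra hcon
    exact hx (hfar x (not_le.mp hcon).le)
  have hconv : ConvexOn ℝ univ (fun x => (2 * r) / 2 * sq x + P x - r / 2 * sq x) := by
    have h1 : (fun x => (2 * r) / 2 * sq x + P x - r / 2 * sq x) =
        fun x : Fin m → ℝ => rmax (V x) (r / 2 * sq x - c1) + a := by
      funext x
      have h2 : W x = rmax (V x) (r / 2 * sq x - c1) + r / 2 * sq x := by
        rw [← rmax_add]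
        simp only [W, A, B]
        congr 1
        ring
      simp only [P, h2]
      ring
    rw [h1]
    have h3 : ConvexOn ℝ univ (fun x : Fin m → ℝ => r / 2 * sq x - c1) := by
      have h4 : ConvexOn ℝ univ (fun x : Fin m → ℝ => r / 2 * sq x) := by
        have := (convexOn_sq (m := m)).smul (c := r / 2) (by positivity)
        simpa [smul_eq_mul] using this
      have := h4.add (convexOn_const (-c1) convex_univ)
      refine this.congr fun x _ => ?_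
      simp [sub_eq_add_neg]
    exact (ConvexOn.rmax hVc h3).add (convexOn_const a convex_univ)
  refine ⟨P, W, a, ⟨by positivity, hr, hPs, hcpt, hconv⟩, fun x => ?_, fun x => le_rmax _ _,
    fun x hx => ?_⟩
  · simp only [P]; ring
  · have h1 : B x ≤ A x := by
      have h2 := hlow x
      have h3 : sq x ≤ m * ρ ^ 2 := (sq_le x).trans (by gcongr)
      have h4 : r / 2 * sq x ≤ r / 2 * (m * ρ ^ 2) := by gcongr
      simp only [A, B, hc1]
      linarith
    exact rmax_of_le h1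

end Crest.Agent.R253.Dens970
end

-- ▼ part R253/DensD_970
section

/-!
# R253: dense class, part D (helper970) : the density theorem
-/

set_option autoImplicit false
open MeasureTheory Set Filter Topology
open Crest.GeometryTopology.Isotropic
open scoped ENNReal NNReal ContDiff

namespace Crest.Agent.R253.Dens970

open Crest.Agent.R253.Cpt435

variable {m : ℕ}

theorem Nice.convexOn {κ ε : ℝ} {P : (Fin m → ℝ) → ℝ} (h : Nice κ ε P) :
    ConvexOn ℝ univ (fun x => κ / 2 * sq x + P x) := by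
  have h1 : ConvexOn ℝ univ (fun x : Fin m → ℝ => ε / 2 * sq x) := by
    have := (convexOn_sq (m := m)).smul (c := ε / 2) (by have := h.hε; positivity)
    simpa [smul_eq_mul] using this
  refine (h.conv.add h1).congr fun x _ => ?_
  simp

theorem Nice.continuous_wt {κ ε : ℝ} {P : (Fin m → ℝ) → ℝ} (h : Nice κ ε P) :
    Continuous (wt κ P) := by
  unfold wt
  exact Real.continuous_exp.comp
    (((continuous_const.mul contDiff_sq.continuous).add h.smooth.continuous).neg)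

theorem wt_pos (κ : ℝ) (P : (Fin m → ℝ) → ℝ) (x : Fin m → ℝ) : 0 < wt κ P x := Real.exp_pos _

theorem Nice.logC_wt {κ ε : ℝ} {P : (Fin m → ℝ) → ℝ} (h : Nice κ ε P) : LogC (wt κ P) := by
  intro x y s t hs ht hst
  have h1 := h.convexOn.2 (mem_univ x) (mem_univ y) hs.le ht.le hst
  simp only [smul_eq_mul] at h1
  unfold wt
  rw [← Real.exp_mul, ← Real.exp_mul, ← Real.exp_add]
  apply Real.exp_le_exp.mpr
  linarith

theorem Nice.lcd {κ ε : ℝ} {P : (Fin m → ℝ) → ℝ} (h : Nice κ ε P)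
    (hint : Integrable (wt κ P)) : LCD (dens κ P) := by
  have hZ : 0 < ∫ y, wt κ P y := integral_exp_pos hint
  refine ⟨?_, fun x => ?_, ?_, ?_⟩
  · exact h.continuous_wt.measurable.div_const _
  · exact div_nonneg (wt_pos _ _ _).le hZ.le
  · have := h.logC_wt.const_mul (c := (∫ y, wt κ P y)⁻¹) (by positivity) (fun x => (wt_pos _ _ x).le)
    intro x y s t hs ht hst
    have h1 := this x y s t hs ht hst
    simp only [dens, div_eq_inv_mul]
    exact h1
  · unfold dens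
    rw [integral_div, div_self hZ.ne']

/-- **DENSITY OF THE NICE CLASS** -/
theorem exists_nice_seq {f : (Fin m → ℝ) → ℝ} (hf : LCD f) :
    ∃ (κ ε : ℕ → ℝ) (P : ℕ → (Fin m → ℝ) → ℝ) (C c : ℝ), 0 < C ∧ 0 < c ∧
      (∀ n, Nice (κ n) (ε n) (P n)) ∧
      (∀ n, Integrable (wt (κ n) (P n))) ∧
      (∀ n, LCD (dens (κ n) (P n))) ∧
      (∀ n x, dens (κ n) (P n) x ≤ C * Real.exp (-c * ‖x‖)) ∧
      (∀ᵐ x, Tendsto (fun n => dens (κ n) (P n) x) atTop (𝓝 (f x))) ∧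
      (∀ ψ : (Fin m → ℝ) → ℝ, PB ψ →
        Tendsto (fun n => ∫ x, ψ x * dens (κ n) (P n) x) atTop (𝓝 (∫ x, ψ x * f x))) ∧
      Tendsto (fun n => diffEntropy (dens (κ n) (P n))) atTop (𝓝 (diffEntropy f)) ∧
      (∀ i j, Tendsto (fun n => densCov (dens (κ n) (P n)) i j) atTop (𝓝 (densCov f i j))) ∧
      Tendsto (fun n => ∫ x, |dens (κ n) (P n) x - f x|) atTop (𝓝 0) := by
  obtain ⟨M, hM0, hM⟩ := hf.bddAbove
  obtain ⟨C0', c, hC0', hc, hb'⟩ := hf.eb.bound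
  set C0 : ℝ := C0' + 1 with hC0
  have hC0p : 0 < C0 := by positivity
  have hb : ∀ x, f x ≤ C0 * Real.exp (-c * ‖x‖) := by
    intro x
    have h1 := (le_abs_self _).trans (hb' x)
    refine h1.trans ?_
    gcongr
    linarith
  -- the Lipschitz constants
  let K : ℕ → ℝ := fun n => c + n + 1
  have hKpos : ∀ n, 0 < K n := fun n => by positivity
  have hKc : ∀ n, c ≤ K n := fun n => by
    have : (0 : ℝ) ≤ n := Nat.cast_nonneg n
    simp only [K]; linarith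
  have hKt : Tendsto K atTop atTop := by
    have h1 : Tendsto (fun n : ℕ => (n : ℝ)) atTop atTop := tendsto_natCast_atTop_atTop
    have h2 : Tendsto (fun n : ℕ => (n : ℝ) + (c + 1)) atTop atTop :=
      tendsto_atTop_add_const_right _ _ h1
    refine h2.congr fun n => ?_
    simp only [K]; ring
  let r : ℕ → ℝ := fun n => 1 / ((n : ℝ) + 1)
  have hr : ∀ n, 0 < r n := fun n => by positivity
  have hr1 : ∀ n, r n ≤ 1 := fun n => by
    simp only [r]
    rw [div_le_one (by positivity)]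
    have : (0 : ℝ) ≤ n := Nat.cast_nonneg n
    linarith
  have hrt : Tendsto r atTop (𝓝 0) := tendsto_one_div_add_atTop_nhds_zero_nat
  -- mollification
  have hex1 : ∀ n, ∃ V : (Fin m → ℝ) → ℝ, ContDiff ℝ ∞ V ∧ ConvexOn ℝ univ V ∧
      ∀ x, |V x - Lf f (K n) x| ≤ r n := fun n =>
    exists_mollify volume (hKpos n) (hr n) (Lf_lip hf hM (hKpos n).le)
      (Lf_convex hf hM (hKpos n).le)
  choose V hVs hVc hVd using hex1
  let D : ℕ → ℝ := fun n => |Real.log M| + 1 + |Lf f (K n) 0|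
  have hlow : ∀ n x, -D n ≤ V n x := by
    intro n x
    have h1 := Lf_lower hf hM (hKpos n).le x
    have h2 := (abs_le.mp (hVd n x)).1
    have h3 := hr1 n
    have h4 := le_abs_self (Real.log M)
    have h5 := abs_nonneg (Lf f (K n) 0)
    simp only [D]
    linarith
  have hup : ∀ n x, V n x ≤ D n + K n * ‖x‖ := by
    intro n x
    have h1 := Lf_lip hf hM (hKpos n).le x 0
    rw [sub_zero] at h1
    have h2 := (abs_le.mp (hVd n x)).2
    have h3 := hr1 n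
    have h4 := (abs_le.mp h1).2
    have h5 := le_abs_self (Lf f (K n) 0)
    have h6 := abs_nonneg (Real.log M)
    simp only [D]
    linarith
  have hex2 : ∀ n, ∃ (P : (Fin m → ℝ) → ℝ) (W : (Fin m → ℝ) → ℝ) (a : ℝ),
      Nice (2 * r n) (r n) P ∧ (∀ x, (2 * r n) / 2 * sq x + P x = W x + a) ∧
      (∀ x, V n x + r n / 2 * sq x ≤ W x) ∧
      (∀ x, ‖x‖ ≤ (n : ℝ) → W x = V n x + r n / 2 * sq x) := fun n =>
    exists_complete (hVs n) (hVc n) (hr n) (Nat.cast_nonneg n) (hKpos n).le (hlow n) (hup n)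
  choose P W a hN hPW hWge hWeq using hex2
  -- the unnormalised densities
  let h : ℕ → (Fin m → ℝ) → ℝ := fun n x => Real.exp (-W n x)
  have hwt : ∀ n x, wt (2 * r n) (P n) x = Real.exp (-a n) * h n x := by
    intro n x
    simp only [wt, h]
    rw [hPW n x, ← Real.exp_add]
    congr 1; ring
  have hWcont : ∀ n, Continuous (W n) := by
    intro n
    have h1 : W n = fun x => (2 * r n) / 2 * sq x + P n x - a n := by
      funext x; rw [hPW n x]; ring
    rw [h1]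
    exact ((continuous_const.mul contDiff_sq.continuous).add (hN n).smooth.continuous).sub
      continuous_const
  have hmeas : ∀ n, Measurable (h n) := fun n =>
    (Real.continuous_exp.comp (hWcont n).neg).measurable
  have hpos : ∀ n x, 0 < h n x := fun n x => Real.exp_pos _
  have hmaj : ∀ n x, h n x ≤ Real.exp 1 * C0 * Real.exp (-c * ‖x‖) := by
    intro n x
    have h1 := hWge n x
    have h2 : 0 ≤ r n / 2 * sq x := mul_nonneg (by have := hr n; positivity) (sq_nonneg' x)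
    have h3 := (abs_le.mp (hVd n x)).1
    have h4 := hr1 n
    have h5 := exp_Lf_le hf hC0p hc.le hb (hKc n) x
    calc h n x ≤ Real.exp (1 + -Lf f (K n) x) := by
          apply Real.exp_le_exp.mpr; linarith
      _ = Real.exp 1 * Real.exp (-Lf f (K n) x) := Real.exp_add _ _
      _ ≤ Real.exp 1 * (C0 * Real.exp (-c * ‖x‖)) := by gcongr
      _ = _ := by ring
  have hae : ∀ᵐ x, Tendsto (fun n => h n x) atTop (𝓝 (f x)) := by
    filter_upwards [ae_continuousAt hf] with x hx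
    have h1 := tendsto_exp_Lf hf hKt (fun n => (hKpos n).le) hx
    have h2 : Tendsto (fun n => Real.exp (-(V n x - Lf f (K n) x) - r n / 2 * sq x)) atTop
        (𝓝 1) := by
      have h3 : Tendsto (fun n => V n x - Lf f (K n) x) atTop (𝓝 0) :=
        squeeze_zero_norm (fun n => by rw [Real.norm_eq_abs]; exact hVd n x) hrt
      have h4 : Tendsto (fun n => r n / 2 * sq x) atTop (𝓝 (0 / 2 * sq x)) :=
        (hrt.div_const 2).mul_const _
      have h5 := h3.neg.sub h4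
      simp only [neg_zero, zero_div, zero_mul, sub_zero] at h5
      have h6 := (Real.continuous_exp.tendsto 0).comp h5
      rw [Real.exp_zero] at h6
      exact h6
    have h3 := h1.mul h2
    rw [mul_one] at h3
    refine h3.congr' ?_
    have h4 : ∀ᶠ n : ℕ in atTop, ‖x‖ ≤ (n : ℝ) :=
      tendsto_natCast_atTop_atTop.eventually_ge_atTop _
    filter_upwards [h4] with n hn
    simp only [h]
    rw [hWeq n x hn, ← Real.exp_add]
    congr 1; ring
  have hC1 : 0 < Real.exp 1 * C0 := by positivity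
  have hhint : ∀ n, Integrable (h n) := fun n =>
    ((integrable_exp_neg_norm hc).const_mul (Real.exp 1 * C0)).mono'
      (hmeas n).aestronglyMeasurable
      (ae_of_all _ fun x => by rw [Real.norm_of_nonneg (hpos n x).le]; exact hmaj n x)
  let Z : ℕ → ℝ := fun n => ∫ x, h n x
  have hZpos : ∀ n, 0 < Z n := fun n => integral_exp_pos (hhint n)
  have hZt : Tendsto Z atTop (𝓝 1) := by
    have h1 := tendsto_int_maj hc hmeas (fun n x => (hpos n x).le) hmaj hae (PB.const 1)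
    simp only [one_mul, hf.int1] at h1
    exact h1
  have hZi : Tendsto (fun n => (Z n)⁻¹) atTop (𝓝 1) := by
    have := hZt.inv₀ one_ne_zero
    rwa [inv_one] at this
  obtain ⟨B, hB⟩ := hZi.bddAbove_range
  have hB' : ∀ n, (Z n)⁻¹ ≤ B := fun n => hB ⟨n, rfl⟩
  have hBpos : 0 < B := lt_of_lt_of_le (inv_pos.mpr (hZpos 0)) (hB' 0)
  have hdens : ∀ n x, dens (2 * r n) (P n) x = h n x * (Z n)⁻¹ := by
    intro n x
    have h1 : ∫ y, wt (2 * r n) (P n) y = Real.exp (-a n) * Z n := by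
      rw [show wt (2 * r n) (P n) = fun y => Real.exp (-a n) * h n y from funext (hwt n),
        integral_const_mul]
    simp only [dens]
    rw [h1, hwt n x]
    have h2 := (hZpos n).ne'
    have h3 := (Real.exp_pos (-a n)).ne'
    field_simp
  have hwint : ∀ n, Integrable (wt (2 * r n) (P n)) := fun n => by
    rw [show wt (2 * r n) (P n) = fun y => Real.exp (-a n) * h n y from funext (hwt n)]
    exact (hhint n).const_mul _
  have hlcd : ∀ n, LCD (dens (2 * r n) (P n)) := fun n => (hN n).lcd (hwint n)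
  have hmajd : ∀ n x, dens (2 * r n) (P n) x ≤ (Real.exp 1 * C0 * B) * Real.exp (-c * ‖x‖) := by
    intro n x
    rw [hdens n x]
    calc h n x * (Z n)⁻¹ ≤ (Real.exp 1 * C0 * Real.exp (-c * ‖x‖)) * B :=
          mul_le_mul (hmaj n x) (hB' n) (inv_pos.mpr (hZpos n)).le (by positivity)
      _ = _ := by ring
  have haed : ∀ᵐ x, Tendsto (fun n => dens (2 * r n) (P n) x) atTop (𝓝 (f x)) := by
    filter_upwards [hae] with x hx
    have := hx.mul hZi
    rw [mul_one] at this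
    refine this.congr fun n => ?_
    rw [hdens n x]
  refine ⟨fun n => 2 * r n, r, P, Real.exp 1 * C0 * B, c, by positivity, hc, hN, hwint, hlcd,
    hmajd, haed, fun ψ hψ => ?_, ?_, fun i j => ?_, ?_⟩
  · exact tendsto_int_maj hc (fun n => (hlcd n).meas) (fun n => (hlcd n).nonneg) hmajd haed hψ
  · exact tendsto_ent_maj (by positivity) hc (fun n => (hlcd n).meas) (fun n => (hlcd n).nonneg)
      hmajd haed
  · exact tendsto_cov_maj hc hlcd hf hmajd haed i j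
  · have h0 : (0 : ℝ) = ∫ _x : Fin m → ℝ, (0 : ℝ) := by simp
    rw [h0]
    refine tendsto_integral_of_dominated_convergence
      (fun x => (Real.exp 1 * C0 * B + C0) * Real.exp (-c * ‖x‖)) ?_ ?_ ?_ ?_
    · intro n
      exact (((hlcd n).meas.sub hf.meas).abs).aestronglyMeasurable
    · exact (integrable_exp_neg_norm hc).const_mul _
    · intro n
      refine ae_of_all _ fun x => ?_
      rw [Real.norm_eq_abs, abs_abs]
      have h1 := hmajd n x
      have h2 := (hlcd n).nonneg x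
      have h3 := hb x
      have h4 := hf.nonneg x
      rw [abs_le]
      have h5 : 0 ≤ (Real.exp 1 * C0 * B) * Real.exp (-c * ‖x‖) := by positivity
      have h6 : 0 ≤ C0 * Real.exp (-c * ‖x‖) := by positivity
      constructor <;> linarith [add_mul (Real.exp 1 * C0 * B) C0 (Real.exp (-c * ‖x‖))]
    · filter_upwards [haed] with x hx
      have := (hx.sub_const (f x)).abs
      rwa [sub_self, abs_zero] at this

end Crest.Agent.R253.Dens970
end

-- ▼ part R253/DensE_970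
section

/-!
# R253: dense class, part E (helper970) : scaling to `|x|²/2 + P`, `P ∈ C_c^∞(E m)`

`p1 Q x = exp (-(sq x / 2 + Q x))`; for every log-concave density `f` there are `κ n > 0` and
`Q n` with `PDatB (Q n)` such that the scaled densities
`aff (nrm (p1 (Q n))) (κ n • 1) 0` converge to `f` (`Cv`: common majorant and a.e.), hence in `L¹`,
and `DD (nrm (p1 (Q n))) → DD f`.
-/

set_option autoImplicit false
open MeasureTheory Set Filter Topology
open Crest.GeometryTopology.Isotropic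
open scoped ENNReal NNReal ContDiff

namespace Crest.Agent.R253.Dens970

open Crest.Agent.R253.Cpt435 Crest.Agent.R253.Lim140

variable {m : ℕ}

/-- the unnormalised density of the potential `|x|²/2 + Q` (`Q` on `EuclideanSpace`) -/
noncomputable def p1 (Q : EuclideanSpace ℝ (Fin m) → ℝ) (x : Fin m → ℝ) : ℝ :=
  Real.exp (-(Lim140.sq x / 2 + Q (WithLp.toLp 2 x)))

/-- the scaled perturbation on `EuclideanSpace` -/
noncomputable def sc (κ : ℝ) (P : (Fin m → ℝ) → ℝ) (y : EuclideanSpace ℝ (Fin m)) : ℝ :=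
  P (fun i => (Real.sqrt κ)⁻¹ * y i)

theorem norm_sq_E (y : EuclideanSpace ℝ (Fin m)) : ‖y‖ ^ 2 = sq (fun i => y i) := by
  rw [EuclideanSpace.norm_sq_eq]
  simp [sq]

theorem sq_smul (a : ℝ) (x : Fin m → ℝ) : sq (fun i => a * x i) = a ^ 2 * sq x := by
  simp only [sq, Finset.mul_sum, mul_pow]

/-- `y ↦ (√κ)⁻¹ y` as a linear map to `Fin m → ℝ` -/
noncomputable def scL (κ : ℝ) : EuclideanSpace ℝ (Fin m) →L[ℝ] (Fin m → ℝ) :=
  (Real.sqrt κ)⁻¹ • (PiLp.continuousLinearEquiv 2 ℝ (fun _ : Fin m => ℝ)).toContinuousLinearMap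

theorem scL_apply (κ : ℝ) (y : EuclideanSpace ℝ (Fin m)) :
    scL κ y = fun i => (Real.sqrt κ)⁻¹ * y i := by
  funext i
  simp [scL]

theorem Nice.pDatB {κ ε : ℝ} {P : (Fin m → ℝ) → ℝ} (h : Nice κ ε P) : Br.PDatB (sc κ P) := by
  have hs : 0 < Real.sqrt κ := Real.sqrt_pos.mpr h.hκ
  have h1 : sc κ P = P ∘ (scL κ) := by
    funext y; simp only [Function.comp, scL_apply]; rfl
  refine ⟨⟨?_, ?_⟩, ?_⟩
  · rw [h1]; exact h.smooth.comp (scL κ).contDiff
  · obtain ⟨R, hR⟩ := h.cpt.isCompact.isBounded.subset_closedBall 0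
    apply HasCompactSupport.of_support_subset_isCompact
      (isCompact_closedBall (0 : EuclideanSpace ℝ (Fin m)) (Real.sqrt κ * (Real.sqrt m * R)))
    intro y hy
    have h2 : (scL κ y) ∈ tsupport P := by
      apply subset_tsupport
      rw [h1] at hy
      exact hy
    have h3 := hR h2
    rw [Metric.mem_closedBall, dist_zero_right] at h3 ⊢
    have hR0 : 0 ≤ R := (norm_nonneg _).trans h3
    have h4 : ‖y‖ ^ 2 = κ * sq (scL κ y) := by
      rw [norm_sq_E, scL_apply, sq_smul, inv_pow, Real.sq_sqrt h.hκ.le]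
      rw [← mul_assoc, mul_inv_cancel₀ h.hκ.ne', one_mul]
    have h5 := sq_le (scL κ y)
    have h6 : ‖y‖ ^ 2 ≤ (Real.sqrt κ * (Real.sqrt m * R)) ^ 2 := by
      rw [h4, mul_pow, mul_pow, Real.sq_sqrt h.hκ.le, Real.sq_sqrt (Nat.cast_nonneg m)]
      have : ‖scL κ y‖ ^ 2 ≤ R ^ 2 := pow_le_pow_left₀ (norm_nonneg _) h3 2
      have hκ := h.hκ
      calc κ * sq (scL κ y) ≤ κ * (m * ‖scL κ y‖ ^ 2) := by gcongr
        _ ≤ κ * (m * R ^ 2) := by gcongr
    exact (pow_le_pow_iff_left₀ (norm_nonneg _) (by positivity) two_ne_zero).mp h6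
  · refine ⟨ε / κ / 2, by have := h.hκ; have := h.hε; positivity, ?_⟩
    have h2 := h.conv.comp_linearMap (scL κ).toLinearMap
    rw [preimage_univ] at h2
    refine h2.congr fun y _ => ?_
    simp only [Function.comp]
    have h4 : ‖y‖ ^ 2 = κ * sq (scL κ y) := by
      rw [norm_sq_E, scL_apply, sq_smul, inv_pow, Real.sq_sqrt h.hκ.le]
      rw [← mul_assoc, mul_inv_cancel₀ h.hκ.ne', one_mul]
    have h5 : sc κ P y = P (scL κ y) := by rw [h1]; rfl
    have hκ := h.hκ.ne'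
    change κ / 2 * sq (scL κ y) + P (scL κ y) - ε / 2 * sq (scL κ y) = _
    rw [h4, h5]
    field_simp

/-- `wt κ P x = p1 (sc κ P) (√κ x)` -/
theorem wt_eq_p1 {κ : ℝ} (hκ : 0 < κ) (P : (Fin m → ℝ) → ℝ) (x : Fin m → ℝ) :
    wt κ P x = p1 (sc κ P) (Real.sqrt κ • x) := by
  have hs : Real.sqrt κ ≠ 0 := (Real.sqrt_pos.mpr hκ).ne'
  unfold wt p1
  congr 2
  have h1 : Lim140.sq (Real.sqrt κ • x) = κ * sq x := by
    have : Lim140.sq (Real.sqrt κ • x) = sq (fun i => Real.sqrt κ * x i) := rfl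
    rw [this, sq_smul, Real.sq_sqrt hκ.le]
  have h2 : sc κ P (WithLp.toLp 2 (Real.sqrt κ • x)) = P x := by
    unfold sc
    congr 1
    funext i
    simp only [Pi.smul_apply, smul_eq_mul]
    rw [← mul_assoc, inv_mul_cancel₀ hs, one_mul]
  rw [h1, h2]; ring

theorem dens_eq_aff {κ ε : ℝ} {P : (Fin m → ℝ) → ℝ} (h : Nice κ ε P)
    (hint : Integrable (wt κ P)) :
    dens κ P = aff (nrm (p1 (sc κ P))) (Real.sqrt κ • (1 : Matrix (Fin m) (Fin m) ℝ)) 0 := by
  have hs : 0 < Real.sqrt κ := Real.sqrt_pos.mpr h.hκ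
  have hdet : (Real.sqrt κ • (1 : Matrix (Fin m) (Fin m) ℝ)).det = Real.sqrt κ ^ m := by
    rw [Matrix.det_smul, Matrix.det_one, mul_one, Fintype.card_fin]
  have hdet0 : (Real.sqrt κ • (1 : Matrix (Fin m) (Fin m) ℝ)).det ≠ 0 := by
    rw [hdet]; positivity
  have hmv : ∀ x : Fin m → ℝ, (Real.sqrt κ • (1 : Matrix (Fin m) (Fin m) ℝ)).mulVec x =
      Real.sqrt κ • x := by
    intro x; rw [Matrix.smul_mulVec, Matrix.one_mulVec]
  have hp1m : Measurable (p1 (sc κ P)) := by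
    have h1 : p1 (sc κ P) = fun x => wt κ P ((Real.sqrt κ)⁻¹ • x) := by
      funext x
      rw [wt_eq_p1 h.hκ, smul_smul, mul_inv_cancel₀ hs.ne', one_smul]
    rw [h1]
    exact h.continuous_wt.measurable.comp (measurable_const_smul _)
  have hZ : ∫ y, p1 (sc κ P) y = |(Real.sqrt κ • (1 : Matrix (Fin m) (Fin m) ℝ)).det| *
      ∫ x, wt κ P x := by
    have h2 := integral_comp_affine (p1 (sc κ P)) hp1m _ hdet0 (0 : Fin m → ℝ)
    rw [← h2, integral_const_mul]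
    congr 2
    funext x
    rw [hmv, zero_add, wt_eq_p1 h.hκ]
  funext x
  have hZ0 : 0 < ∫ y, wt κ P y := integral_exp_pos hint
  have hd : 0 < |(Real.sqrt κ • (1 : Matrix (Fin m) (Fin m) ℝ)).det| := abs_pos.mpr hdet0
  simp only [dens, aff, nrm]
  rw [hZ, hmv, zero_add, ← wt_eq_p1 h.hκ]
  field_simp

theorem Nice.lcd_p1 {κ ε : ℝ} {P : (Fin m → ℝ) → ℝ} (h : Nice κ ε P)
    (hint : Integrable (wt κ P)) : LCD (nrm (p1 (sc κ P))) := by
  have hs : 0 < Real.sqrt κ := Real.sqrt_pos.mpr h.hκ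
  have h1 : p1 (sc κ P) = fun x => wt κ P ((0 : Fin m → ℝ) +
      ((Real.sqrt κ)⁻¹ • (LinearMap.id : (Fin m → ℝ) →ₗ[ℝ] (Fin m → ℝ))) x) := by
    funext x
    rw [zero_add, LinearMap.smul_apply, LinearMap.id_apply, wt_eq_p1 h.hκ, smul_smul,
      mul_inv_cancel₀ hs.ne', one_smul]
  have hm : Measurable (p1 (sc κ P)) := by
    rw [h1]
    exact h.continuous_wt.measurable.comp
      ((measurable_const_smul ((Real.sqrt κ)⁻¹)).const_add (0 : Fin m → ℝ))
  have hl : LogC (p1 (sc κ P)) := by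
    rw [h1]; exact h.logC_wt.comp_affine _ _
  have hp : ∀ x, 0 < p1 (sc κ P) x := fun x => Real.exp_pos _
  have hdet0 : (Real.sqrt κ • (1 : Matrix (Fin m) (Fin m) ℝ)).det ≠ 0 := by
    rw [Matrix.det_smul, Matrix.det_one, mul_one, Fintype.card_fin]; positivity
  have hmv : ∀ x : Fin m → ℝ, (Real.sqrt κ • (1 : Matrix (Fin m) (Fin m) ℝ)).mulVec x =
      Real.sqrt κ • x := by
    intro x; rw [Matrix.smul_mulVec, Matrix.one_mulVec]
  have hZ : 0 < ∫ y, p1 (sc κ P) y := by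
    have h2 := integral_comp_affine (p1 (sc κ P)) hm _ hdet0 (0 : Fin m → ℝ)
    rw [← h2, integral_const_mul]
    have h3 : (fun x : Fin m → ℝ => p1 (sc κ P) (0 +
        (Real.sqrt κ • (1 : Matrix (Fin m) (Fin m) ℝ)).mulVec x)) = wt κ P := by
      funext x; rw [hmv, zero_add, wt_eq_p1 h.hκ]
    rw [h3]
    exact mul_pos (abs_pos.mpr hdet0) (integral_exp_pos hint)
  exact LCD_nrm hm (fun x => (hp x).le) hl hZ

/-- **DENSITY, scaled form.** For every log-concave density `f` there are scales `κ n > 0` and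
`Q n ∈ C_c^∞` with `PDatB (Q n)` such that `f n = aff (nrm (p1 (Q n))) (κ n • 1) 0 → f`
(common majorant, a.e.), `f n → f` in `L¹`, and `DD (nrm (p1 (Q n))) → DD f`. -/
theorem exists_seq1 {f : (Fin m → ℝ) → ℝ} (hf : LCD f) :
    ∃ (κ : ℕ → ℝ) (Q : ℕ → EuclideanSpace ℝ (Fin m) → ℝ), (∀ n, 0 < κ n) ∧
      (∀ n, Br.PDatB (Q n)) ∧ (∀ n, LCD (nrm (p1 (Q n)))) ∧
      (∀ n, LCD (aff (nrm (p1 (Q n))) (κ n • (1 : Matrix (Fin m) (Fin m) ℝ)) 0)) ∧
      Cv (fun n => aff (nrm (p1 (Q n))) (κ n • (1 : Matrix (Fin m) (Fin m) ℝ)) 0) f ∧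
      Tendsto (fun n => ∫ x,
        |aff (nrm (p1 (Q n))) (κ n • (1 : Matrix (Fin m) (Fin m) ℝ)) 0 x - f x|) atTop (𝓝 0) ∧
      Tendsto (fun n => DD (nrm (p1 (Q n)))) atTop (𝓝 (DD f)) := by
  obtain ⟨κ, ε, P, C, c, hC, hc, hN, hint, hlcd, hmaj, hae, -, -, -, hL1⟩ := exists_nice_seq hf
  have he : ∀ n, dens (κ n) (P n) = aff (nrm (p1 (sc (κ n) (P n))))
      (Real.sqrt (κ n) • (1 : Matrix (Fin m) (Fin m) ℝ)) 0 := fun n => dens_eq_aff (hN n) (hint n)
  have hCv : Cv (fun n => dens (κ n) (P n)) f :=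
    ⟨fun n => (hlcd n).meas, hf.meas, fun n => (hlcd n).nonneg, hf.nonneg,
      ⟨C, c, hC.le, hc, hmaj⟩, hae⟩
  have hdet0 : ∀ n, (Real.sqrt (κ n) • (1 : Matrix (Fin m) (Fin m) ℝ)).det ≠ 0 := fun n => by
    have := Real.sqrt_pos.mpr (hN n).hκ
    rw [Matrix.det_smul, Matrix.det_one, mul_one, Fintype.card_fin]; positivity
  refine ⟨fun n => Real.sqrt (κ n), fun n => sc (κ n) (P n),
    fun n => Real.sqrt_pos.mpr (hN n).hκ, fun n => (hN n).pDatB,
    fun n => (hN n).lcd_p1 (hint n), fun n => ?_, ?_, ?_, ?_⟩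
  · rw [← he n]; exact hlcd n
  · simp only [← he]; exact hCv
  · simp only [← he]; exact hL1
  · have h1 := hCv.tendsto_DD hf (fun n => (hlcd n).int1)
    refine h1.congr fun n => ?_
    rw [he n]
    exact DD_aff ((hN n).lcd_p1 (hint n)) (hdet0 n) 0

end Crest.Agent.R253.Dens970
end

-- ▼ part R253/LimZ_140
section

/-!
# R253 (helper140): limits `e → 0` of the family `P_{A,e}`

* `Fam` : what is used of the family (706);
* `seq_cv` : `(A_k⁻¹)_# f~_k → f₀` (uniform majorant, pointwise), no convergence of `A_k` needed;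
* `moments` : covariance and Fisher matrix of `(A⁻¹)_# f~` are close to those of `f₀`
  (uniformly in `A`), hence the two directional bounds used by the normalisation;
* `SB_of_family` : output of step B.
-/

set_option autoImplicit false
open MeasureTheory Set Filter Topology Matrix
open Crest.GeometryTopology.Isotropic
open Crest.Agent.R253.Cpt435
open Crest.Agent.R238 (E Ell ee)
open Crest.Agent.R253.Dens970 (p1)
open Crest.Agent.R253.Dual441 (Vl den)
open Crest.Agent.R253.Br (gr)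
open scoped ContDiff

namespace Crest.Agent.R253.Lim140

variable {n : ℕ}

/-! ### matrices as linear maps of the Euclidean space -/

/-- a matrix as a continuous linear map -/
noncomputable def aL (A : Matrix (Fin n) (Fin n) ℝ) : E n →L[ℝ] E n :=
  LinearMap.toContinuousLinearMap (Matrix.toEuclideanLin A)

theorem aL_apply (A : Matrix (Fin n) (Fin n) ℝ) (x : E n) :
    aL A x = WithLp.toLp 2 (A *ᵥ (WithLp.ofLp x)) := rfl

theorem aL_toLp (A : Matrix (Fin n) (Fin n) ℝ) (u : Fin n → ℝ) :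
    aL A (WithLp.toLp 2 u) = WithLp.toLp 2 (A *ᵥ u) := rfl

theorem aL_aL (A B : Matrix (Fin n) (Fin n) ℝ) (x : E n) : aL A (aL B x) = aL (A * B) x := by
  simp only [aL_apply, mulVec_mulVec]

theorem aL_one (x : E n) : aL (1 : Matrix (Fin n) (Fin n) ℝ) x = x := by
  simp only [aL_apply, one_mulVec]

theorem aL_coord (A : Matrix (Fin n) (Fin n) ℝ) (x : E n) (i : Fin n) :
    aL A x i = ∑ j, A i j * x j := rfl

theorem aL_ee (A : Matrix (Fin n) (Fin n) ℝ) (i : Fin n) :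
    aL A (ee i) = ∑ j, A j i • (ee j : E n) := by
  ext k
  rw [aL_coord]
  simp [Pi.single_apply]

theorem norm_sq_toLp (u : Fin n → ℝ) : ‖(WithLp.toLp 2 u : E n)‖ ^ 2 = sq u := by
  rw [EuclideanSpace.norm_sq_eq]
  simp [sq]

theorem lower_aL {d r : ℝ} {A : Matrix (Fin n) (Fin n) ℝ} (h : Ell d r A) (x : E n) :
    d * ‖x‖ ≤ ‖aL A x‖ := by
  have h1 := (h.2 (WithLp.ofLp x)).1
  have h2 : ∑ i, (WithLp.ofLp x) i ^ 2 = ‖x‖ ^ 2 := by
    rw [EuclideanSpace.norm_sq_eq]; simp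
  have h3 : ∑ i, ∑ j, A i j * (WithLp.ofLp x) i * (WithLp.ofLp x) j = inner ℝ x (aL A x) := by
    rw [PiLp.inner_apply]
    refine Finset.sum_congr rfl fun i _ => ?_
    rw [aL_coord]
    simp only [RCLike.inner_apply, conj_trivial, Finset.sum_mul]
    refine Finset.sum_congr rfl fun j _ => ?_
    ring
  rw [h2, h3] at h1
  have h4 := real_inner_le_norm x (aL A x)
  rcases (norm_nonneg x).lt_or_eq with h5 | h5
  · have h6 : d * ‖x‖ * ‖x‖ ≤ ‖aL A x‖ * ‖x‖ := by nlinarith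
    exact le_of_mul_le_mul_right h6 h5
  · rw [← h5, mul_zero]; exact norm_nonneg _

theorem upper_aL {K : ℝ} (hK : 0 ≤ K) {A : Matrix (Fin n) (Fin n) ℝ} (h : ∀ i j, |A i j| ≤ K)
    (x : E n) : ‖aL A x‖ ≤ n * K * ‖x‖ := by
  have h1 : ‖aL A x‖ ^ 2 ≤ (n * K * ‖x‖) ^ 2 := by
    rw [EuclideanSpace.norm_sq_eq]
    have h2 : ∀ i, ‖aL A x i‖ ^ 2 ≤ n * K ^ 2 * ‖x‖ ^ 2 := by
      intro i
      rw [aL_coord, Real.norm_eq_abs, sq_abs]
      refine (Finset.sum_mul_sq_le_sq_mul_sq Finset.univ (fun j => A i j) (fun j => x j)).trans ?_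
      have h3 : ∑ j, A i j ^ 2 ≤ n * K ^ 2 := by
        calc ∑ j, A i j ^ 2 ≤ ∑ _j : Fin n, K ^ 2 :=
              Finset.sum_le_sum fun j _ => by
                rw [← sq_abs]; exact pow_le_pow_left₀ (abs_nonneg _) (h i j) 2
          _ = n * K ^ 2 := by simp
      have h4 : ∑ j, x j ^ 2 = ‖x‖ ^ 2 := by
        rw [EuclideanSpace.norm_sq_eq]; simp
      rw [h4]
      exact mul_le_mul_of_nonneg_right h3 (by positivity)
    calc ∑ i, ‖aL A x i‖ ^ 2 ≤ ∑ _i : Fin n, n * K ^ 2 * ‖x‖ ^ 2 :=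
          Finset.sum_le_sum fun i _ => h2 i
      _ = (n * K * ‖x‖) ^ 2 := by simp; ring
  exact le_of_sq_le_sq₀' h1 (by positivity)
where
  le_of_sq_le_sq₀' {a b : ℝ} (h : a ^ 2 ≤ b ^ 2) (hb : 0 ≤ b) : a ≤ b := by
    nlinarith [sq_nonneg (a - b), abs_le_of_sq_le_sq' h hb |>.2]

/-! ### the family -/

/-- what is used of the family `P_{A,e}` -/
structure Fam (P0 : E n → ℝ) (d r e0 : ℝ) (Pf : ℝ → Matrix (Fin n) (Fin n) ℝ → E n → ℝ) :
    Prop where
  e0_pos : 0 < e0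
  smooth0 : ContDiff ℝ ∞ P0
  smooth : ∀ e A, 0 < e → e ≤ e0 → Ell d r A → ContDiff ℝ ∞ (Pf e A)
  inner : ∀ R : ℝ, ∃ e1 : ℝ, 0 < e1 ∧ ∀ e A, 0 < e → e ≤ e1 → Ell d r A → ∀ x : E n, ‖x‖ < R →
    ‖x‖ ^ 2 / 2 + Pf e A x = ‖aL A⁻¹ x‖ ^ 2 / 2 + P0 (aL A⁻¹ x)
  low : ∃ c C : ℝ, 0 < c ∧ ∀ e A, 0 < e → e ≤ e0 → Ell d r A → ∀ x : E n,
    c * ‖x‖ ^ 2 - C ≤ ‖x‖ ^ 2 / 2 + Pf e A x
  grad : ∃ K : ℝ, ∀ e A, 0 < e → e ≤ e0 → Ell d r A → ∀ (x : E n) i,
    |gr (Pf e A) x i| ≤ K * (1 + ‖x‖)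

/-- admissible solutions for the parameter `e` -/
structure AdmV (e lam : ℝ) (v : E n → ℝ) : Prop where
  l0 : 0 ≤ lam
  sm : ContDiff ℝ ∞ v
  osc : ∀ x, lam * |v x - v 0| ≤ e * ‖x‖
  grd : ∀ x i, lam * |gr v x i| ≤ e

/-- the limit density -/
noncomputable def f0 (P0 : E n → ℝ) : (Fin n → ℝ) → ℝ := nrm (p1 P0)

/-- gradient of `V ∘ A` in the direction `i` -/
noncomputable def Gf (P v : E n → ℝ) (lam : ℝ) (A : Matrix (Fin n) (Fin n) ℝ) (i : Fin n)
    (u : Fin n → ℝ) : ℝ := ∑ j, A j i * gr (Vl P v lam) (aL A (WithLp.toLp 2 u)) j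

/-- gradient of `V₀` -/
noncomputable def G0 (P0 : E n → ℝ) (i : Fin n) (u : Fin n → ℝ) : ℝ :=
  u i + gr P0 (WithLp.toLp 2 u) i

theorem gr_Vl {P v : E n → ℝ} (hP : ContDiff ℝ ∞ P) (hv : ContDiff ℝ ∞ v) (lam : ℝ) (x : E n)
    (i : Fin n) : gr (Vl P v lam) x i = x i + gr P x i - lam * gr v x i := by
  have hP1 : DifferentiableAt ℝ P x := (hP.differentiable (by simp)) x
  have hv1 : DifferentiableAt ℝ v x := (hv.differentiable (by simp)) x
  have hn : HasFDerivAt (fun x : E n => ‖x‖ ^ 2 / 2) (innerSL ℝ x) x := by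
    have h1 := (hasStrictFDerivAt_norm_sq x).hasFDerivAt
    have h2 := h1.mul_const (1 / 2 : ℝ)
    refine (h2.congr_fderiv ?_).congr_of_eventuallyEq (Eventually.of_forall fun y => by
      simp; ring)
    ext w; simp
  have h3 : HasFDerivAt (Vl P v lam) (innerSL ℝ x + fderiv ℝ P x - lam • fderiv ℝ v x) x :=
    (hn.add hP1.hasFDerivAt).sub (hv1.hasFDerivAt.const_mul lam)
  unfold gr
  rw [h3.fderiv]
  simp [innerSL_apply_apply, EuclideanSpace.inner_single_right]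

section seqs

variable {P0 : E n → ℝ} {d r e0 : ℝ} {Pf : ℝ → Matrix (Fin n) (Fin n) ℝ → E n → ℝ}
variable {e lam : ℕ → ℝ} {A : ℕ → Matrix (Fin n) (Fin n) ℝ} {v : ℕ → E n → ℝ}

/-- a sequence of admissible data with `e_k → 0` -/
structure SeqD (d r e0 : ℝ) (Pf : ℝ → Matrix (Fin n) (Fin n) ℝ → E n → ℝ) (e lam : ℕ → ℝ)
    (A : ℕ → Matrix (Fin n) (Fin n) ℝ) (v : ℕ → E n → ℝ) : Prop where
  e_pos : ∀ k, 0 < e k
  e_le : ∀ k, e k ≤ e0
  e_lim : Tendsto e atTop (𝓝 0)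
  ell : ∀ k, Ell d r (A k)
  adm : ∀ k, AdmV (e k) (lam k) (v k)
  one : ∀ k, ∫ x, den (Pf (e k) (A k)) (v k) (lam k) x = 1

theorem aff_den (P v : E n → ℝ) (lam : ℝ) (A : Matrix (Fin n) (Fin n) ℝ) (u : Fin n → ℝ) :
    aff (den P v lam) A 0 u = (|A.det| * (2 * Real.pi) ^ (-(n : ℝ) / 2)) *
      Real.exp (-Vl P v lam (aL A (WithLp.toLp 2 u))) := by
  simp only [aff, den, zero_add, aL_toLp]
  ring

theorem inv_cancel {A : Matrix (Fin n) (Fin n) ℝ} (hd : 0 < d) (h : Ell d r A) (x : E n) :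
    aL A⁻¹ (aL A x) = x := by
  rw [aL_aL, h.sm_inv_mul hd, aL_one]

theorem SeqD.cv (hF : Fam P0 d r e0 Pf) (hd : 0 < d) (hr : 0 ≤ r)
    (hs : SeqD d r e0 Pf e lam A v) :
    Cv (fun k => aff (den (Pf (e k) (A k)) (v k) (lam k)) (A k) 0) (f0 P0) ∧
      0 < ∫ x, p1 P0 x := by
  obtain ⟨c, C, hc, hlow⟩ := hF.low
  have hvc : ∀ k, Continuous (v k) := fun k => (hs.adm k).sm.continuous
  have hPc : ∀ k, Continuous (Pf (e k) (A k)) := fun k =>
    (hF.smooth _ _ (hs.e_pos k) (hs.e_le k) (hs.ell k)).continuous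
  have htoLp : Continuous fun u : Fin n → ℝ => (WithLp.toLp 2 u : E n) := PiLp.continuous_toLp 2 _
  have hVc : ∀ k, Continuous fun u : Fin n → ℝ =>
      Vl (Pf (e k) (A k)) (v k) (lam k) (aL (A k) (WithLp.toLp 2 u)) := by
    intro k
    have h1 : Continuous (Vl (Pf (e k) (A k)) (v k) (lam k)) := by
      unfold Vl
      exact (((continuous_norm.pow 2).div_const 2).add (hPc k)).sub
        (continuous_const.mul (hvc k))
    exact h1.comp ((aL (A k)).continuous.comp htoLp)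
  have hone : ∀ k, ∫ u, (|(A k).det| * (2 * Real.pi) ^ (-(n : ℝ) / 2)) *
      Real.exp (-Vl (Pf (e k) (A k)) (v k) (lam k) (aL (A k) (WithLp.toLp 2 u))) = 1 := by
    intro k
    have hm : Measurable (den (Pf (e k) (A k)) (v k) (lam k)) :=
      (Dual441.continuous_den (hPc k) (hvc k) (lam k)).measurable
    have h1 := integral_comp_affine (den (Pf (e k) (A k)) (v k) (lam k)) hm (A k)
      ((hs.ell k).sm_det_pos hd).ne' 0
    rw [hs.one k] at h1
    rw [← h1]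
    congr 1; funext u
    exact (aff_den _ _ _ _ _).symm
  suffices hbase : Cv (fun k x => (|(A k).det| * (2 * Real.pi) ^ (-(n : ℝ) / 2)) *
      Real.exp (-Vl (Pf (e k) (A k)) (v k) (lam k) (aL (A k) (WithLp.toLp 2 x))))
      (nrm (fun u => Real.exp (-(sq u / 2 + P0 (WithLp.toLp 2 u))))) ∧
      0 < ∫ u : Fin n → ℝ, Real.exp (-(sq u / 2 + P0 (WithLp.toLp 2 u))) by
    refine ⟨?_, hbase.2⟩
    have h1 := hbase.1
    have h2 : (fun k => aff (den (Pf (e k) (A k)) (v k) (lam k)) (A k) 0) =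
        fun k x => (|(A k).det| * (2 * Real.pi) ^ (-(n : ℝ) / 2)) *
          Real.exp (-Vl (Pf (e k) (A k)) (v k) (lam k) (aL (A k) (WithLp.toLp 2 x))) := by
      funext k x; exact aff_den _ _ _ _ _
    rw [h2]
    exact h1
  refine cv_pot_one (m := n)
    (W := fun k u => Vl (Pf (e k) (A k)) (v k) (lam k) (aL (A k) (WithLp.toLp 2 u)))
    (Ws := fun u => sq u / 2 + P0 (WithLp.toLp 2 u))
    (c := fun k => -(lam k * v k 0)) (a := c / 2 * d ^ 2) (C := C + e0 ^ 2 / (2 * c))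
    (by positivity) (fun k => (hVc k).measurable)
    (((continuous_sq.div_const 2).add (hF.smooth0.continuous.comp htoLp)).measurable)
    ?_ ?_ hone
  · intro k u
    set X := aL (A k) (WithLp.toLp 2 u) with hX
    have h1 := hlow (e k) (A k) (hs.e_pos k) (hs.e_le k) (hs.ell k) X
    have h2 : lam k * (v k X - v k 0) ≤ e0 * ‖X‖ := by
      calc lam k * (v k X - v k 0) ≤ lam k * |v k X - v k 0| :=
            mul_le_mul_of_nonneg_left (le_abs_self _) (hs.adm k).l0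
        _ ≤ e k * ‖X‖ := (hs.adm k).osc X
        _ ≤ e0 * ‖X‖ := mul_le_mul_of_nonneg_right (hs.e_le k) (norm_nonneg _)
    have h3 : d ^ 2 * sq u ≤ ‖X‖ ^ 2 := by
      have h4 := lower_aL (hs.ell k) (WithLp.toLp 2 u : E n)
      rw [← hX] at h4
      rw [← norm_sq_toLp, ← mul_pow]
      exact pow_le_pow_left₀ (by positivity) h4 2
    have h5 : e0 * ‖X‖ ≤ c / 2 * ‖X‖ ^ 2 + e0 ^ 2 / (2 * c) := by
      have h6 : 0 ≤ (c * ‖X‖ - e0) ^ 2 / (2 * c) := by positivity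
      have h7 : (c * ‖X‖ - e0) ^ 2 / (2 * c) = c / 2 * ‖X‖ ^ 2 - e0 * ‖X‖ + e0 ^ 2 / (2 * c) := by
        field_simp; ring
      linarith
    have h8 : c / 2 * (d ^ 2 * sq u) ≤ c / 2 * ‖X‖ ^ 2 :=
      mul_le_mul_of_nonneg_left h3 (by positivity)
    simp only [Vl]
    linarith
  · intro u
    set R : ℝ := n * r * ‖(WithLp.toLp 2 u : E n)‖ + 1 with hR
    obtain ⟨e1, he1, hin⟩ := hF.inner R
    have hXR : ∀ k, ‖aL (A k) (WithLp.toLp 2 u : E n)‖ ≤ n * r * ‖(WithLp.toLp 2 u : E n)‖ := fun k =>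
      upper_aL hr ((hs.ell k).abs_entry_le hd.le) _
    have hev : ∀ᶠ k in atTop, e k ≤ e1 := (hs.e_lim.eventually (gt_mem_nhds he1)).mono
      fun k hk => le_of_lt hk
    have h1 : Tendsto (fun k => sq u / 2 + P0 (WithLp.toLp 2 u)
        - lam k * (v k (aL (A k) (WithLp.toLp 2 u)) - v k 0)) atTop
        (𝓝 (sq u / 2 + P0 (WithLp.toLp 2 u) - 0)) := by
      refine tendsto_const_nhds.sub ?_
      have h2 : Tendsto (fun k => e k * (n * r * ‖(WithLp.toLp 2 u : E n)‖)) atTop (𝓝 0) := by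
        simpa using hs.e_lim.mul_const _
      refine squeeze_zero_norm (fun k => ?_) h2
      rw [Real.norm_eq_abs, abs_mul, abs_of_nonneg (hs.adm k).l0]
      exact ((hs.adm k).osc _).trans (mul_le_mul_of_nonneg_left (hXR k) (hs.e_pos k).le)
    rw [sub_zero] at h1
    refine h1.congr' ?_
    filter_upwards [hev] with k hk
    have h3 := hin (e k) (A k) (hs.e_pos k) hk (hs.ell k) (aL (A k) (WithLp.toLp 2 u))
      (by rw [hR]; linarith [hXR k])
    rw [inv_cancel hd (hs.ell k), norm_sq_toLp u] at h3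
    simp only [Vl]
    have h4 : lam k * (v k (aL (A k) (WithLp.toLp 2 u)) - v k 0)
        = lam k * v k (aL (A k) (WithLp.toLp 2 u)) - lam k * v k 0 := by ring
    linarith

/-- convergence of the gradients -/
theorem SeqD.tendsto_Gf (hF : Fam P0 d r e0 Pf) (hd : 0 < d) (hr : 0 ≤ r)
    (hs : SeqD d r e0 Pf e lam A v) (i : Fin n) (u : Fin n → ℝ) :
    Tendsto (fun k => Gf (Pf (e k) (A k)) (v k) (lam k) (A k) i u) atTop (𝓝 (G0 P0 i u)) := by
  set R : ℝ := n * r * ‖(WithLp.toLp 2 u : E n)‖ + 1 with hR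
  obtain ⟨e1, he1, hin⟩ := hF.inner R
  have hXR : ∀ k, ‖aL (A k) (WithLp.toLp 2 u : E n)‖ ≤ n * r * ‖(WithLp.toLp 2 u : E n)‖ := fun k =>
    upper_aL hr ((hs.ell k).abs_entry_le hd.le) _
  have hev : ∀ᶠ k in atTop, e k ≤ e1 := (hs.e_lim.eventually (gt_mem_nhds he1)).mono
    fun k hk => le_of_lt hk
  have h1 : Tendsto (fun k => G0 P0 i u
      - ∑ j, A k j i * (lam k * gr (v k) (aL (A k) (WithLp.toLp 2 u)) j)) atTop
      (𝓝 (G0 P0 i u - 0)) := by
    refine tendsto_const_nhds.sub ?_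
    have h2 : Tendsto (fun k => (n : ℝ) * (r * e k)) atTop (𝓝 0) := by
      simpa using (hs.e_lim.const_mul r).const_mul (n : ℝ)
    refine squeeze_zero_norm (fun k => ?_) h2
    rw [Real.norm_eq_abs]
    refine (Finset.abs_sum_le_sum_abs _ _).trans ?_
    calc ∑ j, |A k j i * (lam k * gr (v k) (aL (A k) (WithLp.toLp 2 u)) j)|
        ≤ ∑ _j : Fin n, r * e k := by
          refine Finset.sum_le_sum fun j _ => ?_
          rw [abs_mul, abs_mul, abs_of_nonneg (hs.adm k).l0]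
          exact mul_le_mul ((hs.ell k).abs_entry_le hd.le j i) ((hs.adm k).grd _ j)
            (mul_nonneg (hs.adm k).l0 (abs_nonneg _)) hr
      _ = n * (r * e k) := by simp
  rw [sub_zero] at h1
  refine h1.congr' ?_
  filter_upwards [hev] with k hk
  have hsm := hF.smooth _ _ (hs.e_pos k) (hs.e_le k) (hs.ell k)
  set X : E n := aL (A k) (WithLp.toLp 2 u) with hX
  have hXlt : ‖X‖ < R := by rw [hR]; linarith [hXR k]
  -- the derivative of `Φ = |x|²/2 + Pf` at `X`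
  have hΦ : (fun x : E n => ‖x‖ ^ 2 / 2 + Pf (e k) (A k) x) =ᶠ[𝓝 X]
      fun x => (Vl P0 (fun _ => 0) 0) (aL (A k)⁻¹ x) := by
    have h4 : ∀ᶠ x in 𝓝 X, ‖x‖ < R := (continuous_norm.tendsto X).eventually (gt_mem_nhds hXlt)
    filter_upwards [h4] with x hx
    rw [hin (e k) (A k) (hs.e_pos k) hk (hs.ell k) x hx]
    simp [Vl]
  have hV0 : ContDiff ℝ ∞ (Vl P0 (fun _ => (0 : ℝ)) 0) :=
    Dual441.contDiff_Vl hF.smooth0 contDiff_const 0
  have h5 : HasFDerivAt (fun x : E n => (Vl P0 (fun _ => 0) 0) (aL (A k)⁻¹ x))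
      ((fderiv ℝ (Vl P0 (fun _ => 0) 0) (aL (A k)⁻¹ X)).comp (aL (A k)⁻¹)) X :=
    ((hV0.differentiable (by simp)) _).hasFDerivAt.comp X (aL (A k)⁻¹).hasFDerivAt
  have h6 : fderiv ℝ (Vl (Pf (e k) (A k)) (fun _ => (0 : ℝ)) 0) X
      = (fderiv ℝ (Vl P0 (fun _ => 0) 0) (aL (A k)⁻¹ X)).comp (aL (A k)⁻¹) := by
    have h7 : Vl (Pf (e k) (A k)) (fun _ => (0 : ℝ)) 0 =
        fun x : E n => ‖x‖ ^ 2 / 2 + Pf (e k) (A k) x := by
      funext x; simp [Vl]
    rw [h7, hΦ.fderiv_eq, h5.fderiv]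
  have h8 : ∀ j, gr (Vl (Pf (e k) (A k)) (fun _ => (0 : ℝ)) 0) X j
      = fderiv ℝ (Vl P0 (fun _ => 0) 0) (WithLp.toLp 2 u) (aL (A k)⁻¹ (ee j)) := by
    intro j
    unfold gr
    rw [h6, hX, inv_cancel hd (hs.ell k)]
    rfl
  have h9 : ∑ j, A k j i * gr (Vl (Pf (e k) (A k)) (fun _ => (0 : ℝ)) 0) X j = G0 P0 i u := by
    simp only [h8]
    have h10 : ∑ j, A k j i * fderiv ℝ (Vl P0 (fun _ => 0) 0) (WithLp.toLp 2 u)
        (aL (A k)⁻¹ (ee j))
        = fderiv ℝ (Vl P0 (fun _ => 0) 0) (WithLp.toLp 2 u) (aL (A k)⁻¹ (aL (A k) (ee i))) := by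
      rw [aL_ee]
      simp only [map_sum, map_smul, smul_eq_mul]
    rw [h10, inv_cancel hd (hs.ell k)]
    have h11 := gr_Vl hF.smooth0 (contDiff_const (c := (0 : ℝ))) 0 (WithLp.toLp 2 u : E n) i
    unfold gr at h11
    rw [h11]
    simp [G0, gr]
  rw [← h9]
  unfold Gf
  rw [← Finset.sum_sub_distrib]
  refine Finset.sum_congr rfl fun j _ => ?_
  rw [gr_Vl hsm (hs.adm k).sm, gr_Vl hsm contDiff_const]
  ring

theorem Gf_bound {K : ℝ} {P v : E n → ℝ} {e lam : ℝ} {A : Matrix (Fin n) (Fin n) ℝ}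
    (hd : 0 ≤ d) (hr : 0 ≤ r) (hA : Ell d r A) (hP : ContDiff ℝ ∞ P) (hv : AdmV e lam v)
    (hK0 : 0 ≤ K) (he0 : e ≤ e0) (he00 : 0 ≤ e0)
    (hK : ∀ (x : E n) i, |gr P x i| ≤ K * (1 + ‖x‖)) (i : Fin n) (u : Fin n → ℝ) :
    |Gf P v lam A i u| ≤ (n * r * (1 + K + e0) * (1 + n * r * n)) * (1 + ‖u‖) ^ 1 := by
  have hX := upper_aL hr (hA.abs_entry_le hd) (WithLp.toLp 2 u : E n)
  set X : E n := aL A (WithLp.toLp 2 u) with hXdef
  have hu : ‖(WithLp.toLp 2 u : E n)‖ ≤ n * ‖u‖ := by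
    have h1 : ‖(WithLp.toLp 2 u : E n)‖ ^ 2 ≤ (n * ‖u‖) ^ 2 := by
      rw [norm_sq_toLp]
      unfold sq
      calc ∑ i, u i ^ 2 ≤ ∑ _i : Fin n, ‖u‖ ^ 2 := by
            refine Finset.sum_le_sum fun i _ => ?_
            rw [← sq_abs]
            exact pow_le_pow_left₀ (abs_nonneg _) (norm_le_pi_norm u i) 2
        _ = n * ‖u‖ ^ 2 := by simp
        _ ≤ n ^ 2 * ‖u‖ ^ 2 := by
            refine mul_le_mul_of_nonneg_right ?_ (by positivity)
            rcases Nat.eq_zero_or_pos n with h | h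
            · simp [h]
            · have : (1 : ℝ) ≤ n := by exact_mod_cast h
              nlinarith
        _ = (n * ‖u‖) ^ 2 := by ring
    exact abs_le_of_sq_le_sq' h1 (by positivity) |>.2
  have hnn : (0 : ℝ) ≤ n := Nat.cast_nonneg n
  have hXu : ‖X‖ ≤ n * r * n * ‖u‖ := by
    calc ‖X‖ ≤ n * r * ‖(WithLp.toLp 2 u : E n)‖ := hX
      _ ≤ n * r * (n * ‖u‖) := mul_le_mul_of_nonneg_left hu (by positivity)
      _ = _ := by ring
  have h1 : ∀ j, |gr (Vl P v lam) X j| ≤ (1 + K + e0) * (1 + ‖X‖) := by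
    intro j
    rw [gr_Vl hP hv.sm]
    have h2 : |X j| ≤ ‖X‖ := by
      have := PiLp.norm_apply_le X j
      rwa [Real.norm_eq_abs] at this
    have h3 := hK X j
    have h4 : |lam * gr v X j| ≤ e0 := by
      rw [abs_mul, abs_of_nonneg hv.l0]; exact (hv.grd X j).trans he0
    have h5 : |X j + gr P X j - lam * gr v X j| ≤ |X j| + |gr P X j| + |lam * gr v X j| := by
      refine (abs_sub _ _).trans ?_
      have := abs_add_le (X j) (gr P X j)
      linarith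
    have hXn := norm_nonneg X
    nlinarith
  unfold Gf
  refine (Finset.abs_sum_le_sum_abs _ _).trans ?_
  calc ∑ j, |A j i * gr (Vl P v lam) X j|
      ≤ ∑ _j : Fin n, r * ((1 + K + e0) * (1 + ‖X‖)) := by
        refine Finset.sum_le_sum fun j _ => ?_
        rw [abs_mul]
        exact mul_le_mul (hA.abs_entry_le hd j i) (h1 j) (abs_nonneg _) hr
    _ = n * r * (1 + K + e0) * (1 + ‖X‖) := by simp; ring
    _ ≤ n * r * (1 + K + e0) * ((1 + n * r * n) * (1 + ‖u‖)) := by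
        refine mul_le_mul_of_nonneg_left ?_ (by positivity)
        have hun := norm_nonneg u
        have : 0 ≤ n * r * n := by positivity
        nlinarith
    _ = _ := by ring

theorem continuous_gr {f : E n → ℝ} (hf : ContDiff ℝ ∞ f) (i : Fin n) :
    Continuous (fun x => gr f x i) := by
  unfold gr
  exact (hf.continuous_fderiv (by simp)).clm_apply continuous_const

theorem continuous_Gf {P v : E n → ℝ} {lam : ℝ} (hP : ContDiff ℝ ∞ P) (hv : ContDiff ℝ ∞ v)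
    (A : Matrix (Fin n) (Fin n) ℝ) (i : Fin n) : Continuous (Gf P v lam A i) := by
  have htoLp : Continuous fun u : Fin n → ℝ => (WithLp.toLp 2 u : E n) := PiLp.continuous_toLp 2 _
  unfold Gf
  refine continuous_finsetSum _ fun j _ => continuous_const.mul ?_
  exact (continuous_gr (Dual441.contDiff_Vl hP hv lam) j).comp
    ((aL A).continuous.comp htoLp)

/-- convergence of the Fisher matrices -/
theorem SeqD.tendsto_fisher (hF : Fam P0 d r e0 Pf) (hd : 0 < d) (hr : 0 ≤ r)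
    (hs : SeqD d r e0 Pf e lam A v) (i j : Fin n) :
    Tendsto (fun k => ∫ u, Gf (Pf (e k) (A k)) (v k) (lam k) (A k) i u *
        Gf (Pf (e k) (A k)) (v k) (lam k) (A k) j u *
        aff (den (Pf (e k) (A k)) (v k) (lam k)) (A k) 0 u) atTop
      (𝓝 (∫ u, G0 P0 i u * G0 P0 j u * f0 P0 u)) := by
  obtain ⟨K, hK⟩ := hF.grad
  have hK' : ∀ k (x : E n) i, |gr (Pf (e k) (A k)) x i| ≤ |K| * (1 + ‖x‖) := fun k x i =>
    (hK _ _ (hs.e_pos k) (hs.e_le k) (hs.ell k) x i).trans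
      (mul_le_mul_of_nonneg_right (le_abs_self K) (by positivity))
  have hsm : ∀ k, ContDiff ℝ ∞ (Pf (e k) (A k)) := fun k =>
    hF.smooth _ _ (hs.e_pos k) (hs.e_le k) (hs.ell k)
  set B : ℝ := n * r * (1 + |K| + e0) * (1 + n * r * n) with hB
  have hb : ∀ k i u, |Gf (Pf (e k) (A k)) (v k) (lam k) (A k) i u| ≤ B * (1 + ‖u‖) ^ 1 :=
    fun k i u => Gf_bound hd.le hr (hs.ell k) (hsm k) (hs.adm k) (abs_nonneg K) (hs.e_le k)
      hF.e0_pos.le (hK' k) i u
  refine (hs.cv hF hd hr).1.tendsto_ex_seq (K := B ^ 2) (N := 2)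
    (ψ := fun k u => Gf (Pf (e k) (A k)) (v k) (lam k) (A k) i u *
        Gf (Pf (e k) (A k)) (v k) (lam k) (A k) j u) (fun k => ?_) (fun k u => ?_)
    (ae_of_all _ fun u => (hs.tendsto_Gf hF hd hr i u).mul (hs.tendsto_Gf hF hd hr j u))
  · exact ((continuous_Gf (hsm k) (hs.adm k).sm _ i).mul
      (continuous_Gf (hsm k) (hs.adm k).sm _ j)).measurable
  · rw [abs_mul]
    calc _ ≤ (B * (1 + ‖u‖) ^ 1) * (B * (1 + ‖u‖) ^ 1) :=
          mul_le_mul (hb k i u) (hb k j u) (abs_nonneg _)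
            ((abs_nonneg _).trans (hb k i u))
      _ = _ := by ring

end seqs

/-! ### uniform closeness of the moments -/

section unif

variable {P0 : E n → ℝ} {d r e0 : ℝ} {Pf : ℝ → Matrix (Fin n) (Fin n) ℝ → E n → ℝ}


/-- **uniform closeness** of covariance and Fisher matrices as `e → 0` -/
theorem Fam.close (hF : Fam P0 d r e0 Pf) (hd : 0 < d) (hr : 0 ≤ r) (hE : EB (f0 P0))
    (h1 : ∫ x, f0 P0 x = 1) {δ : ℝ} (hδ : 0 < δ) :
    ∃ e1 : ℝ, 0 < e1 ∧ e1 ≤ e0 ∧ ∀ e A, 0 < e → e ≤ e1 → Ell d r A → ∀ lam (v : E n → ℝ),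
      AdmV e lam v → ∫ x, den (Pf e A) v lam x = 1 →
      (∀ i j, |densCov (aff (den (Pf e A) v lam) A 0) i j - densCov (f0 P0) i j| < δ) ∧
      (∀ i j, |(∫ u, Gf (Pf e A) v lam A i u * Gf (Pf e A) v lam A j u *
        aff (den (Pf e A) v lam) A 0 u) - ∫ u, G0 P0 i u * G0 P0 j u * f0 P0 u| < δ) := by
  by_contra hcon
  push Not at hcon
  have hpos : ∀ k : ℕ, 0 < min e0 (1 / ((k : ℝ) + 1)) := fun k =>
    lt_min hF.e0_pos Nat.one_div_pos_of_nat
  choose e A he1 he2 hA lam v hv hone hbad using fun k : ℕ =>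
    hcon _ (hpos k) (min_le_left _ _)
  have hs : SeqD d r e0 Pf e lam A v := by
    refine ⟨he1, fun k => (he2 k).trans (min_le_left _ _), ?_, hA, hv, hone⟩
    exact squeeze_zero (fun k => (he1 k).le) (fun k => (he2 k).trans (min_le_right _ _))
      tendsto_one_div_add_atTop_nhds_zero_nat
  have hcv := (hs.cv hF hd hr).1
  have hint : ∀ k, ∫ x, aff (den (Pf (e k) (A k)) (v k) (lam k)) (A k) 0 x = 1 := by
    intro k
    have hm : Measurable (den (Pf (e k) (A k)) (v k) (lam k)) :=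
      (Dual441.continuous_den (hF.smooth _ _ (hs.e_pos k) (hs.e_le k) (hs.ell k)).continuous
        (hs.adm k).sm.continuous (lam k)).measurable
    have h2 := integral_comp_affine (den (Pf (e k) (A k)) (v k) (lam k)) hm (A k)
      ((hs.ell k).sm_det_pos hd).ne' 0
    rw [hs.one k] at h2
    exact h2
  have hc : ∀ᶠ k in atTop, ∀ i j, |densCov (aff (den (Pf (e k) (A k)) (v k) (lam k)) (A k) 0) i j
      - densCov (f0 P0) i j| < δ :=
    eventually_all.mpr fun i => eventually_all.mpr fun j =>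
      ev_lt (hcv.tendsto_densCov hE hint h1 i j) hδ
  have hf : ∀ᶠ k in atTop, ∀ i j, |(∫ u, Gf (Pf (e k) (A k)) (v k) (lam k) (A k) i u *
        Gf (Pf (e k) (A k)) (v k) (lam k) (A k) j u *
        aff (den (Pf (e k) (A k)) (v k) (lam k)) (A k) 0 u)
        - ∫ u, G0 P0 i u * G0 P0 j u * f0 P0 u| < δ :=
    eventually_all.mpr fun i => eventually_all.mpr fun j =>
      ev_lt (hs.tendsto_fisher hF hd hr i j) hδ
  obtain ⟨k, hk1, hk2⟩ := (hc.and hf).exists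
  obtain ⟨i, j, hij⟩ := hbad k hk1
  exact absurd (hk2 i j) (not_lt.mpr hij)

/-- a bound for `w·Cov(f₀)w`, `|w| = 1` (plus one) -/
noncomputable def S0 (P0 : E n → ℝ) : ℝ := 1 + ∑ i, ∑ j, |densCov (f0 P0) i j|

/-- a bound for the Fisher form (plus one) -/
noncomputable def I0 (P0 : E n → ℝ) : ℝ := 1 + ∑ i, ∑ j, |∫ u, G0 P0 i u * G0 P0 j u * f0 P0 u|

theorem S0_pos (P0 : E n → ℝ) : 0 < S0 P0 := by unfold S0; positivity

theorem I0_pos (P0 : E n → ℝ) : 0 < I0 P0 := by unfold I0; positivity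

theorem quad_le {C : Matrix (Fin n) (Fin n) ℝ} {D : Matrix (Fin n) (Fin n) ℝ} {δ : ℝ}
    (hδ : δ * (n : ℝ) ^ 2 ≤ 1) (h : ∀ i j, |C i j - D i j| < δ) {w : Fin n → ℝ}
    (hw : ∑ i, w i ^ 2 = 1) : ∑ i, ∑ j, w i * w j * C i j ≤ 1 + ∑ i, ∑ j, |D i j| := by
  have hw1 : ∀ i, |w i| ≤ 1 := by
    intro i
    have : w i ^ 2 ≤ 1 := hw ▸ Finset.single_le_sum (f := fun i => w i ^ 2)
      (fun _ _ => sq_nonneg _) (Finset.mem_univ i)
    exact (sq_le_one_iff_abs_le_one _).mp this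
  have h1 : ∀ i j, w i * w j * C i j ≤ δ + |D i j| := by
    intro i j
    have h2 : |w i * w j| ≤ 1 := by
      rw [abs_mul]; exact mul_le_one₀ (hw1 i) (abs_nonneg _) (hw1 j)
    have h3 : |C i j| ≤ δ + |D i j| := by
      have := abs_sub_abs_le_abs_sub (C i j) (D i j)
      linarith [h i j]
    calc w i * w j * C i j ≤ |w i * w j * C i j| := le_abs_self _
      _ = |w i * w j| * |C i j| := abs_mul _ _
      _ ≤ 1 * |C i j| := mul_le_mul_of_nonneg_right h2 (abs_nonneg _)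
      _ ≤ _ := by rw [one_mul]; exact h3
  calc ∑ i, ∑ j, w i * w j * C i j ≤ ∑ i, ∑ j, (δ + |D i j|) :=
        Finset.sum_le_sum fun i _ => Finset.sum_le_sum fun j _ => h1 i j
    _ = δ * (n : ℝ) ^ 2 + ∑ i, ∑ j, |D i j| := by
        simp only [Finset.sum_add_distrib, Finset.sum_const, Finset.card_univ, Fintype.card_fin,
          nsmul_eq_mul]
        ring
    _ ≤ _ := by linarith

/-- **the two moment bounds of the normalisation**: for `e ≤ e1`, all `A` in the box and all unit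
eigenvectors `A w = a w`:  `Var (w·x) ≤ a² S0`,  `a² ∫ (∂_w V)² ≤ I0`
(`S0`, `I0` depend on `P0` only, not on the box). -/
theorem Fam.moments (hF : Fam P0 d r e0 Pf) (hd : 0 < d) (hr : 0 ≤ r) (hE : EB (f0 P0))
    (h1 : ∫ x, f0 P0 x = 1) :
    ∃ e1 : ℝ, 0 < e1 ∧ e1 ≤ e0 ∧ ∀ e A, 0 < e → e ≤ e1 → Ell d r A → ∀ lam (v : E n → ℝ),
      AdmV e lam v → LCD (den (Pf e A) v lam) → ∀ (w : Fin n → ℝ) (a : ℝ),
      ∑ i, w i ^ 2 = 1 → A *ᵥ w = a • w →
      ∫ x, (∑ i, w i * (x i - densMean (den (Pf e A) v lam) i)) ^ 2 * den (Pf e A) v lam x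
        ≤ a ^ 2 * S0 P0 ∧
      a ^ 2 * ∫ x, (∑ i, w i * gr (Vl (Pf e A) v lam) (WithLp.toLp 2 x) i) ^ 2 *
        den (Pf e A) v lam x ≤ I0 P0 := by
  obtain ⟨e1, he1, he10, H⟩ := hF.close hd hr hE h1
    (δ := 1 / ((n : ℝ) ^ 2 + 1)) (by positivity)
  refine ⟨e1, he1, he10, fun e A he hee hA lam v hv hL w a hw haw => ?_⟩
  obtain ⟨hc, hf⟩ := H e A he hee hA lam v hv hL.int1
  have hδ : 1 / ((n : ℝ) ^ 2 + 1) * (n : ℝ) ^ 2 ≤ 1 := by
    rw [one_div, inv_mul_le_iff₀ (by positivity)]; linarith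
  have hdet : A.det ≠ 0 := (hA.sm_det_pos hd).ne'
  have hsm : ContDiff ℝ ∞ (Pf e A) := hF.smooth e A he (hee.trans he10) hA
  set g := den (Pf e A) v lam with hg
  have hAT : Aᵀ *ᵥ w = a • w := by rw [hA.sm_transpose_eq]; exact haw
  constructor
  · -- variance
    have e1 : ∫ x, (∑ i, w i * (x i - densMean g i)) ^ 2 * g x
        = ∑ i, ∑ j, w i * w j * densCov g i j := by
      have h2 := ex_cl_cl hL.eb w w
      rw [← h2]
      unfold ex
      refine integral_congr_ae (ae_of_all _ fun x => ?_)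
      simp only [Cpt435.cl]
      ring
    have e2 : ∑ i, ∑ j, w i * w j * densCov g i j = w ⬝ᵥ (densCov g *ᵥ w) := by
      simp only [dotProduct, mulVec, Finset.mul_sum]
      refine Finset.sum_congr rfl fun i _ => Finset.sum_congr rfl fun j _ => ?_
      ring
    have e3 : w ⬝ᵥ (densCov g *ᵥ w) = a ^ 2 * (w ⬝ᵥ (densCov (aff g A 0) *ᵥ w)) := by
      rw [densCov_aff hL hdet 0, ← mulVec_mulVec, ← mulVec_mulVec, hAT, dotProduct_mulVec,
        ← mulVec_transpose, hAT, mulVec_smul, smul_dotProduct, dotProduct_smul]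
      simp only [smul_eq_mul]
      ring
    have e4 : w ⬝ᵥ (densCov (aff g A 0) *ᵥ w) =
        ∑ i, ∑ j, w i * w j * densCov (aff g A 0) i j := by
      simp only [dotProduct, mulVec, Finset.mul_sum]
      refine Finset.sum_congr rfl fun i _ => Finset.sum_congr rfl fun j _ => ?_
      ring
    rw [e1, e2, e3, e4]
    exact mul_le_mul_of_nonneg_left (quad_le hδ hc hw) (sq_nonneg a)
  · -- Fisher
    have hVm : ∀ i, Measurable fun x : Fin n → ℝ => gr (Vl (Pf e A) v lam) (WithLp.toLp 2 x) i := by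
      intro i
      exact ((continuous_gr (Dual441.contDiff_Vl hsm hv.sm lam) i).comp
        (PiLp.continuous_toLp 2 _)).measurable
    have e1 : ∫ x, (∑ i, w i * gr (Vl (Pf e A) v lam) (WithLp.toLp 2 x) i) ^ 2 * g x
        = ∫ u, (∑ i, w i * gr (Vl (Pf e A) v lam) (WithLp.toLp 2 (0 + A *ᵥ u)) i) ^ 2 *
          aff g A 0 u := by
      have h2 := ex_aff (f := g)
        (ψ := fun x => (∑ i, w i * gr (Vl (Pf e A) v lam) (WithLp.toLp 2 x) i) ^ 2) hL.meas
        ((Finset.measurable_sum _ fun i _ => (hVm i).const_mul _).pow_const 2) hdet 0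
      exact h2.symm
    have e2 : ∀ u, ∑ i, w i * Gf (Pf e A) v lam A i u
        = a * ∑ j, w j * gr (Vl (Pf e A) v lam) (WithLp.toLp 2 (0 + A *ᵥ u)) j := by
      intro u
      have h3 : ∀ j, ∑ i, A j i * w i = a * w j := by
        intro j
        have := congrFun haw j
        simpa [mulVec, dotProduct] using this
      simp only [Gf, zero_add, aL_toLp, Finset.mul_sum]
      rw [Finset.sum_comm]
      refine Finset.sum_congr rfl fun j _ => ?_
      have h4 : ∑ i, w i * (A j i * gr (Vl (Pf e A) v lam) (WithLp.toLp 2 (A *ᵥ u)) j)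
          = (∑ i, A j i * w i) * gr (Vl (Pf e A) v lam) (WithLp.toLp 2 (A *ᵥ u)) j := by
        rw [Finset.sum_mul]
        refine Finset.sum_congr rfl fun i _ => ?_
        ring
      rw [h4, h3]; ring
    have hint : ∀ i j, Integrable fun u => Gf (Pf e A) v lam A i u * Gf (Pf e A) v lam A j u *
        aff g A 0 u := by
      intro i j
      have hLa : LCD (aff g A 0) := hL.comp_affine A hdet 0
      obtain ⟨K, hK⟩ := hF.grad
      have hK' : ∀ (x : E n) i, |gr (Pf e A) x i| ≤ |K| * (1 + ‖x‖) := fun x i =>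
        (hK e A he (hee.trans he10) hA x i).trans
          (mul_le_mul_of_nonneg_right (le_abs_self K) (by positivity))
      have hPB : ∀ i, PB (Gf (Pf e A) v lam A i) := by
        intro i
        refine ⟨(continuous_Gf hsm hv.sm A i).measurable,
          (n * r * (1 + |K| + e0) * (1 + n * r * n)), 1, ?_, fun u =>
          Gf_bound hd.le hr hA hsm hv (abs_nonneg K) (hee.trans he10) hF.e0_pos.le hK' i u⟩
        have := hF.e0_pos
        positivity
      exact hLa.eb.integrable_mul ((hPB i).mul (hPB j))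
    have e3 : a ^ 2 * ∫ u, (∑ i, w i * gr (Vl (Pf e A) v lam) (WithLp.toLp 2 (0 + A *ᵥ u)) i) ^ 2 *
          aff g A 0 u = ∑ i, ∑ j, w i * w j * ∫ u, Gf (Pf e A) v lam A i u *
            Gf (Pf e A) v lam A j u * aff g A 0 u := by
      have h5 : ∀ u, a ^ 2 * ((∑ i, w i * gr (Vl (Pf e A) v lam)
          (WithLp.toLp 2 (0 + A *ᵥ u)) i) ^ 2 * aff g A 0 u)
          = ∑ i, ∑ j, w i * w j * (Gf (Pf e A) v lam A i u * Gf (Pf e A) v lam A j u *
            aff g A 0 u) := by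
        intro u
        have h6 : a ^ 2 * ((∑ i, w i * gr (Vl (Pf e A) v lam)
          (WithLp.toLp 2 (0 + A *ᵥ u)) i) ^ 2 * aff g A 0 u)
          = ((∑ i, w i * Gf (Pf e A) v lam A i u) * (∑ j, w j * Gf (Pf e A) v lam A j u)) *
            aff g A 0 u := by
          rw [e2 u]; ring
        rw [h6, Finset.sum_mul_sum, Finset.sum_mul]
        refine Finset.sum_congr rfl fun i _ => ?_
        rw [Finset.sum_mul]
        refine Finset.sum_congr rfl fun j _ => ?_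
        ring
      rw [← integral_const_mul]
      simp only [h5]
      rw [integral_finsetSum _ fun i _ => integrable_finsetSum _ fun j _ =>
        (hint i j).const_mul _]
      refine Finset.sum_congr rfl fun i _ => ?_
      rw [integral_finsetSum _ fun j _ => (hint i j).const_mul _]
      refine Finset.sum_congr rfl fun j _ => ?_
      rw [integral_const_mul]
    rw [e1, e3]
    exact quad_le (C := Matrix.of fun i j => ∫ u, Gf (Pf e A) v lam A i u *
            Gf (Pf e A) v lam A j u * aff g A 0 u)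
      (D := Matrix.of fun i j => ∫ u, G0 P0 i u * G0 P0 j u * f0 P0 u) hδ
      (fun i j => by simpa using hf i j) hw

/-! ### output of step B -/

/-- **step (L)**: if for all small `e` there is a good density of the family, `f₀` has `SB` -/
theorem Fam.SB (hF : Fam P0 d r e0 Pf) (hd : 0 < d) (hr : 0 ≤ r) (hL0 : LCD (f0 P0))
    {Good : ((Fin n → ℝ) → ℝ) → Prop} {e2 : ℝ} (he2 : 0 < e2)
    (H : ∀ e, 0 < e → e ≤ e2 → ∃ A lam, ∃ v : E n → ℝ, Ell d r A ∧ AdmV e lam v ∧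
      LCD (den (Pf e A) v lam) ∧ Good (den (Pf e A) v lam)) : SB Good (f0 P0) := by
  have hpos : ∀ k : ℕ, 0 < min (min e0 e2) (1 / ((k : ℝ) + 1)) := fun k =>
    lt_min (lt_min hF.e0_pos he2) Nat.one_div_pos_of_nat
  choose A lam v hA hv hL hG using fun k : ℕ =>
    H _ (hpos k) ((min_le_left _ _).trans (min_le_right _ _))
  have hs : SeqD d r e0 Pf (fun k : ℕ => min (min e0 e2) (1 / ((k : ℝ) + 1))) lam A v := by
    refine ⟨hpos, fun k => (min_le_left _ _).trans (min_le_left _ _), ?_, hA, hv,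
      fun k => (hL k).int1⟩
    exact squeeze_zero (fun k => (hpos k).le) (fun k => min_le_right _ _)
      tendsto_one_div_add_atTop_nhds_zero_nat
  have hcv := (hs.cv hF hd hr).1
  have hdet : ∀ k, (A k).det ≠ 0 := fun k => ((hA k).sm_det_pos hd).ne'
  have hint : ∀ k : ℕ, ∫ x, aff (den (Pf (min (min e0 e2) (1 / ((k : ℝ) + 1))) (A k)) (v k) (lam k))
      (A k) 0 x = 1 := fun k => ((hL k).comp_affine (A k) (hdet k) 0).int1
  refine ⟨fun k : ℕ => den (Pf (min (min e0 e2) (1 / ((k : ℝ) + 1))) (A k)) (v k) (lam k), A, hG,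
    fun k => (hA k).sm_posDef hd, hcv.tendsto_L1, ?_,
    fun i j => hcv.tendsto_densCov hL0.eb hint hL0.int1 i j, fun i => hcv.tendsto_densMean i⟩
  have h1 := hcv.tendsto_DD hL0 hint
  simpa only [DD_aff (hL _) (hdet _) 0] using h1

end unif

end Crest.Agent.R253.Lim140
end

-- ▼ part R253/FamA_706
section

/-!
Row 253, T6 node (F) (helper706), part A: the log-scale cut-off `chi e` and its derivative bounds.
-/

set_option autoImplicit false

open Set Filter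
open scoped ContDiff Topology

namespace Crest.Agent.R253.Fam706

open Crest.Agent.R238 Crest.Agent.R238.MaxP

variable {n : ℕ}

/-- smooth cut-off on the line: `1` on `(-∞, 1]`, `0` on `[2, ∞)` -/
noncomputable def hc (t : ℝ) : ℝ := Real.smoothTransition (2 - t)

theorem hc_smooth : ContDiff ℝ ∞ hc :=
  Real.smoothTransition.contDiff.comp (contDiff_const.sub contDiff_id)

theorem hc_nonneg (t : ℝ) : 0 ≤ hc t := Real.smoothTransition.nonneg _

theorem hc_le_one (t : ℝ) : hc t ≤ 1 := Real.smoothTransition.le_one _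

theorem hc_one {t : ℝ} (h : t ≤ 1) : hc t = 1 :=
  Real.smoothTransition.one_of_one_le (by linarith)

theorem hc_zero {t : ℝ} (h : 2 ≤ t) : hc t = 0 :=
  Real.smoothTransition.zero_of_nonpos (by linarith)

/-- first and second derivative -/
noncomputable def h1 : ℝ → ℝ := deriv hc
noncomputable def h2 : ℝ → ℝ := deriv h1

theorem h1_smooth : ContDiff ℝ ∞ h1 :=
  ((contDiff_infty_iff_deriv (f := hc)).1 hc_smooth).2

theorem h2_smooth : ContDiff ℝ ∞ h2 :=
  ((contDiff_infty_iff_deriv (f := h1)).1 h1_smooth).2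

theorem hc_has (t : ℝ) : HasDerivAt hc (h1 t) t :=
  (hc_smooth.differentiable (by simp) t).hasDerivAt

theorem h1_has (t : ℝ) : HasDerivAt h1 (h2 t) t :=
  (h1_smooth.differentiable (by simp) t).hasDerivAt

theorem h1_zero_of_lt {t : ℝ} (h : t < 1) : h1 t = 0 := by
  have : hc =ᶠ[𝓝 t] fun _ => (1 : ℝ) := by
    filter_upwards [Iio_mem_nhds h] with s hs using hc_one (le_of_lt hs)
  unfold h1
  rw [this.deriv_eq]; simp

theorem h1_zero_of_gt {t : ℝ} (h : 2 < t) : h1 t = 0 := by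
  have : hc =ᶠ[𝓝 t] fun _ => (0 : ℝ) := by
    filter_upwards [Ioi_mem_nhds h] with s hs using hc_zero (le_of_lt hs)
  unfold h1
  rw [this.deriv_eq]; simp

theorem h2_zero_of_lt {t : ℝ} (h : t < 1) : h2 t = 0 := by
  have : h1 =ᶠ[𝓝 t] fun _ => (0 : ℝ) := by
    filter_upwards [Iio_mem_nhds h] with s hs using h1_zero_of_lt hs
  unfold h2
  rw [this.deriv_eq]; simp

theorem h2_zero_of_gt {t : ℝ} (h : 2 < t) : h2 t = 0 := by
  have : h1 =ᶠ[𝓝 t] fun _ => (0 : ℝ) := by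
    filter_upwards [Ioi_mem_nhds h] with s hs using h1_zero_of_gt hs
  unfold h2
  rw [this.deriv_eq]; simp

/-- uniform bound of the two derivatives -/
theorem exists_Kh : ∃ K : ℝ, 0 ≤ K ∧ (∀ t, |h1 t| ≤ K) ∧ ∀ t, |h2 t| ≤ K := by
  obtain ⟨K1, hK1⟩ := (isCompact_Icc (a := (1 : ℝ)) (b := 2)).exists_bound_of_continuousOn
    h1_smooth.continuous.continuousOn
  obtain ⟨K2, hK2⟩ := (isCompact_Icc (a := (1 : ℝ)) (b := 2)).exists_bound_of_continuousOn
    h2_smooth.continuous.continuousOn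
  refine ⟨max 0 (max K1 K2), le_max_left _ _, fun t => ?_, fun t => ?_⟩
  · by_cases h : t < 1
    · rw [h1_zero_of_lt h]; simp
    · by_cases h' : 2 < t
      · rw [h1_zero_of_gt h']; simp
      · have := hK1 t ⟨not_lt.1 h, not_lt.1 h'⟩
        rw [Real.norm_eq_abs] at this
        exact this.trans ((le_max_left _ _).trans (le_max_right _ _))
  · by_cases h : t < 1
    · rw [h2_zero_of_lt h]; simp
    · by_cases h' : 2 < t
      · rw [h2_zero_of_gt h']; simp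
      · have := hK2 t ⟨not_lt.1 h, not_lt.1 h'⟩
        rw [Real.norm_eq_abs] at this
        exact this.trans ((le_max_right _ _).trans (le_max_right _ _))

/-- a fixed constant -/
noncomputable def Kh : ℝ := exists_Kh.choose
theorem Kh_nonneg : 0 ≤ Kh := exists_Kh.choose_spec.1
theorem h1_le (t : ℝ) : |h1 t| ≤ Kh := exists_Kh.choose_spec.2.1 t
theorem h2_le (t : ℝ) : |h2 t| ≤ Kh := exists_Kh.choose_spec.2.2 t

/-- the log-scale cut-off on `E n` -/
noncomputable def chi (e : ℝ) (x : E n) : ℝ := hc (e * Real.log (1 + ‖x‖ ^ 2))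

/-- radial profiles -/
noncomputable def F0 (e s : ℝ) : ℝ := hc (e * Real.log (1 + s))
noncomputable def F1 (e s : ℝ) : ℝ := h1 (e * Real.log (1 + s)) * (e / (1 + s))
noncomputable def F2 (e s : ℝ) : ℝ :=
  h2 (e * Real.log (1 + s)) * (e / (1 + s)) * (e / (1 + s))
    + h1 (e * Real.log (1 + s)) * (-(e / (1 + s) ^ 2))

theorem chi_eq (e : ℝ) : (chi e : E n → ℝ) = fun x => F0 e (‖x‖ ^ 2) := rfl

theorem chi_nonneg (e : ℝ) (x : E n) : 0 ≤ chi e x := hc_nonneg _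
theorem chi_le_one (e : ℝ) (x : E n) : chi e x ≤ 1 := hc_le_one _
theorem chi_one {e : ℝ} {x : E n} (h : e * Real.log (1 + ‖x‖ ^ 2) ≤ 1) : chi e x = 1 := hc_one h
theorem chi_zero {e : ℝ} {x : E n} (h : 2 ≤ e * Real.log (1 + ‖x‖ ^ 2)) : chi e x = 0 := hc_zero h

theorem inner_has {e s : ℝ} (hs : 0 ≤ s) :
    HasDerivAt (fun s => e * Real.log (1 + s)) (e / (1 + s)) s := by
  have h1 : HasDerivAt (fun s : ℝ => 1 + s) 1 s := (hasDerivAt_id s).const_add 1
  have h2 := (h1.log (by positivity)).const_mul e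
  refine h2.congr_deriv ?_
  ring

theorem F0_has {e s : ℝ} (hs : 0 ≤ s) : HasDerivAt (F0 e) (F1 e s) s := by
  have h := (hc_has (e * Real.log (1 + s))).comp s (inner_has hs)
  exact h

theorem F1_has {e s : ℝ} (hs : 0 ≤ s) : HasDerivAt (F1 e) (F2 e s) s := by
  have h := (h1_has (e * Real.log (1 + s))).comp s (inner_has (e := e) hs)
  have h3 : HasDerivAt (fun s : ℝ => e / (1 + s)) (-(e / (1 + s) ^ 2)) s := by
    have h1 : HasDerivAt (fun s : ℝ => 1 + s) 1 s := (hasDerivAt_id s).const_add 1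
    have h2 := (hasDerivAt_const s e).div h1 (by positivity)
    refine h2.congr_deriv ?_
    field_simp
    ring
  exact h.mul h3

theorem F1_le {e s : ℝ} (he : 0 ≤ e) (hs : 0 ≤ s) : |F1 e s| ≤ Kh * (e / (1 + s)) := by
  unfold F1
  rw [abs_mul, abs_of_nonneg (by positivity : 0 ≤ e / (1 + s))]
  exact mul_le_mul_of_nonneg_right (h1_le _) (by positivity)

theorem F2_le {e s : ℝ} (he : 0 ≤ e) (he1 : e ≤ 1) (hs : 0 ≤ s) :
    |F2 e s| ≤ 2 * Kh * (e / (1 + s) ^ 2) := by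
  have hK := Kh_nonneg
  have h0 : 0 ≤ e / (1 + s) := by positivity
  have h0' : 0 ≤ e / (1 + s) ^ 2 := by positivity
  unfold F2
  refine (abs_add_le _ _).trans ?_
  have e1 : |h2 (e * Real.log (1 + s)) * (e / (1 + s)) * (e / (1 + s))|
      ≤ Kh * (e / (1 + s) ^ 2) := by
    rw [abs_mul, abs_mul, abs_of_nonneg h0]
    calc |h2 (e * Real.log (1 + s))| * (e / (1 + s)) * (e / (1 + s))
        ≤ Kh * (e / (1 + s)) * (e / (1 + s)) :=
          mul_le_mul_of_nonneg_right (mul_le_mul_of_nonneg_right (h2_le _) h0) h0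
      _ = Kh * (e * (e / (1 + s) ^ 2)) := by field_simp
      _ ≤ Kh * (1 * (e / (1 + s) ^ 2)) :=
          mul_le_mul_of_nonneg_left (mul_le_mul_of_nonneg_right he1 h0') hK
      _ = _ := by ring
  have e2 : |h1 (e * Real.log (1 + s)) * (-(e / (1 + s) ^ 2))| ≤ Kh * (e / (1 + s) ^ 2) := by
    rw [abs_mul, abs_neg, abs_of_nonneg h0']
    exact mul_le_mul_of_nonneg_right (h1_le _) h0'
  linarith

theorem chi_smooth (e : ℝ) : ContDiff ℝ ∞ (chi e : E n → ℝ) := by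
  unfold chi
  refine hc_smooth.comp (contDiff_const.mul (ContDiff.log ?_ fun x => ?_))
  · exact contDiff_const.add (contDiff_norm_sq ℝ)
  · positivity

theorem fderiv_chi (e : ℝ) :
    fderiv ℝ (chi e : E n → ℝ) = fun x => (2 * F1 e (‖x‖ ^ 2)) • innerSL ℝ x := by
  rw [chi_eq]
  exact fderiv_radial fun t ht => F0_has ht

theorem fderiv2_chi (e : ℝ) (x a b : E n) :
    fderiv ℝ (fderiv ℝ (chi e : E n → ℝ)) x a b =
      4 * F2 e (‖x‖ ^ 2) * (inner ℝ x a) * (inner ℝ x b) + 2 * F1 e (‖x‖ ^ 2) * inner ℝ a b := by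
  rw [chi_eq]
  exact fderiv_fderiv_radial (fun t ht => F0_has ht) (fun t ht => F1_has ht) x a b

/-- first derivative bound -/
theorem fderiv_chi_le' {e : ℝ} (he : 0 ≤ e) (x w : E n) :
    |fderiv ℝ (chi e : E n → ℝ) x w| ≤ 2 * Kh * e * ‖x‖ * ‖w‖ / (1 + ‖x‖ ^ 2) := by
  rw [fderiv_chi]
  have h1 := F1_le he (by positivity : 0 ≤ ‖x‖ ^ 2)
  have h2 : |inner ℝ x w| ≤ ‖x‖ * ‖w‖ := abs_real_inner_le_norm x w
  have e1 : ((2 * F1 e (‖x‖ ^ 2)) • innerSL ℝ x) w = 2 * F1 e (‖x‖ ^ 2) * inner ℝ x w := by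
    simp
  show |((2 * F1 e (‖x‖ ^ 2)) • innerSL ℝ x) w| ≤ _
  rw [e1, abs_mul, abs_mul, abs_of_pos (by norm_num : (0 : ℝ) < 2)]
  have hK := Kh_nonneg
  calc 2 * |F1 e (‖x‖ ^ 2)| * |inner ℝ x w|
      ≤ 2 * (Kh * (e / (1 + ‖x‖ ^ 2))) * (‖x‖ * ‖w‖) := by
        refine mul_le_mul (by linarith) h2 (abs_nonneg _) (by positivity)
    _ = _ := by ring


/-- second derivative bound -/
theorem fderiv2_chi_le {e : ℝ} (he : 0 ≤ e) (he1 : e ≤ 1) (x z : E n) :
    |fderiv ℝ (fderiv ℝ (chi e : E n → ℝ)) x z z| ≤ 10 * Kh * e * ‖z‖ ^ 2 / (1 + ‖x‖ ^ 2) := by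
  have hK := Kh_nonneg
  rw [fderiv2_chi]
  have hx := norm_nonneg x
  have hz := norm_nonneg z
  have h1 := F1_le he (by positivity : 0 ≤ ‖x‖ ^ 2)
  have h2 := F2_le he he1 (by positivity : 0 ≤ ‖x‖ ^ 2)
  have h3 : |inner ℝ x z| ≤ ‖x‖ * ‖z‖ := abs_real_inner_le_norm x z
  have h4 : inner ℝ z z = ‖z‖ ^ 2 := real_inner_self_eq_norm_sq z
  have h5 : |4 * F2 e (‖x‖ ^ 2) * (inner ℝ x z) * (inner ℝ x z)|
      ≤ 8 * Kh * e * ‖z‖ ^ 2 / (1 + ‖x‖ ^ 2) := by
    rw [abs_mul, abs_mul, abs_mul, abs_of_pos (by norm_num : (0 : ℝ) < 4)]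
    calc 4 * |F2 e (‖x‖ ^ 2)| * |inner ℝ x z| * |inner ℝ x z|
        ≤ 4 * (2 * Kh * (e / (1 + ‖x‖ ^ 2) ^ 2)) * (‖x‖ * ‖z‖) * (‖x‖ * ‖z‖) := by
          gcongr
      _ = 8 * Kh * e * ‖z‖ ^ 2 * (‖x‖ ^ 2 / (1 + ‖x‖ ^ 2) ^ 2) := by ring
      _ ≤ 8 * Kh * e * ‖z‖ ^ 2 * (1 / (1 + ‖x‖ ^ 2)) := by
          refine mul_le_mul_of_nonneg_left ?_ (by positivity)
          rw [div_le_div_iff₀ (by positivity) (by positivity)]
          nlinarith [sq_nonneg ‖x‖]
      _ = _ := by ring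
  have h6 : |2 * F1 e (‖x‖ ^ 2) * inner ℝ z z| ≤ 2 * Kh * e * ‖z‖ ^ 2 / (1 + ‖x‖ ^ 2) := by
    rw [h4, abs_mul, abs_mul, abs_of_pos (by norm_num : (0 : ℝ) < 2),
      abs_of_nonneg (by positivity : 0 ≤ ‖z‖ ^ 2)]
    calc 2 * |F1 e (‖x‖ ^ 2)| * ‖z‖ ^ 2 ≤ 2 * (Kh * (e / (1 + ‖x‖ ^ 2))) * ‖z‖ ^ 2 := by gcongr
      _ = _ := by ring
  refine (abs_add_le _ _).trans ?_
  have : 8 * Kh * e * ‖z‖ ^ 2 / (1 + ‖x‖ ^ 2) + 2 * Kh * e * ‖z‖ ^ 2 / (1 + ‖x‖ ^ 2)
      = 10 * Kh * e * ‖z‖ ^ 2 / (1 + ‖x‖ ^ 2) := by ring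
  linarith

end Crest.Agent.R253.Fam706
end

-- ▼ part R253/FamB_706
section

/-!
Row 253, T6 node (F) (helper706), part B: the family
`PA P0 e B x = P0 (B x) + chi e x * (‖B x‖² - ‖x‖²)/2`, its derivatives, the Hessian lower bound.
-/

set_option autoImplicit false

open Set Filter
open scoped ContDiff Topology

namespace Crest.Agent.R253.Fam706

open Crest.Agent.R238 Crest.Agent.R238.Apr Crest.Agent.R253.Br

variable {n : ℕ}

/-- half of the difference of the two quadratic forms -/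
noncomputable def qB (B : E n →L[ℝ] E n) (x : E n) : ℝ := (‖B x‖ ^ 2 - ‖x‖ ^ 2) / 2

/-- the family -/
noncomputable def PA (P0 : E n → ℝ) (e : ℝ) (B : E n →L[ℝ] E n) (x : E n) : ℝ :=
  P0 (B x) + chi e x * ((‖B x‖ ^ 2 - ‖x‖ ^ 2) / 2)

/-- the box -/
def Bx (b1 b2 : ℝ) : Set (E n →L[ℝ] E n) := {B | ∀ x, b1 * ‖x‖ ≤ ‖B x‖ ∧ ‖B x‖ ≤ b2 * ‖x‖}

/-- gradient of `qB` -/
noncomputable def gB (B : E n →L[ℝ] E n) (x : E n) : E n →L[ℝ] ℝ :=
  (innerSL ℝ (B x)).comp B - innerSL ℝ x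

theorem gB_apply (B : E n →L[ℝ] E n) (x w : E n) :
    gB B x w = inner ℝ (B x) (B w) - inner ℝ x w := rfl

theorem qB_has (B : E n →L[ℝ] E n) (x : E n) : HasFDerivAt (qB B) (gB B x) x := by
  have h1 : HasFDerivAt (fun y : E n => ‖y‖ ^ 2) (2 • (innerSL ℝ x)) x :=
    (hasStrictFDerivAt_norm_sq x).hasFDerivAt
  have h2 : HasFDerivAt (fun y : E n => ‖B y‖ ^ 2) ((2 • (innerSL ℝ (B x))).comp B) x :=
    HasFDerivAt.comp x (g := fun y : E n => ‖y‖ ^ 2) (hasStrictFDerivAt_norm_sq (B x)).hasFDerivAt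
      B.hasFDerivAt
  have h3 := (h2.sub h1).mul_const (1 / 2 : ℝ)
  have e : qB B = fun y => (‖B y‖ ^ 2 - ‖y‖ ^ 2) * (1 / 2) := by
    funext y; unfold qB; ring
  rw [e]
  refine h3.congr_fderiv ?_
  ext w
  rw [gB_apply]
  simp only [smul_apply, sub_apply, ContinuousLinearMap.comp_apply, innerSL_apply_apply,
    smul_eq_mul, nsmul_eq_mul]
  push_cast
  ring

/-- second derivative of `qB` -/
noncomputable def sB (B : E n →L[ℝ] E n) : E n →L[ℝ] E n →L[ℝ] ℝ :=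
  ((ContinuousLinearMap.compL ℝ (E n) (E n) ℝ).flip B).comp ((innerSL ℝ).comp B) - innerSL ℝ

theorem sB_apply (B : E n →L[ℝ] E n) (x : E n) : sB B x = gB B x := by
  ext w
  simp only [sB, gB, sub_apply, ContinuousLinearMap.comp_apply, ContinuousLinearMap.flip_apply,
    ContinuousLinearMap.compL_apply]

theorem gB_has (B : E n →L[ℝ] E n) (x : E n) : HasFDerivAt (gB B) (sB B) x := by
  have e : gB B = fun y => sB B y := by funext y; rw [sB_apply]
  rw [e]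
  exact (sB B).hasFDerivAt

theorem PA_eq_q (P0 : E n → ℝ) (e : ℝ) (B : E n →L[ℝ] E n) :
    PA P0 e B = fun x => P0 (B x) + chi e x * qB B x := rfl

theorem PA_has {P0 : E n → ℝ} (hP : ContDiff ℝ ∞ P0) (e : ℝ) (B : E n →L[ℝ] E n) (x : E n) :
    HasFDerivAt (PA P0 e B)
      ((fderiv ℝ P0 (B x)).comp B + (chi e x • gB B x + qB B x • fderiv ℝ (chi e) x)) x := by
  rw [PA_eq_q]
  have h1 : HasFDerivAt (fun x => P0 (B x)) ((fderiv ℝ P0 (B x)).comp B) x :=
    ((hP.differentiable (by simp)) (B x)).hasFDerivAt.comp x B.hasFDerivAt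
  have h2 : HasFDerivAt (chi e : E n → ℝ) (fderiv ℝ (chi e) x) x :=
    (((chi_smooth e).differentiable (by simp)) x).hasFDerivAt
  exact h1.add (h2.mul (qB_has B x))

theorem fderiv_PA {P0 : E n → ℝ} (hP : ContDiff ℝ ∞ P0) (e : ℝ) (B : E n →L[ℝ] E n) :
    fderiv ℝ (PA P0 e B) = fun x =>
      (fderiv ℝ P0 (B x)).comp B + (chi e x • gB B x + qB B x • fderiv ℝ (chi e) x) :=
  funext fun x => (PA_has hP e B x).fderiv

theorem fderiv2_PA {P0 : E n → ℝ} (hP : ContDiff ℝ ∞ P0) (e : ℝ) (B : E n →L[ℝ] E n)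
    (x a b : E n) :
    fderiv ℝ (fderiv ℝ (PA P0 e B)) x a b = fderiv ℝ (fderiv ℝ P0) (B x) (B a) (B b)
      + ((chi e x * (inner ℝ (B a) (B b) - inner ℝ a b) + fderiv ℝ (chi e) x a * gB B x b)
      + (qB B x * fderiv ℝ (fderiv ℝ (chi e)) x a b + gB B x a * fderiv ℝ (chi e) x b)) := by
  rw [fderiv_PA hP]
  have d0 : Differentiable ℝ (fderiv ℝ P0) := (hP.fderiv_right (m := ∞) (by simp)).differentiable
    (by simp)
  have d1 : Differentiable ℝ (fderiv ℝ (chi e : E n → ℝ)) :=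
    ((chi_smooth e).fderiv_right (m := ∞) (by simp)).differentiable (by simp)
  have h1 : HasFDerivAt (fun x => fderiv ℝ P0 (B x)) ((fderiv ℝ (fderiv ℝ P0) (B x)).comp B) x :=
    (d0 (B x)).hasFDerivAt.comp x B.hasFDerivAt
  have h1' : HasFDerivAt (fun x => (fderiv ℝ P0 (B x)).comp B)
      (((ContinuousLinearMap.compL ℝ (E n) (E n) ℝ).flip B).comp
        ((fderiv ℝ (fderiv ℝ P0) (B x)).comp B)) x :=
    ((ContinuousLinearMap.compL ℝ (E n) (E n) ℝ).flip B).hasFDerivAt.comp x h1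
  have h2 : HasFDerivAt (chi e : E n → ℝ) (fderiv ℝ (chi e) x) x :=
    (((chi_smooth e).differentiable (by simp)) x).hasFDerivAt
  have h3 := h2.smul (gB_has B x)
  have h4 := (qB_has B x).smul (d1 x).hasFDerivAt
  have h5 := h1'.add (h3.add h4)
  have h6 : fderiv ℝ (fun x => (fderiv ℝ P0 (B x)).comp B
      + (chi e x • gB B x + qB B x • fderiv ℝ (chi e) x)) x = _ := h5.fderiv
  rw [h6]
  simp only [add_apply, smul_apply, ContinuousLinearMap.comp_apply,
    ContinuousLinearMap.smulRight_apply, ContinuousLinearMap.flip_apply,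
    ContinuousLinearMap.compL_apply, smul_eq_mul, sB_apply]
  rw [gB_apply B a b]

theorem abs_gB_le {B : E n →L[ℝ] E n} {b2 : ℝ} (hb : 0 ≤ b2) (hB : ∀ x, ‖B x‖ ≤ b2 * ‖x‖)
    (x w : E n) : |gB B x w| ≤ (b2 ^ 2 + 1) * ‖x‖ * ‖w‖ := by
  rw [gB_apply]
  have h1 : |inner ℝ (B x) (B w)| ≤ ‖B x‖ * ‖B w‖ := abs_real_inner_le_norm _ _
  have h2 : |inner ℝ x w| ≤ ‖x‖ * ‖w‖ := abs_real_inner_le_norm _ _
  have h3 : ‖B x‖ * ‖B w‖ ≤ (b2 * ‖x‖) * (b2 * ‖w‖) :=
    mul_le_mul (hB x) (hB w) (norm_nonneg _) (by positivity)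
  refine (abs_sub _ _).trans ?_
  nlinarith

theorem abs_qB_le {B : E n →L[ℝ] E n} {b2 : ℝ} (_hb : 0 ≤ b2) (hB : ∀ x, ‖B x‖ ≤ b2 * ‖x‖)
    (x : E n) : |qB B x| ≤ (b2 ^ 2 + 1) / 2 * ‖x‖ ^ 2 := by
  unfold qB
  have h1 : ‖B x‖ ^ 2 ≤ (b2 * ‖x‖) ^ 2 := pow_le_pow_left₀ (norm_nonneg _) (hB x) 2
  have h2 : 0 ≤ ‖B x‖ ^ 2 := by positivity
  have h3 : 0 ≤ ‖x‖ ^ 2 := by positivity
  rw [abs_le]
  constructor <;> nlinarith [sq_nonneg (b2 * ‖x‖)]

/-- error of the cut-off in the second derivative -/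
theorem err_le {B : E n →L[ℝ] E n} {b2 e : ℝ} (hb : 0 ≤ b2) (hB : ∀ x, ‖B x‖ ≤ b2 * ‖x‖)
    (he : 0 ≤ e) (he1 : e ≤ 1) (x z : E n) :
    |fderiv ℝ (chi e : E n → ℝ) x z * gB B x z
      + (qB B x * fderiv ℝ (fderiv ℝ (chi e)) x z z + gB B x z * fderiv ℝ (chi e) x z)|
      ≤ 9 * Kh * (b2 ^ 2 + 1) * e * ‖z‖ ^ 2 := by
  have hK := Kh_nonneg
  have hx := norm_nonneg x
  have hz := norm_nonneg z
  have h1 := fderiv_chi_le' he x z
  have h2 := fderiv2_chi_le he he1 x z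
  have h3 := abs_gB_le hb hB x z
  have h4 := abs_qB_le hb hB x
  have hr : ‖x‖ ^ 2 / (1 + ‖x‖ ^ 2) ≤ 1 := by
    rw [div_le_one (by positivity)]; linarith
  have a1 : |fderiv ℝ (chi e : E n → ℝ) x z * gB B x z| ≤ 2 * Kh * (b2 ^ 2 + 1) * e * ‖z‖ ^ 2 := by
    rw [abs_mul]
    calc |fderiv ℝ (chi e : E n → ℝ) x z| * |gB B x z|
        ≤ (2 * Kh * e * ‖x‖ * ‖z‖ / (1 + ‖x‖ ^ 2)) * ((b2 ^ 2 + 1) * ‖x‖ * ‖z‖) :=
          mul_le_mul h1 h3 (abs_nonneg _) (by positivity)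
      _ = 2 * Kh * (b2 ^ 2 + 1) * e * ‖z‖ ^ 2 * (‖x‖ ^ 2 / (1 + ‖x‖ ^ 2)) := by ring
      _ ≤ 2 * Kh * (b2 ^ 2 + 1) * e * ‖z‖ ^ 2 * 1 :=
          mul_le_mul_of_nonneg_left hr (by positivity)
      _ = _ := by ring
  have a2 : |qB B x * fderiv ℝ (fderiv ℝ (chi e : E n → ℝ)) x z z|
      ≤ 5 * Kh * (b2 ^ 2 + 1) * e * ‖z‖ ^ 2 := by
    rw [abs_mul]
    calc |qB B x| * |fderiv ℝ (fderiv ℝ (chi e : E n → ℝ)) x z z|
        ≤ ((b2 ^ 2 + 1) / 2 * ‖x‖ ^ 2) * (10 * Kh * e * ‖z‖ ^ 2 / (1 + ‖x‖ ^ 2)) :=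
          mul_le_mul h4 h2 (abs_nonneg _) (by positivity)
      _ = 5 * Kh * (b2 ^ 2 + 1) * e * ‖z‖ ^ 2 * (‖x‖ ^ 2 / (1 + ‖x‖ ^ 2)) := by ring
      _ ≤ 5 * Kh * (b2 ^ 2 + 1) * e * ‖z‖ ^ 2 * 1 :=
          mul_le_mul_of_nonneg_left hr (by positivity)
      _ = _ := by ring
  have a3 : |gB B x z * fderiv ℝ (chi e : E n → ℝ) x z| ≤ 2 * Kh * (b2 ^ 2 + 1) * e * ‖z‖ ^ 2 := by
    rw [mul_comm]; exact a1
  refine (abs_add_le _ _).trans ?_
  have := abs_add_le (qB B x * fderiv ℝ (fderiv ℝ (chi e : E n → ℝ)) x z z)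
    (gB B x z * fderiv ℝ (chi e : E n → ℝ) x z)
  linarith

/-- `D²P0` vanishes outside the support -/
theorem fderiv2_zero_of_far {P0 : E n → ℝ} {R : ℝ} (hR : tsupport P0 ⊆ Metric.ball 0 R)
    {y : E n} (hy : R ≤ ‖y‖) : fderiv ℝ (fderiv ℝ P0) y = 0 := by
  have h1 : y ∉ tsupport P0 := fun h => by
    have := hR h
    rw [mem_ball_zero_iff] at this
    linarith
  have h2 : ∀ᶠ w in 𝓝 y, P0 w = (fun _ => (0 : ℝ)) w := by
    have : ∀ᶠ w in 𝓝 y, w ∉ tsupport P0 := (isClosed_tsupport P0).isOpen_compl.mem_nhds h1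
    filter_upwards [this] with w hw
    exact image_eq_zero_of_notMem_tsupport hw
  have h3 : fderiv ℝ P0 =ᶠ[𝓝 y] fderiv ℝ (fun _ : E n => (0 : ℝ)) := EventuallyEq.fderiv h2
  rw [h3.fderiv_eq]
  have h4 : (fderiv ℝ (fun _ : E n => (0 : ℝ))) = fun _ => 0 := by funext y; simp
  rw [h4]; simp

/-- **Hessian lower bound, uniform in `e ≤ e0` and `B` in the box** -/
theorem hess_PA {P0 : E n → ℝ} (hP : PDatB P0) {b1 b2 : ℝ} (hb1 : 0 < b1) (hb : b1 ≤ b2) :
    ∃ c e0 : ℝ, 0 < c ∧ c ≤ 1 ∧ 0 < e0 ∧ e0 ≤ 1 ∧ ∀ e, 0 < e → e ≤ e0 → ∀ B ∈ Bx (n := n) b1 b2,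
      ∀ x z : E n, c * ‖z‖ ^ 2 ≤ ‖z‖ ^ 2 + fderiv ℝ (fderiv ℝ (PA P0 e B)) x z z := by
  obtain ⟨ε, hε, hc⟩ := hP.conv
  have hs2 : ContDiff ℝ 2 P0 := by exact_mod_cast contDiff_infty.1 hP.tst.smooth 2
  have hb2 : 0 < b2 := hb1.trans_le hb
  obtain ⟨R', hR'⟩ := hP.tst.supp.isCompact.isBounded.subset_ball (0 : E n)
  set R := max R' 1 with hRdef
  have hR : tsupport P0 ⊆ Metric.ball 0 R :=
    hR'.trans (Metric.ball_subset_ball (le_max_left _ _))
  have hRpos : 0 < R := lt_max_of_lt_right one_pos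
  have hK := Kh_nonneg
  -- the constant
  set c1 : ℝ := min (min 1 (b1 ^ 2)) (2 * ε * b1 ^ 2) with hc1
  have hc1pos : 0 < c1 := by
    refine lt_min (lt_min one_pos (by positivity)) (by positivity)
  set L : ℝ := Real.log (1 + (R / b1) ^ 2) with hL
  have hL0 : 0 ≤ L := Real.log_nonneg (by nlinarith [sq_nonneg (R / b1)])
  set K9 : ℝ := 9 * Kh * (b2 ^ 2 + 1) with hK9
  have hK90 : 0 ≤ K9 := by positivity
  refine ⟨c1 / 2, min 1 (min (1 / (L + 1)) (c1 / (2 * (K9 + 1)))), by positivity, ?_, ?_,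
    min_le_left _ _, ?_⟩
  · have : c1 ≤ 1 := (min_le_left _ _).trans (min_le_left _ _)
    linarith
  · refine lt_min one_pos (lt_min (by positivity) (by positivity))
  intro e he hee B hB x z
  have he1 : e ≤ 1 := hee.trans (min_le_left _ _)
  have heL : e ≤ 1 / (L + 1) := hee.trans ((min_le_right _ _).trans (min_le_left _ _))
  have heK : e ≤ c1 / (2 * (K9 + 1)) := hee.trans ((min_le_right _ _).trans (min_le_right _ _))
  have hBu : ∀ x, ‖B x‖ ≤ b2 * ‖x‖ := fun x => (hB x).2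
  have hz0 : 0 ≤ ‖z‖ ^ 2 := by positivity
  rw [fderiv2_PA hP.tst.smooth]
  have herr := err_le hb2.le hBu he.le he1 x z
  have herr' : 9 * Kh * (b2 ^ 2 + 1) * e * ‖z‖ ^ 2 ≤ c1 / 2 * ‖z‖ ^ 2 := by
    refine mul_le_mul_of_nonneg_right ?_ hz0
    have h1 : K9 * e ≤ (K9 + 1) * e := by nlinarith
    have h2 : (K9 + 1) * e ≤ c1 / 2 := by
      rw [le_div_iff₀ (by positivity)] at heK
      linarith
    calc 9 * Kh * (b2 ^ 2 + 1) * e = K9 * e := by rw [hK9]
      _ ≤ c1 / 2 := h1.trans h2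
  have hBz : b1 ^ 2 * ‖z‖ ^ 2 ≤ ‖B z‖ ^ 2 := by
    rw [← mul_pow]
    exact pow_le_pow_left₀ (by positivity) (hB z).1 2
  have hin1 : inner ℝ (B z) (B z) = ‖B z‖ ^ 2 := real_inner_self_eq_norm_sq _
  have hin2 : inner ℝ z z = ‖z‖ ^ 2 := real_inner_self_eq_norm_sq _
  rw [hin1, hin2]
  have hx0 := chi_nonneg e x
  have hx1 := chi_le_one e x
  -- main term
  have main : c1 * ‖z‖ ^ 2 ≤ ‖z‖ ^ 2 + fderiv ℝ (fderiv ℝ P0) (B x) (B z) (B z)
      + chi e x * (‖B z‖ ^ 2 - ‖z‖ ^ 2) := by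
    by_cases hfar : R ≤ ‖B x‖
    · rw [fderiv2_zero_of_far hR hfar]
      have h1 : c1 ≤ 1 := (min_le_left _ _).trans (min_le_left _ _)
      have h2 : c1 ≤ b1 ^ 2 := (min_le_left _ _).trans (min_le_right _ _)
      have h3 : c1 * ‖z‖ ^ 2 ≤ ‖z‖ ^ 2 := by nlinarith
      have h4 : c1 * ‖z‖ ^ 2 ≤ ‖B z‖ ^ 2 := by nlinarith
      simp only [zero_apply, add_zero]
      have h5 : (1 - chi e x) * (c1 * ‖z‖ ^ 2) ≤ (1 - chi e x) * ‖z‖ ^ 2 :=
        mul_le_mul_of_nonneg_left h3 (by linarith)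
      have h6 : chi e x * (c1 * ‖z‖ ^ 2) ≤ chi e x * ‖B z‖ ^ 2 :=
        mul_le_mul_of_nonneg_left h4 hx0
      nlinarith
    · have hchi : chi e x = 1 := by
        refine chi_one ?_
        have h1 : b1 * ‖x‖ ≤ R := (hB x).1.trans (not_le.1 hfar).le
        have h2 : ‖x‖ ≤ R / b1 := by rw [le_div_iff₀ hb1]; linarith
        have h3 : ‖x‖ ^ 2 ≤ (R / b1) ^ 2 := pow_le_pow_left₀ (norm_nonneg _) h2 2
        have h4 : Real.log (1 + ‖x‖ ^ 2) ≤ L :=
          Real.log_le_log (by positivity) (by linarith)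
        have h5 : e * (L + 1) ≤ 1 := by
          rw [le_div_iff₀ (by positivity)] at heL; exact heL
        nlinarith
      have h1 := hess_lower hs2 hc (B x) (B z)
      have h2 : c1 ≤ 2 * ε * b1 ^ 2 := min_le_right _ _
      have h3 : c1 * ‖z‖ ^ 2 ≤ 2 * ε * ‖B z‖ ^ 2 := by
        calc c1 * ‖z‖ ^ 2 ≤ 2 * ε * b1 ^ 2 * ‖z‖ ^ 2 := mul_le_mul_of_nonneg_right h2 hz0
          _ = 2 * ε * (b1 ^ 2 * ‖z‖ ^ 2) := by ring
          _ ≤ _ := mul_le_mul_of_nonneg_left hBz (by positivity)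
      rw [hchi]
      linarith
  have h7 := (abs_le.1 herr).1
  linarith

end Crest.Agent.R253.Fam706
end

-- ▼ part R253/FamC_706
section

/-!
Row 253, T6 node (F) (helper706), part C: uniform constants of the family (compactness), majorant,
continuity in `B`.
-/

set_option autoImplicit false

open Set Filter
open scoped ContDiff Topology

namespace Crest.Agent.R253.Fam706

open Crest.Agent.R238 Crest.Agent.R238.Apr Crest.Agent.R253.Br

variable {n : ℕ}

/-- joint smoothness of the `x`-derivative -/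
theorem joint {G : Type*} [NormedAddCommGroup G] [NormedSpace ℝ G]
    {J : (E n →L[ℝ] E n) → E n → G}
    (hJ : ContDiff ℝ ∞ (fun p : (E n →L[ℝ] E n) × E n => J p.1 p.2)) :
    ContDiff ℝ ∞ (fun p : (E n →L[ℝ] E n) × E n => fderiv ℝ (J p.1) p.2) := by
  refine ContDiff.fderiv (f := fun p : (E n →L[ℝ] E n) × E n => J p.1) (g := fun p => p.2)
    (m := ∞) ?_ contDiff_snd (by simp)
  exact hJ.comp ((contDiff_fst.comp contDiff_fst).prodMk contDiff_snd)

theorem joint_PA {P0 : E n → ℝ} (hP : ContDiff ℝ ∞ P0) (e : ℝ) :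
    ContDiff ℝ ∞ (fun p : (E n →L[ℝ] E n) × E n => PA P0 e p.1 p.2) := by
  unfold PA
  have h1 : ContDiff ℝ ∞ (fun p : (E n →L[ℝ] E n) × E n => p.1 p.2) :=
    contDiff_fst.clm_apply contDiff_snd
  have h2 : ContDiff ℝ ∞ (fun p : (E n →L[ℝ] E n) × E n => ‖p.1 p.2‖ ^ 2) :=
    (contDiff_norm_sq ℝ).comp h1
  have h3 : ContDiff ℝ ∞ (fun p : (E n →L[ℝ] E n) × E n => ‖p.2‖ ^ 2) :=
    (contDiff_norm_sq ℝ).comp contDiff_snd
  have h4 : ContDiff ℝ ∞ (fun p : (E n →L[ℝ] E n) × E n => (chi e p.2 : ℝ)) :=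
    (chi_smooth e).comp contDiff_snd
  exact (hP.comp h1).add (h4.mul ((h2.sub h3).div_const 2))

theorem PA_smooth {P0 : E n → ℝ} (hP : ContDiff ℝ ∞ P0) (e : ℝ) (B : E n →L[ℝ] E n) :
    ContDiff ℝ ∞ (PA P0 e B) :=
  (joint_PA hP e).comp (contDiff_const.prodMk contDiff_id)

/-- radius of the support, uniform in `B` -/
theorem PA_far {P0 : E n → ℝ} (hs : HasCompactSupport P0) {b1 b2 e : ℝ} (hb1 : 0 < b1)
    (he : 0 < e) : ∃ R0 : ℝ, 0 < R0 ∧ ∀ B ∈ Bx (n := n) b1 b2, ∀ x, R0 ≤ ‖x‖ → PA P0 e B x = 0 := by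
  obtain ⟨R, hR⟩ := hs.isCompact.isBounded.subset_ball (0 : E n)
  refine ⟨max (R / b1) (Real.exp (1 / e)), lt_max_of_lt_right (Real.exp_pos _), ?_⟩
  intro B hB x hx
  have h1 : R ≤ ‖B x‖ := by
    have h2 : R / b1 ≤ ‖x‖ := (le_max_left _ _).trans hx
    rw [div_le_iff₀ hb1] at h2
    have := (hB x).1
    linarith
  have h3 : P0 (B x) = 0 := by
    refine image_eq_zero_of_notMem_tsupport fun hmem => ?_
    have := hR hmem
    rw [mem_ball_zero_iff] at this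
    linarith
  have h4 : Real.exp (1 / e) ≤ ‖x‖ := (le_max_right _ _).trans hx
  have h5 : chi e x = 0 := by
    refine chi_zero ?_
    have h6 : Real.exp (1 / e) ^ 2 ≤ ‖x‖ ^ 2 := pow_le_pow_left₀ (Real.exp_pos _).le h4 2
    have h7 : Real.exp (1 / e) ^ 2 = Real.exp (2 / e) := by
      rw [← Real.exp_nat_mul]; congr 1; push_cast; ring
    have h8 : 2 / e ≤ Real.log (1 + ‖x‖ ^ 2) := by
      rw [Real.le_log_iff_exp_le (by positivity), ← h7]
      linarith
    rw [div_le_iff₀ he] at h8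
    linarith
  unfold PA
  rw [h3, h5]; ring

theorem PA_tst {P0 : E n → ℝ} (hP : Tst P0) {b1 b2 e : ℝ} (hb1 : 0 < b1)
    (he : 0 < e) {B : E n →L[ℝ] E n} (hB : B ∈ Bx (n := n) b1 b2) : Tst (PA P0 e B) := by
  obtain ⟨R0, hR0, h⟩ := PA_far (b2 := b2) hP.supp hb1 he
  refine ⟨PA_smooth hP.smooth e B, HasCompactSupport.intro (isCompact_closedBall (0 : E n) R0)
    fun x hx => h B hB x ?_⟩
  rw [mem_closedBall_zero_iff, not_le] at hx
  exact hx.le

theorem Bx_isClosed (b1 b2 : ℝ) : IsClosed (Bx (n := n) b1 b2) := by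
  have : Bx (n := n) b1 b2 = ⋂ x : E n, {B | b1 * ‖x‖ ≤ ‖B x‖} ∩ {B | ‖B x‖ ≤ b2 * ‖x‖} := by
    ext B; simp [Bx]
  rw [this]
  refine isClosed_iInter fun x => IsClosed.inter ?_ ?_
  · exact isClosed_le continuous_const (by fun_prop)
  · exact isClosed_le (by fun_prop) continuous_const

theorem Bx_isCompact {b1 b2 : ℝ} (hb2 : 0 ≤ b2) : IsCompact (Bx (n := n) b1 b2) := by
  have : ProperSpace (E n →L[ℝ] E n) := FiniteDimensional.proper ℝ _
  refine Metric.isCompact_of_isClosed_isBounded (Bx_isClosed b1 b2) ?_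
  refine (Metric.isBounded_closedBall (x := (0 : E n →L[ℝ] E n)) (r := b2)).subset ?_
  intro B hB
  rw [mem_closedBall_zero_iff]
  exact ContinuousLinearMap.opNorm_le_bound _ hb2 fun x => (hB x).2


/-- a jointly continuous function which vanishes for `‖x‖ ≥ R` is bounded on the box -/
theorem bdd_joint {b1 b2 : ℝ} (hb2 : 0 ≤ b2) {F : (E n →L[ℝ] E n) → E n → ℝ}
    (hF : Continuous (fun p : (E n →L[ℝ] E n) × E n => F p.1 p.2)) {R : ℝ}
    (hfar : ∀ B ∈ Bx (n := n) b1 b2, ∀ x, R ≤ ‖x‖ → F B x = 0) :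
    ∃ C : ℝ, 0 ≤ C ∧ ∀ B ∈ Bx (n := n) b1 b2, ∀ x, |F B x| ≤ C := by
  have hc : IsCompact ((Bx (n := n) b1 b2) ×ˢ (Metric.closedBall (0 : E n) R)) :=
    (Bx_isCompact hb2).prod (isCompact_closedBall _ _)
  obtain ⟨C, hC⟩ := hc.exists_bound_of_continuousOn hF.continuousOn
  refine ⟨max C 0, le_max_right _ _, fun B hB x => ?_⟩
  by_cases hx : R ≤ ‖x‖
  · rw [hfar B hB x hx]; simp
  · have := hC (B, x) ⟨hB, by rw [mem_closedBall_zero_iff]; exact (not_le.1 hx).le⟩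
    rw [Real.norm_eq_abs] at this
    exact this.trans (le_max_left _ _)

theorem PA_eventually {P0 : E n → ℝ} {b1 b2 e R0 : ℝ}
    (h : ∀ B ∈ Bx (n := n) b1 b2, ∀ x, R0 ≤ ‖x‖ → PA P0 e B x = 0) {B : E n →L[ℝ] E n}
    (hB : B ∈ Bx (n := n) b1 b2) {x : E n} (hx : R0 + 1 ≤ ‖x‖) :
    PA P0 e B =ᶠ[𝓝 x] fun _ => 0 := by
  have h1 : ∀ᶠ y in 𝓝 x, R0 < ‖y‖ :=
    (isOpen_lt continuous_const continuous_norm).mem_nhds (by
      show R0 < ‖x‖
      linarith)
  filter_upwards [h1] with y hy using h B hB y hy.le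

theorem exists_PCB_family {P0 : E n → ℝ} (hP : Tst P0) {b1 b2 e c : ℝ} (hb1 : 0 < b1)
    (hb : b1 ≤ b2) (he : 0 < e) (hc0 : 0 < c) (hc1 : c ≤ 1)
    (hlow : ∀ B ∈ Bx (n := n) b1 b2, ∀ x z : E n,
      c * ‖z‖ ^ 2 ≤ ‖z‖ ^ 2 + fderiv ℝ (fderiv ℝ (PA P0 e B)) x z z) :
    ∃ C2 C3 M0 M1 R0 : ℝ, ∀ B ∈ Bx (n := n) b1 b2, PCB (PA P0 e B) c C2 C3 M0 M1 R0 := by
  have hb2 : 0 ≤ b2 := hb1.le.trans hb
  obtain ⟨R0, hR0, hfar⟩ := PA_far (b2 := b2) hP.supp hb1 he
  have j0 := joint_PA hP.smooth e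
  have j1 := joint (J := fun B => PA P0 e B) j0
  have j2 := joint (J := fun B => fderiv ℝ (PA P0 e B)) j1
  have jH : ∀ i j : Fin n, ContDiff ℝ ∞
      (fun p : (E n →L[ℝ] E n) × E n => Hs (PA P0 e p.1) p.2 i j) := fun i j =>
    (j2.clm_apply contDiff_const).clm_apply contDiff_const
  have j3 : ∀ i j : Fin n, ContDiff ℝ ∞
      (fun p : (E n →L[ℝ] E n) × E n => fderiv ℝ (fun y => Hs (PA P0 e p.1) y i j) p.2) :=
    fun i j => joint (J := fun B => fun y => Hs (PA P0 e B) y i j) (jH i j)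
  have hev : ∀ B ∈ Bx (n := n) b1 b2, ∀ x, R0 + 1 ≤ ‖x‖ → PA P0 e B =ᶠ[𝓝 x] fun _ => 0 :=
    fun B hB x hx => PA_eventually hfar hB hx
  -- sup of P
  obtain ⟨M0, hM0, bM0⟩ := bdd_joint (b1 := b1) hb2 (F := fun B x => PA P0 e B x) j0.continuous hfar
  -- gradient
  have hM1 : ∀ i : Fin n, ∃ C : ℝ, 0 ≤ C ∧ ∀ B ∈ Bx (n := n) b1 b2, ∀ x,
      |gr (PA P0 e B) x i| ≤ C := by
    intro i
    refine bdd_joint (b1 := b1) hb2 (F := fun B x => gr (PA P0 e B) x i) (R := R0 + 1) ?_ ?_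
    · exact (j1.clm_apply contDiff_const).continuous
    · intro B hB x hx
      unfold gr
      rw [(hev B hB x hx).fderiv_eq]; simp
  choose M1 hM1a hM1b using hM1
  have hK2 : ∀ p : Fin n × Fin n, ∃ C : ℝ, 0 ≤ C ∧ ∀ B ∈ Bx (n := n) b1 b2, ∀ x,
      |Hs (PA P0 e B) x p.1 p.2| ≤ C := by
    intro p
    refine bdd_joint (b1 := b1) hb2 (F := fun B x => Hs (PA P0 e B) x p.1 p.2) (R := R0 + 1)
      (jH p.1 p.2).continuous ?_
    intro B hB x hx
    exact Hs_eq_zero_of_eventually (hev B hB x hx) p.1 p.2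
  choose K2 hK2a hK2b using hK2
  have hK3 : ∀ p : Fin n × Fin n × Fin n, ∃ C : ℝ, 0 ≤ C ∧ ∀ B ∈ Bx (n := n) b1 b2, ∀ x,
      |fderiv ℝ (fun y => Hs (PA P0 e B) y p.1 p.2.1) x (ee p.2.2)| ≤ C := by
    intro p
    refine bdd_joint (b1 := b1) hb2
      (F := fun B x => fderiv ℝ (fun y => Hs (PA P0 e B) y p.1 p.2.1) x (ee p.2.2))
      (R := R0 + 1 + 1) ((j3 p.1 p.2.1).clm_apply contDiff_const).continuous ?_
    intro B hB x hx
    have h1 : (fun y => Hs (PA P0 e B) y p.1 p.2.1) =ᶠ[𝓝 x] fun _ => 0 := by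
      have h2 : ∀ᶠ y in 𝓝 x, R0 + 1 < ‖y‖ :=
        (isOpen_lt continuous_const continuous_norm).mem_nhds (by
          show R0 + 1 < ‖x‖
          linarith)
      filter_upwards [h2] with y hy
      exact Hs_eq_zero_of_eventually (hev B hB y hy.le) p.1 p.2.1
    show fderiv ℝ (fun y => Hs (PA P0 e B) y p.1 p.2.1) x (ee p.2.2) = 0
    rw [h1.fderiv_eq]; simp
  choose K3 hK3a hK3b using hK3
  set K : ℝ := ∑ p, K2 p with hKdef
  have hK0 : 0 ≤ K := Finset.sum_nonneg fun p _ => hK2a p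
  have hKb : ∀ B ∈ Bx (n := n) b1 b2, ∀ x i j, |Hs (PA P0 e B) x i j| ≤ K := fun B hB x i j =>
    (hK2b (i, j) B hB x).trans
      (Finset.single_le_sum (f := K2) (fun p _ => hK2a p) (Finset.mem_univ (i, j)))
  refine ⟨1 + n * K, ∑ p, K3 p, M0, ∑ i, M1 i, R0 + 1, fun B hB => ⟨⟨hc0, hc1,
    le_add_of_nonneg_right (by positivity), Finset.sum_nonneg fun p _ => hK3a p, hM0,
    by linarith, ?_, ?_, ?_, bM0 B hB, hev B hB⟩, PA_tst hP hb1 he hB, ?_⟩⟩
  · intro s hs0 hs1 x z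
    have h := hlow B hB x (WithLp.toLp 2 z)
    rw [fderiv2_eq_sum, normsq_eq] at h
    simp only at h
    have hz : 0 ≤ ∑ i, z i ^ 2 := Finset.sum_nonneg fun _ _ => sq_nonneg _
    set Z := ∑ i, z i ^ 2
    set W := ∑ i, ∑ j, Hs (PA P0 e B) x i j * z i * z j
    have e1 : c * Z ≤ Z := by nlinarith
    calc c * Z = (1 - s) * (c * Z) + s * (c * Z) := by ring
      _ ≤ (1 - s) * Z + s * (Z + W) := by
        apply add_le_add
        · exact mul_le_mul_of_nonneg_left e1 (by linarith)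
        · exact mul_le_mul_of_nonneg_left h hs0
      _ = Z + s * W := by ring
  · intro s hs0 hs1 x z
    have h := form_bound (A := Matrix.of (fun i j => Hs (PA P0 e B) x i j)) (K := K)
      (fun i j => hKb B hB x i j) z
    simp only [Matrix.of_apply] at h
    have hz : 0 ≤ ∑ i, z i ^ 2 := Finset.sum_nonneg fun _ _ => sq_nonneg _
    set Z := ∑ i, z i ^ 2
    set W := ∑ i, ∑ j, Hs (PA P0 e B) x i j * z i * z j
    have h5 : s * W ≤ n * K * Z := by
      calc s * W ≤ s * |W| := mul_le_mul_of_nonneg_left (le_abs_self _) hs0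
        _ ≤ 1 * |W| := mul_le_mul_of_nonneg_right hs1 (abs_nonneg _)
        _ = |W| := one_mul _
        _ ≤ n * K * Z := h
    linarith
  · intro x i j k
    exact (hK3b (i, j, k) B hB x).trans
      (Finset.single_le_sum (f := K3) (fun p _ => hK3a p) (Finset.mem_univ (i, j, k)))
  · intro x i
    exact (hM1b i B hB x).trans
      (Finset.single_le_sum (f := M1) (fun p _ => hM1a p) (Finset.mem_univ i))

theorem P0_bdd {P0 : E n → ℝ} (hP : Tst P0) : ∃ M : ℝ, 0 ≤ M ∧ ∀ x, |P0 x| ≤ M := by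
  obtain ⟨M, hM⟩ := hP.supp.exists_bound_of_continuous hP.smooth.continuous
  refine ⟨max M 0, le_max_right _ _, fun x => ?_⟩
  have := hM x
  rw [Real.norm_eq_abs] at this
  exact this.trans (le_max_left _ _)

/-- the quadratic majorant, uniform in `e` and `B` -/
theorem PA_major {P0 : E n → ℝ} {M : ℝ} (hM : ∀ x, |P0 x| ≤ M) {b1 b2 : ℝ} (hb1 : 0 < b1)
    (e : ℝ) {B : E n →L[ℝ] E n} (hB : B ∈ Bx (n := n) b1 b2) (x : E n) :
    min 1 (b1 ^ 2) / 2 * ‖x‖ ^ 2 - M ≤ ‖x‖ ^ 2 / 2 + PA P0 e B x := by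
  have h0 := chi_nonneg e x
  have h1 := chi_le_one e x
  have h2 : b1 ^ 2 * ‖x‖ ^ 2 ≤ ‖B x‖ ^ 2 := by
    rw [← mul_pow]
    exact pow_le_pow_left₀ (by positivity) (hB x).1 2
  have hx : 0 ≤ ‖x‖ ^ 2 := by positivity
  have h3 : min 1 (b1 ^ 2) * ‖x‖ ^ 2 ≤ ‖x‖ ^ 2 := by
    nlinarith [min_le_left 1 (b1 ^ 2)]
  have h4 : min 1 (b1 ^ 2) * ‖x‖ ^ 2 ≤ ‖B x‖ ^ 2 :=
    (mul_le_mul_of_nonneg_right (min_le_right _ _) hx).trans h2
  have h5 := (abs_le.1 (hM (B x))).1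
  have h6 : (1 - chi e x) * (min 1 (b1 ^ 2) * ‖x‖ ^ 2) ≤ (1 - chi e x) * ‖x‖ ^ 2 :=
    mul_le_mul_of_nonneg_left h3 (by linarith)
  have h7 : chi e x * (min 1 (b1 ^ 2) * ‖x‖ ^ 2) ≤ chi e x * ‖B x‖ ^ 2 :=
    mul_le_mul_of_nonneg_left h4 h0
  unfold PA
  nlinarith

theorem PA_eq {P0 : E n → ℝ} {e : ℝ} {B : E n →L[ℝ] E n} {x : E n}
    (h : e * Real.log (1 + ‖x‖ ^ 2) ≤ 1) :
    ‖x‖ ^ 2 / 2 + PA P0 e B x = ‖B x‖ ^ 2 / 2 + P0 (B x) := by
  unfold PA
  rw [chi_one h]; ring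



/-- **node (F)** -/
theorem fam {P0 : E n → ℝ} (hP : PDatB P0) {b1 b2 : ℝ} (hb1 : 0 < b1) (hb : b1 ≤ b2) :
    ∃ c e0 : ℝ, 0 < c ∧ c ≤ 1 ∧ 0 < e0 ∧ e0 ≤ 1 ∧
      (∀ e, 0 < e → e ≤ e0 → ∃ C2 C3 M0 M1 R0 : ℝ, ∀ B ∈ Bx (n := n) b1 b2,
        PCB (PA P0 e B) c C2 C3 M0 M1 R0) ∧
      (∀ e, 0 < e → e ≤ e0 → ∀ B ∈ Bx (n := n) b1 b2, ∀ x z : E n,
        c * ‖z‖ ^ 2 ≤ ‖z‖ ^ 2 + fderiv ℝ (fderiv ℝ (PA P0 e B)) x z z) ∧
      ∃ a C : ℝ, 0 < a ∧ ∀ e, ∀ B ∈ Bx (n := n) b1 b2, ∀ x,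
        a * ‖x‖ ^ 2 - C ≤ ‖x‖ ^ 2 / 2 + PA P0 e B x := by
  obtain ⟨c, e0, hc0, hc1, he0, he1, H⟩ := hess_PA hP hb1 hb
  obtain ⟨M, hM0, hM⟩ := P0_bdd hP.tst
  refine ⟨c, e0, hc0, hc1, he0, he1, fun e he hee => ?_, fun e he hee B hB => H e he hee B hB,
    min 1 (b1 ^ 2) / 2, M, by positivity, fun e B hB x => PA_major hM hb1 e hB x⟩
  exact exists_PCB_family hP.tst hb1 hb he hc0 hc1 (H e he hee)

/-- Lipschitz continuity in `B`, uniformly in `x` (`e` fixed) -/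
theorem PA_lip {P0 : E n → ℝ} (hP : Tst P0) {b1 b2 e : ℝ} (hb1 : 0 < b1) (hb : b1 ≤ b2)
    (he : 0 < e) : ∃ L : ℝ, 0 ≤ L ∧ ∀ B ∈ Bx (n := n) b1 b2, ∀ B' ∈ Bx (n := n) b1 b2, ∀ x,
      |PA P0 e B x - PA P0 e B' x| ≤ L * ‖B - B'‖ := by
  have hb2 : 0 ≤ b2 := hb1.le.trans hb
  obtain ⟨R0, hR0, hfar⟩ := PA_far (b2 := b2) hP.supp hb1 he
  obtain ⟨K, hK⟩ := (hP.supp.fderiv (𝕜 := ℝ)).exists_bound_of_continuous
    (hP.smooth.continuous_fderiv (by simp))
  have hK0 : 0 ≤ K := (norm_nonneg _).trans (hK 0)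
  refine ⟨K * R0 + b2 * R0 ^ 2, by positivity, fun B hB B' hB' x => ?_⟩
  have hD := norm_nonneg (B - B')
  by_cases hx : R0 ≤ ‖x‖
  · rw [hfar B hB x hx, hfar B' hB' x hx]
    simp only [sub_zero, abs_zero]
    positivity
  have hx' : ‖x‖ ≤ R0 := (not_le.1 hx).le
  have hBx : ‖B x - B' x‖ ≤ ‖B - B'‖ * R0 := by
    have h1 : B x - B' x = (B - B') x := rfl
    rw [h1]
    exact ((B - B').le_opNorm x).trans (mul_le_mul_of_nonneg_left hx' hD)
  have h1 : |P0 (B x) - P0 (B' x)| ≤ K * (‖B - B'‖ * R0) := by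
    have h2 := convex_univ.norm_image_sub_le_of_norm_fderiv_le (f := P0) (𝕜 := ℝ)
      (fun z _ => (hP.smooth.differentiable (by simp)) z) (fun z _ => hK z) (mem_univ (B' x))
      (mem_univ (B x))
    rw [Real.norm_eq_abs] at h2
    exact h2.trans (mul_le_mul_of_nonneg_left hBx hK0)
  have h3 : |‖B x‖ ^ 2 - ‖B' x‖ ^ 2| ≤ 2 * (b2 * R0) * (‖B - B'‖ * R0) := by
    have h4 : ‖B x‖ ≤ b2 * R0 := (hB x).2.trans (mul_le_mul_of_nonneg_left hx' hb2)
    have h5 : ‖B' x‖ ≤ b2 * R0 := (hB' x).2.trans (mul_le_mul_of_nonneg_left hx' hb2)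
    have h6 : |‖B x‖ - ‖B' x‖| ≤ ‖B - B'‖ * R0 := (abs_norm_sub_norm_le _ _).trans hBx
    have h7 : ‖B x‖ ^ 2 - ‖B' x‖ ^ 2 = (‖B x‖ + ‖B' x‖) * (‖B x‖ - ‖B' x‖) := by ring
    rw [h7, abs_mul, abs_of_nonneg (by positivity : 0 ≤ ‖B x‖ + ‖B' x‖)]
    exact mul_le_mul (by linarith) h6 (abs_nonneg _) (by positivity)
  have h8 : PA P0 e B x - PA P0 e B' x
      = (P0 (B x) - P0 (B' x)) + chi e x * ((‖B x‖ ^ 2 - ‖B' x‖ ^ 2) / 2) := by
    unfold PA; ring
  rw [h8]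
  refine (abs_add_le _ _).trans ?_
  have h9 : |chi e x * ((‖B x‖ ^ 2 - ‖B' x‖ ^ 2) / 2)| ≤ b2 * R0 * (‖B - B'‖ * R0) := by
    rw [abs_mul, abs_of_nonneg (chi_nonneg e x), abs_div, abs_of_pos (by norm_num : (0 : ℝ) < 2)]
    calc chi e x * (|‖B x‖ ^ 2 - ‖B' x‖ ^ 2| / 2) ≤ 1 * (|‖B x‖ ^ 2 - ‖B' x‖ ^ 2| / 2) :=
          mul_le_mul_of_nonneg_right (chi_le_one e x) (by positivity)
      _ ≤ _ := by linarith
  calc |P0 (B x) - P0 (B' x)| + |chi e x * ((‖B x‖ ^ 2 - ‖B' x‖ ^ 2) / 2)|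
      ≤ K * (‖B - B'‖ * R0) + b2 * R0 * (‖B - B'‖ * R0) := add_le_add h1 h9
    _ = (K * R0 + b2 * R0 ^ 2) * ‖B - B'‖ := by ring

/-- the form used by `NormCont666.continuousOn_int_cfc` -/
theorem PA_unif {P0 : E n → ℝ} (hP : Tst P0) {b1 b2 e : ℝ} (hb1 : 0 < b1) (hb : b1 ≤ b2)
    (he : 0 < e) {B₀ : E n →L[ℝ] E n} (hB₀ : B₀ ∈ Bx (n := n) b1 b2) {ε : ℝ} (hε : 0 < ε) :
    ∀ᶠ B in 𝓝[Bx (n := n) b1 b2] B₀, ∀ x, |PA P0 e B x - PA P0 e B₀ x| ≤ ε := by
  obtain ⟨L, hL0, hL⟩ := PA_lip hP hb1 hb he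
  have h1 : ∀ᶠ B in 𝓝[Bx (n := n) b1 b2] B₀, ‖B - B₀‖ < ε / (L + 1) := by
    refine mem_nhdsWithin_of_mem_nhds ?_
    have := Metric.ball_mem_nhds B₀ (show 0 < ε / (L + 1) by positivity)
    filter_upwards [this] with B hB
    rwa [Metric.mem_ball, dist_eq_norm] at hB
  filter_upwards [h1, self_mem_nhdsWithin] with B h2 hB x
  refine (hL B hB B₀ hB₀ x).trans ?_
  rw [lt_div_iff₀ (by positivity)] at h2
  nlinarith [norm_nonneg (B - B₀)]

/-- linear growth of the gradient, uniform in `e ≤ 1` and `B` -/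
theorem fderiv_PA_le {P0 : E n → ℝ} (hP : Tst P0) {b1 b2 : ℝ} (hb1 : 0 < b1) (hb : b1 ≤ b2) :
    ∃ K : ℝ, 0 ≤ K ∧ ∀ e, 0 ≤ e → e ≤ 1 → ∀ B ∈ Bx (n := n) b1 b2, ∀ x w : E n,
      |fderiv ℝ (PA P0 e B) x w| ≤ K * (1 + ‖x‖) * ‖w‖ := by
  have hb2 : 0 ≤ b2 := hb1.le.trans hb
  have hKh := Kh_nonneg
  obtain ⟨K, hK⟩ := (hP.supp.fderiv (𝕜 := ℝ)).exists_bound_of_continuous
    (hP.smooth.continuous_fderiv (by simp))
  have hK0 : 0 ≤ K := (norm_nonneg _).trans (hK 0)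
  refine ⟨K * b2 + (b2 ^ 2 + 1) * (1 + Kh), by positivity, fun e he he1 B hB x w => ?_⟩
  have hBu : ∀ x, ‖B x‖ ≤ b2 * ‖x‖ := fun x => (hB x).2
  have hx := norm_nonneg x
  have hw := norm_nonneg w
  rw [fderiv_PA hP.smooth]
  have e1 : ((fderiv ℝ P0 (B x)).comp B + (chi e x • gB B x + qB B x • fderiv ℝ (chi e) x)) w
      = fderiv ℝ P0 (B x) (B w) + (chi e x * gB B x w + qB B x * fderiv ℝ (chi e) x w) := rfl
  show |((fderiv ℝ P0 (B x)).comp B + (chi e x • gB B x + qB B x • fderiv ℝ (chi e) x)) w| ≤ _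
  rw [e1]
  have a1 : |fderiv ℝ P0 (B x) (B w)| ≤ K * b2 * ‖w‖ := by
    have h1 := (fderiv ℝ P0 (B x)).le_opNorm (B w)
    rw [Real.norm_eq_abs] at h1
    refine h1.trans ?_
    calc ‖fderiv ℝ P0 (B x)‖ * ‖B w‖ ≤ K * (b2 * ‖w‖) :=
          mul_le_mul (hK _) (hBu w) (norm_nonneg _) hK0
      _ = _ := by ring
  have a2 : |chi e x * gB B x w| ≤ (b2 ^ 2 + 1) * ‖x‖ * ‖w‖ := by
    rw [abs_mul, abs_of_nonneg (chi_nonneg e x)]
    calc chi e x * |gB B x w| ≤ 1 * |gB B x w| :=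
          mul_le_mul_of_nonneg_right (chi_le_one e x) (abs_nonneg _)
      _ ≤ _ := by rw [one_mul]; exact abs_gB_le hb2 hBu x w
  have a3 : |qB B x * fderiv ℝ (chi e : E n → ℝ) x w| ≤ (b2 ^ 2 + 1) * Kh * ‖x‖ * ‖w‖ := by
    rw [abs_mul]
    have hr : ‖x‖ ^ 2 / (1 + ‖x‖ ^ 2) ≤ 1 := by
      rw [div_le_one (by positivity)]; linarith
    calc |qB B x| * |fderiv ℝ (chi e : E n → ℝ) x w|
        ≤ ((b2 ^ 2 + 1) / 2 * ‖x‖ ^ 2) * (2 * Kh * e * ‖x‖ * ‖w‖ / (1 + ‖x‖ ^ 2)) :=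
          mul_le_mul (abs_qB_le hb2 hBu x) (fderiv_chi_le' he x w) (abs_nonneg _) (by positivity)
      _ = (b2 ^ 2 + 1) * Kh * ‖x‖ * ‖w‖ * (e * (‖x‖ ^ 2 / (1 + ‖x‖ ^ 2))) := by ring
      _ ≤ (b2 ^ 2 + 1) * Kh * ‖x‖ * ‖w‖ * 1 := by
          refine mul_le_mul_of_nonneg_left ?_ (by positivity)
          calc e * (‖x‖ ^ 2 / (1 + ‖x‖ ^ 2)) ≤ 1 * 1 :=
                mul_le_mul he1 hr (by positivity) (by norm_num)
            _ = 1 := by ring
      _ = _ := by ring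
  have h3 : |fderiv ℝ P0 (B x) (B w) + (chi e x * gB B x w + qB B x * fderiv ℝ (chi e) x w)|
      ≤ K * b2 * ‖w‖ + ((b2 ^ 2 + 1) * ‖x‖ * ‖w‖ + (b2 ^ 2 + 1) * Kh * ‖x‖ * ‖w‖) :=
    (abs_add_le _ _).trans (add_le_add a1 ((abs_add_le _ _).trans (add_le_add a2 a3)))
  refine h3.trans ?_
  have p1 : 0 ≤ K * b2 * ‖x‖ * ‖w‖ := by positivity
  have p2 : 0 ≤ (b2 ^ 2 + 1) * (1 + Kh) * ‖w‖ := by positivity
  nlinarith

end Crest.Agent.R253.Fam706
end

-- ▼ part R253/NormX_944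
section

/-!
Row 253, normalisation (helper944), part X: `exists_zero_family` in the letters of `LimZ_140` and
`FamC_706` (`Pf A = PA P0 e (aL A⁻¹)`, `A` in the box `Ell d R A`).
-/

set_option autoImplicit false

open MeasureTheory ProbabilityTheory Matrix Set
open scoped Real Topology

noncomputable section

namespace Crest.Agent.R253.Norm944

open Crest.Agent.R253.Mills37 Crest.Agent.R253.Meh74 Crest.Agent.R253.SpecField321
open Crest.Agent.R238.Gap Crest.Agent.R238.GapPoinc Crest.Agent.R238.GapPc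
open Crest.Agent.R253.Dual441 Crest.Agent.R253.NormCont666
open Crest.Agent.R253.Lim140 (aL)
open Crest.Agent.R253.Fam706 (PA Bx)
open Crest.Agent.R253.Br (PDatB gr)
open Crest.GeometryTopology.Isotropic

variable {n : ℕ}

lemma Box_iff {d R : ℝ} {A : Matrix (Fin n) (Fin n) ℝ} :
    A ∈ Box (Fin n) d R ↔ Crest.Agent.R238.Ell d R A := by
  have e1 : ∀ z : Fin n → ℝ, z ⬝ᵥ z = ∑ i, z i ^ 2 := fun z => by
    simp only [dotProduct]
    exact Finset.sum_congr rfl fun i _ => by ring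
  have e2 : ∀ z : Fin n → ℝ, z ⬝ᵥ (A *ᵥ z) = ∑ i, ∑ j, A i j * z i * z j := fun z => by
    simp only [dotProduct, mulVec, Finset.mul_sum]
    exact Finset.sum_congr rfl fun i _ => Finset.sum_congr rfl fun j _ => by ring
  constructor
  · rintro ⟨h1, h2, h3⟩
    refine ⟨h1, fun z => ⟨?_, ?_⟩⟩
    · rw [← e1, ← e2]; exact h2 z
    · rw [← e1, ← e2]; exact h3 z
  · rintro ⟨h1, h2⟩
    refine ⟨h1, fun z => ?_, fun z => ?_⟩
    · rw [e1, e2]; exact (h2 z).1
    · rw [e1, e2]; exact (h2 z).2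

lemma BA_eq (A : Matrix (Fin n) (Fin n) ℝ) : BA A = aL A⁻¹ := rfl

lemma BA_mem_Bx {d R : ℝ} {A : Matrix (Fin n) (Fin n) ℝ} (hA : A ∈ Box (Fin n) d R) (hd : 0 < d)
    (hdR : d < R) : BA A ∈ Bx (n := n) (1 / R) (1 / d) := fun x => BA_mem hA hd hdR x

/-- continuity of the family in `A` -/
lemma hPc_PA {P0 : E n → ℝ} (hP : Crest.Agent.R238.Tst P0) {d R e : ℝ} (hd : 0 < d) (hdR : d < R)
    (he : 0 < e) : ∀ x₀ ∈ toM ⁻¹' (Box (Fin n) d R), ∀ ε : ℝ, 0 < ε →
      ∀ᶠ x in 𝓝[toM ⁻¹' (Box (Fin n) d R)] x₀, ∀ y,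
        |PA P0 e (BA (toM x)) y - PA P0 e (BA (toM x₀)) y| ≤ ε := by
  intro x₀ hx₀ ε hε
  have hR : 0 < R := hd.trans hdR
  have h1 := Crest.Agent.R253.Fam706.PA_unif hP (b1 := 1 / R) (b2 := 1 / d) (by positivity)
    (one_div_le_one_div_of_le hd hdR.le) he (BA_mem_Bx hx₀ hd hdR) hε
  have h2 : Filter.Tendsto (fun x : EM (Fin n) => BA (toM x)) (𝓝[toM ⁻¹' (Box (Fin n) d R)] x₀)
      (𝓝[Bx (n := n) (1 / R) (1 / d)] (BA (toM x₀))) := by
    refine tendsto_nhdsWithin_iff.2 ⟨continuousOn_BA hd x₀ hx₀, ?_⟩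
    filter_upwards [self_mem_nhdsWithin] with x hx
    exact BA_mem_Bx hx hd hdR
  exact h2.eventually h1

lemma dV_eq (w : Fin n → ℝ) (V : E n → ℝ) (x : Fin n → ℝ) :
    dV w V x = ∑ i, w i * gr V (WithLp.toLp 2 x) i := by
  unfold dV gr
  refine Finset.sum_congr rfl fun i _ => ?_
  have : pd i V (WithLp.toLp 2 x) =
      fderiv ℝ V (WithLp.toLp 2 x) (Crest.Agent.R238.ee i) := by
    simp [pd, Crest.Agent.R238.ee]
  rw [this]

/-- **the zero of `A ↦ E z(M_A)` for the family `PA P0 e (aL A⁻¹)`** -/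
theorem exists_zero_PA {P0 : E n → ℝ} (hP : Crest.Agent.R238.Tst P0) {d R e : ℝ} (hd : 0 < d)
    (hdR : d < R) (he : 0 < e) {lam lo hi K : ℝ} (hlam : 0 < lam) (hlo : 0 < lo) (hlohi : lo ≤ hi)
    {S I : ℝ} (hS : d ^ 2 * S ≤ mu 0 ^ 2) (hI : mu 0 ^ 2 * I < R ^ 2)
    (hex : ∀ A, Crest.Agent.R238.Ell d R A → ∃ (v : E n → ℝ) (G : E n → E n),
      Sol (PA P0 e (aL A⁻¹)) lam lo hi K v G)
    (hmom : ∀ A, Crest.Agent.R238.Ell d R A → ∀ (v : E n → ℝ) (G : E n → E n),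
      Sol (PA P0 e (aL A⁻¹)) lam lo hi K v G → ∀ (w : Fin n → ℝ) (a : ℝ), ∑ i, w i ^ 2 = 1 →
        A *ᵥ w = a • w →
        ∫ x, (∑ i, w i * (x i - densMean (den (PA P0 e (aL A⁻¹)) v lam) i)) ^ 2 *
            den (PA P0 e (aL A⁻¹)) v lam x ≤ a ^ 2 * S ∧
        a ^ 2 * ∫ x, (∑ i, w i * gr (Vl (PA P0 e (aL A⁻¹)) v lam) (WithLp.toLp 2 x) i) ^ 2 *
          den (PA P0 e (aL A⁻¹)) v lam x ≤ I) :
    ∃ A, Crest.Agent.R238.Ell d R A ∧ ∃ (v : E n → ℝ) (G : E n → E n),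
      Sol (PA P0 e (aL A⁻¹)) lam lo hi K v G ∧
      ∀ i j, ∫ t, cfc ScalE688.zf (Mx (Mi v G) t) i j ∂(gam n) = 0 := by
  have hR : 0 < R := hd.trans hdR
  have hm := mu_pos 0
  have hw2 : ∀ w : Fin n → ℝ, w ⬝ᵥ w = 1 → ∑ i, w i ^ 2 = 1 := fun w hw => by
    rw [← hw]
    simp only [dotProduct]
    exact Finset.sum_congr rfl fun i _ => by ring
  obtain ⟨A, hA, v, G, h1, h2⟩ := exists_zero_family hdR hlam hlo hlohi
    (fun A => PA P0 e (BA A)) (fun A hA => hex A (Box_iff.1 hA)) (hPc_PA hP hd hdR he)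
    (fun A hA v G hv w hw hAw => by
      obtain ⟨h1, -⟩ := hmom A (Box_iff.1 hA) v G hv w d (hw2 w hw) hAw
      refine ⟨∑ i, w i * densMean (den (PA P0 e (aL A⁻¹)) v lam) i, ?_⟩
      refine le_trans (le_of_eq ?_) (h1.trans hS)
      refine integral_congr_ae (ae_of_all _ fun x => ?_)
      have e1 : w ⬝ᵥ x - ∑ i, w i * densMean (den (PA P0 e (aL A⁻¹)) v lam) i =
          ∑ i, w i * (x i - densMean (den (PA P0 e (aL A⁻¹)) v lam) i) := by
        simp only [dotProduct, mul_sub, Finset.sum_sub_distrib]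
      simp only [e1]
      rfl)
    (fun A hA v G hv w hw hAw => by
      obtain ⟨-, h1⟩ := hmom A (Box_iff.1 hA) v G hv w R (hw2 w hw) hAw
      simp only [dV_eq]
      have h3 : R ^ 2 * ∫ x, (∑ i, w i * gr (Vl (PA P0 e (aL A⁻¹)) v lam) (WithLp.toLp 2 x) i) ^ 2 *
          den (PA P0 e (aL A⁻¹)) v lam x < R ^ 2 * (mu 0 ^ 2)⁻¹ := by
        refine lt_of_le_of_lt h1 ?_
        rw [← div_eq_mul_inv, lt_div_iff₀ (by positivity), mul_comm]
        exact hI
      exact lt_of_mul_lt_mul_left h3 (by positivity))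
  exact ⟨A, Box_iff.1 hA, v, G, h1, h2⟩

end Crest.Agent.R253.Norm944
end
end

-- ▼ part R253/FinDat_505
section

/-!
Row 253 (S0391), helper505: the t-side data `Dat`, `Push`, `LCD` of a solution `Sl`.
-/

set_option autoImplicit false

open MeasureTheory ProbabilityTheory Real Set Filter Topology
open scoped ContDiff

noncomputable section

namespace Crest.Agent.R253.Fin505

open Crest.Agent.R238.Gap Crest.Agent.R238.GapPoinc Crest.Agent.R238.GapPc
open Crest.Agent.R253.Meh74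
open Crest.Agent.R253.Frame321 (Zf)
open Crest.Agent.R253.SpecField321 (hs MF)
open Crest.Agent.R253.SpecCalc999 (Mat)
open Crest.Agent.R253.ChVar56 (Push Gp)
open Crest.Agent.R253.Lim140 Crest.Agent.R253.Cpt435
open Crest.Agent.R253.Dual441 Crest.Agent.R253.Br Crest.Agent.R253.NormCont666

variable {n : ℕ}

theorem hasDerivAt_ln {f : E n → ℝ} {f' : E n →L[ℝ] ℝ} {x w : E n} {t : ℝ}
    (h : HasFDerivAt f f' (x + t • w)) : HasDerivAt (fun s : ℝ => f (x + s • w)) (f' w) t := by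
  have h1 : HasDerivAt (fun s : ℝ => x + s • w) w t := by
    have := ((hasDerivAt_id t).smul_const w).const_add x
    simpa using this
  exact h.comp_hasDerivAt t h1

theorem hasDerivAt_ln2 {f : E n → ℝ} (hf : ContDiff ℝ 2 f) (x w : E n) (t : ℝ) :
    HasDerivAt (fun s : ℝ => fderiv ℝ f (x + s • w) w)
      (fderiv ℝ (fderiv ℝ f) (x + t • w) w w) t := by
  have h0 : Differentiable ℝ (fderiv ℝ f) :=
    (hf.fderiv_right (m := 1) (by norm_num)).differentiable (by norm_num)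
  have h1 : HasDerivAt (fun s : ℝ => x + s • w) w t := by
    have := ((hasDerivAt_id t).smul_const w).const_add x
    simpa using this
  have h2 : HasDerivAt (fun s : ℝ => fderiv ℝ f (x + s • w))
      (fderiv ℝ (fderiv ℝ f) (x + t • w) w) t := (h0 _).hasFDerivAt.comp_hasDerivAt t h1
  exact ((ContinuousLinearMap.apply ℝ ℝ w).hasFDerivAt.comp_hasDerivAt t h2)

/-- a `C²` function with nonnegative second derivative is convex -/
theorem convexOn_of_hess {f : E n → ℝ} (hf : ContDiff ℝ 2 f)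
    (h : ∀ x (z : Fin n → ℝ), 0 ≤ ∑ k, ∑ l, pd l (pd k f) x * z k * z l) :
    ConvexOn ℝ univ f := by
  have hd : Differentiable ℝ f := hf.differentiable (by norm_num)
  have h2 : ∀ x w : E n, 0 ≤ fderiv ℝ (fderiv ℝ f) x w w := by
    intro x w
    rw [Crest.Agent.R238.Apr.fderiv2_eq_sum]
    have h3 := h x (fun i => w i)
    refine h3.trans_eq ?_
    refine Finset.sum_congr rfl fun k _ => Finset.sum_congr rfl fun l _ => ?_
    rw [← H_eq_pd hf, H_symm hf]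
    rfl
  have hg : ∀ x w : E n, ConvexOn ℝ univ (fun s : ℝ => f (x + s • w)) := by
    intro x w
    have hd1 : deriv (fun s : ℝ => f (x + s • w)) = fun s => fderiv ℝ f (x + s • w) w :=
      funext fun t => (hasDerivAt_ln (hd _).hasFDerivAt).deriv
    refine convexOn_univ_of_deriv2_nonneg ?_ ?_ ?_
    · intro t
      exact (hasDerivAt_ln (hd (x + t • w)).hasFDerivAt).differentiableAt
    · rw [hd1]
      intro t
      exact (hasDerivAt_ln2 hf x w t).differentiableAt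
    · intro t
      simp only [Function.iterate_succ, Function.iterate_zero, Function.comp_apply, id]
      rw [hd1, (hasDerivAt_ln2 hf x w t).deriv]
      exact h2 _ _
  refine ⟨convex_univ, fun x _ y _ a b ha hb hab => ?_⟩
  have h1 := (hg x (y - x)).2 (mem_univ 0) (mem_univ 1) ha hb hab
  simp only [smul_eq_mul, mul_zero, mul_one, zero_add, zero_smul, add_zero, one_smul] at h1
  have e1 : a • x + b • y = x + b • (y - x) := by
    rw [smul_sub]
    have hx : x = a • x + b • x := by rw [← add_smul, hab, one_smul]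
    nth_rewrite 2 [hx]
    abel
  rw [e1]
  have e2 : x + (y - x) = y := by abel
  rw [e2] at h1
  simpa [smul_eq_mul] using h1

theorem lcd_den {P v : E n → ℝ} {lo hi lam c C2 C3 M0 M1 R0 : ℝ}
    (hP : PCB P c C2 C3 M0 M1 R0) (hv : NiceB v)
    (hell : ∀ x, Crest.Agent.R238.Ell lo hi (Crest.Agent.R238.gm v x)) (hlam : 0 ≤ lam)
    (hl : lam * hi ≤ c) (hint : ∫ x, den P v lam x = 1) : LCD (den P v lam) := by
  have hV : ContDiff ℝ 2 (Vl P v lam) :=
    contDiff_infty.1 (contDiff_Vl hP.tst.smooth hv.smooth lam) 2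
  have hc : ConvexOn ℝ univ (Vl P v lam) :=
    convexOn_of_hess hV fun x z => hess_nonneg hP hv.smooth hell hlam hl x z
  refine ⟨(continuous_den hP.tst.smooth.continuous hv.smooth.continuous lam).measurable,
    fun x => (den_pos P v lam x).le, ?_, hint⟩
  intro x y s t hs ht hst
  have h1 := hc.2 (mem_univ (WithLp.toLp 2 x : E n)) (mem_univ (WithLp.toLp 2 y : E n))
    hs.le ht.le hst
  simp only [smul_eq_mul] at h1
  have h2 : (WithLp.toLp 2 (s • x + t • y) : E n) =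
      s • (WithLp.toLp 2 x : E n) + t • (WithLp.toLp 2 y : E n) := by
    ext i; simp
  unfold den
  rw [h2]
  have hK : (0 : ℝ) < (2 * π) ^ (-(n : ℝ) / 2) := by positivity
  rw [Real.mul_rpow hK.le (Real.exp_pos _).le, Real.mul_rpow hK.le (Real.exp_pos _).le,
    ← Real.exp_mul, ← Real.exp_mul]
  calc ((2 * π) ^ (-(n : ℝ) / 2)) ^ s * rexp (-Vl P v lam (WithLp.toLp 2 x) * s) *
        (((2 * π) ^ (-(n : ℝ) / 2)) ^ t * rexp (-Vl P v lam (WithLp.toLp 2 y) * t))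
      = (((2 * π) ^ (-(n : ℝ) / 2)) ^ s * ((2 * π) ^ (-(n : ℝ) / 2)) ^ t) *
        (rexp (-Vl P v lam (WithLp.toLp 2 x) * s) *
          rexp (-Vl P v lam (WithLp.toLp 2 y) * t)) := by ring
    _ = (2 * π) ^ (-(n : ℝ) / 2) *
        rexp (-Vl P v lam (WithLp.toLp 2 x) * s + -Vl P v lam (WithLp.toLp 2 y) * t) := by
        rw [← Real.rpow_add hK, hst, Real.rpow_one, Real.exp_add]
    _ ≤ _ := by
        apply mul_le_mul_of_nonneg_left _ hK.le
        apply Real.exp_le_exp.mpr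
        linarith

/-- **the t-side data of a solution** -/
theorem dat_of_Sl {P v : E n → ℝ} {lo hi K lam c C2 C3 M0 M1 R0 : ℝ}
    (hP : PCB P c C2 C3 M0 M1 R0) (h : Sl P lam lo hi K v) (hlo : 0 < lo) (hlohi : lo ≤ hi)
    (hlam : 0 ≤ lam) (hl : lam * hi ≤ c) :
    ∃ G : E n → E n, IsInv v G ∧
      Dat (Gi G) (Mi v G) (Ni v G) (Vl P v lam) (1 / hi) (1 / lo) ∧
      Push (Gi G) (Mi v G) (den P v lam) ∧ LCD (den P v lam) := by
  obtain ⟨G, hG, hma, -, -, hpush⟩ := bind hP h.nice hlo hlohi h.ell hlam hl h.eq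
  refine ⟨G, hG, ⟨?_, ?_, hma, ?_, ?_⟩, hpush, ?_⟩
  · have : 0 < hi := hlo.trans_le hlohi
    positivity
  · exact one_div_le_one_div_of_le hlo hlohi
  · refine ⟨hma.hd.m, fun x => ?_, fun x => ?_⟩
    · exact ell_herm (h.ellM hlo hlohi G x)
    · exact ell_spec (h.ellM hlo hlohi G x)
  · intro y
    have hV : ContDiff ℝ 2 (Vl P v lam) :=
      contDiff_infty.1 (contDiff_Vl hP.tst.smooth h.nice.smooth lam) 2
    refine Matrix.PosSemidef.of_dotProduct_mulVec_nonneg ?_ fun z => ?_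
    · ext k l
      simp only [Matrix.conjTranspose_apply, Matrix.of_apply, star_trivial]
      rw [← H_eq_pd hV, ← H_eq_pd hV, H_symm hV]
    · have h1 := hess_nonneg hP h.nice.smooth h.ell hlam hl y z
      refine h1.trans_eq ?_
      simp only [dotProduct, Matrix.mulVec, Matrix.of_apply, star_trivial, Finset.mul_sum, Pi.star_apply]
      refine Finset.sum_congr rfl fun k _ => Finset.sum_congr rfl fun l _ => ?_
      ring
  · exact lcd_den hP h.nice h.ell hlam hl hpush.fi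

/-- `Good` from the normalisation -/
theorem good_of_Sl {P v : E n → ℝ} {lo hi K lam c C2 C3 M0 M1 R0 : ℝ}
    (hP : PCB P c C2 C3 M0 M1 R0) (h : Sl P lam lo hi K v) (hlo : 0 < lo) (hlohi : lo ≤ hi)
    (hlam : 0 ≤ lam) (hl : lam * hi ≤ c) {G : E n → E n} (hG : IsInv v G)
    (hz : Nz (Mi v G)) : Good (den P v lam) := by
  obtain ⟨G', hG', hD, hPu, hL⟩ := dat_of_Sl hP h hlo hlohi hlam hl
  have : G' = G := hG'.unique hG h.nice.smooth hlo h.ell
  subst this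
  exact ⟨hL, Gi G', Mi v G', Ni v G', Vl P v lam, 1 / hi, 1 / lo, hD, hz, hPu⟩

end Crest.Agent.R253.Fin505
end
end

-- ▼ part R253/ApproxN_944
section

/-!
# Row 253: `ApproxN n` (helper944)

Assembly of the approximation theorem: every log-concave density is (in the sense of `SB`) a limit
of affine images of good densities.  Inputs: the family `PA` (706), the limits `e → 0` (140), the
existence theorem `Br.exiU_all` (505 and the team), the normalisation (`exists_zero_PA`), the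
density theorem `exists_seq1` (970).
-/

set_option autoImplicit false

open MeasureTheory ProbabilityTheory Set Filter Topology Matrix
open scoped ContDiff

noncomputable section

namespace Crest.Agent.R253.ApproxN944

open Crest.Agent.R238 (Ell)
open Crest.Agent.R238.Gap
open Crest.Agent.R253.Meh74 Crest.Agent.R253.Mills37
open Crest.Agent.R253.SpecCalc999 (Mat)
open Crest.Agent.R253.Lim140 Crest.Agent.R253.Cpt435
open Crest.Agent.R253.Dual441 Crest.Agent.R253.NormCont666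
open Crest.Agent.R253.Br (gr PDatB PCB)
open Crest.Agent.R253.Fam706 (PA Bx)
open Crest.Agent.R253.Norm944
open Crest.Agent.R253.Dens970 (p1 exists_seq1)
open Crest.Agent.R253.Fin505
open Crest.GeometryTopology.Isotropic

variable {n : ℕ}

/-- the family -/
def Pf (P0 : E n → ℝ) (e : ℝ) (A : Matrix (Fin n) (Fin n) ℝ) : E n → ℝ := PA P0 e (aL A⁻¹)

lemma aL_mem {d R : ℝ} {A : Matrix (Fin n) (Fin n) ℝ} (hA : Ell d R A) (hd : 0 < d)
    (hdR : d < R) : aL A⁻¹ ∈ Bx (n := n) (1 / R) (1 / d) := by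
  rw [← BA_eq]; exact BA_mem_Bx (Box_iff.2 hA) hd hdR

theorem fam_inst {P0 : E n → ℝ} (hP : PDatB P0) {d R : ℝ} (hd : 0 < d) (hdR : d < R) :
    ∃ c e0 : ℝ, 0 < c ∧ 0 < e0 ∧ Fam P0 d R e0 (Pf P0) ∧
      ∀ e, 0 < e → e ≤ e0 → ∃ C2 C3 M0 M1 R0 : ℝ, ∀ A, Ell d R A →
        PCB (Pf P0 e A) c C2 C3 M0 M1 R0 := by
  have hR : 0 < R := hd.trans hdR
  have hb1 : 0 < 1 / R := by positivity
  have hb : 1 / R ≤ 1 / d := one_div_le_one_div_of_le hd hdR.le
  obtain ⟨c, e0, hc0, hc1, he0, he1, hPC, -, a, C, ha, hlow⟩ := Fam706.fam hP hb1 hb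
  obtain ⟨K, hK0, hK⟩ := Fam706.fderiv_PA_le hP.tst hb1 hb
  refine ⟨c, e0, hc0, he0, ⟨he0, hP.tst.smooth, fun e A _ _ _ => Fam706.PA_smooth hP.tst.smooth e _,
    fun R' => ?_, ⟨a, C, ha, fun e A _ _ hA x => hlow e _ (aL_mem hA hd hdR) x⟩,
    ⟨K, fun e A he hee hA x i => ?_⟩⟩, fun e he hee => ?_⟩
  · have h0 : 0 ≤ Real.log (1 + R' ^ 2) := Real.log_nonneg (by nlinarith [sq_nonneg R'])
    refine ⟨1 / (1 + Real.log (1 + R' ^ 2)), by positivity, fun e A he hee hA x hx => ?_⟩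
    refine Fam706.PA_eq ?_
    have h1 : Real.log (1 + ‖x‖ ^ 2) ≤ Real.log (1 + R' ^ 2) := by
      refine Real.log_le_log (by positivity) ?_
      have := norm_nonneg x
      nlinarith
    have h2 : 0 ≤ Real.log (1 + ‖x‖ ^ 2) := Real.log_nonneg (by nlinarith [sq_nonneg ‖x‖])
    calc e * Real.log (1 + ‖x‖ ^ 2) ≤ 1 / (1 + Real.log (1 + R' ^ 2)) * Real.log (1 + R' ^ 2) :=
          mul_le_mul hee h1 h2 (by positivity)
      _ ≤ 1 := by
          rw [one_div, inv_mul_le_iff₀ (by positivity)]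
          linarith
  · have h1 := hK e he.le (hee.trans he1) _ (aL_mem hA hd hdR) x (Crest.Agent.R238.ee i)
    have h2 : ‖(Crest.Agent.R238.ee i : E n)‖ = 1 := by simp [Crest.Agent.R238.ee]
    rw [h2, mul_one] at h1
    exact h1
  · obtain ⟨C2, C3, M0, M1, R0, H⟩ := hPC e he hee
    exact ⟨C2, C3, M0, M1, R0, fun A hA => H _ (aL_mem hA hd hdR)⟩

lemma admV_of {P v : E n → ℝ} {lam lo hi K e : ℝ} (h : Sl P lam lo hi K v) (hl0 : 0 ≤ lam)
    (_he : 0 < e) (hl : lam * (n * |K| + |K| + 1) ≤ e) : AdmV e lam v := by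
  have hK : 0 ≤ |K| := abs_nonneg K
  have hb : ∀ x i, |gr v x i| ≤ |K| := fun x i => (h.b1 x i).trans (le_abs_self K)
  refine ⟨hl0, h.nice.smooth, fun x => ?_, fun x i => ?_⟩
  · have hd : Differentiable ℝ v := h.nice.smooth.differentiable (by simp)
    have hB : ∀ z, ‖fderiv ℝ v z‖ ≤ n * |K| := fun z =>
      Crest.Agent.R238.LimC2.opnorm1_le _ hK fun k => by
        rw [Real.norm_eq_abs]; exact hb z k
    have h1 := convex_univ.norm_image_sub_le_of_norm_fderiv_le (f := v)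
      (fun z _ => hd z) (fun z _ => hB z) (mem_univ (0 : E n)) (mem_univ x)
    rw [Real.norm_eq_abs, sub_zero] at h1
    calc lam * |v x - v 0| ≤ lam * (n * |K| * ‖x‖) := mul_le_mul_of_nonneg_left h1 hl0
      _ = lam * (n * |K|) * ‖x‖ := by ring
      _ ≤ e * ‖x‖ := by
          refine mul_le_mul_of_nonneg_right (le_trans ?_ hl) (norm_nonneg x)
          exact mul_le_mul_of_nonneg_left (by linarith) hl0
  · calc lam * |gr v x i| ≤ lam * |K| := mul_le_mul_of_nonneg_left (hb x i) hl0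
      _ ≤ e := by
          refine le_trans ?_ hl
          refine mul_le_mul_of_nonneg_left ?_ hl0
          have : (0 : ℝ) ≤ n * |K| := by positivity
          linarith

/-- **step B** for one datum -/
theorem stepB {P0 : E n → ℝ} (hP : PDatB P0) (hL : LCD (nrm (p1 P0))) :
    SB Good (f0 P0) := by
  have hm := mu_pos 0
  have hS := S0_pos P0
  have hI := I0_pos P0
  have hSs : 0 < Real.sqrt (S0 P0) := Real.sqrt_pos.2 hS
  have hIs : 0 < Real.sqrt (I0 P0) := Real.sqrt_pos.2 hI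
  set d : ℝ := mu 0 / Real.sqrt (S0 P0) with hd_def
  set R : ℝ := 2 * mu 0 * Real.sqrt (I0 P0) + d + 1 with hR_def
  have hd : 0 < d := by positivity
  have hdR : d < R := by rw [hR_def]; have := mul_pos (mul_pos two_pos hm) hIs; linarith
  have hR : 0 < R := hd.trans hdR
  have hdS : d ^ 2 * S0 P0 ≤ mu 0 ^ 2 := by
    rw [hd_def, div_pow, Real.sq_sqrt hS.le, div_mul_cancel₀ _ hS.ne']
  have hRI : mu 0 ^ 2 * I0 P0 < R ^ 2 := by
    have h1 : mu 0 ^ 2 * I0 P0 = (mu 0 * Real.sqrt (I0 P0)) ^ 2 := by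
      rw [mul_pow, Real.sq_sqrt hI.le]
    rw [h1]
    refine pow_lt_pow_left₀ ?_ (by positivity) (by norm_num)
    have := mul_pos hm hIs
    rw [hR_def]; linarith
  obtain ⟨c, e0, hc, he0, hF, hPC⟩ := fam_inst hP hd hdR
  have hL0 : LCD (f0 P0) := hL
  obtain ⟨e1, he1, he10, hmom⟩ := hF.moments hd hR.le hL0.eb hL0.int1
  refine hF.SB hd hR.le hL0 he1 fun e he hee => ?_
  obtain ⟨C2, C3, M0, M1, R0, hPB⟩ := hPC e he (hee.trans he10)
  obtain ⟨lo, hi, K, hlo, hlohi, hsol⟩ := exists_sol (Br.exiU_all n) c C2 C3 M0 M1 R0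
  have hhi : 0 < hi := hlo.trans_le hlohi
  have hK : 0 ≤ |K| := abs_nonneg K
  have hq : 0 < (n : ℝ) * |K| + |K| + 1 := by positivity
  obtain ⟨lam, hl0, hl1, hl2, hl3⟩ : ∃ lam : ℝ, 0 < lam ∧ lam ≤ 1 ∧ lam * hi ≤ c ∧
      lam * (n * |K| + |K| + 1) ≤ e := by
    refine ⟨min 1 (min (c / hi) (e / (n * |K| + |K| + 1))), by positivity, min_le_left _ _, ?_, ?_⟩
    · rw [← le_div_iff₀ hhi]
      exact (min_le_right _ _).trans (min_le_left _ _)
    · rw [← le_div_iff₀ hq]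
      exact (min_le_right _ _).trans (min_le_right _ _)
  have hadm : ∀ A, Ell d R A → ∀ (v : E n → ℝ) (G : E n → E n), Sol (Pf P0 e A) lam lo hi K v G →
      AdmV e lam v ∧ LCD (den (Pf P0 e A) v lam) := fun A hA v G hv =>
    ⟨admV_of hv.sl hl0.le he hl3,
      lcd_den (hPB A hA) hv.sl.nice hv.sl.ell hl0.le hl2 hv.push.fi⟩
  obtain ⟨A, hA, v, G, hv, hz⟩ := exists_zero_PA hP.tst hd hdR he hl0 hlo hlohi hdS hRI
    (fun A hA => hsol _ (hPB A hA) lam hl0 hl1 hl2)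
    (fun A hA v G hv w a hw hAw => by
      obtain ⟨h1, h2⟩ := hadm A hA v G hv
      exact hmom e A he hee hA lam v h1 h2 w a hw hAw)
  obtain ⟨h1, h2⟩ := hadm A hA v G hv
  exact ⟨A, lam, v, hA, h1, h2, good_of_Sl (hPB A hA) hv.sl hlo hlohi hl0.le hl2 hv.inv hz⟩

/-- **`ApproxN`** -/
theorem approxN (n : ℕ) : ApproxN n := by
  intro f hf
  obtain ⟨κ, Q, hκ, hQ, hL, hL', hCv, -, -⟩ := exists_seq1 hf
  have hG : ∀ g : (Fin n → ℝ) → ℝ, Good g → LCD g := fun g hg => hg.1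
  refine SB.of_limit hf hL' hCv (fun k => ?_) hG
  refine SB.scale (hL' k) (inv_pos.2 (hκ k)) hG ?_
  have h := stepB (hQ k) (hL k)
  have e1 : aff (aff (nrm (p1 (Q k))) (κ k • (1 : Matrix (Fin n) (Fin n) ℝ)) 0)
      ((κ k)⁻¹ • (1 : Matrix (Fin n) (Fin n) ℝ)) 0 = nrm (p1 (Q k)) := by
    rw [aff_aff]
    have h2 : κ k • (1 : Matrix (Fin n) (Fin n) ℝ) * ((κ k)⁻¹ • (1 : Matrix (Fin n) (Fin n) ℝ)) = 1 := by
      rw [smul_mul_smul_comm, one_mul, mul_inv_cancel₀ (hκ k).ne', one_smul]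
    rw [h2, aff_one]
  rw [e1]; exact h

end Crest.Agent.R253.ApproxN944
end
end

-- ▼ part R253/End_505

/-!
Row 253: `S0391` and `S0390` from the single remaining Prop `∀ n, MainQ n` (helper505).
-/

set_option autoImplicit false

open MeasureTheory Crest.GeometryTopology.Isotropic
open Crest Crest.GeometryTopology Crest.GeometryTopology.Isotropic

namespace Crest.Agent.R253.End505

open Crest.Agent.R253.Fin505

/-- S0391 from MAIN -/
theorem S0391_of_main (hM : ∀ n, MainQ n) (m : ℕ) (_hm : 1 ≤ m)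
    (f : (Fin m → ℝ) → ℝ) (hf : Measurable f) (hf0 : ∀ x, 0 ≤ f x) (hf1 : ∫ x, f x = 1)
    (hfc : Convex ℝ {x | 0 < f x}) (hfl : ConcaveOn ℝ {x | 0 < f x} (fun x => Real.log (f x))) :
    (m : ℝ) + Real.log (densCov f).det / 2 ≤ diffEntropy f ∧
      (diffEntropy f = (m : ℝ) + Real.log (densCov f).det / 2 ↔
        ∃ (M : Matrix (Fin m) (Fin m) ℝ) (b : Fin m → ℝ), M.det ≠ 0 ∧
          f =ᵐ[volume] fun x => |M.det|⁻¹ *
            Set.indicator {y : Fin m → ℝ | ∀ i, 0 ≤ (M⁻¹.mulVec (y - b)) i}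
              (fun y => Real.exp (- ∑ i, (M⁻¹.mulVec (y - b)) i)) x) :=
  S0391_ofQ (hM m) (Crest.Agent.R253.ApproxN944.approxN m) f hf hf0 hf1 hfc hfl

/-- S0390 from MAIN -/
theorem S0390_of_main (hM : ∀ n, MainQ n) (n : ℕ) (hn : 1 ≤ n)
    (K : Set (Fin n → ℝ)) (hK : IsCompact K) (hKc : Convex ℝ K) (hKi : (interior K).Nonempty) :
    (covMatrix K).det * ((n : ℝ) + 1) ^ (n + 1) * ((n : ℝ) + 2) ^ n ≤
        (Nat.factorial n : ℝ) ^ 2 * (volume K).toReal ^ 2 ∧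
      ((covMatrix K).det * ((n : ℝ) + 1) ^ (n + 1) * ((n : ℝ) + 2) ^ n =
          (Nat.factorial n : ℝ) ^ 2 * (volume K).toReal ^ 2 ↔
        ∃ v : Fin (n + 1) → (Fin n → ℝ), AffineIndependent ℝ v ∧ K = convexHull ℝ (Set.range v)) :=
  Crest.Agent.R253.Red505.S0390_of_S0391
    (fun m hm f hf hf0 hf1 hfc hfl => S0391_of_main hM m hm f hf hf0 hf1 hfc hfl) n hn K hK hKc hKi

end Crest.Agent.R253.End505
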