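import Crest.Agent.R253.CptF_435
import Crest.Agent.R253.EqA_435

-- ▼ part R253/CptG_435

/-!
# R253, part G (helper435)

* second-order expansion of `curveI`;
* Brascamp–Lieb for states: `qf (densCov f) (G v) ≤ qf G v`;
* the tilt curve `tl f u t`, it stays in the class, and expansions of mean, covariance, third
  central moment and entropy.
-/

set_option autoImplicit false
open MeasureTheory Set Filter Topology Matrix
open Crest.GeometryTopology.Isotropic
open scoped ENNReal NNReal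

namespace Crest.Agent.R253.Cpt435

variable {m : ℕ}

theorem T2.comp_neg {φ : ℝ → ℝ} {a b c : ℝ} (h : T2 φ a b c) :
    T2 (fun t => φ (-t)) a (-b) c := by
  have ht : Tendsto (fun t : ℝ => -t) (𝓝 0) (𝓝 0) := by
    have := (continuous_neg (G := ℝ)).tendsto 0
    simpa using this
  have h1 := Asymptotics.IsLittleO.comp_tendsto h ht
  refine (h1.congr_left fun t => ?_).congr_right fun t => ?_
  · simp only [Function.comp_apply]; ring
  · simp only [Function.comp_apply]; ring

/-- second-order expansion of unnormalised moments along the curve -/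
theorem T2_curveI {f l q ψ : (Fin m → ℝ) → ℝ} (hf : EB f) (hl : Measurable l)
    {L : ℝ} (hL0 : 0 ≤ L) (hL : ∀ x, |l x| ≤ L * (1 + ‖x‖)) (hq : PB q) (hq0 : ∀ x, 0 ≤ q x)
    (hψ : PB ψ) :
    T2 (curveI f l q ψ) (ex f ψ) (ex f (fun x => ψ x * l x))
      ((ex f (fun x => ψ x * l x * l x) - ex f (fun x => ψ x * q x)) / 2) := by
  obtain ⟨δ, hδ, H⟩ := exists_curve_deriv hf hl hL0 hL hq hq0
  have hlPB : PB l := ⟨hl, L, 1, hL0, fun x => by rw [pow_one]; exact hL x⟩
  have hev : ∀ᶠ t in 𝓝 (0 : ℝ), |t| < δ := by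
    rw [Metric.eventually_nhds_iff]
    exact ⟨δ, hδ, fun t ht => by rwa [Real.dist_eq, sub_zero] at ht⟩
  have h1 : ∀ᶠ t in 𝓝 (0 : ℝ), HasDerivAt (curveI f l q ψ)
      (curveI f l q (fun x => ψ x * l x) t - t * curveI f l q (fun x => ψ x * q x) t) t := by
    filter_upwards [hev] with t ht
    exact (H ψ hψ t ht).2
  have h2 : HasDerivAt (fun t => curveI f l q (fun x => ψ x * l x) t -
      t * curveI f l q (fun x => ψ x * q x) t)
      (ex f (fun x => ψ x * l x * l x) - ex f (fun x => ψ x * q x)) 0 := by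
    have e1 := (H _ (hψ.mul hlPB) 0 (by simpa using hδ)).2
    have e2 := (H _ (hψ.mul hq) 0 (by simpa using hδ)).2
    have e3 := e1.sub ((hasDerivAt_id (0 : ℝ)).mul e2)
    refine e3.congr_deriv ?_
    simp [curveI_zero, ex]
  have h3 := T2.of_hasDerivAt h1 h2
  refine h3.congr_coef ?_ ?_ rfl
  · rw [curveI_zero]; rfl
  · simp [curveI_zero, ex]

theorem cl_bound (f : (Fin m → ℝ) → ℝ) (u : Fin m → ℝ) :
    ∃ L, 0 ≤ L ∧ ∀ x, |cl f u x| ≤ L * (1 + ‖x‖) := by
  refine ⟨∑ i, |u i| * (1 + |densMean f i|), Finset.sum_nonneg fun i _ => by positivity,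
    fun x => ?_⟩
  unfold cl
  refine (Finset.abs_sum_le_sum_abs _ _).trans ?_
  rw [Finset.sum_mul]
  refine Finset.sum_le_sum fun i _ => ?_
  rw [abs_mul, mul_assoc]
  gcongr
  have h1 : |x i| ≤ ‖x‖ := by
    have := norm_le_pi_norm x i
    rwa [Real.norm_eq_abs] at this
  have h2 := norm_nonneg x
  calc |x i - densMean f i| ≤ |x i| + |densMean f i| := abs_sub _ _
    _ ≤ ‖x‖ + |densMean f i| := by gcongr
    _ ≤ (1 + |densMean f i|) * (1 + ‖x‖) := by nlinarith [abs_nonneg (densMean f i)]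

theorem ex_cl {f : (Fin m → ℝ) → ℝ} (hf : LCD f) (u : Fin m → ℝ) : ex f (cl f u) = 0 := by
  unfold cl
  rw [ex_sum _ hf.eb (fun i _ => PB.const_mul _ ((PB.coord i).sub (PB.const _)))]
  apply Finset.sum_eq_zero
  intro i _
  rw [ex_const_mul, ex_sub hf.eb (PB.coord i) (PB.const _), hf.ex_const, ← densMean_eq, sub_self,
    mul_zero]




/-! ### the tilt curve -/

/-- partition function of the tilt curve -/
noncomputable def tlZ (f : (Fin m → ℝ) → ℝ) (u : Fin m → ℝ) (t : ℝ) : ℝ :=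
  curveI f (cl f u) (fun x => cl f u x * cl f u x) (fun _ => 1) t

/-- the tilt curve `f exp (t l - t² l² / 2) / Z`, `l = ⟨u, x - mean⟩` -/
noncomputable def tl (f : (Fin m → ℝ) → ℝ) (u : Fin m → ℝ) (t : ℝ) (x : Fin m → ℝ) : ℝ :=
  (tlZ f u t)⁻¹ * (f x * Real.exp (t * cl f u x - t ^ 2 / 2 * (cl f u x * cl f u x)))

/-- the `G` component of the tilt curve -/
def tlG (G : Matrix (Fin m) (Fin m) ℝ) (u : Fin m → ℝ) (t : ℝ) : Matrix (Fin m) (Fin m) ℝ :=
  G + t ^ 2 • vecMulVec u u

theorem T2_tl_curve {f : (Fin m → ℝ) → ℝ} {k : (Fin m → ℝ) → ℝ} (hk : EB k) (u : Fin m → ℝ)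
    {ψ : (Fin m → ℝ) → ℝ} (hψ : PB ψ) :
    T2 (curveI k (cl f u) (fun x => cl f u x * cl f u x) ψ) (ex k ψ)
      (ex k (fun x => ψ x * cl f u x)) 0 := by
  obtain ⟨L, hL0, hL⟩ := cl_bound f u
  have h := T2_curveI hk (PB.cl f u).meas hL0 hL ((PB.cl f u).mul (PB.cl f u))
    (fun x => mul_self_nonneg _) hψ
  refine h.congr_coef rfl rfl ?_
  have : (fun x => ψ x * cl f u x * cl f u x) = fun x => ψ x * (cl f u x * cl f u x) := by
    funext x; ring
  rw [this, sub_self, zero_div]

theorem T2_tlZ {f : (Fin m → ℝ) → ℝ} (hf : LCD f) (u : Fin m → ℝ) : T2 (tlZ f u) 1 0 0 := by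
  have h := T2_tl_curve (f := f) hf.eb u (PB.const (m := m) 1)
  refine h.congr_coef (hf.ex_const 1) ?_ rfl
  simp only [one_mul]; exact ex_cl hf u


/-- **the tilt curve stays in the class** -/
theorem SLC.tl {f : (Fin m → ℝ) → ℝ} {G : Matrix (Fin m) (Fin m) ℝ} (hf : SLC f G)
    (u : Fin m → ℝ) : ∀ᶠ t in 𝓝 (0 : ℝ), SLC (tl f u t) (tlG G u t) := by
  obtain ⟨L, hL0, hL⟩ := cl_bound f u
  obtain ⟨δ, hδ, H⟩ := exists_curve_deriv hf.eb (PB.cl f u).meas hL0 hL
    ((PB.cl f u).mul (PB.cl f u)) (fun x => mul_self_nonneg _)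
  have hev : ∀ᶠ t in 𝓝 (0 : ℝ), |t| < δ := by
    rw [Metric.eventually_nhds_iff]
    exact ⟨δ, hδ, fun t ht => by rwa [Real.dist_eq, sub_zero] at ht⟩
  have hZ : ∀ᶠ t in 𝓝 (0 : ℝ), 0 < tlZ f u t :=
    (T2_tlZ hf.toLCD u).tendsto.eventually (lt_mem_nhds one_pos)
  filter_upwards [hev, hZ] with t ht hZt
  have hEB := (H _ (PB.const 1) t ht).1
  -- the linear part
  set Lu : (Fin m → ℝ) →ₗ[ℝ] ℝ := dotProductBilin ℝ ℝ u with hLu
  set c : ℝ := u ⬝ᵥ densMean f with hc
  have hcl : ∀ x, cl f u x = u ⬝ᵥ x - c := by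
    intro x
    simp only [cl, hc, dotProduct, ← Finset.sum_sub_distrib]
    refine Finset.sum_congr rfl fun i _ => ?_
    ring
  have hlogc2 : LogC (fun x => (f x * Real.exp (qf G x / 2)) *
      Real.exp (((t + t ^ 2 * c) • Lu) x + (-(t * c) - t ^ 2 / 2 * c ^ 2))) := by
    apply LogC.mul _ _ hf.slc (LogC.exp_affine _ _)
    · intro x; exact mul_nonneg (hf.nonneg x) (Real.exp_pos _).le
    · intro x; exact (Real.exp_pos _).le
  have hnn : ∀ x, 0 ≤ Cpt435.tl f u t x := fun x =>
    mul_nonneg (inv_nonneg.mpr hZt.le) (mul_nonneg (hf.nonneg x) (Real.exp_pos _).le)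
  have hqfuu : ∀ x, qf (vecMulVec u u) x = (u ⬝ᵥ x) ^ 2 := by
    intro x
    simp only [qf, vecMulVec_mulVec, dotProduct_smul]
    rw [dotProduct_comm x u]
    simp [sq]
  have hqfG : ∀ x, qf (tlG G u t) x = qf G x + t ^ 2 * (u ⬝ᵥ x) ^ 2 := by
    intro x
    rw [← hqfuu]
    simp only [qf, tlG, add_mulVec, smul_mulVec, dotProduct_add, dotProduct_smul, smul_eq_mul]
  have hpsd : (tlG G u t).PosSemidef := by
    refine Matrix.PosSemidef.of_dotProduct_mulVec_nonneg ?_ ?_
    · refine IsHermitian.add hf.psd.isHermitian ?_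
      ext i j
      simp only [conjTranspose_apply, Matrix.smul_apply, vecMulVec_apply, star_trivial, smul_eq_mul]
      ring
    · intro x
      have h1 := hqfG x
      have h2 := qf_nonneg hf.psd x
      have h3 : star x ⬝ᵥ (tlG G u t).mulVec x = qf (tlG G u t) x := by simp [qf]
      rw [h3, h1]; positivity
  refine ⟨⟨?_, hnn, ?_, ?_⟩, hpsd, ?_⟩
  · exact hEB.meas.const_mul _
  · -- log-concavity of tl
    have hsq : LogC (fun x : Fin m → ℝ => Real.exp (-(t ^ 2 / 2) * (cl f u x * cl f u x))) := by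
      intro x y s r hs hr hsr
      simp only
      rw [← Real.exp_mul, ← Real.exp_mul, ← Real.exp_add]
      apply Real.exp_le_exp.mpr
      have h1 : cl f u (s • x + r • y) = s * cl f u x + r * cl f u y := by
        rw [hcl, hcl, hcl, dotProduct_add, dotProduct_smul, dotProduct_smul, smul_eq_mul,
          smul_eq_mul]
        have : c = s * c + r * c := by rw [← add_mul, hsr, one_mul]
        linarith
      rw [h1]
      set p := cl f u x
      set q := cl f u y
      have hr' : r = 1 - s := by linarith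
      have h2 : (s * p + r * q) * (s * p + r * q) ≤ s * (p * p) + r * (q * q) := by
        rw [hr']
        nlinarith [mul_nonneg (mul_nonneg hs.le hr.le) (sq_nonneg (p - q)), hr']
      nlinarith [sq_nonneg t]
    have hlin : LogC (fun x : Fin m → ℝ => Real.exp ((t • Lu) x + -(t * c))) :=
      LogC.exp_affine _ _
    have h1 : LogC (fun x => (tlZ f u t)⁻¹ * ((f x *
        Real.exp (-(t ^ 2 / 2) * (cl f u x * cl f u x))) *
        Real.exp ((t • Lu) x + -(t * c)))) := by
      apply LogC.const_mul (inv_nonneg.mpr hZt.le)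
      · intro x
        exact mul_nonneg (mul_nonneg (hf.nonneg x) (Real.exp_pos _).le) (Real.exp_pos _).le
      · apply LogC.mul _ _ (LogC.mul hf.nonneg _ hf.logc hsq) hlin
        · intro x; exact mul_nonneg (hf.nonneg x) (Real.exp_pos _).le
        · intro x; exact (Real.exp_pos _).le
        · intro x; exact (Real.exp_pos _).le
    convert h1 using 2 with x
    simp only [Cpt435.tl]
    rw [mul_assoc (f x), ← Real.exp_add]
    congr 3
    simp only [LinearMap.smul_apply, hLu, dotProductBilin_apply_apply, smul_eq_mul]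
    rw [hcl x]; ring
  · -- total mass
    have h1 : ∫ x, Cpt435.tl f u t x = (tlZ f u t)⁻¹ * tlZ f u t := by
      simp only [Cpt435.tl]
      rw [integral_const_mul]
      congr 1
      simp [tlZ, curveI]
    rw [h1, inv_mul_cancel₀ hZt.ne']
  · -- strong log-concavity
    have h1 : LogC (fun x => (tlZ f u t)⁻¹ * ((f x * Real.exp (qf G x / 2)) *
        Real.exp (((t + t ^ 2 * c) • Lu) x + (-(t * c) - t ^ 2 / 2 * c ^ 2)))) := by
      apply LogC.const_mul (inv_nonneg.mpr hZt.le) _ hlogc2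
      intro x
      exact mul_nonneg (mul_nonneg (hf.nonneg x) (Real.exp_pos _).le) (Real.exp_pos _).le
    convert h1 using 2 with x
    simp only [Cpt435.tl]
    rw [hqfG x, mul_assoc, mul_assoc, mul_assoc (f x), ← Real.exp_add, ← Real.exp_add]
    congr 3
    simp only [LinearMap.smul_apply, hLu, dotProductBilin_apply_apply, smul_eq_mul]
    rw [hcl x]; ring

end Crest.Agent.R253.Cpt435
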