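import Crest.Agent.R253.TubeC_711

/-!
Row 253 (helper711): the scalar minorants `F2 = 2 - 2 v' + z v / 2 - v² ≥ a - b z - c z²` (all `z`)
of the even/odd form.
-/

set_option autoImplicit false

namespace Crest.Agent.R253.F2n711

open Set Crest.Agent.R253.Mills37 Crest.Agent.R253.HFn741 Crest.Agent.R253.Slack688
open Crest.Agent.R253.Tube711

/-- `F2 - (a - b z - c z²)` as an expression -/
def Gx (a b c : ℤ) : Ex :=
  Ex.c 2 1 - Ex.c 2 1 * Ex.v1 + Ex.c 1 2 * (Ex.z * Ex.v) - Ex.v * Ex.v - Ex.c a 1000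
    + Ex.c b 1000 * Ex.z + Ex.c c 1000 * (Ex.z * Ex.z)

lemma aa_small {z : ℝ} (hz : z ≤ -10) : aa z < 1 / 101 := by
  have hmu := mu_pos z
  have he : 10 < ee z := by unfold ee; linarith
  have hw : ww z * H0 z - ee z > 0 := bb2_pos z
  have hw1 : 101 < ww z := by unfold ww; nlinarith
  have hadd := ww_add z
  have hme := mu_ee_pos z
  have h1 : ww z * aa z < 1 := by
    unfold aa
    have : ww z * (1 - ee z * H0 z) = ww z - ee z * (ww z * H0 z) := by ring
    rw [this]
    nlinarith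
  have ha : 0 < aa z := H0_deriv_pos z
  by_contra hcon
  push Not at hcon
  nlinarith

lemma left_tail {z : ℝ} (hz : z ≤ -10) : 147 / 100 ≤ 2 - 2 * aa z + z * H0 z / 2 - H0 z ^ 2 := by
  have h1 := aa_small hz
  have hmu := mu_pos z
  have he : 10 < ee z := by unfold ee; linarith
  have hez : -z < ee z := by unfold ee; linarith
  have hv := H0_pos z
  have ha : 0 < 1 - ee z * H0 z := H0_deriv_pos z
  have h2 : -1 < z * H0 z := by nlinarith
  have h3 : H0 z < 1 / 10 := by nlinarith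
  have h4 : H0 z ^ 2 < 1 / 100 := by nlinarith
  linarith

set_option maxRecDepth 20000 in
theorem v10_chk : chk (Ex.c 5272 1000 - Ex.v) 8 79 1 = true := by decide +kernel

lemma v10 : H0 10 < 5272 / 1000 := by
  have := pos_of_chk v10_chk (z := 10) (by norm_num) (by norm_num)
  simp at this
  linarith

lemma v_le {z : ℝ} (hz : 10 ≤ z) : H0 z ≤ z / 2 + 272 / 1000 := by
  have h : ∀ x : ℝ, HasDerivAt (fun x => x / 2 - H0 x) (1 / 2 - (1 - ee x * H0 x)) x := fun x =>
    (((hasDerivAt_id x).div_const 2).sub (H0_hasDerivAt x))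
  have hm : StrictMono (fun x => x / 2 - H0 x) := strictMono_of_hasDerivAt_pos h
    (fun x => by have : aa x < 1 / 2 := aa_lt x; unfold aa at this; linarith)
  have h2 : (10 : ℝ) / 2 - H0 10 ≤ z / 2 - H0 z := hm.monotone hz
  have h3 := v10
  linarith

lemma v_ge {z : ℝ} (hz : 0 < z) : z / 2 < H0 z := by
  have h1 : aa z < 1 / 2 := aa_lt z
  unfold aa at h1
  have h2 : 0 < ww z := ww_pos z
  have hv := H0_pos z
  unfold ww at h2
  nlinarith

lemma right_tail {z : ℝ} (hz : 10 ≤ z) :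
    92 / 100 - 136 / 1000 * z ≤ 2 - 2 * aa z + z * H0 z / 2 - H0 z ^ 2 := by
  have h1 : aa z < 1 / 2 := aa_lt z
  have h2 := v_le hz
  have h3 := v_ge (by linarith : 0 < z)
  have h4 : H0 z * (H0 z - z / 2) ≤ (z / 2 + 272 / 1000) * (272 / 1000) := by
    apply mul_le_mul h2 (by linarith) (by linarith) (by linarith)
  nlinarith

lemma of_chk {a b c : ℤ} (h : chk (Gx a b c) 8 0 80 = true) {z : ℝ} (h1 : -10 ≤ z) (h2 : z ≤ 10) :
    (a : ℝ) / 1000 - b / 1000 * z - c / 1000 * z ^ 2 ≤ 2 - 2 * aa z + z * H0 z / 2 - H0 z ^ 2 := by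
  have := pos_of_chk h (z := z) (by norm_num; linarith) (by norm_num; linarith)
  simp only [Gx, val_add, val_sub, val_mul, val_c, val_z, val_v, val_v1] at this
  push_cast at this
  norm_num at this
  linarith






lemma F2_eq (z : ℝ) : 2 * kk z - H0 z ^ 2 - 3 / 2 * (z * H0 z) =
    2 - 2 * aa z + z * H0 z / 2 - H0 z ^ 2 := by
  have := zv_sub z
  linarith


set_option maxRecDepth 20000 in
theorem chk5 : chk (Gx 555 147 6) 8 0 80 = true := by decide +kernel

/-- `.555 - .147 z - .006 z²` (the minorant of the frozen table) -/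
theorem F2_555b (z : ℝ) : 555 / 1000 - 147 / 1000 * z - 6 / 1000 * z ^ 2 ≤
    2 - 2 * aa z + z * H0 z / 2 - H0 z ^ 2 := by
  rcases le_total z (-10) with h | h
  · have := left_tail h
    nlinarith [sq_nonneg (z + 49 / 4)]
  rcases le_total z 10 with h2 | h2
  · have := of_chk chk5 h h2
    norm_num at this ⊢
    linarith
  · have := right_tail h2
    nlinarith

/-- frozen literal: `555/1000 - 147/1000 z - 6/1000 z² ≤ F z - 3/2 (z v z)` -/
theorem hF2_555b (z : ℝ) : 555 / 1000 + -(147 / 1000) * z - 6 / 1000 * z ^ 2 ≤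
    2 * kk z - H0 z ^ 2 - 3 / 2 * (z * H0 z) := by
  rw [F2_eq]; have := F2_555b z; linarith

end Crest.Agent.R253.F2n711
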