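import Crest.Agent.R253.HFn_741

/-!
# Row 253, B-form: lower bounds of `h = v' + v v''` through `g = c / w` (helper741)
-/

open MeasureTheory Set Filter Topology Real

namespace Crest.Agent.R253.HFn741

open Crest.Agent.R253.Mills37 Crest.Agent.R253.Slack688 Crest.Agent.R253.V2451

noncomputable section

lemma ee_has2 (z : ℝ) : HasDerivAt ee (ee z ^ 2 + z * ee z - 1) z := by
  refine (ee_hasDerivAt z).congr_deriv ?_
  rw [mu_eq]; ring

lemma cc_eq2 (z : ℝ) : cc z = ww z - ee z ^ 2 := by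
  unfold cc ww; rw [mu_eq]; ring

lemma mu_zero_sq : mu 0 ^ 2 = 2 / π := by
  have hQ : Q 0 = 1 / 2 := by
    have := Q_neg 0
    rw [neg_zero] at this; linarith
  have hpi := Real.pi_pos
  have h : ph 0 = (√(2 * π))⁻¹ := by unfold ph; simp
  unfold mu
  rw [hQ, h, div_pow, inv_pow, Real.sq_sqrt (by positivity)]
  field_simp

lemma ee_zero_sq : ee 0 ^ 2 = 2 / π := by
  have : ee 0 = mu 0 := by unfold ee; ring
  rw [this, mu_zero_sq]


lemma gg_zero : gg 0 = 1 - 2 / π := by
  have h1 : ww 0 = 1 := by unfold ww; ring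
  unfold gg
  rw [cc_eq2, h1, ee_zero_sq]; ring

/-! ### `g ≥ 1 / (z² + c)`, `c > 3` -/







/-! ### `g ≥ 1/2 - 1 / (2 (z² + 3))`, `z ≥ 0` -/



lemma ze_tendsto : Tendsto (fun z => z * ee z) atTop (𝓝 1) := by
  have h1 : Tendsto (fun z : ℝ => 1 - 2 * (2 + z ^ 2)⁻¹) atTop (𝓝 (1 - 2 * 0)) := by
    refine Tendsto.const_sub _ (Tendsto.const_mul _ ?_)
    refine tendsto_inv_atTop_zero.comp ?_
    exact tendsto_atTop_add_const_left _ _ (tendsto_pow_atTop (by norm_num))
  rw [mul_zero, sub_zero] at h1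
  refine tendsto_of_tendsto_of_tendsto_of_le_of_le' h1 tendsto_const_nhds ?_ ?_
  · filter_upwards [eventually_gt_atTop 0] with z hz
    have h := ee_gt z
    have h2 : (0 : ℝ) < 2 + z ^ 2 := by positivity
    have h3 : 1 - 2 * (2 + z ^ 2)⁻¹ = z ^ 2 / (2 + z ^ 2) := by field_simp; ring
    rw [h3, div_le_iff₀ h2]
    nlinarith
  · filter_upwards [eventually_gt_atTop 0] with z hz
    have := ee_lt hz
    rw [lt_div_iff₀ hz] at this
    linarith







/-! ### `g` is increasing -/

def YY (z : ℝ) : ℝ := cc z * (ww z + 1) - ee z ^ 2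

lemma YY_has (z : ℝ) : HasDerivAt YY
    ((ee z + (1 - 2 * cc z) / ee z) * YY z - 2 * cc z * ss z / ee z) z := by
  have h := ((cc_hasDerivAt z).mul ((ww_hasDerivAt z).add_const 1)).sub ((ee_has2 z).pow 2)
  refine h.congr_deriv ?_
  have he := (ee_pos z).ne'
  unfold YY
  rw [cc_eq2, mu_eq]
  unfold ss ww
  field_simp
  norm_num
  ring

lemma YY_tendsto : Tendsto YY atTop (𝓝 0) := by
  have h1 := ze_tendsto
  have h2 := ee_tendsto_top
  have h := (((h1.const_mul (-3)).add (h1.pow 2)).sub ((h2.pow 2).const_mul 3)).add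
    (h1.mul (h2.pow 2))
  have h' := h.const_add 2
  norm_num at h'
  refine h'.congr fun z => ?_
  unfold YY
  rw [cc_eq2]
  unfold ww; ring

lemma YY_pos (z : ℝ) : 0 < YY z := by
  have hN : ∀ x, 0 < 2 * cc x * ss x / ee x := fun x => by
    have := cc_pos x; have := ss_pos x; have := ee_pos x
    positivity
  have hpos : ∀ z, 0 ≤ z → 0 < YY z := by
    intro z hz
    refine pos_of_ode_top (z0 := z) (c := fun z => ee z + (1 - 2 * cc z) / ee z)
      (fun x _ => YY_has x) (fun x hx => ?_) (fun x _ => hN x) YY_tendsto z le_rfl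
    have h0 : 0 ≤ x := hz.trans hx
    have h1 := ee_pos x
    have h2 := two_cc_lt x
    have h3 : ww x ≤ 1 := by unfold ww; nlinarith
    have h4 : 0 ≤ 1 - 2 * cc x := by linarith
    positivity
  by_cases hz : 0 ≤ z
  · exact hpos z hz
  · exact pos_left_of_ode (b := 0) (c := fun z => ee z + (1 - 2 * cc z) / ee z)
      (fun x _ => YY_has x) (fun x _ => hN x) (hpos 0 le_rfl).le z (not_le.mp hz)

lemma gg_has (z : ℝ) : HasDerivAt gg (ee z * YY z / ww z ^ 2) z := by
  have hw := (ww_pos z).ne'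
  have h := (cc_hasDerivAt z).div (ww_hasDerivAt z) hw
  refine h.congr_deriv ?_
  congr 1
  unfold YY
  rw [cc_eq2, mu_eq]
  unfold ss ww
  ring

theorem gg_strictMono : StrictMono gg :=
  strictMono_of_hasDerivAt_pos gg_has fun z => by
    have := ee_pos z; have := YY_pos z; have := ww_pos z
    positivity

/-- **(h2)** -/
theorem gg_ge_const {z : ℝ} (hz : 0 ≤ z) : 9 / 25 ≤ gg z := by
  refine le_trans ?_ (gg_strictMono.monotone hz)
  rw [gg_zero]
  have h0 : 2 / π < 2 / 3.14 := by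
    have := Real.pi_gt_d2
    exact div_lt_div_of_pos_left (by norm_num) (by norm_num) this
  norm_num at h0 ⊢
  linarith

theorem hh_ge_const {z : ℝ} (hz : 0 ≤ z) : 9 / 25 ≤ hh z :=
  (gg_ge_const hz).trans (gg_lt_hh z).le

end

end Crest.Agent.R253.HFn741
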