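import Crest.Agent.R253.HFn_741

/-!
# Row 253 (helper688): `v'' < (2/19) e` and `-(8/361) e < h' < e/10`

`h = v' + v v''`, `h' = -2 e + 4 w v - α v²`, `α = e + 2 w e - z c`, `c = 1 - μ e`, `w = 1 - z e`.
In the variables `b = 1/e`, `r = b'` everything is
`Y = 21 (1 - r) b² - (1 + r) (19 r - 2) > 0`.
-/

set_option autoImplicit false

open Filter Topology Set

namespace Crest.Agent.R253.HP688

open Crest.Agent.R253.Mills37 Crest.Agent.R253.Slack688 Crest.Agent.R253.V2451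
open Crest.Agent.R253.HFn741

noncomputable section

/-- `h'` -/
def hp (z : ℝ) : ℝ :=
  -2 * ee z + 4 * ww z * H0 z + H0 z ^ 2 * (z * cc z - ee z - 2 * ww z * ee z)

lemma cc_eq' (z : ℝ) : cc z = ww z - ee z ^ 2 := by unfold cc ww; rw [mu_eq]; ring

lemma ee_has' (z : ℝ) : HasDerivAt ee (-cc z) z := by
  refine (ee_hasDerivAt z).congr_deriv ?_
  unfold cc; ring

lemma hh_has (z : ℝ) : HasDerivAt hh (hp z) z := by
  have h := (((ee_has' z).mul (H0_has z)).const_mul 2).const_sub 1 |>.add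
    ((ww_hasDerivAt z).mul ((H0_has z).pow 2))
  refine (h.congr_of_eventuallyEq ?_).congr_deriv ?_
  · filter_upwards with x
    simp only [Pi.add_apply, Pi.mul_apply, Pi.pow_apply]
    rw [hh_eq']; ring
  · simp only [Pi.pow_apply]
    unfold hp aa
    rw [cc_eq']
    ring

/-- `Y` -/
def YY (z : ℝ) : ℝ := 21 * (1 - rr z) * bb z ^ 2 - (1 + rr z) * (19 * rr z - 2)

/-- the polynomial of the ODE -/
lemma W_pos {r : ℝ} (h0 : 0 ≤ r) : 0 < 15 + 95 * r - 422 * r ^ 2 + 380 * r ^ 3 := by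
  have e : 15 + 95 * r - 422 * r ^ 2 + 380 * r ^ 3 =
      380 * (r * (r - 3 / 5) ^ 2) + (34 * (r - 209 / 340) ^ 2 + (15 - 34 * (209 / 340) ^ 2)) := by ring
  rw [e]
  have h1 : 0 ≤ r * (r - 3 / 5) ^ 2 := mul_nonneg h0 (sq_nonneg _)
  have h2 : (0:ℝ) < 15 - 34 * (209 / 340) ^ 2 := by norm_num
  positivity

lemma YY_hasDerivAt (z : ℝ) : HasDerivAt YY
    (((21 * bb z ^ 2 + 38 * rr z + 17) / 21 + 2 * rr z
      - 2 * (1 + rr z) ^ 2 / (21 * (1 - rr z))) / bb z * YY z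
      - 2 * (1 + rr z) / (21 * (1 - rr z) * bb z) *
        (15 + 95 * rr z - 422 * rr z ^ 2 + 380 * rr z ^ 3)) z := by
  have hb := bb_pos z
  have h1r : (1 - rr z) ≠ 0 := by have := rr_lt_one z; intro h; linarith
  have h1 := bb_hasDerivAt z
  have h2 := rr_hasDerivAt z
  have h := (((h2.const_sub 1).const_mul 21).mul (h1.pow 2)).sub
    ((h2.const_add 1).mul ((h2.const_mul 19).sub_const 2))
  refine (h.congr_of_eventuallyEq ?_).congr_deriv ?_
  · filter_upwards with x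
    simp only [YY, Pi.sub_apply, Pi.mul_apply, Pi.pow_apply]
  · unfold YY
    simp only [Pi.pow_apply]
    field_simp
    ring

/-- the inequality in `z`, `e` for large `z` -/
lemma big {z e : ℝ} (hz : 10 ≤ z) (h1 : z ^ 3 + 7 * z < (z ^ 4 + 9 * z ^ 2 + 8) * e)
    (h2 : e < 1 / z) :
    0 < -40 + 59 * (z * e) + (63 - 19 * z ^ 2) * e ^ 2 - 21 * z * e ^ 3 := by
  have hz0 : 0 < z := by linarith
  set D := z ^ 4 + 9 * z ^ 2 + 8 with hD
  have hD0 : 0 < D := by rw [hD]; positivity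
  set l := (z ^ 3 + 7 * z) / D with hl
  have hle : l < e := by rw [hl, div_lt_iff₀ hD0]; linarith
  have hl0 : 0 < l := by rw [hl]; positivity
  have he0 : 0 < e := hl0.trans hle
  have hlz : l < 1 / z := hle.trans h2
  have hze : z * e < 1 := by rw [lt_div_iff₀ hz0] at h2; linarith
  have hzl : z * l < 1 := by rw [lt_div_iff₀ hz0] at hlz; linarith
  -- value at `l`
  have hG : 0 < -40 + 59 * (z * l) + (63 - 19 * z ^ 2) * l ^ 2 - 21 * z * l ^ 3 := by
    have e1 : -40 + 59 * (z * l) + (63 - 19 * z ^ 2) * l ^ 2 - 21 * z * l ^ 3 =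
        (-40 * D ^ 3 + 59 * (z * (z ^ 3 + 7 * z)) * D ^ 2 +
          (63 - 19 * z ^ 2) * (z ^ 3 + 7 * z) ^ 2 * D - 21 * z * (z ^ 3 + 7 * z) ^ 3) / D ^ 3 := by
      rw [hl]; field_simp
    rw [e1]
    apply div_pos _ (by positivity)
    obtain ⟨t, ht0, ht⟩ : ∃ t : ℝ, 0 ≤ t ∧ z ^ 2 = 100 + t := ⟨z ^ 2 - 100, by nlinarith, by ring⟩
    have e2 : -40 * D ^ 3 + 59 * (z * (z ^ 3 + 7 * z)) * D ^ 2 +
          (63 - 19 * z ^ 2) * (z ^ 3 + 7 * z) ^ 2 * D - 21 * z * (z ^ 3 + 7 * z) ^ 3 =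
        -40 * ((z ^ 2) ^ 2 + 9 * z ^ 2 + 8) ^ 3
        + 59 * (z ^ 2 * (z ^ 2 + 7)) * ((z ^ 2) ^ 2 + 9 * z ^ 2 + 8) ^ 2
        + (63 - 19 * z ^ 2) * (z ^ 2 * (z ^ 2 + 7) ^ 2) * ((z ^ 2) ^ 2 + 9 * z ^ 2 + 8)
        - 21 * (z ^ 2) ^ 2 * (z ^ 2 + 7) ^ 3 := by
      rw [hD]; ring
    rw [e2, ht]
    ring_nf
    positivity
  -- monotone in `e`
  have hz2 : 0 ≤ z * (e ^ 2 + e * l + l ^ 2) := by positivity
  have hz3 : z * (e ^ 2 + e * l + l ^ 2) ≤ 3 := by
    have a1 : z * e ^ 2 ≤ 1 := by nlinarith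
    have a2 : z * (e * l) ≤ 1 := by nlinarith
    have a3 : z * l ^ 2 ≤ 1 := by nlinarith
    nlinarith
  have hbr : 0 < 59 * z + (63 - 19 * z ^ 2) * (e + l) - 21 * z * (e ^ 2 + e * l + l ^ 2) := by
    have a1 : z ^ 2 * (e + l) ≤ 2 * z := by nlinarith
    nlinarith
  have : 0 < (e - l) * (59 * z + (63 - 19 * z ^ 2) * (e + l)
      - 21 * z * (e ^ 2 + e * l + l ^ 2)) := mul_pos (by linarith) hbr
  nlinarith

lemma YY_eq (z : ℝ) : YY z * ee z ^ 4 =
    -40 + 59 * (z * ee z) + (63 - 19 * z ^ 2) * ee z ^ 2 - 21 * z * ee z ^ 3 := by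
  have he := (ee_pos z).ne'
  unfold YY rr bb
  field_simp
  ring

lemma YY_pos_of_large {z : ℝ} (hz : 10 ≤ z) : 0 < YY z := by
  have h0 : 0 < z := by linarith
  have h := big hz (ee_gt2 z) (ee_lt h0)
  rw [← YY_eq] at h
  have he : 0 < ee z ^ 4 := pow_pos (ee_pos z) 4
  by_contra hneg
  push Not at hneg
  have := mul_nonpos_of_nonpos_of_nonneg hneg he.le
  linarith

theorem YY_pos (z : ℝ) : 0 < YY z := by
  rcases lt_or_ge z 10 with hz | hz
  · refine pos_left_of_ode (b := 10) (fun x _ => YY_hasDerivAt x) (fun x _ => ?_)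
      (YY_pos_of_large le_rfl).le z hz
    have h1 := rr_pos x
    have h2 := rr_lt_one x
    have h3 := bb_pos x
    have h4 := W_pos h1.le
    have h5 : 0 < 1 - rr x := by linarith
    positivity
  · exact YY_pos_of_large hz

/-! ### `v'' < (2/19) e` -/

/-- `(21/19) μ e / w - k` -/
def GA (z : ℝ) : ℝ := 21 / 19 * (mu z * ee z) / ww z - kk z

lemma GA_hasDerivAt (z : ℝ) : HasDerivAt GA (mu z / ww z ^ 2 * (YY z * ee z ^ 4 / 19)) z := by
  have hw := (ww_pos z).ne'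
  have he := (ee_pos z).ne'
  have h := ((((mu_hasDerivAt z).mul (ee_has' z)).const_mul (21 / 19)).div
    (ww_hasDerivAt z) hw).sub (kk_hasDerivAt z)
  refine (h.congr_of_eventuallyEq ?_).congr_deriv ?_
  · filter_upwards with x
    simp only [GA, Pi.sub_apply, Pi.div_apply, Pi.mul_apply]
  · simp only [Pi.mul_apply]
    rw [YY_eq, cc_eq']
    have e2 : mu z = z + ee z := mu_eq z
    rw [e2]
    field_simp
    unfold ww
    ring

lemma GA_tendsto : Tendsto GA atBot (𝓝 0) := by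
  have h1 : Tendsto (fun z => 21 / 19 * (mu z * ee z)) atBot (𝓝 0) := by
    have e1 : Tendsto (fun z : ℝ => 21 / 19 * (mu z * mu z - z ^ 1 * mu z)) atBot
        (𝓝 (21 / 19 * (0 * 0 - 0))) :=
      ((mu_tendsto_bot.mul mu_tendsto_bot).sub (pow_mul_mu_tendsto_bot 1)).const_mul _
    norm_num at e1
    refine e1.congr fun z => ?_
    unfold ee; ring
  have h2 : Tendsto (fun z => 21 / 19 * (mu z * ee z) / ww z) atBot (𝓝 0) := by
    refine squeeze_zero' ?_ ?_ h1
    · filter_upwards with z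
      have := ee_pos z; have := mu_pos z; have := ww_pos z
      positivity
    · filter_upwards [eventually_lt_atBot (0:ℝ)] with z hz
      have he := ee_pos z
      have hm := mu_pos z
      have hw : 1 ≤ ww z := by unfold ww; nlinarith
      exact div_le_self (by positivity) hw
  have h3 := h2.sub kk_tendsto_bot
  rw [sub_zero] at h3
  exact h3

lemma GA_pos (z : ℝ) : 0 < GA z :=
  pos_of_deriv_pos GA_hasDerivAt
    (fun z => mul_pos (div_pos (mu_pos z) (pow_pos (ww_pos z) 2))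
      (by have := YY_pos z; have := ee_pos z; positivity)) GA_tendsto z

/-- **(K3)** `v'' < (2/19) e` -/
theorem bb2_lt_ee (z : ℝ) : bb2 z < 2 / 19 * ee z := by
  have h := GA_pos z
  have hw := ww_pos z
  have hm := mu_pos z
  unfold GA at h
  have h1 : kk z < 21 / 19 * (mu z * ee z) / ww z := by linarith
  rw [lt_div_iff₀ hw] at h1
  have h2 : ww z * H0 z < 21 / 19 * ee z := by
    have h3 : ww z * H0 z = kk z * ww z / mu z := by unfold H0; field_simp
    rw [h3, div_lt_iff₀ hm]; linarith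
  unfold bb2
  linarith

/-! ### `h'` -/

/-- `α` -/
def al (z : ℝ) : ℝ := ee z + 2 * ww z * ee z - z * cc z

lemma al_lo (z : ℝ) : 40 * ww z ^ 2 < 21 * ee z * al z := by
  have h := mul_pos (YY_pos z) (pow_pos (ee_pos z) 4)
  rw [YY_eq] at h
  unfold al
  rw [cc_eq']
  unfold ww
  nlinarith

lemma al_pos (z : ℝ) : 0 < al z := by
  have h := al_lo z
  have he := ee_pos z
  have hw := ww_pos z
  have h1 : 0 < 21 * ee z * al z := lt_trans (by positivity) h
  by_contra hneg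
  push Not at hneg
  have := mul_nonpos_of_nonneg_of_nonpos (show 0 ≤ 21 * ee z by positivity) hneg
  linarith

lemma al_hi (z : ℝ) : ee z * al z < 2 * ww z ^ 2 := by
  have h := two_cc_gt z
  have he := ee_pos z
  have h1 : mu z * ee z = 1 - cc z := by unfold cc; ring
  rw [h1] at h
  have hc := cc_eq' z
  unfold al
  have hz : z * ee z = 1 - ww z := by unfold ww; ring
  have : ee z * (ee z + 2 * ww z * ee z - z * cc z)
      = ee z ^ 2 * (1 + 2 * ww z) - (z * ee z) * cc z := by ring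
  rw [this, hz]
  have h2 : ee z ^ 2 = ww z - cc z := by linarith
  rw [h2]
  nlinarith

lemma hp_eq (z : ℝ) : hp z = -2 * ee z + 4 * ww z * H0 z - al z * H0 z ^ 2 := by
  unfold hp al; ring

/-- **(K2)** `h' < e/10` -/
theorem hp_lt (z : ℝ) : hp z < 1 / 10 * ee z := by
  have ha := al_pos z
  have h := al_lo z
  rw [hp_eq]
  have h1 : 0 ≤ (al z * H0 z - 2 * ww z) ^ 2 := sq_nonneg _
  have h2 : al z * (-2 * ee z + 4 * ww z * H0 z - al z * H0 z ^ 2)
      = -2 * ee z * al z + 4 * ww z ^ 2 - (al z * H0 z - 2 * ww z) ^ 2 := by ring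
  have h3 : al z * (-2 * ee z + 4 * ww z * H0 z - al z * H0 z ^ 2)
      < al z * (1 / 10 * ee z) := by rw [h2]; nlinarith
  exact lt_of_mul_lt_mul_left h3 ha.le

/-- `-2 v''² / e < h'` -/
theorem hp_gt' (z : ℝ) : -(2 * bb2 z ^ 2 / ee z) < hp z := by
  have ha := al_hi z
  have he := ee_pos z
  have hv := H0_pos z
  rw [hp_eq]
  have h1 : ee z * al z * H0 z ^ 2 < 2 * ww z ^ 2 * H0 z ^ 2 :=
    mul_lt_mul_of_pos_right ha (by positivity)
  have h2 : ww z * H0 z = bb2 z + ee z := by unfold bb2; ring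
  have h3 : 2 * ww z ^ 2 * H0 z ^ 2 = 2 * (bb2 z + ee z) ^ 2 := by rw [← h2]; ring
  rw [h3] at h1
  rw [neg_lt, ← sub_pos]
  have h4 : -(-2 * ee z + 4 * ww z * H0 z - al z * H0 z ^ 2)
      = 2 * ee z - 4 * (bb2 z + ee z) + al z * H0 z ^ 2 := by rw [← h2]; ring
  rw [h4]
  have h5 : 2 * bb2 z ^ 2 / ee z - (2 * ee z - 4 * (bb2 z + ee z) + al z * H0 z ^ 2)
      = (2 * (bb2 z + ee z) ^ 2 - ee z * al z * H0 z ^ 2) / ee z := by
    field_simp; ring
  rw [h5]
  apply div_pos _ he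
  linarith

/-- **(K1')** `-(8/361) e < h'` -/
theorem hp_gt (z : ℝ) : -(8 / 361 * ee z) < hp z := by
  have h := hp_gt' z
  have h1 := bb2_lt_ee z
  have h2 := bb2_pos z
  have he := ee_pos z
  have h3 : 2 * bb2 z ^ 2 / ee z ≤ 8 / 361 * ee z := by
    rw [div_le_iff₀ he]
    nlinarith
  linarith


end

end Crest.Agent.R253.HP688
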