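import Crest.Agent.R253.Hx_741

/-!
# Row 253: quadratic minorants of `h = v' + v v''` (helper741)

`a + c z - e z² ≤ hh z` for all `z`.
-/

open MeasureTheory Set Filter Topology Real

namespace Crest.Agent.R253.HPar741

open Crest.Agent.R253.Mills37 Crest.Agent.R253.Slack688 Crest.Agent.R253.V2451
open Crest.Agent.R253.HFn741 Crest.Agent.R253.Ham741

noncomputable section

def XP (A C E : ℤ) : Ex :=
  .c 10000 * Xh - (.c A + .c C * .z - .c E * (.z * .z)) * (Xmu * Xmu)

lemma par_mid {A C E lo hi : ℤ} (h : chkX 8 14 (XP A C E) lo hi = true) (h1 : -128 ≤ lo)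
    (h2 : hi ≤ 1024) {z : ℝ} (hz1 : (lo : ℝ) ≤ 16 * z) (hz2 : 16 * z < hi) :
    (A + C * z - E * z ^ 2) / 10000 ≤ hh z := by
  have h := hamx h h1 h2 hz1 hz2
  simp only [XP, ev_sub, ev_add, ev_mul, ev_Xh, ev_Xmu, ev_c, ev_z] at h
  have hm := mu_pos z
  have e : ((10000 : ℤ) : ℝ) * (mu z ^ 2 * hh z) -
      ((A : ℝ) + C * z - E * (z * z)) * (mu z * mu z) =
      mu z ^ 2 * (10000 * hh z - (A + C * z - E * z ^ 2)) := by push_cast; ring
  rw [e] at h
  have h3 := (mul_pos_iff_of_pos_left (pow_pos hm 2)).1 h
  rw [div_le_iff₀ (by norm_num)]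
  linarith

lemma chk_a : chkX 8 14 (XP 3630 720 136) (-72) 256 = true := by decide +kernel

/-- `3630/10000 + 720/10000 z - 136/10000 z² ≤ h` -/
theorem par_a (z : ℝ) : 3630 / 10000 + 720 / 10000 * z - 136 / 10000 * z ^ 2 ≤ hh z := by
  rcases lt_or_ge z (-9 / 2) with h | h
  · have := hh_pos z
    nlinarith
  · rcases lt_or_ge z 16 with h2 | h2
    · have := par_mid chk_a (by norm_num) (by norm_num) (z := z) (by push_cast; linarith)
        (by push_cast; linarith)
      push_cast at this
      linarith
    · have := hh_ge_const (z := z) (by linarith)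
      nlinarith





lemma chk_d : chkX 8 14 (XP 3300 650 70) (-72) 256 = true := by decide +kernel

/-- `3300/10000 + 650/10000 z - 70/10000 z² ≤ h` -/
theorem par_d (z : ℝ) : 3300 / 10000 + 650 / 10000 * z - 70 / 10000 * z ^ 2 ≤ hh z := by
  rcases lt_or_ge z (-9 / 2) with h | h
  · have := hh_pos z
    nlinarith
  · rcases lt_or_ge z 16 with h2 | h2
    · have := par_mid chk_d (by norm_num) (by norm_num) (z := z) (by push_cast; linarith)
        (by push_cast; linarith)
      push_cast at this
      linarith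
    · have := hh_ge_const (z := z) (by linarith)
      nlinarith



lemma chk_f : chkX 8 14 (XP 2950 560 40) (-72) 256 = true := by decide +kernel

/-- `2950/10000 + 560/10000 z - 40/10000 z² ≤ h` -/
theorem par_f (z : ℝ) : 2950 / 10000 + 560 / 10000 * z - 40 / 10000 * z ^ 2 ≤ hh z := by
  rcases lt_or_ge z (-9 / 2) with h | h
  · have := hh_pos z
    nlinarith
  · rcases lt_or_ge z 16 with h2 | h2
    · have := par_mid chk_f (by norm_num) (by norm_num) (z := z) (by push_cast; linarith)
        (by push_cast; linarith)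
      push_cast at this
      linarith
    · have := hh_ge_const (z := z) (by linarith)
      nlinarith





end

end Crest.Agent.R253.HPar741
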