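import Crest.Agent.R253.Spine_973
import Crest.Agent.R253.SpecField_321

/-!
# R253, E-route: helper732's (S3) (r253 #29645) for every constant matrix `K` commuting with
`M_T = Σ T_k²` (helper649).

* `CGm`: matrix fields with continuous entries of polynomial growth; `TE F = E tr F`.
* `S3b`: exact formula for `E tr K k(ζ)`, `k(z) = 1 + z v(z) - v'(z)`,
  `ζ = Σ x_k T_k + η` (Gaussian integration by parts).
* `S3c`: lower bound by `(1/2) tr K (1 - M_T)` + three error terms.
* `center_p`, `center_eta`: centring of the error terms.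
* `S3a`: `E tr K U²` through a weak test field.
-/

set_option autoImplicit false

open MeasureTheory ProbabilityTheory Set Filter Topology Matrix
open scoped ContDiff

noncomputable section

namespace Crest.Agent.R253.S3

open Crest.Agent.R238.Gap Crest.Agent.R253.Meh74 Crest.Agent.R253.SpecCalc999
  Crest.Agent.R253.SpecField321

variable {n : ℕ}

/-! ### matrix fields -/

/-- entries continuous of polynomial growth -/
def CGm (F : E n → Mat n) : Prop := ∀ i j, CG fun x => F x i j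

lemma cgm_const (A : Mat n) : CGm fun _ => A := fun i j => cg_const (A i j)

lemma CGm.add {F G : E n → Mat n} (hF : CGm F) (hG : CGm G) : CGm fun x => F x + G x :=
  fun i j => (hF i j).add (hG i j)

lemma CGm.sub {F G : E n → Mat n} (hF : CGm F) (hG : CGm G) : CGm fun x => F x - G x :=
  fun i j => (hF i j).sub (hG i j)

lemma CGm.mul {F G : E n → Mat n} (hF : CGm F) (hG : CGm G) : CGm fun x => F x * G x := by
  intro i j
  have h : CG fun x => ∑ p, F x i p * G x p j := CG.sum fun p _ => (hF i p).mul (hG p j)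
  exact h

lemma CGm.smulc {F : E n → Mat n} (c : ℝ) (hF : CGm F) : CGm fun x => c • F x :=
  fun i j => (hF i j).smul c

lemma CGm.smul {f : E n → ℝ} {F : E n → Mat n} (hf : CG f) (hF : CGm F) :
    CGm fun x => f x • F x := fun i j => hf.mul (hF i j)

lemma CGm.congr {F G : E n → Mat n} (hF : CGm F) (h : ∀ x, F x = G x) : CGm G := by
  have : F = G := funext h
  rwa [← this]

lemma CGm.sum {ι : Type*} {s : Finset ι} {F : ι → E n → Mat n} (hF : ∀ i ∈ s, CGm (F i)) :
    CGm fun x => ∑ i ∈ s, F i x := by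
  intro a b
  have h : CG fun x => ∑ i ∈ s, F i x a b := CG.sum fun i hi => hF i hi a b
  have e : (fun x => ∑ i ∈ s, F i x a b) = fun x => (∑ i ∈ s, F i x) a b := by
    funext x
    rw [Matrix.sum_apply]
  rwa [e] at h

lemma CGm.trace {F : E n → Mat n} (hF : CGm F) : CG fun x => (F x).trace := by
  have h : CG fun x => ∑ i, F x i i := CG.sum fun i _ => hF i i
  exact h

/-- `E tr F` -/
def TE (F : E n → Mat n) : ℝ := EE fun x => (F x).trace

lemma TE_add {F G : E n → Mat n} (hF : CGm F) (hG : CGm G) :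
    TE (fun x => F x + G x) = TE F + TE G := by
  unfold TE
  rw [← EE_add hF.trace hG.trace]
  exact EE_congr fun x => Matrix.trace_add _ _

lemma TE_sub {F G : E n → Mat n} (hF : CGm F) (hG : CGm G) :
    TE (fun x => F x - G x) = TE F - TE G := by
  unfold TE
  rw [← EE_sub hF.trace hG.trace]
  exact EE_congr fun x => Matrix.trace_sub _ _

lemma TE_smul (c : ℝ) (F : E n → Mat n) : TE (fun x => c • F x) = c * TE F := by
  unfold TE
  rw [← EE_smul]
  exact EE_congr fun x => Matrix.trace_smul _ _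

lemma TE_sum {ι : Type*} {s : Finset ι} {F : ι → E n → Mat n} (hF : ∀ i ∈ s, CGm (F i)) :
    TE (fun x => ∑ i ∈ s, F i x) = ∑ i ∈ s, TE (F i) := by
  unfold TE
  rw [← EE_sum fun i hi => (hF i hi).trace]
  exact EE_congr fun x => Matrix.trace_sum _ _

lemma TE_const (A : Mat n) : TE (fun _ => A) = A.trace := EE_const _

lemma TE_congr {F G : E n → Mat n} (h : ∀ x, F x = G x) : TE F = TE G := by
  have : F = G := funext h
  rw [this]


/-- derivative of a matrix field -/
def dM (k : Fin n) (F : E n → Mat n) (x : E n) : Mat n := Matrix.of fun i j =>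
  pd k (fun y => F y i j) x

/-- entries `C1` -/
def C1m (F : E n → Mat n) : Prop := ∀ i j, C1 fun x => F x i j

lemma C1m.cg {F : E n → Mat n} (hF : C1m F) : CGm F := fun i j => (hF i j).cg
lemma C1m.cgd {F : E n → Mat n} (hF : C1m F) (k : Fin n) : CGm (dM k F) :=
  fun i j => (hF i j).cgp k

lemma trace_three (A X B : Mat n) : (A * X * B).trace = ∑ i, ∑ j, (B * A) j i * X i j := by
  rw [Matrix.mul_assoc, Matrix.trace_mul_comm, Matrix.mul_assoc, ← Matrix.trace_mul_comm (B * A),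
    Matrix.trace_mul_comm (B * A)]
  rw [Matrix.trace]
  simp only [Matrix.diag_apply, Matrix.mul_apply (M := X)]
  exact Finset.sum_congr rfl fun i _ => Finset.sum_congr rfl fun j _ => mul_comm _ _


/-! ### spectral functions -/



section field

variable {Z : Fld n} {lo hi : ℝ} {v v1 v2 k : ℝ → ℝ}

/-- `v(ζ)` -/
def sf (f : ℝ → ℝ) (Z : Fld n) (x : E n) : Mat n := _root_.cfc f (Mx Z x)

/-- `∂_k ζ` -/
def dZ (Z : Fld n) (k : Fin n) (x : E n) : Mat n := Mx (fun a b => pd k (Z a b)) x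

/-- `η = ζ - Σ x_k T_k` -/
def eta0 (Z : Fld n) (T : Fin n → Mat n) (x : E n) : Mat n := Mx Z x - ∑ k, x k • T k

/-- `p_k = ∂_k ζ - T_k` -/
def pk (Z : Fld n) (T : Fin n → Mat n) (k : Fin n) (x : E n) : Mat n := dZ Z k x - T k

lemma c1m_sf (hZ : MF Z lo hi) (hv : ∀ x ∈ Icc lo hi, HasDerivAt v (v1 x) x)
    (hv1 : ContinuousOn v1 (Icc lo hi)) : C1m (sf v Z) := fun i j => c1_cfc hZ hv hv1 i j

lemma dM_sf (hZ : MF Z lo hi) (hv : ∀ x ∈ Icc lo hi, HasDerivAt v (v1 x) x) (k : Fin n)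
    (x : E n) : dM k (sf v Z) x = DK v v1 (Mx Z x) (dZ Z k x) := by
  ext i j
  exact pd_cfc hZ hv x i j k

lemma cgm_Mx (hZ : MF Z lo hi) : CGm (Mx Z) := fun i j => (hZ.c i j).cg
lemma cgm_dZ (hZ : MF Z lo hi) (k : Fin n) : CGm (dZ Z k) := fun i j => (hZ.c i j).cgp k

lemma cgm_lin (T : Fin n → Mat n) : CGm fun x : E n => ∑ k, x k • T k :=
  CGm.sum fun k _ => CGm.smul (cg_coord k) (cgm_const (T k))

lemma cgm_eta0 (hZ : MF Z lo hi) (T : Fin n → Mat n) : CGm (eta0 Z T) :=
  (cgm_Mx hZ).sub (cgm_lin T)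

lemma cgm_pk (hZ : MF Z lo hi) (T : Fin n → Mat n) (k : Fin n) : CGm (pk Z T k) :=
  (cgm_dZ hZ k).sub (cgm_const (T k))

lemma contOn_of_deriv {f f' : ℝ → ℝ} (hf : ∀ x ∈ Icc lo hi, HasDerivAt f (f' x) x) :
    ContinuousOn f (Icc lo hi) := fun x hx => (hf x hx).continuousAt.continuousWithinAt


/-! ### traces against positive matrices -/

lemma tr_frame {A U W : Mat n} {s : Fin n → ℝ} (hU : Fr A U s) (f : ℝ → ℝ) :
    (_root_.cfc f A * W).trace = ∑ i, f (s i) * (Uᵀ * W * U) i i := by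
  have h1 : (_root_.cfc f A * W).trace =
      ((Uᵀ * _root_.cfc f A * U) * (Uᵀ * W * U)).trace := by
    calc (_root_.cfc f A * W).trace = ((U * Uᵀ) * _root_.cfc f A * (U * Uᵀ) * W).trace := by
          rw [hU.o', Matrix.one_mul, Matrix.mul_one]
      _ = (U * (Uᵀ * _root_.cfc f A * (U * Uᵀ) * W)).trace := by simp only [Matrix.mul_assoc]
      _ = ((Uᵀ * _root_.cfc f A * (U * Uᵀ) * W) * U).trace := Matrix.trace_mul_comm _ _
      _ = _ := by simp only [Matrix.mul_assoc]
  rw [h1, hU.cfc, Matrix.trace]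
  refine Finset.sum_congr rfl fun i _ => ?_
  rw [Matrix.diag_apply, Matrix.diagonal_mul]

lemma conj_diag_nonneg {W : Mat n} (hW : W.PosSemidef) (U : Mat n) (i : Fin n) :
    0 ≤ (Uᵀ * W * U) i i := by
  have h := hW.conjTranspose_mul_mul_same U
  rw [conjTranspose_eq_transpose_of_trivial] at h
  exact h.diag_nonneg

lemma tr_frame_one {A U W : Mat n} {s : Fin n → ℝ} (hU : Fr A U s) :
    W.trace = ∑ i, (Uᵀ * W * U) i i := by
  have h : (Uᵀ * W * U).trace = W.trace := by
    rw [Matrix.trace_mul_comm, ← Matrix.mul_assoc, hU.o', Matrix.one_mul]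
  rw [← h]
  rfl




/-! ### centring -/

/-- entrywise expectation -/
def EM (F : E n → Mat n) : Mat n := Matrix.of fun i j => EE fun x => F x i j

lemma TE_AFB {F : E n → Mat n} (hF : CGm F) (A B : Mat n) :
    TE (fun x => A * F x * B) = (A * EM F * B).trace := by
  unfold TE
  have h1 : ∀ x, (A * F x * B).trace = ∑ i, ∑ j, (B * A) j i * F x i j := fun x =>
    trace_three _ _ _
  simp only [h1]
  rw [trace_three, EE_sum2 fun i j => (hF i j).smul _]
  exact Finset.sum_congr rfl fun i _ => Finset.sum_congr rfl fun j _ => EE_smul _ _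

lemma TE_AF {F : E n → Mat n} (hF : CGm F) (A : Mat n) :
    TE (fun x => A * F x) = (A * EM F).trace := by
  have h := TE_AFB hF A 1
  simpa using h

lemma sf_sub_const (hZ : MF Z lo hi) (f : ℝ → ℝ) (c : ℝ) (x : E n) :
    sf (fun z => f z - c) Z x = sf f Z x - c • (1 : Mat n) := by
  unfold sf
  obtain ⟨U, hU⟩ := exists_fr (hZ.h x)
  apply conj_inj hU.o'
  rw [hU.cfc, Matrix.mul_sub, Matrix.sub_mul, hU.cfc, Matrix.mul_smul, Matrix.smul_mul,
    Matrix.mul_one, hU.o]
  ext i j
  by_cases hij : i = j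
  · subst hij; simp
  · simp [Matrix.diagonal_apply_ne _ hij, Matrix.one_apply_ne hij]


/-- first moments of `η` -/
lemma EM_x_eta (hZ : MF Z lo hi) (T : Fin n → Mat n) (hT : ∀ k, EM (dZ Z k) = T k) (k : Fin n) :
    EM (fun x => x k • eta0 Z T x) = 0 := by
  ext i j
  have h1 : ∀ x : E n, (x k • eta0 Z T x) i j =
      Z i j x * x k - ∑ l, (T l i j) * (x l * x k) := by
    intro x
    have e : (x k • eta0 Z T x) i j = x k * (Z i j x - (∑ l, x l • T l) i j) := rfl
    rw [e, Matrix.sum_apply]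
    simp only [Matrix.smul_apply, smul_eq_mul, mul_sub, Finset.mul_sum]
    rw [mul_comm (x k) (Z i j x)]
    congr 1
    exact Finset.sum_congr rfl fun l _ => by ring
  have h2 : ∀ f : E n → ℝ, C1 f → EE (fun x => f x * x k) = EE (pd k f) := fun f hf =>
    ibp_gam hf.c hf.g k (hf.p k)
  have h3 : ∀ l, EE (fun x : E n => x l * x k) = if l = k then 1 else 0 := by
    intro l
    rw [h2 _ (c1_coord l)]
    have h4 : pd k (fun x : E n => x l) = fun _ => if l = k then (1 : ℝ) else 0 := by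
      funext x
      exact pd_coord k l x
    rw [h4, EE_const]
  change EE (fun x => (x k • eta0 Z T x) i j) = 0
  simp only [h1]
  rw [EE_sub ((hZ.c i j).cg.mul (cg_coord k))
    (CG.sum fun l _ => ((cg_coord l).mul (cg_coord k)).smul _), h2 _ (hZ.c i j),
    EE_sum fun l _ => ((cg_coord l).mul (cg_coord k)).smul _]
  have h6 : EE (pd k (Z i j)) = T k i j := by
    rw [← hT k]; rfl
  simp only [EE_smul, h3]
  rw [h6]
  simp

lemma EM_x (k : Fin n) (B : Mat n) : EM (fun x : E n => x k • B) = 0 := by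
  ext i j
  change EE (fun x : E n => x k * B i j) = 0
  have h1 := ibp_gam (c1_const (n := n) (1 : ℝ)).c (c1_const (1 : ℝ)).g k ((c1_const (1 : ℝ)).p k)
  have h2 : EE (fun x : E n => x k * B i j) = B i j * EE (fun x : E n => x k) := by
    rw [← EE_smul]
    exact EE_congr fun x => mul_comm _ _
  have h3 : EE (fun x : E n => x k) = 0 := by
    unfold EE
    have h4 : (fun x : E n => (1 : ℝ) * x k) = fun x : E n => x k := by
      funext x; rw [one_mul]
    rw [h4] at h1
    rw [h1]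
    have h5 : pd k (fun _ : E n => (1 : ℝ)) = fun _ => 0 := by
      funext x; simp [pd]
    rw [h5]; simp
  rw [h2, h3, mul_zero]

/-- mean of `η` -/
lemma EM_eta (hZ : MF Z lo hi) (T : Fin n → Mat n) (h0 : EM (Mx Z) = 0) :
    EM (eta0 Z T) = 0 := by
  ext i j
  change EE (fun x => (Mx Z x - ∑ k, x k • T k) i j) = 0
  have e1 : ∀ x : E n, (Mx Z x - ∑ k, x k • T k) i j = Z i j x - ∑ k, (x k * T k i j) := by
    intro x
    rw [Matrix.sub_apply, Matrix.sum_apply]
    rfl
  simp only [e1]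
  rw [EE_sub (hZ.c i j).cg (CG.sum fun k _ => (cg_coord k).mulc _),
    EE_sum fun k _ => (cg_coord k).mulc _]
  have e2 : EE (Z i j) = 0 := by
    have h := congrFun (congrFun h0 i) j
    exact h
  have e3 : ∀ k, EE (fun x : E n => x k * T k i j) = 0 := fun k => by
    have h := congrFun (congrFun (EM_x k (T k)) i) j
    exact h
  rw [e2]
  simp [e3]

lemma sf_affine (hZ : MF Z lo hi) (f : ℝ → ℝ) (c0 c1 : ℝ) (x : E n) :
    sf (fun z => f z - c0 - c1 * z) Z x = sf f Z x - c0 • (1 : Mat n) - c1 • Mx Z x := by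
  unfold sf
  obtain ⟨U, hU⟩ := exists_fr (hZ.h x)
  apply conj_inj hU.o'
  rw [hU.cfc, Matrix.mul_sub, Matrix.sub_mul, Matrix.mul_sub, Matrix.sub_mul, hU.cfc,
    Matrix.mul_smul, Matrix.smul_mul, Matrix.mul_one, hU.o, Matrix.mul_smul, Matrix.smul_mul, hU.d]
  ext i j
  by_cases hij : i = j
  · subst hij; simp
  · simp [Matrix.diagonal_apply_ne _ hij, Matrix.one_apply_ne hij]

/-- centring of the `η`-term: `v(z)` may be replaced by `v(z) - c0 - c1 z` at the price of
`c1 E tr K η²`. -/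
theorem center_eta (hZ : MF Z lo hi) (hv : ∀ x ∈ Icc lo hi, HasDerivAt v (v1 x) x)
    (hv1 : ContinuousOn v1 (Icc lo hi)) (T : Fin n → Mat n) (hT : ∀ k, EM (dZ Z k) = T k)
    (h0 : EM (Mx Z) = 0) (K : Mat n) (c0 c1 : ℝ) :
    TE (fun x => K * (sf v Z x * eta0 Z T x)) =
      TE (fun x => K * (sf (fun z => v z - c0 - c1 * z) Z x * eta0 Z T x))
      + c1 * TE (fun x => K * (eta0 Z T x * eta0 Z T x)) := by
  have cV : C1m (sf v Z) := c1m_sf hZ hv hv1
  have cη := cgm_eta0 hZ T
  have cK : CGm fun _ : E n => K := cgm_const K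
  have cr : CGm (sf (fun z => v z - c0 - c1 * z) Z) :=
    ((cV.cg.sub (cgm_const (c0 • (1 : Mat n)))).sub ((cgm_Mx hZ).smulc c1)).congr fun x =>
      (sf_affine hZ v c0 c1 x).symm
  have cx : ∀ k : Fin n, CGm fun x : E n => x k • eta0 Z T x := fun k =>
    CGm.smul (cg_coord k) cη
  have e1 : ∀ x, K * (sf v Z x * eta0 Z T x) =
      K * (sf (fun z => v z - c0 - c1 * z) Z x * eta0 Z T x)
        + c0 • (K * eta0 Z T x)
        + c1 • (∑ k, (K * T k) * (x k • eta0 Z T x)) + c1 • (K * (eta0 Z T x * eta0 Z T x)) := by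
    intro x
    rw [sf_affine hZ]
    have h1 : Mx Z x = (∑ k, x k • T k) + eta0 Z T x := by unfold eta0; abel
    have h2 : K * (Mx Z x * eta0 Z T x) =
        (∑ k, (K * T k) * (x k • eta0 Z T x)) + K * (eta0 Z T x * eta0 Z T x) := by
      conv_lhs => rw [h1]
      rw [Matrix.add_mul, Matrix.mul_add, Matrix.sum_mul, Matrix.mul_sum]
      congr 1
      refine Finset.sum_congr rfl fun k _ => ?_
      rw [Matrix.smul_mul, Matrix.mul_smul, Matrix.mul_smul, Matrix.mul_assoc]
    rw [Matrix.sub_mul, Matrix.sub_mul, Matrix.smul_mul, Matrix.smul_mul, Matrix.one_mul,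
      Matrix.mul_sub, Matrix.mul_sub, Matrix.mul_smul, Matrix.mul_smul, h2, smul_add]
    abel
  have a1 : CGm fun x => K * (sf (fun z => v z - c0 - c1 * z) Z x * eta0 Z T x) :=
    cK.mul (cr.mul cη)
  have a2 : CGm fun x => K * eta0 Z T x := cK.mul cη
  have a3 : ∀ k ∈ (Finset.univ : Finset (Fin n)), CGm fun x : E n =>
      (K * T k) * (x k • eta0 Z T x) := fun k _ => (cgm_const _).mul (cx k)
  have a4 : CGm fun x => K * (eta0 Z T x * eta0 Z T x) := cK.mul (cη.mul cη)
  rw [TE_congr e1, TE_add (((a1.add (a2.smulc c0))).add ((CGm.sum a3).smulc c1)) (a4.smulc c1),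
    TE_add (a1.add (a2.smulc c0)) ((CGm.sum a3).smulc c1), TE_add a1 (a2.smulc c0),
    TE_smul, TE_smul, TE_smul, TE_sum a3, TE_AF cη, EM_eta hZ T h0]
  have e2 : ∀ k, TE (fun x : E n => (K * T k) * (x k • eta0 Z T x)) = 0 := fun k => by
    rw [TE_AF (cx k), EM_x_eta hZ T hT k, Matrix.mul_zero, Matrix.trace_zero]
  simp only [e2, Finset.sum_const_zero, Matrix.trace_zero, mul_zero, add_zero]

end field

/-! ### Young inequalities for the error terms -/

lemma abs_sum_mul_le {ι κ : Type*} (s : Finset ι) (t : Finset κ) (a b : ι → κ → ℝ) {θ : ℝ}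
    (hθ : 0 < θ) : |∑ i ∈ s, ∑ j ∈ t, a i j * b i j| ≤
      θ / 2 * ∑ i ∈ s, ∑ j ∈ t, a i j ^ 2 + 1 / (2 * θ) * ∑ i ∈ s, ∑ j ∈ t, b i j ^ 2 := by
  refine (Finset.abs_sum_le_sum_abs _ _).trans ?_
  rw [Finset.mul_sum, Finset.mul_sum, ← Finset.sum_add_distrib]
  refine Finset.sum_le_sum fun i _ => ?_
  refine (Finset.abs_sum_le_sum_abs _ _).trans ?_
  rw [Finset.mul_sum, Finset.mul_sum, ← Finset.sum_add_distrib]
  refine Finset.sum_le_sum fun j _ => ?_
  rw [abs_mul, ← sq_abs (a i j), ← sq_abs (b i j)]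
  have h1 : θ / 2 * |a i j| ^ 2 + 1 / (2 * θ) * |b i j| ^ 2 - |a i j| * |b i j| =
      (θ * |a i j| - |b i j|) ^ 2 / (2 * θ) := by
    field_simp
    ring
  have h2 : 0 ≤ (θ * |a i j| - |b i j|) ^ 2 / (2 * θ) := by positivity
  linarith

/-- `|tr A X B| ≤ (θ/2) |B A|² + (1/2θ) |X|²` -/
lemma abs_trace_three_le (A X B : Mat n) {θ : ℝ} (hθ : 0 < θ) :
    |(A * X * B).trace| ≤ θ / 2 * hs (B * A) + 1 / (2 * θ) * hs X := by
  rw [trace_three]
  have h := abs_sum_mul_le Finset.univ Finset.univ (fun i j => (B * A) j i) (fun i j => X i j) hθ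
  have h1 : ∑ i, ∑ j, ((B * A) j i) ^ 2 = hs (B * A) := by
    unfold SpecField321.hs
    exact Finset.sum_comm
  rw [h1] at h
  exact h

lemma cg_hs {F : E n → Mat n} (hF : CGm F) : CG fun x => hs (F x) :=
  CG.sum fun i _ => CG.sum fun j _ => (hF i j).sq



/-! ### (S3a): `E tr K U²` through a (weak) test field -/










end Crest.Agent.R253.S3
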