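import Crest.Agent.R253.Mills_37
import Crest.Agent.R307.IntervalChk

-- ▼ part R253/V3Base_37
section

/-! # Row 253, helper37: barriers for `v''`, `v'''` (`v = H0`) in the Riccati variables `e`, `r = M3/M2` -/

open MeasureTheory Set Filter Topology Real

namespace Crest.Agent.R253.Mills37

noncomputable section

/-- comparison lemma at `-∞`, bounded version -/
lemma pos_of_ode_bot_bdd {s c N : ℝ → ℝ} {z0 K : ℝ}
    (hs : ∀ z, z ≤ z0 → HasDerivAt s (-(c z * s z) + N z) z)
    (hc : ∀ z, z ≤ z0 → 1 ≤ c z) (hN : ∀ z, z ≤ z0 → 0 < N z)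
    (hb : ∀ z, z ≤ z0 → -K ≤ s z) : ∀ z, z ≤ z0 → 0 < s z := by
  -- f = s e^z  satisfies f' = -(c-1) f + N e^z, and liminf f ≥ 0 at -∞
  have hf : ∀ z, z ≤ z0 → HasDerivAt (fun z => s z * rexp z)
      (-((c z - 1) * (s z * rexp z)) + N z * rexp z) z := by
    intro z hz
    refine ((hs z hz).mul (Real.hasDerivAt_exp z)).congr_deriv ?_
    ring
  intro z1 hz1
  by_contra hneg
  have hneg : s z1 ≤ 0 := not_lt.mp hneg
  have key : ∀ a, a ≤ z0 → s a * rexp a ≤ 0 → ∀ b, b ≤ a → s b * rexp b ≤ s a * rexp a := by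
    intro a ha hsa b hb'
    have hd : ∀ x, -a ≤ x → HasDerivAt (fun x => s (-x) * rexp (-x))
        (-(-((c (-x) - 1) * (s (-x) * rexp (-x))) + N (-x) * rexp (-x))) x := by
      intro x hx
      have h1 := hf (-x) (by linarith)
      have h2 := h1.comp x (hasDerivAt_neg x)
      refine h2.congr_deriv ?_
      ring
    have := image_le_of_deriv_right_lt_deriv_boundary (f := fun x => s (-x) * rexp (-x))
      (f' := fun x => (-(-((c (-x) - 1) * (s (-x) * rexp (-x))) + N (-x) * rexp (-x))))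
      (a := -a) (b := -b) (B := fun _ => s a * rexp a) (B' := fun _ => 0)
      (fun x hx => (hd x hx.1).continuousAt.continuousWithinAt)
      (fun x hx => (hd x hx.1).hasDerivWithinAt)
      (by simp) (fun x => hasDerivAt_const x _)
      (fun x hx hxe => by
        have h1 := hc (-x) (by linarith [hx.1])
        have h2 := hN (-x) (by linarith [hx.1])
        have h3 : (c (-x) - 1) * (s (-x) * rexp (-x)) ≤ 0 :=
          mul_nonpos_of_nonneg_of_nonpos (by linarith) (by rw [hxe]; exact hsa)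
        have h4 : 0 < N (-x) * rexp (-x) := mul_pos h2 (exp_pos _)
        show (-(-((c (-x) - 1) * (s (-x) * rexp (-x))) + N (-x) * rexp (-x))) < 0
        linarith)
    have h5 := this (x := -b) ⟨by linarith, le_rfl⟩
    simpa using h5
  obtain ⟨z2, hz2, hlt⟩ : ∃ z2, z2 ≤ z1 ∧ s z2 * rexp z2 < 0 := by
    by_contra hcon
    push Not at hcon
    have h0 : ∀ z, z ≤ z1 → s z * rexp z = 0 := fun z hz =>
      le_antisymm ((key z1 hz1 (mul_nonpos_of_nonpos_of_nonneg hneg (exp_pos _).le) z hz).trans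
        (mul_nonpos_of_nonpos_of_nonneg hneg (exp_pos _).le)) (hcon z hz)
    have hd := hf (z1 - 1) (by linarith)
    have hd0 : HasDerivAt (fun z => s z * rexp z) 0 (z1 - 1) := by
      refine (hasDerivAt_const (z1 - 1) (0:ℝ)).congr_of_eventuallyEq ?_
      filter_upwards [eventually_le_nhds (show z1 - 1 < z1 by linarith)] with x hx
      exact h0 x hx
    have h1 := hd.unique hd0
    rw [h0 (z1 - 1) (by linarith)] at h1
    have h2 := mul_pos (hN (z1 - 1) (by linarith)) (exp_pos (z1 - 1))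
    linarith
  -- now s e^z ≤ s z2 e^{z2} < 0 for all z ≤ z2, but s e^z ≥ -K e^z → 0
  have hlim : Tendsto (fun z => -K * rexp z) atBot (𝓝 (-K * 0)) :=
    tendsto_const_nhds.mul Real.tendsto_exp_atBot
  rw [mul_zero] at hlim
  have : (0:ℝ) ≤ s z2 * rexp z2 := by
    refine le_of_tendsto hlim ?_
    filter_upwards [eventually_le_atBot z2] with x hx
    refine le_trans ?_ (key z2 (hz2.trans hz1) hlt.le x hx)
    exact mul_le_mul_of_nonneg_right (hb x (hx.trans (hz2.trans hz1))) (exp_pos _).le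
  linarith

/-- global version: positivity on the left, then propagation to the right -/
lemma pos_of_ode_all {s c N : ℝ → ℝ} {z0 K : ℝ}
    (hs : ∀ z, HasDerivAt s (-(c z * s z) + N z) z)
    (hc : ∀ z, z ≤ z0 → 1 ≤ c z) (hN : ∀ z, 0 < N z)
    (hb : ∀ z, z ≤ z0 → -K ≤ s z) (z : ℝ) : 0 < s z := by
  have h1 := pos_of_ode_bot_bdd (fun z _ => hs z) hc (fun z _ => hN z) hb
  rcases le_or_gt z z0 with h | h
  · exact h1 z h
  · refine pos_right_of_ode (c := fun z => -c z) (a := z0) (fun z _ => ?_) (fun z _ => hN z)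
      (h1 z0 le_rfl).le z h
    refine (hs z).congr_deriv ?_
    ring

/-! ### the ratio `r = M3/M2` -/

def rr (z : ℝ) : ℝ := M3 z / M2 z
def GG (z : ℝ) : ℝ := z ^ 2 + z * rr z + 2
/-- `v''` -/
def v2 (z : ℝ) : ℝ := ww z * H0 z - ee z
/-- `v'' ` relaxes to `bb` at rate `rr` -/
def bb (z : ℝ) : ℝ := (ww z + cc z) / rr z - ee z
/-- `v'''` -/
def v3 (z : ℝ) : ℝ := rr z * (bb z - v2 z)

lemma rr_pos (z : ℝ) : 0 < rr z := div_pos (M3_pos z) (M2_pos z)
lemma rr_hasDerivAt (z : ℝ) : HasDerivAt rr (rr z ^ 2 + z * rr z - 3) z := by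
  have h2 := (M2_pos z).ne'
  refine ((M3_hasDerivAt z).div (M2_hasDerivAt z) h2).congr_deriv ?_
  unfold rr
  field_simp
  unfold M3
  ring
lemma ww_mul_GG (z : ℝ) : ww z * GG z = 2 := by
  have hq := (Q_pos z).ne'
  have h2 := (M2_pos z).ne'
  unfold GG rr
  rw [ww_eq]
  field_simp
  unfold M3
  have : M2 z = Q z - z * M1 z := rfl
  have hq2 : Q z = M2 z + z * M1 z := by rw [this]; ring
  rw [hq2]; ring
lemma GG_pos (z : ℝ) : 0 < GG z := by
  have h := ww_mul_GG z
  have h1 := ww_pos z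
  by_contra hn
  have : ww z * GG z ≤ 0 := mul_nonpos_of_nonneg_of_nonpos h1.le (not_lt.mp hn)
  linarith
lemma ee_mul_GG (z : ℝ) : ee z * GG z = z + rr z := by
  have hq := (Q_pos z).ne'
  have h2 := (M2_pos z).ne'
  unfold GG rr
  rw [ee_eq]
  field_simp
  unfold M3
  have hq2 : Q z = M2 z + z * M1 z := by unfold M2; ring
  rw [hq2]; ring
/-- `r w = 2 e - z w` -/
lemma rr_mul_ww (z : ℝ) : rr z * ww z = 2 * ee z - z * ww z := by
  have h1 := ww_mul_GG z
  have h2 := ee_mul_GG z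
  have h3 := (GG_pos z).ne'
  have hw : ww z = 2 / GG z := by rw [eq_div_iff h3]; exact h1
  have he : ee z = (z + rr z) / GG z := by rw [eq_div_iff h3]; exact h2
  rw [hw, he]; field_simp; ring
lemma z_add_rr_pos (z : ℝ) : 0 < z + rr z := by
  rw [← ee_mul_GG]; exact mul_pos (ee_pos z) (GG_pos z)
lemma ww_add' (z : ℝ) : cc z = ww z - ee z ^ 2 := by
  have := ww_add z; unfold cc; linarith

lemma v2_hasDerivAt (z : ℝ) : HasDerivAt v2 (v3 z) z := by
  have := ((ww_hasDerivAt z).mul (H0_hasDerivAt z)).sub (ee_hasDerivAt z)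
  refine this.congr_deriv ?_
  have hr := (rr_pos z).ne'
  have h1 : rr z * ww z = 2 * ee z - z * ww z := rr_mul_ww z
  have h2 : cc z = ww z - ee z ^ 2 := ww_add' z
  have h3 : mu z * ee z - 1 = -cc z := by unfold cc; ring
  have h4 : v3 z = ww z + cc z - rr z * ww z * H0 z := by
    unfold v3 bb v2; field_simp; ring
  rw [h4, h3, h1, h2]
  have h5 : ww z = 1 - z * ee z := rfl
  rw [h5]; ring

lemma v2_pos (z : ℝ) : 0 < v2 z := H0_deriv2_pos z
lemma v2_lt_of_le {z : ℝ} (hz : z ≤ -1) : v2 z < 1 := by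
  have h1 := H0_deriv_pos z
  have h2 := ee_pos z
  have hw := ww_pos z
  have he : 1 ≤ ee z := by have := mu_pos z; rw [mu_eq] at this; linarith
  -- w v - e < w/e - e = cc/e < 1/e ≤ 1
  have h3 : ww z * H0 z < ww z * (1 / ee z) := by
    apply mul_lt_mul_of_pos_left _ hw
    rw [lt_div_iff₀ h2]; linarith
  have h4 : ww z * (1 / ee z) - ee z = cc z / ee z := by
    rw [ww_add']; field_simp
  have h5 : cc z / ee z ≤ 1 := by
    rw [div_le_one h2]
    have : cc z < 1 := by unfold cc; have := mu_ee_pos z; linarith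
    linarith
  unfold v2; linarith

lemma rr_ge_neg (z : ℝ) : -z < rr z := by have := z_add_rr_pos z; linarith
lemma bb_le {z : ℝ} (hz : z ≤ -1) : bb z ≤ 2 := by
  have hr := rr_ge_neg z
  have hr1 : 1 ≤ rr z := by linarith
  have hc : cc z < 1 := by unfold cc; have := mu_ee_pos z; linarith
  have he := ee_pos z
  unfold bb
  rw [sub_le_iff_le_add, div_le_iff₀ (rr_pos z)]
  have hw : ww z = 1 - z * ee z := rfl
  rw [hw]
  have : -z * ee z ≤ rr z * ee z := mul_le_mul_of_nonneg_right hr.le he.le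
  nlinarith
lemma ee_le_of_le {z : ℝ} (hz : z ≤ -1) : ee z ≤ -z + 1 := by
  have h1 : mu z ≤ 1 := by
    have h2 := mu_ee_lt_one z
    have he : 1 ≤ ee z := by have := mu_pos z; rw [mu_eq] at this; linarith
    have := mu_pos z
    nlinarith
  rw [mu_eq] at h1; linarith
lemma bb_ge {z : ℝ} (hz : z ≤ -1) : -4 ≤ bb z := by
  have hr := rr_pos z
  have hc := cc_pos z
  have he := ee_pos z
  have hw := ww_pos z
  have h1 := rr_mul_ww z
  have h2 := ee_le_of_le hz
  have h5 : ww z = 1 - z * ee z := rfl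
  -- bb ≥ w/r - e ; w^2 - e (2e - z w) = w - 2 e²
  have h3 : ee z - 4 ≤ ww z / rr z := by
    rw [le_div_iff₀ hr]
    have h6 : (ee z - 4) * rr z * ww z ≤ ww z * ww z := by
      have : (ee z - 4) * rr z * ww z = (ee z - 4) * (2 * ee z - z * ww z) := by
        rw [← h1]; ring
      rw [this]
      have h7 : 0 ≤ -z * ww z := mul_nonneg (by linarith) hw.le
      rw [h5]
      nlinarith [mul_nonneg (show (0:ℝ) ≤ -z - 1 by linarith) he.le, mul_pos he he,
        mul_nonneg (mul_nonneg (show (0:ℝ) ≤ -z - 1 by linarith) he.le) he.le,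
        mul_nonneg (show (0:ℝ) ≤ -z - 1 by linarith) (show (0:ℝ) ≤ -z by linarith)]
    exact le_of_mul_le_mul_right (by linarith) hw
  have h4 : ww z / rr z ≤ (ww z + cc z) / rr z := by gcongr; linarith
  unfold bb; linarith

end

end Crest.Agent.R253.Mills37
end

-- ▼ part R253/V3Bar_37
section

/-! # Row 253, helper37: barrier theorems for `v'' ≤ β e`, `|v'''| ≤ λ e` -/

open MeasureTheory Set Filter Topology Real

namespace Crest.Agent.R253.Mills37

noncomputable section


/-- the function `r² bb'` -/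
def Bf (z : ℝ) : ℝ :=
  (-(ee z) + z * cc z - mu z * ss z) * rr z - ww z * rr z ^ 2 + (ww z + cc z) * (3 - z * rr z)

def e1f (z : ℝ) : ℝ := (ee z * (3 - z * rr z) - cc z * rr z) / rr z ^ 2 - ee z

lemma er_hasDerivAt (z : ℝ) : HasDerivAt (fun z => ee z / rr z) (e1f z) z := by
  have hr := (rr_pos z).ne'
  refine ((ee_hasDerivAt z).div (rr_hasDerivAt z) hr).congr_deriv ?_
  unfold e1f cc
  field_simp
  ring

lemma bb_hasDerivAt (z : ℝ) : HasDerivAt bb (Bf z / rr z ^ 2) z := by
  have hr := (rr_pos z).ne'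
  refine ((((ww_hasDerivAt z).add (cc_hasDerivAt z)).div (rr_hasDerivAt z) hr).sub
    (ee_hasDerivAt z)).congr_deriv ?_
  have h3 : mu z * ee z - 1 = -cc z := by unfold cc; ring
  rw [h3]
  unfold Bf
  simp only [Pi.add_apply]
  field_simp
  ring

/-- level 2, upper : `v''' < λ e` -/
theorem v3_lt_of {l : ℝ} (hl : 0 < l)
    (h : ∀ z, 0 < l * (ee z * (3 - z * rr z) - cc z * rr z) - Bf z) (z : ℝ) :
    v3 z < l * ee z := by
  have hD := pos_of_ode_all (s := fun z => l * (ee z / rr z) - bb z + v2 z) (c := rr)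
    (N := fun z => (l * (ee z * (3 - z * rr z) - cc z * rr z) - Bf z) / rr z ^ 2) (z0 := -1) (K := 2)
    (fun z => by
      have hr := (rr_pos z).ne'
      refine ((((er_hasDerivAt z).const_mul l).sub (bb_hasDerivAt z)).add
        (v2_hasDerivAt z)).congr_deriv ?_
      unfold e1f v3
      field_simp
      ring)
    (fun z hz => by have := rr_ge_neg z; linarith)
    (fun z => div_pos (h z) (pow_pos (rr_pos z) 2))
    (fun z hz => by
      have h1 := bb_le hz
      have h2 := v2_pos z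
      have h3 := mul_pos hl (div_pos (ee_pos z) (rr_pos z))
      linarith) z
  have hr := rr_pos z
  have h4 : rr z * (l * (ee z / rr z) - bb z + v2 z) = l * ee z - v3 z := by
    unfold v3; field_simp; ring
  have h5 := mul_pos hr hD
  rw [h4] at h5
  linarith

/-- level 2, lower : `-λ e < v'''` -/
theorem v3_gt_of {l : ℝ} (hl : 0 < l)
    (h : ∀ z, 0 < l * (ee z * (3 - z * rr z) - cc z * rr z) + Bf z) (z : ℝ) :
    -(l * ee z) < v3 z := by
  have hD := pos_of_ode_all (s := fun z => l * (ee z / rr z) + bb z - v2 z) (c := rr)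
    (N := fun z => (l * (ee z * (3 - z * rr z) - cc z * rr z) + Bf z) / rr z ^ 2) (z0 := -1) (K := 5)
    (fun z => by
      have hr := (rr_pos z).ne'
      refine ((((er_hasDerivAt z).const_mul l).add (bb_hasDerivAt z)).sub
        (v2_hasDerivAt z)).congr_deriv ?_
      unfold e1f v3
      field_simp
      ring)
    (fun z hz => by have := rr_ge_neg z; linarith)
    (fun z => div_pos (h z) (pow_pos (rr_pos z) 2))
    (fun z hz => by
      have h1 := bb_ge hz
      have h2 := v2_lt_of_le hz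
      have h3 := mul_pos hl (div_pos (ee_pos z) (rr_pos z))
      linarith) z
  have hr := rr_pos z
  have h4 : rr z * (l * (ee z / rr z) + bb z - v2 z) = l * ee z + v3 z := by
    unfold v3; field_simp; ring
  have h5 := mul_pos hr hD
  rw [h4] at h5
  linarith

/-! ### The two-sided Riccati enclosure (backward stable) -/

/-- `f' = f² + z f - κ`, `q` an approximate solution: `|f - q| ≤ ε` propagates to the left. -/
theorem riccati_left {f q q' : ℝ → ℝ} {κ ε a b : ℝ} (hε : 0 ≤ ε)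
    (hf : ∀ z, HasDerivAt f (f z ^ 2 + z * f z - κ) z)
    (hq : ∀ z, a ≤ z → z ≤ b → HasDerivAt q (q' z) z)
    (hres : ∀ z, a ≤ z → z ≤ b → |q z ^ 2 + z * q z - κ - q' z| < ε * (2 * q z + z - ε))
    (hb : |f b - q b| ≤ ε) : ∀ z, a ≤ z → z ≤ b → |f z - q z| ≤ ε := by
  intro z hz hzb
  have hd : ∀ x, -b ≤ x → x ≤ -a → HasDerivAt (fun x => f (-x) - q (-x))
      (-((f (-x) ^ 2 + (-x) * f (-x) - κ) - q' (-x))) x := by
    intro x hx hx2
    have h1 := (hf (-x)).sub (hq (-x) (by linarith) (by linarith))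
    have h2 := h1.comp x (hasDerivAt_neg x)
    refine h2.congr_deriv ?_
    ring
  have hup : f z - q z ≤ ε := by
    have := image_le_of_deriv_right_lt_deriv_boundary (f := fun x => f (-x) - q (-x))
      (f' := fun x => (-((f (-x) ^ 2 + (-x) * f (-x) - κ) - q' (-x))))
      (a := -b) (b := -z) (B := fun _ => ε) (B' := fun _ => 0)
      (fun x hx => (hd x hx.1 (by linarith [hx.2])).continuousAt.continuousWithinAt)
      (fun x hx => (hd x hx.1 (by linarith [hx.2])).hasDerivWithinAt)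
      (by simpa using (abs_le.mp hb).2) (fun x => hasDerivAt_const x _)
      (fun x hx hxe => by
        have h1 := (abs_lt.mp (hres (-x) (by linarith [hx.2]) (by linarith [hx.1]))).1
        have h2 : f (-x) = q (-x) + ε := by linarith
        show (-((f (-x) ^ 2 + (-x) * f (-x) - κ) - q' (-x))) < 0
        rw [h2]
        nlinarith)
    have h5 := this (x := -z) ⟨by linarith, le_rfl⟩
    simpa using h5
  have hlo : -(f z - q z) ≤ ε := by
    have := image_le_of_deriv_right_lt_deriv_boundary (f := fun x => -(f (-x) - q (-x)))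
      (f' := fun x => -(-((f (-x) ^ 2 + (-x) * f (-x) - κ) - q' (-x))))
      (a := -b) (b := -z) (B := fun _ => ε) (B' := fun _ => 0)
      (fun x hx => (hd x hx.1 (by linarith [hx.2])).neg.continuousAt.continuousWithinAt)
      (fun x hx => (hd x hx.1 (by linarith [hx.2])).neg.hasDerivWithinAt)
      (by have := (abs_le.mp hb).1; simp only [neg_neg]; linarith) (fun x => hasDerivAt_const x _)
      (fun x hx hxe => by
        have h1 := (abs_lt.mp (hres (-x) (by linarith [hx.2]) (by linarith [hx.1]))).2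
        have h2 : f (-x) = q (-x) - ε := by linarith
        show -(-((f (-x) ^ 2 + (-x) * f (-x) - κ) - q' (-x))) < 0
        rw [h2]
        nlinarith)
    have h5 := this (x := -z) ⟨by linarith, le_rfl⟩
    simpa using h5
  rw [abs_le]; constructor <;> linarith

end

end Crest.Agent.R253.Mills37
end

-- ▼ part R253/V3Eng_37
section

/-! # Row 253, helper37: verified enclosures of the Riccati functions `e`, `r` by polynomials with
integer coefficients, and a bisection checker along the curve. -/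

open MeasureTheory Set Filter Topology Real

namespace Crest.Agent.R253.Mills37

open Crest.Agent.R307.IChk

/-- value of an integer polynomial -/
def evI : List ℤ → ℝ → ℝ
  | [], _ => 0
  | c :: cs, t => (c : ℝ) + t * evI cs t
/-- derivative -/
def dvI : List ℤ → ℝ → ℝ
  | [], _ => 0
  | _ :: cs, t => evI cs t + t * dvI cs t

lemma evI_hasDerivAt : ∀ (cs : List ℤ) (t : ℝ), HasDerivAt (evI cs) (dvI cs t) t
  | [], t => hasDerivAt_const t (0:ℝ)
  | c :: cs, t => by
      have := ((hasDerivAt_id t).mul (evI_hasDerivAt cs t)).const_add (c : ℝ)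
      refine this.congr_deriv ?_
      simp [dvI]

def addL : List ℤ → List ℤ → List ℤ
  | [], b => b
  | a, [] => a
  | a :: as, b :: bs => (a + b) :: addL as bs
def smulL (k : ℤ) : List ℤ → List ℤ
  | [] => []
  | a :: as => (k * a) :: smulL k as
def mulL : List ℤ → List ℤ → List ℤ
  | [], _ => []
  | a :: as, b => addL (smulL a b) (0 :: mulL as b)
/-- derivative list, with counter -/
def derL : ℤ → List ℤ → List ℤ
  | _, [] => []
  | k, a :: as => (k * a) :: derL (k + 1) as

lemma evI_addL : ∀ (a b : List ℤ) (t : ℝ), evI (addL a b) t = evI a t + evI b t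
  | [], b, t => by simp [addL, evI]
  | a :: as, [], t => by simp [addL, evI]
  | a :: as, b :: bs, t => by
      simp only [addL, evI, Int.cast_add]
      rw [evI_addL as bs t]; ring
lemma evI_smulL (k : ℤ) : ∀ (a : List ℤ) (t : ℝ), evI (smulL k a) t = k * evI a t
  | [], t => by simp [smulL, evI]
  | a :: as, t => by
      simp only [smulL, evI, Int.cast_mul]
      rw [evI_smulL k as t]; ring
lemma evI_mulL : ∀ (a b : List ℤ) (t : ℝ), evI (mulL a b) t = evI a t * evI b t
  | [], b, t => by simp [mulL, evI]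
  | a :: as, b, t => by
      simp only [mulL, evI_addL, evI_smulL, evI, Int.cast_zero]
      rw [evI_mulL as b t]; ring
/-- `derL k a` evaluates to `(k-1) * (a)/… `: `evI (derL k a) t = k * evI a t + t * dvI a t` -/
lemma evI_derL : ∀ (k : ℤ) (a : List ℤ) (t : ℝ), evI (derL k a) t = k * evI a t + t * dvI a t
  | k, [], t => by simp [derL, evI, dvI]
  | k, a :: as, t => by
      simp only [derL, evI, dvI, Int.cast_mul]
      rw [evI_derL (k + 1) as t]
      push_cast; ring
lemma dvI_eq (cs : List ℤ) (t : ℝ) : dvI cs t = evI (derL 1 cs.tail) t := by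
  cases cs with
  | nil => simp [dvI, derL, evI]
  | cons c cs =>
    simp only [dvI, List.tail_cons]
    rw [evI_derL]; push_cast; ring

/-- upper bound for `|evI l t|` on `|t| ≤ 1/2` -/
def hbL : List ℤ → ℤ
  | [] => 0
  | c :: cs => |c| + (hbL cs + 1) / 2

lemma hbL_nonneg : ∀ l : List ℤ, 0 ≤ hbL l
  | [] => le_rfl
  | c :: cs => by
      have := hbL_nonneg cs
      have h1 := abs_nonneg c
      unfold hbL; omega
lemma abs_evI_le : ∀ (l : List ℤ) (t : ℝ), |t| ≤ 1 / 2 → |evI l t| ≤ (hbL l : ℝ)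
  | [], t, _ => by simp [evI, hbL]
  | c :: cs, t, ht => by
      have h1 := abs_evI_le cs t ht
      have h2 : |t * evI cs t| ≤ 1 / 2 * (hbL cs : ℝ) := by
        rw [abs_mul]
        exact mul_le_mul ht h1 (abs_nonneg _) (by norm_num)
      have h3 : (hbL cs : ℝ) / 2 ≤ (((hbL cs + 1) / 2 : ℤ) : ℝ) := by
        have : hbL cs ≤ 2 * ((hbL cs + 1) / 2) := by omega
        have : (hbL cs : ℝ) ≤ 2 * (((hbL cs + 1) / 2 : ℤ) : ℝ) := by exact_mod_cast this
        linarith
      calc |evI (c :: cs) t| ≤ |(c : ℝ)| + |t * evI cs t| := abs_add_le _ _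
        _ ≤ |(c : ℝ)| + (((hbL cs + 1) / 2 : ℤ) : ℝ) := by linarith
        _ = (hbL (c :: cs) : ℝ) := by
          rw [show hbL (c :: cs) = |c| + (hbL cs + 1) / 2 from rfl]; push_cast; rfl

/-- the residual of the Riccati equation, scaled by `2 SC²`; `z = M/2 + t` -/
def resL (cs : List ℤ) (M κ : ℤ) : List ℤ :=
  addL (addL (smulL 2 (mulL cs cs)) (addL (smulL (SC * M) cs) (0 :: smulL (2 * SC) cs)))
    (addL [-(2 * κ * SC * SC)] (smulL (-(2 * SC)) (derL 1 cs.tail)))

/-- lower bound for `SC (2 q + z - ε)` -/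
def lowL (cs : List ℤ) (M E : ℤ) : ℤ :=
  2 * cs.headD 0 + SC * M / 2 - (hbL (addL [SC] (smulL 2 cs.tail)) + 1) / 2 - E

def okRes (cs : List ℤ) (M κ E : ℤ) : Bool :=
  decide (0 < lowL cs M E ∧ hbL (resL cs M κ) < 2 * E * lowL cs M E ∧ 0 < E)

noncomputable section

/-- the polynomial `q` on the piece with midpoint `M/2` -/
def qP (cs : List ℤ) (M : ℤ) (z : ℝ) : ℝ := evI cs (z - M / 2) / (SC : ℝ)

lemma qP_hasDerivAt (cs : List ℤ) (M : ℤ) (z : ℝ) :
    HasDerivAt (qP cs M) (dvI cs (z - M / 2) / (SC : ℝ)) z := by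
  have h1 : HasDerivAt (fun z : ℝ => z - (M:ℝ) / 2) 1 z := (hasDerivAt_id z).sub_const _
  have := ((evI_hasDerivAt cs (z - M / 2)).comp z h1).div_const (SC : ℝ)
  refine this.congr_deriv ?_
  ring

lemma res_eq (cs : List ℤ) (M κ : ℤ) (z : ℝ) :
    qP cs M z ^ 2 + z * qP cs M z - κ - dvI cs (z - M / 2) / (SC : ℝ) =
      evI (resL cs M κ) (z - M / 2) / (2 * (SC : ℝ) ^ 2) := by
  have hS : (SC : ℝ) ≠ 0 := SC_pos.ne'
  unfold qP resL
  simp only [evI_addL, evI_smulL, evI_mulL, evI, ← dvI_eq]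
  generalize evI cs (z - M / 2) = q
  generalize dvI cs (z - M / 2) = d
  push_cast
  field_simp
  ring

lemma low_le (cs : List ℤ) (M E : ℤ) (z : ℝ) (hz : |z - M / 2| ≤ 1 / 2) :
    (lowL cs M E : ℝ) ≤ (SC : ℝ) * (2 * qP cs M z + z - (E : ℝ) / SC) := by
  have hS : (SC : ℝ) ≠ 0 := SC_pos.ne'
  have h1 := abs_evI_le (addL [SC] (smulL 2 cs.tail)) (z - M / 2) hz
  set t := z - (M:ℝ) / 2 with ht
  set h := hbL (addL [SC] (smulL 2 cs.tail)) with hh
  have hnn : 0 ≤ h := hbL_nonneg _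
  have h2 : (SC : ℝ) * (2 * qP cs M z + z - (E : ℝ) / SC) =
      2 * (cs.headD 0 : ℝ) + SC * M / 2 + t * evI (addL [SC] (smulL 2 cs.tail)) t - E := by
    unfold qP
    rw [← ht, evI_addL, evI_smulL]
    have hz' : z = t + M / 2 := by rw [ht]; ring
    have e1 : evI cs t = (cs.headD 0 : ℝ) + t * evI cs.tail t := by
      cases cs with
      | nil => simp [evI]
      | cons c cs => simp [evI]
    rw [e1, hz']
    simp only [evI]
    field_simp
    push_cast
    ring
  have h3 : |t * evI (addL [SC] (smulL 2 cs.tail)) t| ≤ 1 / 2 * (h : ℝ) := by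
    rw [abs_mul]
    exact mul_le_mul hz h1 (abs_nonneg _) (by norm_num)
  have h4 := (abs_le.mp h3).1
  have h5 : (h : ℝ) / 2 ≤ (((h + 1) / 2 : ℤ) : ℝ) := by
    have : h ≤ 2 * ((h + 1) / 2) := by omega
    have : (h : ℝ) ≤ 2 * (((h + 1) / 2 : ℤ) : ℝ) := by exact_mod_cast this
    linarith
  have h6 : ((SC * M / 2 : ℤ) : ℝ) = (SC : ℝ) * M / 2 := by
    have : SC * M / 2 * 2 = SC * M := by
      unfold SC; omega
    have h7 : ((SC * M / 2 : ℤ) : ℝ) * 2 = (SC : ℝ) * M := by exact_mod_cast this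
    linarith
  rw [h2]
  unfold lowL
  push_cast at h6 ⊢
  rw [h6]
  linarith

/-- enclosure on one unit piece `[M/2-1/2, M/2+1/2]` -/
theorem enclose {f : ℝ → ℝ} {κ : ℤ} (hf : ∀ z, HasDerivAt f (f z ^ 2 + z * f z - κ) z)
    (cs : List ℤ) (M E : ℤ) (hok : okRes cs M κ E = true)
    (hb : |f (M / 2 + 1 / 2) - qP cs M (M / 2 + 1 / 2)| ≤ (E : ℝ) / SC) :
    ∀ z, (M : ℝ) / 2 - 1 / 2 ≤ z → z ≤ M / 2 + 1 / 2 → |f z - qP cs M z| ≤ (E : ℝ) / SC := by
  simp only [okRes, decide_eq_true_eq] at hok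
  obtain ⟨hl, hr, hE⟩ := hok
  have hS := SC_pos
  have hE' : (0:ℝ) < (E : ℝ) := by exact_mod_cast hE
  refine riccati_left (q' := fun z => dvI cs (z - M / 2) / (SC : ℝ)) (div_pos hE' hS).le hf
    (fun z _ _ => qP_hasDerivAt cs M z) ?_ hb
  intro z h1 h2
  have hz : |z - (M:ℝ) / 2| ≤ 1 / 2 := by rw [abs_le]; constructor <;> linarith
  rw [res_eq, abs_div, abs_of_pos (by positivity : (0:ℝ) < 2 * (SC : ℝ) ^ 2),
    div_lt_iff₀ (by positivity)]
  have h3 := abs_evI_le (resL cs M κ) (z - M / 2) hz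
  have h4 := low_le cs M E z hz
  have h5 : (hbL (resL cs M κ) : ℝ) < 2 * E * (lowL cs M E : ℝ) := by exact_mod_cast hr
  have h6 : 2 * (E:ℝ) * (lowL cs M E : ℝ) ≤
      2 * E * ((SC : ℝ) * (2 * qP cs M z + z - (E : ℝ) / SC)) :=
    mul_le_mul_of_nonneg_left h4 (by positivity)
  have h7 : (E : ℝ) / SC * (2 * qP cs M z + z - (E : ℝ) / SC) * (2 * (SC : ℝ) ^ 2) =
      2 * E * ((SC : ℝ) * (2 * qP cs M z + z - (E : ℝ) / SC)) := by
    field_simp
  rw [h7]; linarith

end

/-- interval value of the polynomial -/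
def qIv (T : Iv) : List ℤ → Iv
  | [] => ⟨0, 0⟩
  | c :: cs => (T.mul (qIv T cs)).add ⟨c, c⟩

lemma qIv_mem {T : Iv} {t : ℝ} (ht : T.mem t) : ∀ cs : List ℤ, (qIv T cs).mem (evI cs t / (SC : ℝ))
  | [] => by
      simp [qIv, evI, Iv.mem]
  | c :: cs => by
      have h := mem_mul ht (qIv_mem ht cs)
      have hc : Iv.mem ((c : ℝ) / (SC : ℝ)) ⟨c, c⟩ := by
        have hS : (SC : ℝ) ≠ 0 := SC_pos.ne'
        unfold Iv.mem
        constructor <;> (rw [div_mul_cancel₀ _ hS])
      have := mem_add h hc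
      have e : evI (c :: cs) t / (SC : ℝ) = t * (evI cs t / (SC : ℝ)) + (c : ℝ) / (SC : ℝ) := by
        simp only [evI]; ring
      rw [e]; exact this

/-- bisection along the curve -/
def chk1 (F : Iv → Iv → Iv) (cs : List ℤ) (M E : ℤ) : ℕ → ℤ → ℤ → Bool
  | 0, _, _ => false
  | n + 1, lo, hi =>
    decide (0 < (F ⟨lo + SC / 2 * M, hi + SC / 2 * M⟩ ((qIv ⟨lo, hi⟩ cs).add ⟨-E, E⟩)).lo) ||
      (chk1 F cs M E n lo ((lo + hi) / 2) && chk1 F cs M E n ((lo + hi) / 2) hi)

theorem chk1_sound {F : Iv → Iv → Iv} {f : ℝ → ℝ → ℝ}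
    (hF : ∀ (Z S : Iv) (z s : ℝ), Z.mem z → S.mem s → (F Z S).mem (f z s))
    (cs : List ℤ) (M E : ℤ) :
    ∀ (n : ℕ) (lo hi : ℤ), chk1 F cs M E n lo hi = true → ∀ z s : ℝ,
      (lo : ℝ) ≤ (z - M / 2) * (SC : ℝ) → (z - M / 2) * (SC : ℝ) ≤ hi →
      |s - qP cs M z| ≤ (E : ℝ) / SC → 0 < f z s := by
  intro n
  induction n with
  | zero => intro lo hi h; simp [chk1] at h
  | succ n ih =>
    intro lo hi h z s h1 h2 hs
    simp only [chk1, Bool.or_eq_true, Bool.and_eq_true, decide_eq_true_eq] at h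
    rcases h with h | h
    · have hT : Iv.mem (z - (M:ℝ) / 2) ⟨lo, hi⟩ := ⟨h1, h2⟩
      have hZ : Iv.mem z ⟨lo + SC / 2 * M, hi + SC / 2 * M⟩ := by
        have e : ((SC / 2 * M : ℤ) : ℝ) = (M:ℝ) / 2 * (SC : ℝ) := by
          have : (SC / 2 : ℤ) = 536870912 := by decide
          rw [this]; push_cast; norm_num; ring
        constructor
        · show (((lo + SC / 2 * M : ℤ)) : ℝ) ≤ z * (SC : ℝ)
          rw [Int.cast_add, e]; linarith
        · show z * (SC : ℝ) ≤ (((hi + SC / 2 * M : ℤ)) : ℝ)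
          rw [Int.cast_add, e]; linarith
      have hq := qIv_mem hT cs
      have hd : Iv.mem (s - qP cs M z) ⟨-E, E⟩ := by
        have hS := SC_pos
        obtain ⟨a1, a2⟩ := abs_le.mp hs
        rw [le_div_iff₀ hS] at a2
        rw [← neg_div, div_le_iff₀ hS] at a1
        exact ⟨by push_cast; exact a1, a2⟩
      have hS := mem_add hq hd
      have e2 : evI cs (z - M / 2) / (SC : ℝ) + (s - qP cs M z) = s := by unfold qP; ring
      rw [e2] at hS
      exact pos_of_lo (hF _ _ z s hZ hS) h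
    · rcases le_total ((z - M / 2) * (SC : ℝ)) (((lo + hi) / 2 : ℤ) : ℝ) with hc | hc
      · exact ih _ _ h.1 z s h1 hc hs
      · exact ih _ _ h.2 z s hc h2 hs

/-- one full unit piece -/
theorem chk1_piece {F : Iv → Iv → Iv} {f : ℝ → ℝ → ℝ}
    (hF : ∀ (Z S : Iv) (z s : ℝ), Z.mem z → S.mem s → (F Z S).mem (f z s))
    {cs : List ℤ} {M E : ℤ} {n : ℕ} (h : chk1 F cs M E n (-536870912) 536870912 = true)
    {z s : ℝ} (h1 : (M:ℝ) / 2 - 1 / 2 ≤ z) (h2 : z ≤ M / 2 + 1 / 2)
    (hs : |s - qP cs M z| ≤ (E : ℝ) / SC) : 0 < f z s := by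
  refine chk1_sound hF cs M E n _ _ h z s ?_ ?_ hs
  · have : (SC : ℝ) = 1073741824 := by norm_num
    rw [this]; push_cast; nlinarith
  · have : (SC : ℝ) = 1073741824 := by norm_num
    rw [this]; push_cast; nlinarith

end Crest.Agent.R253.Mills37
private theorem rz_1cc281428e : type_of% @_root_.Crest.Agent.R253.Mills37.addL.eq_def := @_root_.Crest.Agent.R253.Mills37.addL.eq_def -- L29
private theorem rz_ad1cd47eec : type_of% @_root_.Crest.Agent.R253.Mills37.addL.eq_1 := @_root_.Crest.Agent.R253.Mills37.addL.eq_1 -- L29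
private theorem rz_0402f180e3 : type_of% @_root_.Crest.Agent.R253.Mills37.chk1.eq_def := @_root_.Crest.Agent.R253.Mills37.chk1.eq_def -- L225
private theorem rz_f0b1338b15 : type_of% @_root_.Crest.Agent.R253.Mills37.chk1.eq_1 := @_root_.Crest.Agent.R253.Mills37.chk1.eq_1 -- L225
private theorem rz_08b89c5fe4 : type_of% @_root_.Crest.Agent.R253.Mills37.derL.eq_def := @_root_.Crest.Agent.R253.Mills37.derL.eq_def -- L40
private theorem rz_2d7bf959f2 : type_of% @_root_.Crest.Agent.R253.Mills37.derL.eq_1 := @_root_.Crest.Agent.R253.Mills37.derL.eq_1 -- L40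
private theorem rz_53db5c1cbe : type_of% @_root_.Crest.Agent.R253.Mills37.dvI.eq_def := @_root_.Crest.Agent.R253.Mills37.dvI.eq_def -- L18
private theorem rz_33cecc0bec : type_of% @_root_.Crest.Agent.R253.Mills37.dvI.eq_1 := @_root_.Crest.Agent.R253.Mills37.dvI.eq_1 -- L18
private theorem rz_514f5e55d7 : type_of% @_root_.Crest.Agent.R253.Mills37.evI.eq_def := @_root_.Crest.Agent.R253.Mills37.evI.eq_def -- L14
private theorem rz_f919892a2c : type_of% @_root_.Crest.Agent.R253.Mills37.evI.eq_1 := @_root_.Crest.Agent.R253.Mills37.evI.eq_1 -- L14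
private theorem rz_065daa9ac3 : type_of% @_root_.Crest.Agent.R253.Mills37.hbL.eq_def := @_root_.Crest.Agent.R253.Mills37.hbL.eq_def -- L75
private theorem rz_cc103a3cf0 : type_of% @_root_.Crest.Agent.R253.Mills37.hbL.eq_1 := @_root_.Crest.Agent.R253.Mills37.hbL.eq_1 -- L75
private theorem rz_73a2ae0570 : type_of% @_root_.Crest.Agent.R253.Mills37.mulL.eq_def := @_root_.Crest.Agent.R253.Mills37.mulL.eq_def -- L36
private theorem rz_a7204c3514 : type_of% @_root_.Crest.Agent.R253.Mills37.mulL.eq_1 := @_root_.Crest.Agent.R253.Mills37.mulL.eq_1 -- L36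
private theorem rz_51be848567 : type_of% @_root_.Crest.Agent.R253.Mills37.qIv.eq_def := @_root_.Crest.Agent.R253.Mills37.qIv.eq_def -- L206
private theorem rz_d701c7ec08 : type_of% @_root_.Crest.Agent.R253.Mills37.qIv.eq_1 := @_root_.Crest.Agent.R253.Mills37.qIv.eq_1 -- L206
private theorem rz_88a359753e : type_of% @_root_.Crest.Agent.R253.Mills37.smulL.eq_def := @_root_.Crest.Agent.R253.Mills37.smulL.eq_def -- L33
private theorem rz_1510ce3c65 : type_of% @_root_.Crest.Agent.R253.Mills37.smulL.eq_1 := @_root_.Crest.Agent.R253.Mills37.smulL.eq_1 -- L33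
end

-- ▼ part R253/V3Fun_37
section

/-! # Row 253, helper37: the polynomial functions of the barriers, interval versions -/

open MeasureTheory Set Filter Topology Real

namespace Crest.Agent.R253.Mills37

open Crest.Agent.R307.IChk

def kI (n : ℤ) (d : ℕ) : Iv := Iv.const n d
lemma kI_mem (n : ℤ) (d : ℕ) (hd : d ≠ 0) : (kI n d).mem ((n : ℝ) / (d : ℝ)) := mem_const n hd



/-- the two parts of `Q3` in `(z,s)` -/
noncomputable def q3s (sg : Bool) (z s : ℝ) : ℝ :=
  let w := 1 - z * s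
  let s2 := s * s
  let cc := w - s2
  let css := (z + s) * ((s2 + s2) - w)
  let w1 := z * cc - s
  let E := s * w - w1
  let F := 3 * w - z * E
  let L := 1 / 20 * (s * F - cc * E)
  let B := (w1 - css - E) * E + (w + cc) * F
  if sg then L - B else L + B
def q3sI (sg : Bool) (z s : Iv) : Iv :=
  let w := (kI 1 1).sub (z.mul s)
  let s2 := s.mul s
  let cc := w.sub s2
  let css := (z.add s).mul ((s2.add s2).sub w)
  let w1 := (z.mul cc).sub s
  let E := (s.mul w).sub w1
  let F := ((kI 3 1).mul w).sub (z.mul E)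
  let L := (kI 1 20).mul ((s.mul F).sub (cc.mul E))
  let B := (((w1.sub css).sub E).mul E).add ((w.add cc).mul F)
  if sg then L.sub B else L.add B

lemma q3s_mem (sg : Bool) (Z S : Iv) (z s : ℝ) (hz : Z.mem z) (hs : S.mem s) :
    (q3sI sg Z S).mem (q3s sg z s) := by
  have h1 : (kI 1 1).mem (1:ℝ) := by simpa using kI_mem 1 1 (by norm_num)
  have h3 : (kI 3 1).mem (3:ℝ) := by simpa using kI_mem 3 1 (by norm_num)
  have h20 : (kI 1 20).mem (1 / 20 : ℝ) := by simpa using kI_mem 1 20 (by norm_num)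
  have hw := mem_sub h1 (mem_mul hz hs)
  have hs2 := mem_mul hs hs
  have hcc := mem_sub hw hs2
  have hcss := mem_mul (mem_add hz hs) (mem_sub (mem_add hs2 hs2) hw)
  have hw1 := mem_sub (mem_mul hz hcc) hs
  have hE := mem_sub (mem_mul hs hw) hw1
  have hF := mem_sub (mem_mul h3 hw) (mem_mul hz hE)
  have hL := mem_mul h20 (mem_sub (mem_mul hs hF) (mem_mul hcc hE))
  have hB := mem_add (mem_mul (mem_sub (mem_sub hw1 hcss) hE) hE) (mem_mul (mem_add hw hcc) hF)
  unfold q3sI q3s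
  cases sg
  · simp only [Bool.false_eq_true, if_false]
    exact mem_add hL hB
  · simp only [if_true]
    exact mem_sub hL hB

/-- `Q2` in `(z,r)` : `(1+β)(r(z+r)G - C) - 2G` -/
noncomputable def q2r (z r : ℝ) : ℝ :=
  let G := (z * z + z * r) + 2
  let C := (z * z + 4) - r * r
  111 / 100 * ((r * (z + r)) * G - C) - 2 * G


/-- `Q3` in `(z,r)` -/
noncomputable def q3r (sg : Bool) (z r : ℝ) : ℝ :=
  let zr := z * r
  let A := z + r
  let G := (z * z + zr) + 2
  let C := (z * z + 4) - r * r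
  let W1 := 2 * ((z - r) - zr * A)
  let S2 := 2 * ((zr + r * r) - 2)
  let F := 3 - zr
  let c := z * G + A
  let L := 1 / 20 * (G * ((A * F) * G - C * r))
  let B := ((W1 * G - c * S2) * r) + G * ((2 * G + C) * F - 2 * (G * (r * r)))
  if sg then L - B else L + B
def q3rI (sg : Bool) (z r : Iv) : Iv :=
  let zr := z.mul r
  let A := z.add r
  let G := ((z.mul z).add zr).add (kI 2 1)
  let C := ((z.mul z).add (kI 4 1)).sub (r.mul r)
  let W1 := (kI 2 1).mul ((z.sub r).sub (zr.mul A))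
  let S2 := (kI 2 1).mul ((zr.add (r.mul r)).sub (kI 2 1))
  let F := (kI 3 1).sub zr
  let c := (z.mul G).add A
  let L := (kI 1 20).mul (G.mul (((A.mul F).mul G).sub (C.mul r)))
  let B := (((W1.mul G).sub (c.mul S2)).mul r).add
    (G.mul (((((kI 2 1).mul G).add C).mul F).sub ((kI 2 1).mul (G.mul (r.mul r)))))
  if sg then L.sub B else L.add B

lemma q3r_mem (sg : Bool) (Z S : Iv) (z r : ℝ) (hz : Z.mem z) (hr : S.mem r) :
    (q3rI sg Z S).mem (q3r sg z r) := by
  have h2 : (kI 2 1).mem (2:ℝ) := by simpa using kI_mem 2 1 (by norm_num)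
  have h3 : (kI 3 1).mem (3:ℝ) := by simpa using kI_mem 3 1 (by norm_num)
  have h4 : (kI 4 1).mem (4:ℝ) := by simpa using kI_mem 4 1 (by norm_num)
  have h20 : (kI 1 20).mem (1 / 20 : ℝ) := by simpa using kI_mem 1 20 (by norm_num)
  have hzr := mem_mul hz hr
  have hA := mem_add hz hr
  have hG := mem_add (mem_add (mem_mul hz hz) hzr) h2
  have hC := mem_sub (mem_add (mem_mul hz hz) h4) (mem_mul hr hr)
  have hW1 := mem_mul h2 (mem_sub (mem_sub hz hr) (mem_mul hzr hA))
  have hS2 := mem_mul h2 (mem_sub (mem_add hzr (mem_mul hr hr)) h2)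
  have hF := mem_sub h3 hzr
  have hc := mem_add (mem_mul hz hG) hA
  have hL := mem_mul h20 (mem_mul hG (mem_sub (mem_mul (mem_mul hA hF) hG) (mem_mul hC hr)))
  have hB := mem_add (mem_mul (mem_sub (mem_mul hW1 hG) (mem_mul hc hS2)) hr)
    (mem_mul hG (mem_sub (mem_mul (mem_add (mem_mul h2 hG) hC) hF) (mem_mul h2 (mem_mul hG (mem_mul hr hr)))))
  unfold q3rI q3r
  cases sg
  · simp only [Bool.false_eq_true, if_false]
    exact mem_add hL hB
  · simp only [if_true]
    exact mem_sub hL hB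

noncomputable section

/-! ### relations with the barrier functions -/

lemma cc_es (z : ℝ) : cc z = (1 - z * ee z) - ee z * ee z := by rw [ww_add']; unfold ww; ring
lemma mu_ss (z : ℝ) : mu z * ss z = (z + ee z) * ((ee z * ee z + ee z * ee z) - (1 - z * ee z)) := by
  rw [mu_eq]; unfold ss; ring
/-- `E = r w` -/
lemma rw_E (z : ℝ) : rr z * ww z =
    ee z * (1 - z * ee z) - (z * ((1 - z * ee z) - ee z * ee z) - ee z) := by
  rw [rr_mul_ww]; unfold ww; ring

lemma H3_s (z : ℝ) (sg : Bool) :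
    ((1 / 20) * (ee z * (3 - z * rr z) - cc z * rr z) + (if sg then -1 else 1) * Bf z) * ww z =
      q3s sg z (ee z) := by
  have h2 := rw_E z
  have hE : rr z * ww z = rr z * ww z := rfl
  have h3 : Bf z * ww z = (-(ee z) + z * cc z - mu z * ss z - rr z * ww z) * (rr z * ww z)
      + (ww z + cc z) * (3 * ww z - z * (rr z * ww z)) := by
    unfold Bf; ring
  have h4 : (ee z * (3 - z * rr z) - cc z * rr z) * ww z =
      ee z * (3 * ww z - z * (rr z * ww z)) - cc z * (rr z * ww z) := by ring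
  have h5 : ((1 / 20) * (ee z * (3 - z * rr z) - cc z * rr z) + (if sg then -1 else 1) * Bf z) * ww z
      = (1 / 20) * ((ee z * (3 - z * rr z) - cc z * rr z) * ww z)
        + (if sg then -1 else 1) * (Bf z * ww z) := by ring
  rw [h5, h3, h4, h2, mu_ss, cc_es]
  unfold q3s ww
  cases sg
  · simp only [Bool.false_eq_true, if_false]
    ring
  · simp only [if_true]
    ring

/-- in terms of `r` -/
lemma ww_G (z : ℝ) : ww z = 2 / GG z := by
  rw [eq_div_iff (GG_pos z).ne']; exact ww_mul_GG z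
lemma ee_G (z : ℝ) : ee z = (z + rr z) / GG z := by
  rw [eq_div_iff (GG_pos z).ne']; exact ee_mul_GG z

lemma H3_r (z : ℝ) (sg : Bool) :
    ((1 / 20) * (ee z * (3 - z * rr z) - cc z * rr z) + (if sg then -1 else 1) * Bf z) * GG z ^ 3 =
      q3r sg z (rr z) := by
  have hG := (GG_pos z).ne'
  have hG2 : GG z = (z * z + z * rr z) + 2 := by unfold GG; ring
  have h6 : Bf z * GG z ^ 3 =
      ((2 * ((z - rr z) - z * rr z * (z + rr z)) * GG z - (z * GG z + (z + rr z)) *
        (2 * ((z * rr z + rr z * rr z) - 2))) * rr z) +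
      GG z * ((2 * GG z + ((z * z + 4) - rr z * rr z)) * (3 - z * rr z)
        - 2 * (GG z * (rr z * rr z))) := by
    unfold Bf
    rw [mu_ss, ww_add', ww_G, ee_G]
    field_simp
    rw [hG2]; ring
  have h7 : (ee z * (3 - z * rr z) - cc z * rr z) * GG z ^ 3 =
      GG z * (((z + rr z) * (3 - z * rr z)) * GG z - ((z * z + 4) - rr z * rr z) * rr z) := by
    rw [ww_add', ww_G, ee_G]
    field_simp
    rw [hG2]; ring
  have h5 : ((1 / 20) * (ee z * (3 - z * rr z) - cc z * rr z) + (if sg then -1 else 1) * Bf z) * GG z ^ 3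
      = (1 / 20) * ((ee z * (3 - z * rr z) - cc z * rr z) * GG z ^ 3)
        + (if sg then -1 else 1) * (Bf z * GG z ^ 3) := by ring
  rw [h5, h6, h7]
  unfold q3r
  simp only
  rw [← hG2]
  cases sg
  · simp only [Bool.false_eq_true, if_false]
    ring
  · simp only [if_true]
    ring

lemma pos_of_mul_pos' {a b : ℝ} (hb : 0 < b) (h : 0 < a * b) : 0 < a :=
  (mul_pos_iff_of_pos_right hb).mp h

end

end Crest.Agent.R253.Mills37
end

-- ▼ part R253/V3Mn_37
open MeasureTheory Set Filter Topology Real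
namespace Crest.Agent.R253.Mills37
noncomputable section

/-- the moments `M_n` -/
def Mn : ℕ → ℝ → ℝ
  | 0 => Q
  | 1 => M1
  | (n + 2) => fun z => ((n : ℝ) + 1) * Mn n z - z * Mn (n + 1) z

lemma Mn_succ2 (n : ℕ) (z : ℝ) : Mn (n + 2) z = ((n : ℝ) + 1) * Mn n z - z * Mn (n + 1) z := rfl
lemma Mn_two (z : ℝ) : Mn 2 z = M2 z := by
  rw [Mn_succ2]; unfold M2; simp [Mn]
lemma Mn_three (z : ℝ) : Mn 3 z = M3 z := by
  rw [Mn_succ2, Mn_two]; unfold M3; simp [Mn]; norm_num

lemma Mn_hasDerivAt : ∀ (n : ℕ) (z : ℝ), HasDerivAt (Mn (n + 1)) (-(((n : ℝ) + 1) * Mn n z)) z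
  | 0, z => by
      refine (M1_hasDerivAt z).congr_deriv ?_
      simp [Mn]
  | 1, z => by
      have h : HasDerivAt (Mn 2) (-(2 * M1 z)) z := by
        refine (M2_hasDerivAt z).congr_of_eventuallyEq (Eventually.of_forall fun y => Mn_two y)
      refine h.congr_deriv ?_
      simp [Mn]; norm_num
  | (n + 2), z => by
      have h1 := Mn_hasDerivAt n z
      have h2 := Mn_hasDerivAt (n + 1) z
      have := (h1.const_mul (((n + 1 : ℕ) : ℝ) + 1)).sub ((hasDerivAt_id z).mul h2)
      have e : Mn (n + 2 + 1) = fun z => (((n + 1 : ℕ) : ℝ) + 1) * Mn (n + 1) z - z * Mn (n + 2) z := rfl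
      rw [e]
      refine this.congr_deriv ?_
      simp only [id]
      rw [Mn_succ2]
      push_cast
      ring

lemma pow_mul_Mn_tendsto : ∀ (n k : ℕ), Tendsto (fun z : ℝ => z ^ k * Mn n z) atTop (𝓝 0)
  | 0, k => pow_mul_Q_tendsto k
  | 1, k => pow_mul_M1_tendsto k
  | (n + 2), k => by
      have h := ((pow_mul_Mn_tendsto n k).const_mul ((n : ℝ) + 1)).sub
        (pow_mul_Mn_tendsto (n + 1) (k + 1))
      simp only [mul_zero, sub_zero] at h
      refine h.congr fun z => ?_
      rw [Mn_succ2]; ring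

lemma Mn_pos : ∀ (n : ℕ) (z : ℝ), 0 < Mn n z
  | 0, z => Q_pos z
  | (n + 1), z => by
      refine pos_of_deriv_neg (Mn_hasDerivAt n) (fun z => ?_) ?_ z
      · have := Mn_pos n z
        have : 0 < ((n : ℝ) + 1) * Mn n z := by positivity
        linarith
      · simpa using pow_mul_Mn_tendsto (n + 1) 0

def rn (n : ℕ) (z : ℝ) : ℝ := Mn (n + 1) z / Mn n z
lemma rn_pos (n : ℕ) (z : ℝ) : 0 < rn n z := div_pos (Mn_pos _ _) (Mn_pos _ _)
lemma rn_two (z : ℝ) : rn 2 z = rr z := by unfold rn rr; rw [Mn_two, Mn_three]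
/-- `r_n (z + r_{n+1}) = n+1` -/
lemma rn_rec (n : ℕ) (z : ℝ) : rn n z * (z + rn (n + 1) z) = (n : ℝ) + 1 := by
  have h1 := (Mn_pos n z).ne'
  have h2 := (Mn_pos (n + 1) z).ne'
  unfold rn
  field_simp
  rw [Mn_succ2]; ring
lemma rn_step {n : ℕ} {z l u l' u' : ℝ} (hz : 0 < z) (h : l ≤ rn (n + 1) z ∧ rn (n + 1) z ≤ u)
    (hl : 0 ≤ l) (hl' : l' * (z + u) ≤ (n : ℝ) + 1) (hu' : (n : ℝ) + 1 ≤ u' * (z + l)) (h0 : 0 ≤ l') :
    l' ≤ rn n z ∧ rn n z ≤ u' := by
  have hr := rn_rec n z
  have hp := rn_pos n z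
  have hp1 := rn_pos (n + 1) z
  obtain ⟨h1, h2⟩ := h
  constructor
  · by_contra hc
    have hc := not_le.mp hc
    have : rn n z * (z + rn (n + 1) z) < l' * (z + u) := by
      have a1 : rn n z * (z + rn (n + 1) z) < l' * (z + rn (n + 1) z) :=
        mul_lt_mul_of_pos_right hc (by linarith)
      have a2 : l' * (z + rn (n + 1) z) ≤ l' * (z + u) :=
        mul_le_mul_of_nonneg_left (by linarith) h0
      linarith
    linarith
  · by_contra hc
    have hc := not_le.mp hc
    have : u' * (z + l) < rn n z * (z + rn (n + 1) z) := by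
      have a1 : u' * (z + l) < rn n z * (z + l) := mul_lt_mul_of_pos_right hc (by linarith)
      have a2 : rn n z * (z + l) ≤ rn n z * (z + rn (n + 1) z) :=
        mul_le_mul_of_nonneg_left (by linarith) hp.le
      linarith
    linarith
/-- upper bound `r_n ≤ (n+1)/z` -/
lemma rn_le {z : ℝ} (hz : 0 < z) (n : ℕ) : rn n z ≤ ((n : ℝ) + 1) / z := by
  rw [le_div_iff₀ hz]
  have hr := rn_rec n z
  have hp := rn_pos n z
  have hp1 := rn_pos (n + 1) z
  nlinarith [mul_pos hp hp1]

end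
end Crest.Agent.R253.Mills37
private theorem rz_d7097bee07 : type_of% @_root_.Crest.Agent.R253.Mills37.Mn.eq_def := @_root_.Crest.Agent.R253.Mills37.Mn.eq_def -- L7
private theorem rz_0e83c5db48 : type_of% @_root_.Crest.Agent.R253.Mills37.Mn.eq_1 := @_root_.Crest.Agent.R253.Mills37.Mn.eq_1 -- L7
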