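import Crest.Agent.R253.AsmR_80
import Crest.Agent.R253.S3_649
import Crest.Agent.R253.Jord_192
import Crest.Agent.R253.Chaos_74
import Crest.Agent.R253.ErrT_378
import Crest.Agent.R253.DualPB_973
import Crest.Agent.R253.V3Mn_37
import Crest.Agent.R253.V3Enc_37
import Crest.Agent.R253.V3ChkB_37
import Crest.Agent.R253.V3ChkC_37
import Crest.Agent.R253.V3ChkD_37
import Crest.Agent.R253.V3ChkE_37
import Crest.Agent.R253.KW_718
import Mathlib
import Crest.Agent.R253.Odd_451_Mg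
import Crest.Agent.R253.Lam_741
import Crest.Agent.R253.KY_688
import Crest.Agent.R253.HL_718
import Crest.Agent.R253.L7P_167
import Crest.Agent.R253.HPar_741
import Crest.Agent.R253.F2_711

-- ▼ part R253/Conv_80
section

/-!
# Row 253: dictionary between the `TE`, `pk`, `eta0` letters and `TR`, `PW`, `HW` (helper80)
-/

set_option autoImplicit false

open MeasureTheory ProbabilityTheory Set Filter Topology Matrix
open scoped ContDiff

noncomputable section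

namespace Crest.Agent.R253.TrC80

open Crest.Agent.R238.Gap Crest.Agent.R253.SpecCalc999 Crest.Agent.R253.Meh74
  Crest.Agent.R253.SpecField321 Crest.Agent.R253.S3 Crest.Agent.R253.LamB301
  Crest.Agent.R253.LamI301
open Crest.Agent.R253.DualP973 (Tm ef Lx MTm Mx_eq dk_eq c1_ef)

variable {n : ℕ} {ζ : Fld n} {lo hi : ℝ}

lemma cv_tr {S : Mat n} (hS : S.IsHermitian) (b : ℝ → ℝ) :
    (_root_.cfc b S * S).trace = TR (fun x => b x * x) S := by
  unfold TR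
  conv_lhs => rw [show _root_.cfc b S * S = _root_.cfc b S * _root_.cfc (fun x : ℝ => x) S by
    rw [cfc_id'' hS]]
  rw [cfc_mul' hS]

lemma cv_bb {S : Mat n} (hS : S.IsHermitian) (b : ℝ → ℝ) :
    _root_.cfc b S * _root_.cfc b S = _root_.cfc (fun x => b x ^ 2) S := by
  rw [cfc_mul' hS]
  simp only [sq]

lemma cv_bbS {S : Mat n} (hS : S.IsHermitian) (b : ℝ → ℝ) :
    (_root_.cfc b S * _root_.cfc b S * S).trace = TR (fun x => b x ^ 2 * x) S := by
  rw [cv_bb hS, cv_tr hS]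


lemma cv_pp (hζ : MF ζ lo hi) (w : ℝ → ℝ) :
    ∑ k, TE (fun x => _root_.cfc w (MTm ζ) * (pk ζ (Tm ζ) k x * pk ζ (Tm ζ) k x)) = PW w ζ := by
  unfold PW TE
  rw [EE_sum fun k _ => ((cgm_const _).mul ((cgm_p hζ k).mul (cgm_tr' (cgm_p hζ k)))).trace]
  refine Finset.sum_congr rfl fun k _ => EE_congr fun x => ?_
  beta_reduce
  rw [pk_t hζ, Mx_dk_ef hζ]

lemma cv_bbpp (hζ : MF ζ lo hi) (b : ℝ → ℝ) :
    ∑ k, TE (fun x => _root_.cfc b (MTm ζ) * _root_.cfc b (MTm ζ) *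
      (pk ζ (Tm ζ) k x * pk ζ (Tm ζ) k x)) = PW (fun x => b x ^ 2) ζ := by
  rw [← cv_pp hζ, cv_bb (ts hζ).herm]

lemma cv_hh (hζ : MF ζ lo hi) (h0 : ∀ i j, EE (ζ i j) = 0) (w : ℝ → ℝ) :
    TE (fun x => _root_.cfc w (MTm ζ) * (eta0 ζ (Tm ζ) x * eta0 ζ (Tm ζ) x)) = HW w ζ := by
  refine EE_congr fun x => ?_
  beta_reduce
  rw [ef_t hζ h0, Mx_ef h0]

lemma cv_p (hζ : MF ζ lo hi) : ∑ k, EE (fun x => hs (pk ζ (Tm ζ) k x)) = PW (fun _ => 1) ζ := by
  rw [PW_one hζ, EE_sum fun k _ => cg_hs (cgm_p hζ k)]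
  exact Finset.sum_congr rfl fun k _ => EE_congr fun x => by rw [Mx_dk_ef hζ]

lemma cv_h (hζ : MF ζ lo hi) (h0 : ∀ i j, EE (ζ i j) = 0) :
    EE (fun x => hs (eta0 ζ (Tm ζ) x)) = HW (fun _ => 1) ζ := by
  rw [HW_one hζ]
  exact EE_congr fun x => by rw [Mx_ef h0]

lemma tr_le_const {S : Mat n} (hS : S.PosSemidef) {b : ℝ → ℝ} {bn : ℝ}
    (hb : ∀ x, 0 ≤ x → b x ≤ bn) (X : Mat n) :
    (_root_.cfc b S * (X * Xᵀ)).trace ≤ bn * hs X := by
  have := tr_mul_mono hS (psd_mul_tr X) (f := b) (g := fun _ => bn) hb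
  refine this.trans (le_of_eq ?_)
  have e9 : _root_.cfc (fun _ : ℝ => bn) S = bn • (1 : Mat n) := by
    rw [← cfc_one' hS.isHermitian, cfc_smul' hS.isHermitian]; simp
  rw [e9, Matrix.smul_mul, Matrix.one_mul, Matrix.trace_smul, smul_eq_mul, hs_eq']

/-! ### the far part (629's `eo_ge`) -/

/-- `f` of the far part -/
def ff (b : ℝ → ℝ) (a e κ ep th th1 : ℝ) (x : ℝ) : ℝ :=
  a * b x + (5 / 16 - e - (1 + ep) * κ ^ 2) * (b x * x) - th1 / 2 * (b x ^ 2 * x) -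
    (1 + ep) * κ ^ 2 / (4 * th) * (b x ^ 2 * x)
/-- `u` of the far part -/
def fu (b : ℝ → ℝ) (κ ep th : ℝ) (x : ℝ) : ℝ :=
  (1 / 16 + (1 + ep) * κ ^ 2) * b x + th / 4 + (1 + ep) * κ ^ 2 / (4 * th) * b x ^ 2
/-- `h` of the far part -/
def fh (b : ℝ → ℝ) (e κ th th1 : ℝ) (x : ℝ) : ℝ :=
  -((3 / 8 - e) * b x) + κ ^ 2 / (2 * th1) - 3 / 8 * th

/-- conversion of the matrix form of the far bound -/
theorem farR_of (hζ : MF ζ lo hi) (h0 : ∀ i j, EE (ζ i j) = 0) {b : ℝ → ℝ} {L Sl : ℝ}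
    {a e κ ep th th1 Ce bn bo : ℝ}
    (h : a * (_root_.cfc b (MTm ζ)).trace +
      (5 / 16 - e - (1 + ep) * κ ^ 2) * (_root_.cfc b (MTm ζ) * MTm ζ).trace +
      (3 / 8 - e) * TE (fun x => _root_.cfc b (MTm ζ) * (eta0 ζ (Tm ζ) x * eta0 ζ (Tm ζ) x)) -
      (1 / 16 + (1 + ep) * κ ^ 2) *
        ∑ k, TE (fun x => _root_.cfc b (MTm ζ) * (pk ζ (Tm ζ) k x * pk ζ (Tm ζ) k x)) -
      th1 / 2 * (_root_.cfc b (MTm ζ) * _root_.cfc b (MTm ζ) * MTm ζ).trace -
      κ ^ 2 / (2 * th1) * EE (fun x => hs (eta0 ζ (Tm ζ) x)) -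
      th / 4 * (∑ k, EE (fun x => hs (pk ζ (Tm ζ) k x)) -
        3 / 2 * EE (fun x => hs (eta0 ζ (Tm ζ) x))) -
      (1 + ep) * κ ^ 2 / (4 * th) *
        ((_root_.cfc b (MTm ζ) * _root_.cfc b (MTm ζ) * MTm ζ).trace +
        ∑ k, TE (fun x => _root_.cfc b (MTm ζ) * _root_.cfc b (MTm ζ) *
          (pk ζ (Tm ζ) k x * pk ζ (Tm ζ) k x))) -
      (1 + 1 / ep) * Ce * (bn + bo ^ 2 / (4 * th)) * Sl ≤ L) :
    TR (ff b a e κ ep th th1) (MTm ζ) - PW (fu b κ ep th) ζ - HW (fh b e κ th th1) ζ -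
      (1 + 1 / ep) * Ce * (bn + bo ^ 2 / (4 * th)) * Sl ≤ L := by
  have hS := (ts hζ).herm
  rw [cv_bbS hS, cv_tr hS, cv_hh hζ h0, cv_pp hζ, cv_bbpp hζ, cv_p hζ, cv_h hζ h0] at h
  have e0 : (_root_.cfc b (MTm ζ)).trace = TR b (MTm ζ) := rfl
  rw [e0] at h
  obtain ⟨s, P, H, hs0, hH0, hPH, eT, eP, eH⟩ := rows hζ
  simp only [eT, eP, eH] at h ⊢
  have e1 : ∑ i, ff b a e κ ep th th1 (s i) - ∑ i, fu b κ ep th (s i) * P i -
      ∑ i, fh b e κ th th1 (s i) * H i =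
      a * ∑ i, b (s i) + (5 / 16 - e - (1 + ep) * κ ^ 2) * ∑ i, b (s i) * s i +
      (3 / 8 - e) * ∑ i, b (s i) * H i - (1 / 16 + (1 + ep) * κ ^ 2) * ∑ i, b (s i) * P i -
      th1 / 2 * ∑ i, b (s i) ^ 2 * s i - κ ^ 2 / (2 * th1) * ∑ i, 1 * H i -
      th / 4 * (∑ i, 1 * P i - 3 / 2 * ∑ i, 1 * H i) -
      (1 + ep) * κ ^ 2 / (4 * th) * (∑ i, b (s i) ^ 2 * s i + ∑ i, b (s i) ^ 2 * P i) := by
    simp only [Finset.mul_sum, ← Finset.sum_add_distrib, ← Finset.sum_sub_distrib]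
    refine Finset.sum_congr rfl fun i _ => ?_
    unfold ff fu fh
    ring
  linarith

/-! ### the loss (192's `dualR`) -/

/-- `f` of the loss -/
def gf (A r : ℝ → ℝ) (lam q0 : ℝ) (x : ℝ) : ℝ :=
  1 / q0 * (1 / 6 * (A x * (1 - r x) ^ 2 * x) + lam / 12 * (A x * (1 - r x * x) ^ 2))
/-- `u` of the loss -/
def gu (A : ℝ → ℝ) (lam q0 K1 : ℝ) (x : ℝ) : ℝ := 1 / q0 * (1 / 3 * A x + lam / 12 * K1)
/-- `h` of the loss -/
def gh (A : ℝ → ℝ) (q0 : ℝ) (x : ℝ) : ℝ := -(1 / q0 * (1 / 3 * A x))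

/-- conversion of the matrix form of the loss -/
theorem lossR_of (hζ : MF ζ lo hi) {A r : ℝ → ℝ} (hA : ∀ x, 0 ≤ x → 0 ≤ A x)
    {L Sl lam q0 k K1 : ℝ}
    (h : L ≤ 1 / q0 * (1 / 3 * (EE (fun x => ∑ k, hs (CC A (MTm ζ) * Mx (dk k (ef ζ)) x)) -
        EE (fun x => hs (CC A (MTm ζ) * Mx (ef ζ) x))) +
      1 / 6 * ∑ k, hs (CC A (MTm ζ) * ((1 - _root_.cfc r (MTm ζ)) * Tm ζ k)) +
      lam / 12 * hs (CC A (MTm ζ) * (1 - _root_.cfc r (MTm ζ) * MTm ζ)) +
      lam / 12 * (K1 * EE (fun x => ∑ k, hs (Mx (dk k (ef ζ)) x)))) + k * Sl) :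
    L ≤ TR (gf A r lam q0) (MTm ζ) + PW (gu A lam q0 K1) ζ + HW (gh A q0) ζ + k * Sl := by
  have hT := ts hζ
  rw [PW_CC hζ hA, HW_CC hζ hA, hT.loss1 r hA, loss2 hT.psd r hA, ← PW_one hζ] at h
  obtain ⟨s, P, H, hs0, hH0, hPH, eT, eP, eH⟩ := rows hζ
  simp only [eT, eP, eH] at h ⊢
  have e1 : ∑ i, gf A r lam q0 (s i) + ∑ i, gu A lam q0 K1 (s i) * P i +
      ∑ i, gh A q0 (s i) * H i =
      1 / q0 * (1 / 3 * (∑ i, A (s i) * P i - ∑ i, A (s i) * H i) +
        1 / 6 * ∑ i, A (s i) * (1 - r (s i)) ^ 2 * s i +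
        lam / 12 * ∑ i, A (s i) * (1 - r (s i) * s i) ^ 2 +
        lam / 12 * (K1 * ∑ i, 1 * P i)) := by
    simp only [Finset.mul_sum, ← Finset.sum_add_distrib, ← Finset.sum_sub_distrib]
    refine Finset.sum_congr rfl fun i _ => ?_
    unfold gf gu gh
    ring
  linarith

end Crest.Agent.R253.TrC80
end
end

-- ▼ part R253/EvenHS_427
section

/-!
# R253: three facts for the large eigenvalues of `M_T` (helper427)

* `hs_cfc_lip`: spectral functions are Lipschitz in the Hilbert–Schmidt norm;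
* `EE_even`, `EE_cfc_neg`, `EE_pos_Z1`: evenness of `Z₁ = Σ x_k T_k`;
* `pos_lower`: `E hs (C ζ₊) ≥ (1-s) (1/2) Σ hs (C T_k) - (1/s - 1) E hs (ζ - Z₁)`.
-/

set_option autoImplicit false

open MeasureTheory ProbabilityTheory Set Filter Topology Matrix
open scoped ContDiff

noncomputable section

namespace Crest.Agent.R253.EvenHS427

open Crest.Agent.R238.Gap Crest.Agent.R253.Meh74 Crest.Agent.R253.SpecCalc999
  Crest.Agent.R253.SpecField321 Crest.Agent.R253.S3 Crest.Agent.R253.Jord192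

variable {m n : ℕ}

/-! ### Hilbert–Schmidt Lipschitz -/

lemma hs_conj2 {U W : Mat m} (hU : U * Uᵀ = 1) (hW : W * Wᵀ = 1) (X : Mat m) :
    hs (Uᵀ * X * W) = hs X := by
  rw [hs_eq, hs_eq, Matrix.transpose_mul, Matrix.transpose_mul, Matrix.transpose_transpose]
  calc (Wᵀ * (Xᵀ * U) * (Uᵀ * X * W)).trace = (Wᵀ * (Xᵀ * (U * Uᵀ) * X * W)).trace := by
        simp only [Matrix.mul_assoc]
    _ = (Wᵀ * (Xᵀ * X * W)).trace := by rw [hU, Matrix.mul_one]
    _ = (Xᵀ * X).trace := by rw [Matrix.trace_mul_comm, Matrix.mul_assoc, hW, Matrix.mul_one]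

lemma conj2_left {A U W : Mat m} {s : Fin m → ℝ} (h : Fr A U s) (f : ℝ → ℝ) :
    Uᵀ * _root_.cfc f A * W = Matrix.diagonal (fun i => f (s i)) * (Uᵀ * W) := by
  rw [← h.cfc f]
  calc Uᵀ * _root_.cfc f A * W = Uᵀ * _root_.cfc f A * (1 * W) := by rw [Matrix.one_mul]
    _ = Uᵀ * _root_.cfc f A * ((U * Uᵀ) * W) := by rw [h.o']
    _ = _ := by simp only [Matrix.mul_assoc]

lemma conj2_right {B U W : Mat m} {t : Fin m → ℝ} (h : Fr B W t) (f : ℝ → ℝ) :
    Uᵀ * _root_.cfc f B * W = (Uᵀ * W) * Matrix.diagonal (fun i => f (t i)) := by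
  rw [← h.cfc f]
  calc Uᵀ * _root_.cfc f B * W = Uᵀ * (1 * _root_.cfc f B) * W := by rw [Matrix.one_mul]
    _ = Uᵀ * ((W * Wᵀ) * _root_.cfc f B) * W := by rw [h.o']
    _ = _ := by simp only [Matrix.mul_assoc]

lemma conj2_sub {A B U W : Mat m} {s t : Fin m → ℝ} (hA : Fr A U s) (hB : Fr B W t)
    (f : ℝ → ℝ) (i j : Fin m) :
    (Uᵀ * (_root_.cfc f A - _root_.cfc f B) * W) i j = (f (s i) - f (t j)) * (Uᵀ * W) i j := by
  rw [Matrix.mul_sub, Matrix.sub_mul, conj2_left hA, conj2_right hB, Matrix.sub_apply,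
    Matrix.diagonal_mul, Matrix.mul_diagonal]
  ring

/-- spectral functions are Lipschitz in the Hilbert–Schmidt norm (only on the spectra) -/
theorem hs_cfc_lip_on {A B : Mat m} (hA : A.IsHermitian) (hB : B.IsHermitian) {f : ℝ → ℝ} {L : ℝ}
    (hf : ∀ x ∈ spectrum ℝ A, ∀ y ∈ spectrum ℝ B, |f x - f y| ≤ L * |x - y|) :
    hs (_root_.cfc f A - _root_.cfc f B) ≤ L ^ 2 * hs (A - B) := by
  obtain ⟨U, hU⟩ := exists_fr hA
  obtain ⟨W, hW⟩ := exists_fr hB
  have eA : A - B = _root_.cfc (fun t : ℝ => t) A - _root_.cfc (fun t : ℝ => t) B := by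
    rw [cfc_id'' hA, cfc_id'' hB]
  rw [eA, ← hs_conj2 hU.o' hW.o' (_root_.cfc f A - _root_.cfc f B),
    ← hs_conj2 hU.o' hW.o' (_root_.cfc (fun t : ℝ => t) A - _root_.cfc (fun t : ℝ => t) B)]
  unfold hs
  rw [Finset.mul_sum]
  refine Finset.sum_le_sum fun i _ => ?_
  rw [Finset.mul_sum]
  refine Finset.sum_le_sum fun j _ => ?_
  rw [conj2_sub hU hW, conj2_sub hU hW, mul_pow, mul_pow, ← mul_assoc]
  refine mul_le_mul_of_nonneg_right ?_ (sq_nonneg _)
  have h := hf _ (hU.mem_spec i) _ (hW.mem_spec j)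
  have h2 := pow_le_pow_left₀ (abs_nonneg _) h 2
  rwa [mul_pow, sq_abs, sq_abs] at h2

theorem hs_cfc_lip {A B : Mat m} (hA : A.IsHermitian) (hB : B.IsHermitian) {f : ℝ → ℝ} {L : ℝ}
    (hf : ∀ x y, |f x - f y| ≤ L * |x - y|) :
    hs (_root_.cfc f A - _root_.cfc f B) ≤ L ^ 2 * hs (A - B) :=
  hs_cfc_lip_on hA hB fun x _ y _ => hf x y



/-! ### regularity of `cfc f F` -/

lemma herm_zero : (0 : Mat m).IsHermitian := by
  unfold Matrix.IsHermitian
  rw [Matrix.conjTranspose_zero]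

lemma cgm_cfc_lip {F : E n → Mat n} (hF : CGm F) (hH : ∀ x, (F x).IsHermitian) {f : ℝ → ℝ}
    {L : ℝ} (hf : ∀ x y, |f x - f y| ≤ L * |x - y|) : CGm fun x => _root_.cfc f (F x) := by
  intro i j
  constructor
  · rw [continuous_iff_continuousAt]
    intro x0
    have hc : Continuous fun x => hs (F x - F x0) :=
      (cg_hs (hF.sub (cgm_const (F x0)))).c
    have ht : Tendsto (fun x => L ^ 2 * hs (F x - F x0)) (𝓝 x0) (𝓝 0) := by
      have h1 : Tendsto (fun x => L ^ 2 * hs (F x - F x0)) (𝓝 x0) (𝓝 (L ^ 2 * hs (F x0 - F x0))) :=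
        (hc.const_mul (L ^ 2)).continuousAt
      rwa [sub_self, hs_zero, mul_zero] at h1
    rw [ContinuousAt, tendsto_iff_dist_tendsto_zero]
    have h2 : Tendsto (fun x => √(L ^ 2 * hs (F x - F x0))) (𝓝 x0) (𝓝 0) := by
      have := (Real.continuous_sqrt.tendsto 0).comp ht
      rwa [Real.sqrt_zero] at this
    refine squeeze_zero (fun _ => dist_nonneg) (fun x => ?_) h2
    rw [Real.dist_eq]
    refine Real.abs_le_sqrt ?_
    have h3 := sq_le_hs (_root_.cfc f (F x) - _root_.cfc f (F x0)) i j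
    rw [Matrix.sub_apply] at h3
    exact h3.trans (hs_cfc_lip (hH x) (hH x0) hf)
  · have hg : CG fun x => 1 + (2 * L ^ 2 * hs (F x - 0) + 2 * hs (_root_.cfc f (0 : Mat n))) :=
      (cg_const 1).add (((cg_hs (hF.sub (cgm_const 0))).smul (2 * L ^ 2)).add (cg_const _))
    obtain ⟨K, k, hK⟩ := hg.g
    refine ⟨K, k, fun x => le_trans ?_ (hK x)⟩
    refine le_trans ?_ (le_abs_self _)
    have h1 := hs_cfc_lip (hH x) (herm_zero (m := n)) hf
    have h2 := hs_add_le (θ := 1) one_pos (_root_.cfc f (F x) - _root_.cfc f (0 : Mat n))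
      (_root_.cfc f (0 : Mat n))
    rw [sub_add_cancel] at h2
    have h3 := sq_le_hs (_root_.cfc f (F x)) i j
    have h4 : |_root_.cfc f (F x) i j| ≤ 1 + _root_.cfc f (F x) i j ^ 2 := by
      have := sq_abs (_root_.cfc f (F x) i j)
      nlinarith [sq_nonneg (|_root_.cfc f (F x) i j| - 1), abs_nonneg (_root_.cfc f (F x) i j)]
    have h5 : (1 : ℝ) + 1⁻¹ = 2 := by norm_num
    have h6 : (1 : ℝ) + 1 = 2 := by norm_num
    rw [h5, h6] at h2
    show |_root_.cfc f (F x) i j| ≤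
      1 + (2 * L ^ 2 * hs (F x - 0) + 2 * hs (_root_.cfc f (0 : Mat n)))
    linarith

/-! ### evenness -/

lemma integral_neg_gam (g : E n → ℝ) : ∫ x, g (-x) ∂(gam n) = ∫ x, g x ∂(gam n) := by
  have h := stdGaussian_map (LinearIsometryEquiv.neg ℝ (E := E n))
  have h1 : (gam n).map (fun x : E n => -x) = gam n := h
  have h2 : MeasurePreserving (MeasurableEquiv.neg (E n)) (gam n) (gam n) :=
    ⟨(MeasurableEquiv.neg (E n)).measurable, h1⟩
  exact h2.integral_comp' g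

/-- `E g(-x) = E g(x)` -/
lemma EE_even (g : E n → ℝ) : EE (fun x => g (-x)) = EE g := integral_neg_gam g

/-- `Z₁ = Σ x_k T_k` -/
def Z1 (T : Fin n → Mat n) (x : E n) : Mat n := ∑ k, x k • T k

lemma Z1_neg (T : Fin n → Mat n) (x : E n) : Z1 T (-x) = -Z1 T x := by
  unfold Z1
  rw [← Finset.sum_neg_distrib]
  refine Finset.sum_congr rfl fun k _ => ?_
  rw [PiLp.neg_apply, neg_smul]

lemma cgm_Z1 (T : Fin n → Mat n) : CGm (Z1 T) := cgm_lin T

lemma herm_Z1 {T : Fin n → Mat n} (hT : ∀ k, (T k).IsHermitian) (x : E n) :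
    (Z1 T x).IsHermitian := by
  unfold Z1 Matrix.IsHermitian
  rw [Matrix.conjTranspose_sum]
  refine Finset.sum_congr rfl fun k _ => ?_
  rw [Matrix.conjTranspose_smul, hT k]
  simp

lemma cfc_neg_arg {A : Mat m} (hA : A.IsHermitian) (f : ℝ → ℝ) :
    _root_.cfc f (-A) = _root_.cfc (fun t => f (-t)) A := by
  obtain ⟨U, hU⟩ := exists_fr hA
  have hN : Fr (-A) U (fun i => -hA.eigenvalues i) := by
    refine ⟨hU.o, ?_⟩
    rw [Matrix.mul_neg, Matrix.neg_mul, hU.d, ← Matrix.diagonal_neg]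
  exact conj_inj hU.o' (by rw [hN.cfc, hU.cfc])

/-- `E Φ(f(Z₁)) = E Φ(f(-Z₁))` for every function `Φ` of the matrix -/
theorem EE_cfc_neg {T : Fin n → Mat n} (hT : ∀ k, (T k).IsHermitian) (f : ℝ → ℝ)
    (Φ : Mat n → ℝ) :
    EE (fun x => Φ (_root_.cfc f (Z1 T x))) =
      EE (fun x => Φ (_root_.cfc (fun t => f (-t)) (Z1 T x))) := by
  rw [← EE_even]
  refine EE_congr fun x => ?_
  rw [Z1_neg, cfc_neg_arg (herm_Z1 hT x)]



/-- `E hs (C Z₁) = Σ hs (C T_k)` -/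
theorem EE_hs_Z1 (T : Fin n → Mat n) (C : Mat n) :
    EE (fun x => hs (C * Z1 T x)) = ∑ k, hs (C * T k) := by
  have e : ∀ x : E n, hs (C * Z1 T x) =
      ∑ i, ∑ j, ∑ k, ∑ l, ((C * T k) i j * (C * T l) i j) * (x k * x l) := by
    intro x
    unfold hs
    refine Finset.sum_congr rfl fun i _ => Finset.sum_congr rfl fun j _ => ?_
    have h1 : (C * Z1 T x) i j = ∑ k, x k * (C * T k) i j := by
      unfold Z1
      rw [Matrix.mul_sum, Matrix.sum_apply]
      refine Finset.sum_congr rfl fun k _ => ?_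
      rw [Matrix.mul_smul, Matrix.smul_apply, smul_eq_mul]
    rw [h1, sq, Finset.sum_mul_sum]
    refine Finset.sum_congr rfl fun k _ => Finset.sum_congr rfl fun l _ => ?_
    ring
  have ckl : ∀ k l : Fin n, CG fun x : E n => x k * x l := fun k l =>
    (cg_coord k).mul (cg_coord l)
  have hkl : ∀ k l : Fin n, EE (fun x : E n => x k * x l) = if k = l then 1 else 0 := by
    intro k l
    have h := ibp_gam (n := n) (c1_coord k).c (c1_coord k).g l ((c1_coord k).p l)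
    have h2 : ∀ x : E n, pd l (fun x : E n => x k) x = if k = l then 1 else 0 := by
      intro x
      exact pd_coord l k x
    unfold EE
    rw [h]
    simp only [h2]
    simp
  rw [EE_congr e]
  rw [EE_sum fun i _ => CG.sum fun j _ => CG.sum fun k _ => CG.sum fun l _ => (ckl k l).smul _]
  have e2 : ∀ i : Fin n, EE (fun x : E n => ∑ j, ∑ k, ∑ l,
      ((C * T k) i j * (C * T l) i j) * (x k * x l)) = ∑ j, ∑ k, (C * T k) i j ^ 2 := by
    intro i
    rw [EE_sum fun j _ => CG.sum fun k _ => CG.sum fun l _ => (ckl k l).smul _]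
    refine Finset.sum_congr rfl fun j _ => ?_
    rw [EE_sum fun k _ => CG.sum fun l _ => (ckl k l).smul _]
    refine Finset.sum_congr rfl fun k _ => ?_
    rw [EE_sum fun l _ => (ckl k l).smul _]
    simp only [EE_smul, hkl]
    rw [Finset.sum_eq_single k]
    · simp [sq]
    · intro l _ hl
      simp [Ne.symm hl]
    · intro h
      exact absurd (Finset.mem_univ k) h
  simp only [e2]
  unfold hs
  have e3 : ∀ i : Fin n, ∑ j, ∑ k, (C * T k) i j ^ 2 = ∑ k, ∑ j, (C * T k) i j ^ 2 :=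
    fun i => Finset.sum_comm
  simp only [e3]
  rw [Finset.sum_comm]



/-! ### the lower bound -/


end Crest.Agent.R253.EvenHS427
end
end

-- ▼ part R253/EO_629
section

/-!
# R253: the even/odd lower bound of `Λ(b)` for a PSD constant matrix `b` (helper629)

`Λ(b) = E tr b (2k(ζ) - U² - Σ U_k²)`, `U = v(ζ) = ζ/4 + W`, `ζ = Z₁ + η`, `Z₁ = Σ x_k T_k`.
* `q_young`: the form `Σ ⟨∂f, ∂g⟩ - 2 ⟨f, g⟩` is nonnegative off the chaoses 0, 1; hence
  `Σ E ∂_kη ∂_kg - 3 E η g ≤ θ/2 (Σ E (∂_kη)² - 3/2 E η²) + 1/(2θ) Σ E (∂_kg)²`;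
* `lam_eo`: the exact identity;
* `eo_ge`: the lower bound, all constants parameters.
-/

set_option autoImplicit false

open MeasureTheory ProbabilityTheory Set Filter Topology Matrix

noncomputable section

namespace Crest.Agent.R253.EO629

open Crest.Agent.R238.Gap Crest.Agent.R253.SpecCalc999 Crest.Agent.R253.Meh74
  Crest.Agent.R253.SpecField321 Crest.Agent.R253.S3 Crest.Agent.R253.Stein378
  Crest.Agent.R253.LamB301 Crest.Agent.R253.ErrT378 Crest.Agent.R253.EvenHS427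

variable {n : ℕ}

/-! ### the form `⟨∂f, ∂g⟩ - 2 ⟨f, g⟩` -/

lemma EE_eta {f : E n → ℝ} (hf : C1 f) : EE (eta f) = 0 := integral_eta hf

lemma EE_pd_eta {f : E n → ℝ} (hf : C1 f) (i : Fin n) : EE (pd i (eta f)) = 0 :=
  integral_pd_eta hf i

/-- `E ηf · ηg = E ηf · g` -/
lemma EE_eta_mul {f g : E n → ℝ} (hf : C1 f) (hg : C1 g) :
    EE (fun x => eta f x * eta g x) = EE (fun x => eta f x * g x) := by
  have cF := c1_eta hf
  set m : ℝ := ∫ y, g y ∂(gam n) with hm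
  set c : Fin n → ℝ := fun k => ∫ y, pd k g y ∂(gam n) with hc
  have e : ∀ x, eta f x * eta g x = eta f x * g x -
      (m * eta f x + ∑ k, c k * (x k * eta f x)) := by
    intro x
    have h1 : eta g x = g x - m - ∑ k, c k * x k := rfl
    rw [h1, mul_sub, mul_sub, Finset.mul_sum]
    have h2 : ∑ k, eta f x * (c k * x k) = ∑ k, c k * (x k * eta f x) :=
      Finset.sum_congr rfl fun k _ => by ring
    rw [h2]
    ring
  have c1 : CG (fun x => eta f x * g x) := cF.cg.mul hg.cg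
  have c2 : CG (fun x => m * eta f x) := cF.cg.smul m
  have c3 : ∀ k, CG (fun x : E n => c k * (x k * eta f x)) := fun k =>
    ((cg_coord k).mul cF.cg).smul _
  have z : ∀ k, EE (fun x : E n => c k * (x k * eta f x)) = 0 := fun k => by
    rw [EE_smul, EE_coord cF k, EE_pd_eta hf, mul_zero]
  rw [EE_congr e, EE_sub c1 (c2.add (CG.sum fun k _ => c3 k)), EE_add c2 (CG.sum fun k _ => c3 k),
    EE_smul, EE_eta hf, EE_sum fun k _ => c3 k]
  simp only [z, Finset.sum_const_zero]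
  ring

lemma EE_pd_eta_mul {f g : E n → ℝ} (hf : C1 f) (hg : C1 g) (i : Fin n) :
    EE (fun x => pd i (eta f) x * pd i (eta g) x) = EE (fun x => pd i (eta f) x * pd i g x) := by
  have cF := c1_eta hf
  set c : ℝ := ∫ y, pd i g y ∂(gam n) with hc
  have e : ∀ x, pd i (eta f) x * pd i (eta g) x =
      pd i (eta f) x * pd i g x - c * pd i (eta f) x := by
    intro x
    rw [pd_eta hg]
    ring
  rw [EE_congr e, EE_sub ((cF.cgp i).mul (hg.cgp i)) ((cF.cgp i).smul c), EE_smul,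
    EE_pd_eta hf, mul_zero, sub_zero]

lemma EE_pd_eta_sq {g : E n → ℝ} (hg : C1 g) (i : Fin n) :
    EE (fun x => pd i (eta g) x ^ 2) ≤ EE (fun x => pd i g x ^ 2) := by
  have h := pd_sq_split hg i
  have h2 := sq_nonneg (∫ y, pd i g y ∂(gam n))
  unfold EE
  rw [h]
  linarith

/-- **the key Young inequality off the chaoses 0 and 1** -/
theorem q_young {f g : E n → ℝ} (hf : C1 f) (hg : C1 g) {θ : ℝ} (hθ : 0 < θ) :
    (∑ k, EE (fun x => pd k (eta f) x * pd k g x)) - 3 * EE (fun x => eta f x * g x) ≤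
      θ / 2 * ((∑ k, EE (fun x => pd k (eta f) x ^ 2)) - 3 / 2 * EE (fun x => eta f x ^ 2)) +
      1 / (2 * θ) * ∑ k, EE (fun x => pd k g x ^ 2) := by
  have cF := c1_eta hf
  have cG := c1_eta hg
  set F := eta f with hF
  set G := eta g with hG
  have ch : C1 (fun x => θ * F x - G x) := (cF.smul θ).sub cG
  have hpd : ∀ i x, pd i (fun x => θ * F x - G x) x = θ * pd i F x - pd i G x := by
    intro i x
    have e : (fun x => θ * F x - G x) = fun x => θ * F x + (-1) * G x := by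
      funext y; ring
    rw [e, (cF.smul θ).pd_add (cG.smul (-1)), (c1_const θ).pd_mul cF, (c1_const (-1)).pd_mul cG,
      pd_const_c, pd_const_c]
    ring
  have h0 : ∫ x, (θ * F x - G x) ∂(gam n) = 0 := by
    have h := EE_sub (cF.cg.smul θ) cG.cg
    rw [EE_smul, EE_eta hf, EE_eta hg] at h
    have h' : EE (fun x => θ * F x - G x) = 0 := by rw [h]; ring
    exact h'
  have h1 : ∀ i, ∫ x, pd i (fun x => θ * F x - G x) x ∂(gam n) = 0 := by
    intro i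
    have h := EE_sub ((cF.cgp i).smul θ) (cG.cgp i)
    rw [EE_smul, EE_pd_eta hf, EE_pd_eta hg] at h
    have h' : EE (fun x => θ * pd i F x - pd i G x) = 0 := by rw [h]; ring
    simp only [hpd]
    exact h'
  have hp := poincare2 ch h0 h1
  simp only [hpd] at hp
  change 2 * EE (fun x => (θ * F x - G x) ^ 2) ≤
    ∑ i, EE (fun x => (θ * pd i F x - pd i G x) ^ 2) at hp
  have x1 : EE (fun x => (θ * F x - G x) ^ 2) = θ ^ 2 * EE (fun x => F x ^ 2) -
      2 * θ * EE (fun x => F x * G x) + EE (fun x => G x ^ 2) := by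
    have c1 : CG (fun x => θ ^ 2 * F x ^ 2) := cF.cg.sq.smul _
    have c2 : CG (fun x => 2 * θ * (F x * G x)) := (cF.cg.mul cG.cg).smul _
    rw [← EE_smul, ← EE_smul, ← EE_sub c1 c2, ← EE_add (c1.sub c2) cG.cg.sq]
    exact EE_congr fun x => by ring
  have x2 : ∀ i, EE (fun x => (θ * pd i F x - pd i G x) ^ 2) =
      θ ^ 2 * EE (fun x => pd i F x ^ 2) -
      2 * θ * EE (fun x => pd i F x * pd i G x) + EE (fun x => pd i G x ^ 2) := by
    intro i
    have c1 : CG (fun x => θ ^ 2 * pd i F x ^ 2) := (cF.cgp i).sq.smul _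
    have c2 : CG (fun x => 2 * θ * (pd i F x * pd i G x)) := ((cF.cgp i).mul (cG.cgp i)).smul _
    rw [← EE_smul, ← EE_smul, ← EE_sub c1 c2, ← EE_add (c1.sub c2) (cG.cgp i).sq]
    exact EE_congr fun x => by ring
  have x3 : 0 ≤ θ ^ 2 / 4 * EE (fun x => F x ^ 2) + θ * EE (fun x => F x * G x) +
      EE (fun x => G x ^ 2) := by
    have h : 0 ≤ EE (fun x => (θ / 2 * F x + G x) ^ 2) := EE_nonneg fun x => sq_nonneg _
    have c1 : CG (fun x => θ ^ 2 / 4 * F x ^ 2) := cF.cg.sq.smul _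
    have c2 : CG (fun x => θ * (F x * G x)) := (cF.cg.mul cG.cg).smul _
    have e : EE (fun x => (θ / 2 * F x + G x) ^ 2) = θ ^ 2 / 4 * EE (fun x => F x ^ 2) +
        θ * EE (fun x => F x * G x) + EE (fun x => G x ^ 2) := by
      rw [← EE_smul, ← EE_smul, ← EE_add c1 c2, ← EE_add (c1.add c2) cG.cg.sq]
      exact EE_congr fun x => by ring
    rwa [e] at h
  rw [x1] at hp
  simp only [x2, Finset.sum_add_distrib, Finset.sum_sub_distrib, ← Finset.mul_sum] at hp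
  have y1 : EE (fun x => F x * G x) = EE (fun x => F x * g x) := EE_eta_mul hf hg
  have y2 : ∑ i, EE (fun x => pd i F x * pd i G x) = ∑ i, EE (fun x => pd i F x * pd i g x) :=
    Finset.sum_congr rfl fun i _ => EE_pd_eta_mul hf hg i
  have y3 : ∑ i, EE (fun x => pd i G x ^ 2) ≤ ∑ i, EE (fun x => pd i g x ^ 2) :=
    Finset.sum_le_sum fun i _ => EE_pd_eta_sq hg i
  rw [y1] at hp x3
  rw [y2] at hp
  generalize EE (fun x => F x ^ 2) = H at hp x3 ⊢
  generalize EE (fun x => G x ^ 2) = G2 at hp x3 ⊢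
  generalize EE (fun x => F x * g x) = Y at hp x3 ⊢
  generalize ∑ i, EE (fun x => pd i F x * pd i g x) = Q at hp ⊢
  generalize ∑ i, EE (fun x => pd i F x ^ 2) = P at hp ⊢
  generalize ∑ i, EE (fun x => pd i G x ^ 2) = D2 at hp y3 ⊢
  generalize ∑ i, EE (fun x => pd i g x ^ 2) = D at y3 ⊢
  have hi : 0 < 1 / (2 * θ) := by positivity
  have key : 2 * θ * (Q - 3 * Y) ≤ θ ^ 2 * P - 3 / 2 * θ ^ 2 * H + D := by nlinarith
  have k2 := mul_le_mul_of_nonneg_left key hi.le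
  have e1 : 1 / (2 * θ) * (2 * θ * (Q - 3 * Y)) = Q - 3 * Y := by field_simp
  have e2 : 1 / (2 * θ) * (θ ^ 2 * P - 3 / 2 * θ ^ 2 * H + D) =
      θ / 2 * (P - 3 / 2 * H) + 1 / (2 * θ) * D := by field_simp
  rw [e1, e2] at k2
  exact k2

/-! ### the field `W = v(ζ) - ζ/4` -/

section field

variable {Z : Fld n} {lo hi : ℝ} {v v1 : ℝ → ℝ}

/-- `W = v(ζ) - ζ/4` -/
def Wf (v : ℝ → ℝ) (Z : Fld n) (x : E n) : Mat n := sf v Z x - (1 / 4 : ℝ) • Mx Z x

/-- `W_k = ∂_k W` -/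
def Wd (v v1 : ℝ → ℝ) (Z : Fld n) (k : Fin n) (x : E n) : Mat n :=
  DK v v1 (Mx Z x) (S3.dZ Z k x) - (1 / 4 : ℝ) • S3.dZ Z k x

lemma c1m_W (hZ : MF Z lo hi) (hv : ∀ z ∈ Icc lo hi, HasDerivAt v (v1 z) z)
    (hv1 : ContinuousOn v1 (Icc lo hi)) : C1m (Wf v Z) := by
  intro i j
  exact (c1m_sf hZ hv hv1 i j).sub ((hZ.c i j).smul (1 / 4))

lemma dM_W (hZ : MF Z lo hi) (hv : ∀ z ∈ Icc lo hi, HasDerivAt v (v1 z) z)
    (hv1 : ContinuousOn v1 (Icc lo hi)) (k : Fin n) (x : E n) :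
    S3.dM k (Wf v Z) x = Wd v v1 Z k x := by
  ext i j
  have h1 := congrFun (congrFun (dM_sf hZ hv k x) i) j
  change pd k (fun y => sf v Z y i j) x = DK v v1 (Mx Z x) (S3.dZ Z k x) i j at h1
  change pd k (fun y => Wf v Z y i j) x =
    DK v v1 (Mx Z x) (S3.dZ Z k x) i j - 1 / 4 * pd k (Z i j) x
  have e : (fun y => Wf v Z y i j) = fun y => sf v Z y i j + (-(1 / 4)) * Z i j y := by
    funext y
    change sf v Z y i j - 1 / 4 * Z i j y = _
    ring
  rw [e, (c1m_sf hZ hv hv1 i j).pd_add ((hZ.c i j).smul _), (c1_const _).pd_mul (hZ.c i j),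
    pd_const_c, h1]
  ring

lemma cgm_W (hZ : MF Z lo hi) (hv : ∀ z ∈ Icc lo hi, HasDerivAt v (v1 z) z)
    (hv1 : ContinuousOn v1 (Icc lo hi)) : CGm (Wf v Z) := (c1m_W hZ hv hv1).cg

lemma cgm_Wd (hZ : MF Z lo hi) (hv : ∀ z ∈ Icc lo hi, HasDerivAt v (v1 z) z)
    (hv1 : ContinuousOn v1 (Icc lo hi)) (k : Fin n) : CGm (Wd v v1 Z k) :=
  (cgm_DK hZ hv hv1 k).sub ((cgm_dZ hZ k).smulc _)

lemma W_t (hZ : MF Z lo hi) (x : E n) : (Wf v Z x)ᵀ = Wf v Z x := by
  unfold Wf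
  rw [Matrix.transpose_sub, Matrix.transpose_smul, sf_t, Mx_t hZ]

lemma Wd_t (hZ : MF Z lo hi) (k : Fin n) (x : E n) : (Wd v v1 Z k x)ᵀ = Wd v v1 Z k x := by
  unfold Wd
  rw [Matrix.transpose_sub, Matrix.transpose_smul, DK_t _ _ _ _ (dZ_t hZ k x), dZ_t hZ]

lemma Wd_eq (hZ : MF Z lo hi) (k : Fin n) (x : E n) :
    Wd v v1 Z k x = S3.dZ Z k x * sf (fun z => v1 z - 1 / 4) Z x +
      KR v v1 (Mx Z x) (S3.dZ Z k x) := by
  unfold Wd KR
  rw [sf_sub_const hZ, Matrix.mul_sub, Matrix.mul_smul, Matrix.mul_one]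
  unfold sf
  abel

lemma sf_w (hZ : MF Z lo hi) (x : E n) : sf (fun z => v z - 1 / 4 * z) Z x = Wf v Z x := by
  obtain ⟨U, hU⟩ := exists_fr (hZ.h x)
  apply conj_inj hU.o'
  unfold Wf sf
  rw [hU.cfc, Matrix.mul_sub, Matrix.sub_mul, hU.cfc, Matrix.mul_smul, Matrix.smul_mul, hU.d,
    ← Matrix.diagonal_smul, Matrix.diagonal_sub]
  congr 1

lemma sf_F2 (hZ : MF Z lo hi) (F : ℝ → ℝ) (x : E n) :
    sf F Z x = sf (fun z => F z - 3 / 2 * (z * v z)) Z x +
      (3 / 2 : ℝ) • (Mx Z x * sf v Z x) := by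
  obtain ⟨U, hU⟩ := exists_fr (hZ.h x)
  apply conj_inj hU.o'
  unfold sf
  rw [hU.cfc, Matrix.mul_add, Matrix.add_mul, hU.cfc, Matrix.mul_smul, Matrix.smul_mul,
    Jord192.conj_mul hU.o', hU.d, hU.cfc, Matrix.diagonal_mul_diagonal, ← Matrix.diagonal_smul,
    Matrix.diagonal_add]
  congr 1
  funext i
  simp only [Pi.smul_apply, smul_eq_mul]
  ring

/-! ### the exact identity -/

/-- **the exact even/odd identity** -/
theorem lam_eo (hZ : MF Z lo hi) {F : ℝ → ℝ} (hFc : ContinuousOn F (Icc lo hi))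
    (hv : ∀ z ∈ Icc lo hi, HasDerivAt v (v1 z) z) (hv1 : ContinuousOn v1 (Icc lo hi))
    {b : Mat n} (hb : bᵀ = b) {T : Fin n → Mat n} (hTs : ∀ k, (T k)ᵀ = T k)
    (hT : ∀ k, EM (S3.dZ Z k) = T k) :
    Lam F v v1 Z b =
      TE (fun x => b * sf (fun z => F z - 3 / 2 * (z * v z)) Z x) +
      5 / 16 * (b * ∑ k, T k * T k).trace +
      3 / 8 * TE (fun x => b * (eta0 Z T x * eta0 Z T x)) -
      1 / 16 * ∑ k, TE (fun x => b * (pk Z T k x * pk Z T k x)) +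
      TE (fun x => b * (Z1 T x * Wf v Z x)) +
      1 / 2 * (3 * TE (fun x => b * (eta0 Z T x * Wf v Z x)) -
        ∑ k, TE (fun x => b * (pk Z T k x * Wd v v1 Z k x))) -
      ∑ k, TE (fun x => b * (Wd v v1 Z k x * Wd v v1 Z k x)) := by
  have cb := cgm_const (n := n) b
  have cM := cgm_Mx hZ
  have cW := cgm_W hZ hv hv1
  have cWd := fun k => cgm_Wd hZ hv hv1 k
  have cd := fun k => cgm_dZ hZ k
  have cp := fun k => cgm_pk hZ T k
  have cη := cgm_eta0 hZ T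
  have cT := fun k => cgm_const (n := n) (T k)
  have hvc : ContinuousOn v (Icc lo hi) := contOn_of_deriv hv
  have cL : CGm (Z1 T) := cgm_Z1 T
  -- the first term
  have a1 : TE (fun x => b * sf F Z x) =
      TE (fun x => b * sf (fun z => F z - 3 / 2 * (z * v z)) Z x) +
      3 / 8 * TE (fun x => b * (Mx Z x * Mx Z x)) +
      3 / 2 * TE (fun x => b * (Z1 T x * Wf v Z x)) +
      3 / 2 * TE (fun x => b * (eta0 Z T x * Wf v Z x)) := by
    have e : ∀ x, b * sf F Z x = b * sf (fun z => F z - 3 / 2 * (z * v z)) Z x +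
        (3 / 8 : ℝ) • (b * (Mx Z x * Mx Z x)) + (3 / 2 : ℝ) • (b * (Z1 T x * Wf v Z x)) +
        (3 / 2 : ℝ) • (b * (eta0 Z T x * Wf v Z x)) := by
      intro x
      have h1 : Mx Z x = Z1 T x + eta0 Z T x := by unfold Z1 eta0; abel
      have h2 : sf v Z x = Wf v Z x + (1 / 4 : ℝ) • Mx Z x := by unfold Wf; abel
      have h3 : Mx Z x * sf v Z x = Z1 T x * Wf v Z x + eta0 Z T x * Wf v Z x +
          (1 / 4 : ℝ) • (Mx Z x * Mx Z x) := by
        rw [h2, Matrix.mul_add, Matrix.mul_smul]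
        congr 1
        rw [← Matrix.add_mul, ← h1]
      rw [sf_F2 (v := v) hZ F x, h3]
      simp only [Matrix.mul_add, Matrix.mul_smul, smul_add, smul_smul]
      have h4 : (3 / 2 * (1 / 4) : ℝ) = 3 / 8 := by norm_num
      rw [h4]
      abel
    have c0 : CGm (fun x => b * sf (fun z => F z - 3 / 2 * (z * v z)) Z x) :=
      cb.mul (cgm_cfc hZ (hFc.sub (continuousOn_const.mul (continuousOn_id.mul hvc))))
    have c1 : CGm (fun x => (3 / 8 : ℝ) • (b * (Mx Z x * Mx Z x))) := (cb.mul (cM.mul cM)).smulc _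
    have c2 : CGm (fun x => (3 / 2 : ℝ) • (b * (Z1 T x * Wf v Z x))) :=
      (cb.mul (cL.mul cW)).smulc _
    have c3 : CGm (fun x => (3 / 2 : ℝ) • (b * (eta0 Z T x * Wf v Z x))) :=
      (cb.mul (cη.mul cW)).smulc _
    rw [TE_congr e, TE_add ((c0.add c1).add c2) c3, TE_add (c0.add c1) c2, TE_add c0 c1, TE_smul,
      TE_smul, TE_smul]
  -- the Gaussian integration by parts
  have a2 : TE (fun x => b * (Z1 T x * Wf v Z x)) =
      ∑ k, TE (fun x => b * (T k * Wd v v1 Z k x)) := by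
    have h := stein0 hZ (c1m_W hZ hv hv1) b T
    have e : ∀ x, b * (Mx Z x * Wf v Z x) = b * (Z1 T x * Wf v Z x) +
        b * (eta0 Z T x * Wf v Z x) := by
      intro x
      have h1 : Mx Z x = Z1 T x + eta0 Z T x := by unfold Z1 eta0; abel
      rw [← Matrix.mul_add, ← Matrix.add_mul, ← h1]
    rw [TE_congr e, TE_add (cb.mul (cL.mul cW)) (cb.mul (cη.mul cW))] at h
    have e2 : ∀ k, TE (fun x => b * (T k * S3.dM k (Wf v Z) x)) =
        TE (fun x => b * (T k * Wd v v1 Z k x)) := fun k =>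
      TE_congr fun x => by rw [dM_W hZ hv hv1]
    simp only [e2] at h
    linarith
  -- the squares
  have a3 : ∀ k, TE (fun x => b * (DK v v1 (Mx Z x) (S3.dZ Z k x) *
      DK v v1 (Mx Z x) (S3.dZ Z k x))) =
      TE (fun x => b * (Wd v v1 Z k x * Wd v v1 Z k x)) +
      1 / 2 * (TE (fun x => b * (T k * Wd v v1 Z k x)) +
        TE (fun x => b * (pk Z T k x * Wd v v1 Z k x))) +
      1 / 16 * ((b * (T k * T k)).trace + TE (fun x => b * (pk Z T k x * pk Z T k x))) := by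
    intro k
    have e : ∀ x, (b * (DK v v1 (Mx Z x) (S3.dZ Z k x) *
        DK v v1 (Mx Z x) (S3.dZ Z k x))).trace =
        (b * (Wd v v1 Z k x * Wd v v1 Z k x)).trace +
        1 / 2 * ((b * (T k * Wd v v1 Z k x)).trace + (b * (pk Z T k x * Wd v v1 Z k x)).trace) +
        1 / 16 * ((b * (T k * T k)).trace + 2 * (b * T k * pk Z T k x * 1).trace +
          (b * (pk Z T k x * pk Z T k x)).trace) := by
      intro x
      have hW := Wd_t (v := v) (v1 := v1) hZ k x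
      have hpt : (pk Z T k x)ᵀ = pk Z T k x := by
        unfold pk; rw [Matrix.transpose_sub, dZ_t hZ, hTs]
      have h1 : DK v v1 (Mx Z x) (S3.dZ Z k x) =
          Wd v v1 Z k x + (1 / 4 : ℝ) • (T k + pk Z T k x) := by
        unfold Wd pk; rw [add_sub_cancel]; abel
      have h2 : (b * (Wd v v1 Z k x * (T k + pk Z T k x))).trace =
          (b * ((T k + pk Z T k x) * Wd v v1 Z k x)).trace := by
        rw [← tr_t hb (Wd v v1 Z k x * (T k + pk Z T k x)), Matrix.transpose_mul, hW,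
          Matrix.transpose_add, hTs, hpt]
      have h3 : (b * (pk Z T k x * T k)).trace = (b * (T k * pk Z T k x)).trace := by
        rw [← tr_t hb (pk Z T k x * T k), Matrix.transpose_mul, hTs, hpt]
      rw [h1]
      generalize Wd v v1 Z k x = W at h2 ⊢
      generalize pk Z T k x = p at h2 h3 ⊢
      simp only [Matrix.mul_add, Matrix.add_mul, Matrix.mul_smul, Matrix.smul_mul, smul_smul,
        smul_add, Matrix.trace_add, Matrix.trace_smul, smul_eq_mul, Matrix.mul_one,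
        Matrix.mul_assoc] at h2 h3 ⊢
      linarith
    have c1 : CG (fun x => (b * (Wd v v1 Z k x * Wd v v1 Z k x)).trace) :=
      (cb.mul ((cWd k).mul (cWd k))).trace
    have c2 : CG (fun x => (b * (T k * Wd v v1 Z k x)).trace) :=
      (cb.mul ((cT k).mul (cWd k))).trace
    have c3 : CG (fun x => (b * (pk Z T k x * Wd v v1 Z k x)).trace) :=
      (cb.mul ((cp k).mul (cWd k))).trace
    have c4 : CG (fun _ : E n => (b * (T k * T k)).trace) := cg_const _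
    have c5 : CG (fun x => (b * T k * pk Z T k x * 1).trace) :=
      (((cgm_const (b * T k)).mul (cp k)).mul (cgm_const 1)).trace
    have c6 : CG (fun x => (b * (pk Z T k x * pk Z T k x)).trace) :=
      (cb.mul ((cp k).mul (cp k))).trace
    have z : EE (fun x => (b * T k * pk Z T k x * 1).trace) = 0 :=
      EM_zero_tr (cp k) (EM_pk hZ hT k) (b * T k) 1
    have h := EE_congr e
    rw [EE_add (c1.add ((c2.add c3).smul _)) (((c4.add (c5.smul 2)).add c6).smul _),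
      EE_add c1 ((c2.add c3).smul _), EE_smul, EE_smul, EE_add c2 c3,
      EE_add (c4.add (c5.smul 2)) c6, EE_add c4 (c5.smul 2), EE_smul, EE_const, z, mul_zero,
      add_zero] at h
    exact h
  have a4 : (b * ∑ k, T k * T k).trace = ∑ k, (b * (T k * T k)).trace := by
    rw [Matrix.mul_sum, Matrix.trace_sum]
  have a5 := TE_ZZ hZ hT b
  unfold Lam
  rw [a1, a5, Finset.sum_congr rfl fun k _ => a3 k]
  simp only [Finset.sum_add_distrib, ← Finset.mul_sum]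
  rw [← a2, ← a4]
  ring

/-! ### the squares `Σ tr Q W_k²` -/

/-- pointwise: `tr Q W_k² ≤ (1+ε) κ² tr Q (∂_kζ)² + (1+1/ε) tr Q K K^T` -/
lemma wd_point (hZ : MF Z lo hi) {κ ε : ℝ} (hε : 0 < ε)
    (hκ : ∀ z ∈ Icc lo hi, |v1 z - 1 / 4| ≤ κ) {Q : Mat n} (hQ : Q.PosSemidef) (k : Fin n)
    (x : E n) :
    (Q * (Wd v v1 Z k x * Wd v v1 Z k x)).trace ≤
      (1 + ε) * κ ^ 2 * (Q * (S3.dZ Z k x * S3.dZ Z k x)).trace +
      (1 + 1 / ε) * (Q * (KR v v1 (Mx Z x) (S3.dZ Z k x) *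
        (KR v v1 (Mx Z x) (S3.dZ Z k x))ᵀ)).trace := by
  set A := S3.dZ Z k x with hA
  set w : Mat n := sf (fun z => v1 z - 1 / 4) Z x with hw
  set K := KR v v1 (Mx Z x) A with hK
  have hAt : Aᵀ = A := dZ_t hZ k x
  have hwt : wᵀ = w := sf_t _ _
  have e0 : Wd v v1 Z k x = A * w + K := Wd_eq hZ k x
  have e1 : Wd v v1 Z k x * Wd v v1 Z k x = (A * w + K) * (A * w + K)ᵀ := by
    rw [← e0, Wd_t hZ]
  have h1 := tr_psd_mul_transpose hQ (ε • (A * w) - K)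
  have h2 : (Q * (A * w * (A * w)ᵀ)).trace ≤ κ ^ 2 * (Q * (A * A)).trace := by
    have h := tr_pWp_le (A := Mx Z x) (hZ.h x) (w := fun z => v1 z - 1 / 4) (κ := κ)
      (fun a ha => hκ a (hZ.s x ha)) (B := -Q) (Q := Q) (p := A) hQ
      (by rw [add_neg_cancel]; exact Matrix.PosSemidef.zero) hAt
    rw [Matrix.neg_mul, Matrix.trace_neg, neg_neg] at h
    have e : A * w * (A * w)ᵀ = A * (_root_.cfc (fun z => v1 z - 1 / 4) (Mx Z x) *
        _root_.cfc (fun z => v1 z - 1 / 4) (Mx Z x)) * A := by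
      rw [Matrix.transpose_mul, hwt, hAt, hw]
      unfold sf
      simp only [Matrix.mul_assoc]
    rw [e]
    exact h
  have h3 : (Q * (K * (A * w)ᵀ)).trace = (Q * (A * w * Kᵀ)).trace := by
    have hQt : Qᵀ = Q := by
      have := hQ.isHermitian
      rwa [Matrix.IsHermitian, conjTranspose_eq_transpose_of_trivial] at this
    rw [← tr_t hQt (K * (A * w)ᵀ), Matrix.transpose_mul, Matrix.transpose_transpose]
  rw [e1]
  generalize A * w = D at h1 h2 h3 ⊢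
  generalize (Q * (A * A)).trace = a at h2 ⊢
  simp only [Matrix.transpose_add, Matrix.transpose_sub, Matrix.transpose_smul, Matrix.mul_add,
    Matrix.add_mul, Matrix.mul_sub, Matrix.sub_mul, Matrix.mul_smul, Matrix.smul_mul,
    Matrix.trace_add, Matrix.trace_sub, Matrix.trace_smul, smul_eq_mul] at h1 h2 h3 ⊢
  rw [h3] at h1 ⊢
  generalize (Q * (D * Dᵀ)).trace = dd at h1 h2 ⊢
  generalize (Q * (D * Kᵀ)).trace = dk at h1 ⊢
  generalize (Q * (K * Kᵀ)).trace = kk at h1 ⊢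
  have hi : 0 < 1 / ε := by positivity
  have h4 := mul_le_mul_of_nonneg_left h1 hi.le
  have e4 : 1 / ε * (ε * ε * dd - ε * dk - (ε * dk - kk)) =
      ε * dd - 2 * dk + 1 / ε * kk := by
    field_simp
    ring
  rw [mul_zero] at h4
  have h5 : 0 ≤ ε * dd - 2 * dk + 1 / ε * kk := by
    rw [← e4]
    refine le_of_le_of_eq h4 ?_
    ring
  have h6 := mul_le_mul_of_nonneg_left h2 (show (0 : ℝ) ≤ 1 + ε by positivity)
  have e6 : (1 + ε) * (κ ^ 2 * a) = (1 + ε) * κ ^ 2 * a := by ring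
  rw [e6] at h6
  linarith

/-- second moments of `∂_kζ` -/
lemma TE_dd (hZ : MF Z lo hi) {T : Fin n → Mat n} (hTs : ∀ k, (T k)ᵀ = T k)
    (hT : ∀ k, EM (S3.dZ Z k) = T k) {Q : Mat n} (hQ : Qᵀ = Q) (k : Fin n) :
    TE (fun x => Q * (S3.dZ Z k x * S3.dZ Z k x)) =
      (Q * (T k * T k)).trace + TE (fun x => Q * (pk Z T k x * pk Z T k x)) := by
  have cQ := cgm_const (n := n) Q
  have cp := cgm_pk hZ T k
  have e : ∀ x, (Q * (S3.dZ Z k x * S3.dZ Z k x)).trace =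
      (Q * (T k * T k)).trace + 2 * (Q * T k * pk Z T k x * 1).trace +
        (Q * (pk Z T k x * pk Z T k x)).trace := by
    intro x
    have hpt : (pk Z T k x)ᵀ = pk Z T k x := by
      unfold pk; rw [Matrix.transpose_sub, dZ_t hZ, hTs]
    have h1 : S3.dZ Z k x = T k + pk Z T k x := by unfold pk; abel
    have h3 : (Q * (pk Z T k x * T k)).trace = (Q * (T k * pk Z T k x)).trace := by
      rw [← tr_t hQ (pk Z T k x * T k), Matrix.transpose_mul, hTs, hpt]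
    rw [h1]
    generalize pk Z T k x = p at h3 ⊢
    simp only [Matrix.mul_add, Matrix.add_mul, Matrix.trace_add, Matrix.mul_one,
      Matrix.mul_assoc] at h3 ⊢
    linarith
  have c4 : CG (fun _ : E n => (Q * (T k * T k)).trace) := cg_const _
  have c5 : CG (fun x => (Q * T k * pk Z T k x * 1).trace) :=
    (((cgm_const (Q * T k)).mul cp).mul (cgm_const 1)).trace
  have c6 : CG (fun x => (Q * (pk Z T k x * pk Z T k x)).trace) := (cQ.mul (cp.mul cp)).trace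
  have z : EE (fun x => (Q * T k * pk Z T k x * 1).trace) = 0 :=
    EM_zero_tr cp (EM_pk hZ hT k) (Q * T k) 1
  have h := EE_congr e
  rw [EE_add (c4.add (c5.smul 2)) c6, EE_add c4 (c5.smul 2), EE_smul, EE_const, z, mul_zero,
    add_zero] at h
  exact h

/-- **`Σ E tr Q W_k²`** -/
theorem wd_le (hZ : MF Z lo hi) (hv : ∀ z ∈ Icc lo hi, HasDerivAt v (v1 z) z)
    (hv1 : ContinuousOn v1 (Icc lo hi)) {T : Fin n → Mat n} (hTs : ∀ k, (T k)ᵀ = T k)
    (hT : ∀ k, EM (S3.dZ Z k) = T k) {sl : ℝ → ℝ → ℝ} {Sl : E n → ℝ} (cSl : CG Sl)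
    (hSl : ∀ x, ∃ U s, Fr (Mx Z x) U s ∧ ∑ k, Jord192.slk sl U s (S3.dZ Z k x) ≤ Sl x)
    {Ce κ ε c : ℝ} (hε : 0 < ε) (hc : 0 ≤ c) (hC : 0 ≤ Ce)
    (he : ∀ a ∈ Icc lo hi, ∀ d ∈ Icc lo hi, (dd1 v v1 a d - v1 d) ^ 2 ≤ Ce * sl a d)
    (hκ : ∀ z ∈ Icc lo hi, |v1 z - 1 / 4| ≤ κ) {Q : Mat n} (hQ : Q.PosSemidef)
    (hQc : ∀ X : Mat n, (Q * (X * Xᵀ)).trace ≤ c * hs X) :
    ∑ k, TE (fun x => Q * (Wd v v1 Z k x * Wd v v1 Z k x)) ≤
      (1 + ε) * κ ^ 2 * ((Q * ∑ k, T k * T k).trace +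
        ∑ k, TE (fun x => Q * (pk Z T k x * pk Z T k x))) +
      (1 + 1 / ε) * (c * Ce) * EE Sl := by
  have cQ := cgm_const (n := n) Q
  have cWd := fun k => cgm_Wd hZ hv hv1 k
  have cd := fun k => cgm_dZ hZ k
  have hQt : Qᵀ = Q := by
    have := hQ.isHermitian
    rwa [Matrix.IsHermitian, conjTranspose_eq_transpose_of_trivial] at this
  have hpt : ∀ x, ∑ k, (Q * (Wd v v1 Z k x * Wd v v1 Z k x)).trace ≤
      (1 + ε) * κ ^ 2 * ∑ k, (Q * (S3.dZ Z k x * S3.dZ Z k x)).trace +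
      (1 + 1 / ε) * (c * Ce) * Sl x := by
    intro x
    obtain ⟨U, s, hU, hs1⟩ := hSl x
    have hsp : ∀ a ∈ spectrum ℝ (Mx Z x), a ∈ Icc lo hi := fun a ha => hZ.s x ha
    have h1 : ∀ k, (Q * (Wd v v1 Z k x * Wd v v1 Z k x)).trace ≤
        (1 + ε) * κ ^ 2 * (Q * (S3.dZ Z k x * S3.dZ Z k x)).trace +
        (1 + 1 / ε) * (c * Ce) * Jord192.slk sl U s (S3.dZ Z k x) := by
      intro k
      have a := wd_point (v := v) (v1 := v1) hZ hε hκ hQ k x
      have b1 := hQc (KR v v1 (Mx Z x) (S3.dZ Z k x))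
      have b2 := hs_KR_le hU (f := v) (f' := v1) (sl := sl) (C := Ce)
        (fun a ha d hd => he a (hsp a ha) d (hsp d hd)) (S3.dZ Z k x)
      have b3 := b1.trans (mul_le_mul_of_nonneg_left b2 hc)
      have b4 := mul_le_mul_of_nonneg_left b3 (show (0 : ℝ) ≤ 1 + 1 / ε by positivity)
      have e4 : (1 + 1 / ε) * (c * (Ce * Jord192.slk sl U s (S3.dZ Z k x))) =
          (1 + 1 / ε) * (c * Ce) * Jord192.slk sl U s (S3.dZ Z k x) := by ring
      rw [e4] at b4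
      linarith
    refine (Finset.sum_le_sum fun k _ => h1 k).trans ?_
    rw [Finset.sum_add_distrib, ← Finset.mul_sum, ← Finset.mul_sum]
    have h2 : (1 + 1 / ε) * (c * Ce) * ∑ k, Jord192.slk sl U s (S3.dZ Z k x) ≤
        (1 + 1 / ε) * (c * Ce) * Sl x :=
      mul_le_mul_of_nonneg_left hs1 (by positivity)
    linarith
  have c1 : ∀ k, CG (fun x => (Q * (Wd v v1 Z k x * Wd v v1 Z k x)).trace) := fun k =>
    (cQ.mul ((cWd k).mul (cWd k))).trace
  have c2 : ∀ k, CG (fun x => (Q * (S3.dZ Z k x * S3.dZ Z k x)).trace) := fun k =>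
    (cQ.mul ((cd k).mul (cd k))).trace
  have h := EE_mono (CG.sum fun k _ => c1 k)
    (((CG.sum fun k _ => c2 k).smul _).add (cSl.smul _)) hpt
  rw [EE_add ((CG.sum fun k _ => c2 k).smul _) (cSl.smul _), EE_smul, EE_smul,
    EE_sum fun k _ => c1 k, EE_sum fun k _ => c2 k] at h
  have e1 : ∑ k, EE (fun x => (Q * (S3.dZ Z k x * S3.dZ Z k x)).trace) =
      (Q * ∑ k, T k * T k).trace + ∑ k, TE (fun x => Q * (pk Z T k x * pk Z T k x)) := by
    rw [Matrix.mul_sum, Matrix.trace_sum, ← Finset.sum_add_distrib]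
    exact Finset.sum_congr rfl fun k _ => TE_dd hZ hTs hT hQt k
  rw [e1] at h
  exact h

/-! ### the term `Σ E tr b p_k W_k - 3 E tr b η W` -/

lemma tr_entries {b Y : Mat n} (hb : bᵀ = b) (hY : Yᵀ = Y) (X : Mat n) :
    (b * (X * Y)).trace = ∑ i, ∑ j, X i j * (b * Y) i j := by
  have h1 : (b * (X * Y)).trace = (X * (Y * b)).trace := by
    rw [Matrix.trace_mul_comm, Matrix.mul_assoc]
  have h2 : Y * b = (b * Y)ᵀ := by rw [Matrix.transpose_mul, hb, hY]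
  rw [h1, h2]
  simp only [Matrix.trace, Matrix.diag_apply, Matrix.mul_apply (M := X), Matrix.transpose_apply]

lemma eta_entry (hZ : MF Z lo hi) {T : Fin n → Mat n} (hT : ∀ k, EM (S3.dZ Z k) = T k)
    (h0 : EM (Mx Z) = 0) (i j : Fin n) (x : E n) : eta (Z i j) x = eta0 Z T x i j := by
  have h1 : ∫ y, Z i j y ∂(gam n) = 0 := by
    have := congrFun (congrFun h0 i) j
    exact this
  have h2 : ∀ k, ∫ y, pd k (Z i j) y ∂(gam n) = T k i j := fun k => by
    have := congrFun (congrFun (hT k) i) j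
    exact this
  have e : eta0 Z T x i j = Z i j x - (∑ k, x k • T k) i j := rfl
  rw [e, Matrix.sum_apply]
  unfold eta
  simp only [h1, h2, sub_zero, Matrix.smul_apply, smul_eq_mul]
  congr 1
  exact Finset.sum_congr rfl fun k _ => mul_comm _ _

lemma pd_eta_entry (hZ : MF Z lo hi) {T : Fin n → Mat n} (hT : ∀ k, EM (S3.dZ Z k) = T k)
    (i j k : Fin n) (x : E n) : pd k (eta (Z i j)) x = pk Z T k x i j := by
  have h2 : ∫ y, pd k (Z i j) y ∂(gam n) = T k i j := by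
    have := congrFun (congrFun (hT k) i) j
    exact this
  rw [pd_eta (hZ.c i j), h2]
  rfl

/-- **the `(η, W)` block** -/
theorem block_le (hZ : MF Z lo hi) (hv : ∀ z ∈ Icc lo hi, HasDerivAt v (v1 z) z)
    (hv1 : ContinuousOn v1 (Icc lo hi)) {b : Mat n} (hb : bᵀ = b) {T : Fin n → Mat n}
    (hT : ∀ k, EM (S3.dZ Z k) = T k) (h0 : EM (Mx Z) = 0) {θ : ℝ} (hθ : 0 < θ) :
    (∑ k, TE (fun x => b * (pk Z T k x * Wd v v1 Z k x))) -
        3 * TE (fun x => b * (eta0 Z T x * Wf v Z x)) ≤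
      θ / 2 * ((∑ k, EE (fun x => hs (pk Z T k x))) - 3 / 2 * EE (fun x => hs (eta0 Z T x))) +
      1 / (2 * θ) * ∑ k, TE (fun x => b * b * (Wd v v1 Z k x * Wd v v1 Z k x)) := by
  have cη := cgm_eta0 hZ T
  have cp := fun k => cgm_pk hZ T k
  have cW := c1m_W hZ hv hv1
  have cWd := fun k => cgm_Wd hZ hv hv1 k
  have cb := cgm_const (n := n) b
  set g : Fin n → Fin n → E n → ℝ := fun i j x => (b * Wf v Z x) i j with hg
  have cg1 : ∀ i j, C1 (g i j) := fun i j => (C1m.mul (c1m_const b) cW) i j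
  have hpg : ∀ i j k x, pd k (g i j) x = (b * Wd v v1 Z k x) i j := by
    intro i j k x
    have e : g i j = fun y => ∑ l, b i l * Wf v Z y l j := by
      funext y; simp only [hg, Matrix.mul_apply]
    rw [e, pd_sum' fun l _ => (cW l j).smul _, Matrix.mul_apply]
    refine Finset.sum_congr rfl fun l _ => ?_
    rw [(c1_const _).pd_mul (cW l j), pd_const_c, zero_mul, zero_add, ← dM_W hZ hv hv1]
    rfl
  have key : ∀ i j, (∑ k, EE (fun x => pk Z T k x i j * (b * Wd v v1 Z k x) i j)) -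
      3 * EE (fun x => eta0 Z T x i j * (b * Wf v Z x) i j) ≤
      θ / 2 * ((∑ k, EE (fun x => pk Z T k x i j ^ 2)) -
        3 / 2 * EE (fun x => eta0 Z T x i j ^ 2)) +
      1 / (2 * θ) * ∑ k, EE (fun x => (b * Wd v v1 Z k x) i j ^ 2) := by
    intro i j
    have h := q_young (hZ.c i j) (cg1 i j) hθ
    simp only [eta_entry hZ hT h0, pd_eta_entry hZ hT, hpg] at h
    exact h
  have hsum := Finset.sum_le_sum fun i (_ : i ∈ Finset.univ) =>
    Finset.sum_le_sum fun j (_ : j ∈ Finset.univ) => key i j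
  simp only [Finset.sum_add_distrib, Finset.sum_sub_distrib, ← Finset.mul_sum] at hsum
  -- reassemble
  have r1 : ∑ k, TE (fun x => b * (pk Z T k x * Wd v v1 Z k x)) =
      ∑ i, ∑ j, ∑ k, EE (fun x => pk Z T k x i j * (b * Wd v v1 Z k x) i j) := by
    have h1 : ∀ k, TE (fun x => b * (pk Z T k x * Wd v v1 Z k x)) =
        ∑ i, ∑ j, EE (fun x => pk Z T k x i j * (b * Wd v v1 Z k x) i j) := by
      intro k
      rw [← EE_sum2 fun i j => ((cp k) i j).mul ((cb.mul (cWd k)) i j)]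
      exact EE_congr fun x => tr_entries hb (Wd_t hZ k x) _
    simp only [h1]
    rw [Finset.sum_comm]
    exact Finset.sum_congr rfl fun i _ => Finset.sum_comm
  have r2 : TE (fun x => b * (eta0 Z T x * Wf v Z x)) =
      ∑ i, ∑ j, EE (fun x => eta0 Z T x i j * (b * Wf v Z x) i j) := by
    rw [← EE_sum2 fun i j => (cη i j).mul ((cb.mul cW.cg) i j)]
    exact EE_congr fun x => tr_entries hb (W_t hZ x) _
  have r3 : ∑ k, EE (fun x => hs (pk Z T k x)) =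
      ∑ i, ∑ j, ∑ k, EE (fun x => pk Z T k x i j ^ 2) := by
    have h1 : ∀ k, EE (fun x => hs (pk Z T k x)) =
        ∑ i, ∑ j, EE (fun x => pk Z T k x i j ^ 2) := by
      intro k
      rw [← EE_sum2 fun i j => ((cp k) i j).sq]
      rfl
    simp only [h1]
    rw [Finset.sum_comm]
    exact Finset.sum_congr rfl fun i _ => Finset.sum_comm
  have r4 : EE (fun x => hs (eta0 Z T x)) = ∑ i, ∑ j, EE (fun x => eta0 Z T x i j ^ 2) := by
    rw [← EE_sum2 fun i j => (cη i j).sq]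
    rfl
  have r5 : ∑ k, TE (fun x => b * b * (Wd v v1 Z k x * Wd v v1 Z k x)) =
      ∑ i, ∑ j, ∑ k, EE (fun x => (b * Wd v v1 Z k x) i j ^ 2) := by
    have h1 : ∀ k, TE (fun x => b * b * (Wd v v1 Z k x * Wd v v1 Z k x)) =
        ∑ i, ∑ j, EE (fun x => (b * Wd v v1 Z k x) i j ^ 2) := by
      intro k
      rw [← EE_sum2 fun i j => ((cb.mul (cWd k)) i j).sq]
      refine EE_congr fun x => ?_
      have hW := Wd_t (v := v) (v1 := v1) hZ k x
      change _ = hs (b * Wd v v1 Z k x)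
      rw [hs_eq, Matrix.transpose_mul, hb, hW]
      calc (b * b * (Wd v v1 Z k x * Wd v v1 Z k x)).trace
          = ((b * b * Wd v v1 Z k x) * Wd v v1 Z k x).trace := by simp only [Matrix.mul_assoc]
        _ = (Wd v v1 Z k x * (b * b * Wd v v1 Z k x)).trace := Matrix.trace_mul_comm _ _
        _ = _ := by simp only [Matrix.mul_assoc]
    simp only [h1]
    rw [Finset.sum_comm]
    exact Finset.sum_congr rfl fun i _ => Finset.sum_comm
  rw [r1, r2, r3, r4, r5]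
  exact hsum

/-! ### the term `E tr b Z₁ W` -/

lemma herm_of_t {A : Mat n} (h : Aᵀ = A) : A.IsHermitian := by
  rw [Matrix.IsHermitian, conjTranspose_eq_transpose_of_trivial, h]

lemma mul_cfc_self {A : Mat n} (hA : A.IsHermitian) (w : ℝ → ℝ) :
    _root_.cfc (fun t => t * w t) A = A * _root_.cfc w A := by
  obtain ⟨U, hU⟩ := exists_fr hA
  apply conj_inj hU.o'
  rw [hU.cfc, Jord192.conj_mul hU.o', hU.d, hU.cfc, Matrix.diagonal_mul_diagonal]

lemma mul_cfc_self_neg {A : Mat n} (hA : A.IsHermitian) (w : ℝ → ℝ) :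
    _root_.cfc (fun t => -t * w (-t)) A = -(A * _root_.cfc (fun t => w (-t)) A) := by
  obtain ⟨U, hU⟩ := exists_fr hA
  apply conj_inj hU.o'
  rw [hU.cfc, Matrix.mul_neg, Matrix.neg_mul, Jord192.conj_mul hU.o', hU.d, hU.cfc,
    Matrix.diagonal_mul_diagonal]
  ext i j
  by_cases hij : i = j
  · subst hij
    simp
  · simp [Matrix.diagonal_apply_ne _ hij]

/-- evenness: `E tr b Z₁ w(Z₁) ≥ 0` if `z (w(z) - w(-z)) ≥ 0` -/
theorem even_nonneg {T : Fin n → Mat n} (hTs : ∀ k, (T k)ᵀ = T k) {w : ℝ → ℝ} {L : ℝ}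
    (hL : ∀ x y, |w x - w y| ≤ L * |x - y|) (ho : ∀ z, 0 ≤ z * (w z - w (-z)))
    {b : Mat n} (hb : b.PosSemidef) :
    0 ≤ TE (fun x => b * (Z1 T x * _root_.cfc w (Z1 T x))) := by
  have hTh : ∀ k, (T k).IsHermitian := fun k => herm_of_t (hTs k)
  have cL : CGm (Z1 T) := cgm_Z1 T
  have cw : CGm (fun x => _root_.cfc w (Z1 T x)) := cgm_cfc_lip cL (herm_Z1 hTh) hL
  have cw' : CGm (fun x => _root_.cfc (fun t => w (-t)) (Z1 T x)) :=
    cgm_cfc_lip (L := L) cL (herm_Z1 hTh) fun x y => by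
      have h := hL (-x) (-y)
      have e : |-x - -y| = |x - y| := by rw [← abs_neg]; congr 1; ring
      rwa [e] at h
  have h := EE_cfc_neg hTh (fun t => t * w t) (fun X => (b * X).trace)
  simp only [mul_cfc_self (herm_Z1 hTh _), mul_cfc_self_neg (herm_Z1 hTh _)] at h
  have c1 : CG (fun x => (b * (Z1 T x * _root_.cfc w (Z1 T x))).trace) :=
    ((cgm_const b).mul (cL.mul cw)).trace
  have c2 : CG (fun x => (b * -(Z1 T x * _root_.cfc (fun t => w (-t)) (Z1 T x))).trace) :=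
    ((cgm_const b).mul (CGm.neg (cL.mul cw'))).trace
  have h2 : 0 ≤ EE (fun x => (b * (Z1 T x * _root_.cfc w (Z1 T x))).trace +
      (b * -(Z1 T x * _root_.cfc (fun t => w (-t)) (Z1 T x))).trace) := by
    refine EE_nonneg fun x => ?_
    rw [← mul_cfc_self (herm_Z1 hTh x), ← mul_cfc_self_neg (herm_Z1 hTh x)]
    obtain ⟨U, hU⟩ := exists_fr (herm_Z1 hTh x)
    rw [Matrix.trace_mul_comm b, Matrix.trace_mul_comm b, tr_frame hU, tr_frame hU,
      ← Finset.sum_add_distrib]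
    refine Finset.sum_nonneg fun i _ => ?_
    rw [← add_mul]
    refine mul_nonneg ?_ (conj_diag_nonneg hb U i)
    have := ho ((herm_Z1 hTh x).eigenvalues i)
    linarith
  rw [EE_add c1 c2, ← h] at h2
  unfold TE
  linarith

/-- **the `Z₁ W` term** -/
theorem z1w_ge (hZ : MF Z lo hi) (hv : ∀ z ∈ Icc lo hi, HasDerivAt v (v1 z) z)
    (hv1 : ContinuousOn v1 (Icc lo hi)) {T : Fin n → Mat n} (hTs : ∀ k, (T k)ᵀ = T k)
    {κ θ : ℝ} (hθ : 0 < θ)
    (hL : ∀ x y, |(v x - 1 / 4 * x) - (v y - 1 / 4 * y)| ≤ κ * |x - y|)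
    (ho : ∀ z, 0 ≤ z * (v z - v (-z)) - z ^ 2 / 2) {b : Mat n} (hb : b.PosSemidef) :
    -(θ / 2 * (b * b * ∑ k, T k * T k).trace +
      κ ^ 2 / (2 * θ) * EE (fun x => hs (eta0 Z T x))) ≤
      TE (fun x => b * (Z1 T x * Wf v Z x)) := by
  have hTh : ∀ k, (T k).IsHermitian := fun k => herm_of_t (hTs k)
  have hbt : bᵀ = b := by
    have := hb.isHermitian
    rwa [Matrix.IsHermitian, conjTranspose_eq_transpose_of_trivial] at this
  have cL : CGm (Z1 T) := cgm_Z1 T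
  have cW := cgm_W hZ hv hv1
  have cη := cgm_eta0 hZ T
  have cw : CGm (fun x => _root_.cfc (fun z => v z - 1 / 4 * z) (Z1 T x)) :=
    cgm_cfc_lip cL (herm_Z1 hTh) hL
  have h1 := even_nonneg hTs hL (fun z => by have := ho z; nlinarith) hb
  have c1 : CGm (fun x => b * (Z1 T x * Wf v Z x)) := (cgm_const b).mul (cL.mul cW)
  have c2 : CGm (fun x => b * (Z1 T x * _root_.cfc (fun z => v z - 1 / 4 * z) (Z1 T x))) :=
    (cgm_const b).mul (cL.mul cw)
  have hpt : ∀ x, -(b * (Z1 T x * Wf v Z x)).trace +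
      (b * (Z1 T x * _root_.cfc (fun z => v z - 1 / 4 * z) (Z1 T x))).trace ≤
      θ / 2 * hs (b * Z1 T x) + κ ^ 2 / (2 * θ) * hs (eta0 Z T x) := by
    intro x
    have a := tr_young hθ (-(b * Z1 T x))
      (Wf v Z x - _root_.cfc (fun z => v z - 1 / 4 * z) (Z1 T x))
    rw [Jord192.hs_neg] at a
    have a2 : hs (Wf v Z x - _root_.cfc (fun z => v z - 1 / 4 * z) (Z1 T x)) ≤
        κ ^ 2 * hs (eta0 Z T x) := by
      have h := hs_cfc_lip (hZ.h x) (herm_Z1 hTh x) hL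
      have e1 : _root_.cfc (fun z => v z - 1 / 4 * z) (Mx Z x) = Wf v Z x := sf_w hZ x
      have e2 : Mx Z x - Z1 T x = eta0 Z T x := rfl
      rwa [e1, e2] at h
    have a3 := mul_le_mul_of_nonneg_left a2 (show (0 : ℝ) ≤ 1 / (2 * θ) by positivity)
    have e3 : 1 / (2 * θ) * (κ ^ 2 * hs (eta0 Z T x)) = κ ^ 2 / (2 * θ) * hs (eta0 Z T x) := by
      ring
    have e4 : (-(b * Z1 T x) * (Wf v Z x -
        _root_.cfc (fun z => v z - 1 / 4 * z) (Z1 T x))).trace =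
        -(b * (Z1 T x * Wf v Z x)).trace +
        (b * (Z1 T x * _root_.cfc (fun z => v z - 1 / 4 * z) (Z1 T x))).trace := by
      rw [Matrix.neg_mul, Matrix.mul_sub, Matrix.trace_neg, Matrix.trace_sub, Matrix.mul_assoc,
        Matrix.mul_assoc]
      ring
    rw [e4] at a
    rw [e3] at a3
    linarith
  have cbL : CG (fun x => hs (b * Z1 T x)) := cg_hs ((cgm_const b).mul cL)
  have h := EE_mono (c1.trace.neg.add c2.trace)
    ((cbL.smul (θ / 2)).add ((cg_hs cη).smul (κ ^ 2 / (2 * θ)))) hpt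
  rw [EE_add c1.trace.neg c2.trace, EE_neg, EE_add (cbL.smul _) ((cg_hs cη).smul _), EE_smul,
    EE_smul, EE_hs_Z1, sum_hs_mul b hbt hTs] at h
  unfold TE at h1 ⊢
  linarith

/-! ### the lower bound -/

/-- **(EO)**: lower bound of `Λ(b)` for `b ≥ 0`, all constants parameters. -/
theorem eo_ge (hZ : MF Z lo hi) {F : ℝ → ℝ} (hFc : ContinuousOn F (Icc lo hi))
    (hv : ∀ z ∈ Icc lo hi, HasDerivAt v (v1 z) z) (hv1 : ContinuousOn v1 (Icc lo hi))
    {T : Fin n → Mat n} (hTs : ∀ k, (T k)ᵀ = T k) (hT : ∀ k, EM (S3.dZ Z k) = T k)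
    (h0 : EM (Mx Z) = 0)
    {sl : ℝ → ℝ → ℝ} {Sl : E n → ℝ} (cSl : CG Sl)
    (hSl : ∀ x, ∃ U s, Fr (Mx Z x) U s ∧ ∑ k, Jord192.slk sl U s (S3.dZ Z k x) ≤ Sl x)
    {Ce κ ε a c e bo bn θ θ1 : ℝ}
    (he : ∀ p ∈ Icc lo hi, ∀ q ∈ Icc lo hi, (dd1 v v1 p q - v1 q) ^ 2 ≤ Ce * sl p q)
    (hκ : ∀ z ∈ Icc lo hi, |v1 z - 1 / 4| ≤ κ)
    (hL : ∀ x y, |(v x - 1 / 4 * x) - (v y - 1 / 4 * y)| ≤ κ * |x - y|)
    (ho : ∀ z, 0 ≤ z * (v z - v (-z)) - z ^ 2 / 2)
    (hF2 : ∀ z ∈ Icc lo hi, a + c * z - e * z ^ 2 ≤ F z - 3 / 2 * (z * v z))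
    (hC : 0 ≤ Ce) (hε : 0 < ε) (hθ : 0 < θ) (hθ1 : 0 < θ1) {b : Mat n} (hb : b.PosSemidef)
    (hbo : ∀ X : Mat n, hs (b * X) ≤ bo ^ 2 * hs X)
    (hbn : ∀ X : Mat n, (b * (X * Xᵀ)).trace ≤ bn * hs X) (hbn0 : 0 ≤ bn) :
    a * b.trace + (5 / 16 - e - (1 + ε) * κ ^ 2) * (b * ∑ k, T k * T k).trace +
      (3 / 8 - e) * TE (fun x => b * (eta0 Z T x * eta0 Z T x)) -
      (1 / 16 + (1 + ε) * κ ^ 2) * ∑ k, TE (fun x => b * (pk Z T k x * pk Z T k x)) -
      (θ1 / 2 * (b * b * ∑ k, T k * T k).trace +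
        κ ^ 2 / (2 * θ1) * EE (fun x => hs (eta0 Z T x))) -
      θ / 4 * ((∑ k, EE (fun x => hs (pk Z T k x))) - 3 / 2 * EE (fun x => hs (eta0 Z T x))) -
      (1 + ε) * κ ^ 2 / (4 * θ) * ((b * b * ∑ k, T k * T k).trace +
        ∑ k, TE (fun x => b * b * (pk Z T k x * pk Z T k x))) -
      (1 + 1 / ε) * Ce * (bn + bo ^ 2 / (4 * θ)) * EE Sl ≤ Lam F v v1 Z b := by
  have hbt : bᵀ = b := by
    have := hb.isHermitian
    rwa [Matrix.IsHermitian, conjTranspose_eq_transpose_of_trivial] at this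
  have hbb : (b * b).PosSemidef := by
    have := Matrix.posSemidef_self_mul_conjTranspose b
    rwa [conjTranspose_eq_transpose_of_trivial, hbt] at this
  have hbbX : ∀ X : Mat n, (b * b * (X * Xᵀ)).trace ≤ bo ^ 2 * hs X := by
    intro X
    refine le_trans (le_of_eq ?_) (hbo X)
    rw [hs_eq, Matrix.transpose_mul, hbt]
    calc (b * b * (X * Xᵀ)).trace = ((b * b * X) * Xᵀ).trace := by simp only [Matrix.mul_assoc]
      _ = (Xᵀ * (b * b * X)).trace := Matrix.trace_mul_comm _ _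
      _ = _ := by simp only [Matrix.mul_assoc]
  have hvc : ContinuousOn v (Icc lo hi) := contOn_of_deriv hv
  have h1 := lam_eo hZ hFc hv hv1 hbt hTs hT
  have h2 := TE_quad_ge hZ hT h0 (f := fun z => F z - 3 / 2 * (z * v z))
    (hFc.sub (continuousOn_const.mul (continuousOn_id.mul hvc))) hF2 hb
  have h3 := wd_le hZ hv hv1 hTs hT cSl hSl hε hbn0 hC he hκ hb hbn
  have h4 := wd_le hZ hv hv1 hTs hT cSl hSl hε (sq_nonneg bo) hC he hκ hbb hbbX
  have h5 := block_le hZ hv hv1 hbt hT h0 hθ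
  have h6 := z1w_ge hZ hv hv1 hTs hθ1 hL ho hb
  rw [h1]
  have h7 := mul_le_mul_of_nonneg_left h4 (show (0 : ℝ) ≤ 1 / (4 * θ) by positivity)
  have e5 : 1 / 2 * (1 / (2 * θ)) = 1 / (4 * θ) := by field_simp; ring
  have h8 : 1 / 2 * ((∑ k, TE (fun x => b * (pk Z T k x * Wd v v1 Z k x))) -
        3 * TE (fun x => b * (eta0 Z T x * Wf v Z x))) ≤
      θ / 4 * ((∑ k, EE (fun x => hs (pk Z T k x))) - 3 / 2 * EE (fun x => hs (eta0 Z T x))) +
      1 / (4 * θ) * ∑ k, TE (fun x => b * b * (Wd v v1 Z k x * Wd v v1 Z k x)) := by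
    have := mul_le_mul_of_nonneg_left h5 (show (0 : ℝ) ≤ 1 / 2 by norm_num)
    rw [mul_add, ← mul_assoc (1 / 2) (1 / (2 * θ)), e5] at this
    linarith
  have e7 : 1 / (4 * θ) * ((1 + ε) * κ ^ 2 * ((b * b * ∑ k, T k * T k).trace +
        ∑ k, TE (fun x => b * b * (pk Z T k x * pk Z T k x))) +
      (1 + 1 / ε) * (bo ^ 2 * Ce) * EE Sl) =
      (1 + ε) * κ ^ 2 / (4 * θ) * ((b * b * ∑ k, T k * T k).trace +
        ∑ k, TE (fun x => b * b * (pk Z T k x * pk Z T k x))) +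
      (1 + 1 / ε) * Ce * (bo ^ 2 / (4 * θ)) * EE Sl := by ring
  rw [e7] at h7
  have e8 : (1 + 1 / ε) * Ce * (bn + bo ^ 2 / (4 * θ)) * EE Sl =
      (1 + 1 / ε) * (bn * Ce) * EE Sl + (1 + 1 / ε) * Ce * (bo ^ 2 / (4 * θ)) * EE Sl := by ring
  rw [e8]
  linarith

end field

end Crest.Agent.R253.EO629
end
end

-- ▼ part R253/DualQ_973
section

/-!
# R253: the weighted dual bound, 230's form without cross terms (helper973)

`b = 1`: one-sided field `Y_k = ¼ T_k + T_k w(ζ) + ½ ∂_k R η`.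
-/

set_option autoImplicit false

open MeasureTheory ProbabilityTheory Real Set Filter Topology Matrix
open scoped ContDiff

noncomputable section

namespace Crest.Agent.R253.DualP973

open Crest.Agent.R238.Gap Crest.Agent.R238.GapPoinc Crest.Agent.R238.GapPc
open Crest.Agent.R253.SpecCalc999 Crest.Agent.R253.Meh74 Crest.Agent.R253.SpecField321
open Crest.Agent.R253.Jord192

variable {n : ℕ}



lemma pair_sq {x y f g lam c : ℝ} (hlam : 0 < lam) (h : g ^ 2 ≤ lam * (c - f ^ 2)) :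
    (x * f + y * g) ^ 2 ≤ c * (x ^ 2 + lam * y ^ 2) := by
  have h1 : 0 ≤ lam * (c * (x ^ 2 + lam * y ^ 2) - (x * f + y * g) ^ 2) := by
    nlinarith [mul_nonneg (sq_nonneg x) (sub_nonneg.mpr h),
      mul_nonneg (mul_nonneg hlam.le (sq_nonneg y)) (sub_nonneg.mpr h),
      sq_nonneg (x * g - lam * y * f)]
  have h2 := (mul_nonneg_iff_of_pos_left hlam).mp h1
  linarith

lemma hs_pair_le {A : Mat n} (hA : A.IsHermitian) {f g : ℝ → ℝ} {lam c : ℝ} (hlam : 0 < lam)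
    (h : ∀ t ∈ spectrum ℝ A, g t ^ 2 ≤ lam * (c - f t ^ 2)) (X Y : Mat n) :
    hs (X * _root_.cfc f A + Y * _root_.cfc g A) ≤ c * (hs X + lam * hs Y) := by
  obtain ⟨U, hU⟩ := exists_fr hA
  rw [← hs_conj hU.o', ← hs_conj hU.o' X, ← hs_conj hU.o' Y]
  unfold hs
  rw [Finset.mul_sum, ← Finset.sum_add_distrib, Finset.mul_sum]
  refine Finset.sum_le_sum fun i _ => ?_
  rw [Finset.mul_sum, ← Finset.sum_add_distrib, Finset.mul_sum]
  refine Finset.sum_le_sum fun j _ => ?_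
  have e : (Uᵀ * (X * _root_.cfc f A + Y * _root_.cfc g A) * U) i j =
      (Uᵀ * X * U) i j * f (hA.eigenvalues j) + (Uᵀ * Y * U) i j * g (hA.eigenvalues j) := by
    rw [Matrix.mul_add, Matrix.add_mul, Matrix.add_apply, mul_cfc_frame hU, mul_cfc_frame hU]
  rw [e]
  exact pair_sq hlam (h _ (hU.mem_spec j))

section field

variable {ζ : Fld n} {lo hi : ℝ} {v w v2 : ℝ → ℝ}


/-- `E |c + F|² = |c|² + E |F|²` for `E F = 0` -/
lemma EE_hs_const_add {F : E n → Mat n} (hF : CM F) (h0 : ∀ i j, EE (fun x => F x i j) = 0)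
    (c : Mat n) : EE (fun x => hs (c + F x)) = hs c + EE (fun x => hs (F x)) := by
  have h1 : EE (fun x => hs (c + F x)) = ∑ i, ∑ j, EE (fun x => (c i j + F x i j) ^ 2) :=
    EE_sum2 (f := fun i j x => (c i j + F x i j) ^ 2) fun i j => ((cg_const (c i j)).add (hF i j)).sq
  have h2 : EE (fun x => hs (F x)) = ∑ i, ∑ j, EE (fun x => F x i j ^ 2) :=
    EE_sum2 (f := fun i j x => F x i j ^ 2) fun i j => (hF i j).sq
  rw [h1, h2]
  unfold hs
  rw [← Finset.sum_add_distrib]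
  refine Finset.sum_congr rfl fun i _ => ?_
  rw [← Finset.sum_add_distrib]
  refine Finset.sum_congr rfl fun j _ => ?_
  have e : ∀ x, (c i j + F x i j) ^ 2 = (c i j ^ 2 + 2 * c i j * F x i j) + F x i j ^ 2 :=
    fun x => by ring
  rw [EE_congr e, EE_add ((cg_const (c i j ^ 2)).add ((hF i j).smul (2 * c i j))) (hF i j).sq,
    EE_add (cg_const (c i j ^ 2)) ((hF i j).smul (2 * c i j)), EE_smul, EE_const, h0 i j]
  ring


end field

end Crest.Agent.R253.DualP973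
end
end

-- ▼ part R253/DualR_862
section

/-!
# R253: the weighted dual bound, 230's form with the truncated one-sided field (helper862)

`Y_k = ¼ T_k + b T_k w(ζ) + ½ ∂_k R η` with any constant matrix `b`; the truncation terms are put
inside the first Cauchy–Schwarz of 230's form, all mixed expectations vanish.
-/

set_option autoImplicit false

open MeasureTheory ProbabilityTheory Real Set Filter Topology Matrix
open scoped ContDiff

noncomputable section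

namespace Crest.Agent.R253.DualR862

open Crest.Agent.R238.Gap Crest.Agent.R238.GapPoinc Crest.Agent.R238.GapPc
open Crest.Agent.R253.SpecCalc999 Crest.Agent.R253.Meh74 Crest.Agent.R253.SpecField321
open Crest.Agent.R253.Jord192 Crest.Agent.R253.DualP973

variable {n : ℕ}

/-- **the centred device**, hypotheses in integrated form -/
theorem cen_le3 {ι : Type*} [Fintype ι] {f : ι → E n → ℝ} (hf : ∀ i, C1 (f i))
    (h0 : ∀ i, ∫ x, f i x ∂(gam n) = 0) (h1 : ∀ i k, ∫ x, pd k (f i) x ∂(gam n) = 0)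
    {A : ι → Fin n → E n → ℝ} {B : ι → E n → ℝ} (cA : ∀ i k, C0 (A i k)) (cB : ∀ i, C0 (B i))
    {Ra Rb : ℝ}
    (hA : ∑ i, ∑ k, ∫ x, A i k x ^ 2 ∂(gam n) ≤
      1 / 16 * (∑ i, ∑ k, ∫ x, pd k (f i) x ^ 2 ∂(gam n)) + 1 / 16 * Ra)
    (hB : ∑ i, ∫ x, B i x ^ 2 ∂(gam n) ≤
      1 / 16 * (∑ i, ∫ x, f i x ^ 2 ∂(gam n)) + 1 / 16 * Rb) :
    (∑ i, ∑ k, ∫ x, (A i k x + 1 / 4 * (pd k (f i) x - 2 * pd k (Rs (f i)) x)) ^ 2 ∂(gam n)) +
      ∑ i, ∫ x, (B i x - 1 / 4 * (f i x - 2 * Rs (f i) x)) ^ 2 ∂(gam n) ≤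
    1 / 3 * ((∑ i, ∑ k, ∫ x, pd k (f i) x ^ 2 ∂(gam n)) - ∑ i, ∫ x, f i x ^ 2 ∂(gam n)) +
      1 / 12 * (Ra + Rb) := by
  have cr : ∀ i, C1 (Rs (f i)) := fun i => c1_Rs (hf i)
  have cp : ∀ i k, C0 (fun x => pd k (f i) x - 2 * pd k (Rs (f i)) x) := fun i k =>
    ((hf i).p0 k).sub (((cr i).p0 k).smul 2)
  have cq : ∀ i, C0 (fun x => f i x - 2 * Rs (f i) x) := fun i =>
    (hf i).c0.sub ((cr i).c0.smul 2)
  have a1 : ∀ i k, ∫ x, (A i k x + 1 / 4 * (pd k (f i) x - 2 * pd k (Rs (f i)) x)) ^ 2 ∂(gam n) ≤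
      4 / 3 * (∫ x, A i k x ^ 2 ∂(gam n)) +
        1 / 4 * ∫ x, (pd k (f i) x - 2 * pd k (Rs (f i)) x) ^ 2 ∂(gam n) := fun i k => by
    have j1 : Integrable (fun x => 4 / 3 * A i k x ^ 2) (gam n) := ((cA i k).pow2.smul _).int
    have j2 : Integrable (fun x => 1 / 4 * (pd k (f i) x - 2 * pd k (Rs (f i)) x) ^ 2) (gam n) :=
      ((cp i k).pow2.smul _).int
    rw [← integral_const_mul, ← integral_const_mul, ← integral_add j1 j2]
    refine integral_mono ((cA i k).add ((cp i k).smul _)).pow2.int (j1.add j2) fun x => ?_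
    have := sq_add_le (A i k x) (1 / 4 * (pd k (f i) x - 2 * pd k (Rs (f i)) x))
    simp only
    linarith [this, mul_pow (1 / 4 : ℝ) (pd k (f i) x - 2 * pd k (Rs (f i)) x) 2]
  have a2 : ∀ i, ∫ x, (B i x - 1 / 4 * (f i x - 2 * Rs (f i) x)) ^ 2 ∂(gam n) ≤
      4 / 3 * (∫ x, B i x ^ 2 ∂(gam n)) +
        1 / 4 * ∫ x, (f i x - 2 * Rs (f i) x) ^ 2 ∂(gam n) := fun i => by
    have j1 : Integrable (fun x => 4 / 3 * B i x ^ 2) (gam n) := ((cB i).pow2.smul _).int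
    have j2 : Integrable (fun x => 1 / 4 * (f i x - 2 * Rs (f i) x) ^ 2) (gam n) :=
      ((cq i).pow2.smul _).int
    rw [← integral_const_mul, ← integral_const_mul, ← integral_add j1 j2]
    refine integral_mono ((cB i).sub ((cq i).smul _)).pow2.int (j1.add j2) fun x => ?_
    have := sq_add_le (B i x) (-(1 / 4 * (f i x - 2 * Rs (f i) x)))
    simp only
    nlinarith [this]
  -- the resolvent part
  have c1 : (∑ i, ∑ k, ∫ x, (pd k (f i) x - 2 * pd k (Rs (f i)) x) ^ 2 ∂(gam n)) +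
      ∑ i, ∫ x, (f i x - 2 * Rs (f i) x) ^ 2 ∂(gam n) ≤
      (∑ i, ∑ k, ∫ x, pd k (f i) x ^ 2 ∂(gam n)) - 5 / 3 * ∑ i, ∫ x, f i x ^ 2 ∂(gam n) := by
    rw [← Finset.sum_add_distrib, Finset.mul_sum, ← Finset.sum_sub_distrib]
    exact Finset.sum_le_sum fun i _ => res_eta (hf i) (h0 i) (h1 i)
  have d1 : (∑ i, ∑ k, ∫ x, (A i k x + 1 / 4 * (pd k (f i) x - 2 * pd k (Rs (f i)) x)) ^ 2
      ∂(gam n)) ≤ 4 / 3 * (∑ i, ∑ k, ∫ x, A i k x ^ 2 ∂(gam n)) +
        1 / 4 * ∑ i, ∑ k, ∫ x, (pd k (f i) x - 2 * pd k (Rs (f i)) x) ^ 2 ∂(gam n) := by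
    rw [Finset.mul_sum, Finset.mul_sum, ← Finset.sum_add_distrib]
    refine Finset.sum_le_sum fun i _ => ?_
    rw [Finset.mul_sum, Finset.mul_sum, ← Finset.sum_add_distrib]
    exact Finset.sum_le_sum fun k _ => a1 i k
  have d2 : ∑ i, ∫ x, (B i x - 1 / 4 * (f i x - 2 * Rs (f i) x)) ^ 2 ∂(gam n) ≤
      4 / 3 * (∑ i, ∫ x, B i x ^ 2 ∂(gam n)) +
        1 / 4 * ∑ i, ∫ x, (f i x - 2 * Rs (f i) x) ^ 2 ∂(gam n) := by
    rw [Finset.mul_sum, Finset.mul_sum, ← Finset.sum_add_distrib]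
    exact Finset.sum_le_sum fun i _ => a2 i
  linarith



section field

variable {ζ : Fld n} {lo hi : ℝ} {v w v2 : ℝ → ℝ}

lemma EE_coord_mul {f : E n → ℝ} (hf : C1 f) (k : Fin n) :
    EE (fun x => x k * f x) = EE (pd k f) := by
  have h := ibp_gam hf.c hf.g k (hf.p k)
  unfold EE
  rw [← h]
  exact integral_congr_ae (Eventually.of_forall fun x => mul_comm _ _)

/-- `E |F + Σ x_k A_k|² = E |F|² + Σ |A_k|²` for `E ∂_k F = 0` -/
lemma EE_hs_lin_add {F : Fin n → Fin n → E n → ℝ} (hF : ∀ i j, C1 (F i j))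
    (h1 : ∀ i j k, EE (pd k (F i j)) = 0) (A : Fin n → Mat n) :
    EE (fun x => hs (Matrix.of (fun i j => F i j x) + ∑ k, x k • A k)) =
      EE (fun x => hs (Matrix.of fun i j => F i j x)) + ∑ k, hs (A k) := by
  have cL : ∀ i j, CG (fun x : E n => ∑ k, x k * A k i j) := fun i j =>
    CG.sum fun k _ => (cg_coord k).mulc (A k i j)
  rw [← EE_hs_lin A]
  have e1 : EE (fun x => hs (Matrix.of (fun i j => F i j x) + ∑ k, x k • A k)) =
      ∑ i, ∑ j, EE (fun x => (F i j x + ∑ k, x k * A k i j) ^ 2) := by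
    have := EE_sum2 (f := fun i j (x : E n) => (F i j x + ∑ k, x k * A k i j) ^ 2) fun i j =>
      ((hF i j).cg.add (cL i j)).sq
    rw [← this]
    refine EE_congr fun x => ?_
    unfold hs
    refine Finset.sum_congr rfl fun i _ => Finset.sum_congr rfl fun j _ => ?_
    rw [Matrix.add_apply, Matrix.sum_apply]
    rfl
  have e2 : EE (fun x => hs (Matrix.of fun i j => F i j x)) =
      ∑ i, ∑ j, EE (fun x => F i j x ^ 2) :=
    EE_sum2 (f := fun i j x => F i j x ^ 2) fun i j => (hF i j).cg.sq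
  have e3 : EE (fun x : E n => hs (∑ k, x k • A k)) =
      ∑ i, ∑ j, EE (fun x : E n => (∑ k, x k * A k i j) ^ 2) := by
    have := EE_sum2 (f := fun i j (x : E n) => (∑ k, x k * A k i j) ^ 2) fun i j => (cL i j).sq
    rw [← this]
    refine EE_congr fun x => ?_
    unfold hs
    refine Finset.sum_congr rfl fun i _ => Finset.sum_congr rfl fun j _ => ?_
    rw [Matrix.sum_apply]
    rfl
  rw [e1, e2, e3, ← Finset.sum_add_distrib]
  refine Finset.sum_congr rfl fun i _ => ?_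
  rw [← Finset.sum_add_distrib]
  refine Finset.sum_congr rfl fun j _ => ?_
  have c : EE (fun x => F i j x * ∑ k, x k * A k i j) = 0 := by
    have e : ∀ x : E n, F i j x * ∑ k, x k * A k i j = ∑ k, A k i j * (x k * F i j x) :=
      fun x => by
      rw [Finset.mul_sum]
      exact Finset.sum_congr rfl fun k _ => by ring
    rw [EE_congr e, EE_sum' _ fun k => ((cg_coord k).mul (hF i j).cg).smul _]
    refine Finset.sum_eq_zero fun k _ => ?_
    rw [EE_smul, EE_coord_mul (hF i j) k, h1, mul_zero]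
  have e : ∀ x : E n, (F i j x + ∑ k, x k * A k i j) ^ 2 =
      (F i j x ^ 2 + 2 * (F i j x * ∑ k, x k * A k i j)) + (∑ k, x k * A k i j) ^ 2 :=
    fun x => by ring
  rw [EE_congr e, EE_add ((hF i j).cg.sq.add (((hF i j).cg.mul (cL i j)).smul 2)) (cL i j).sq,
    EE_add (hF i j).cg.sq (((hF i j).cg.mul (cL i j)).smul 2), EE_smul, c]
  ring

/-- **main part**: centred device with weights and truncation -/
theorem main_le3 (hζ : MF ζ lo hi) (h0 : ∀ i j, EE (ζ i j) = 0)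
    (cw : ContinuousOn w (Icc lo hi)) (cv2 : ContinuousOn v2 (Icc lo hi))
    {lam : ℝ} (hlam : 0 < lam) (bw : ∀ x ∈ Icc lo hi, |w x| ≤ 1 / 4)
    (bwv : ∀ x ∈ Icc lo hi, v2 x ^ 2 ≤ lam * (1 / 16 - w x ^ 2)) (C : Mat n)
    (S : Fin n → Mat n) {Γ : E n → Mat n} (cΓ : CM Γ) :
    EE (fun x => ∑ k, hs ((C * Mx (dk k (ef ζ)) x + S k) * _root_.cfc w (Mx ζ x) +
        (1 / 4 : ℝ) • (C * (Mx (dk k (ef ζ)) x - (2 : ℝ) • Mx (dk k (Rf (ef ζ))) x)))) +
      EE (fun x => hs ((C * Mx (ef ζ) x + ∑ k, x k • S k) * _root_.cfc w (Mx ζ x) +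
        Γ x * _root_.cfc v2 (Mx ζ x) -
        (1 / 4 : ℝ) • (C * (Mx (ef ζ) x - (2 : ℝ) • Mx (Rf (ef ζ)) x)))) ≤
    1 / 3 * (EE (fun x => ∑ k, hs (C * Mx (dk k (ef ζ)) x)) -
      EE (fun x => hs (C * Mx (ef ζ) x))) +
      1 / 12 * (2 * ∑ k, hs (S k) + lam * EE (fun x => hs (Γ x))) := by
  have c1e : ∀ i j, C1 (ef ζ i j) := fun i j => c1_ef hζ i j
  have c1r : ∀ i j, C1 (Rf (ef ζ) i j) := fun i j => c1_Rs (c1e i j)
  have cW : CM (fun x => _root_.cfc w (Mx ζ x)) := cg_cfc hζ cw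
  have cp : ∀ k, CM (fun x => Mx (dk k (ef ζ)) x) := fun k => CM.mx fun i j => (c1e i j).cgp k
  have ce : CM (fun x => Mx (ef ζ) x) := CM.mx fun i j => (c1e i j).cg
  have crk : ∀ k, CM (fun x => Mx (dk k (Rf (ef ζ))) x) := fun k =>
    CM.mx fun i j => (c1r i j).cgp k
  have cr : CM (fun x => Mx (Rf (ef ζ)) x) := CM.mx fun i j => (c1r i j).cg
  -- the scalar functions
  set f : Fin n × Fin n → E n → ℝ := fun q x => ∑ p, C q.1 p * ef ζ p q.2 x with hf
  have hf1 : ∀ q, C1 (f q) := fun q => C1.sum fun p _ => (c1e p q.2).smul _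
  have hfm : ∀ q x, f q x = (C * Mx (ef ζ) x) q.1 q.2 := fun q x => by
    rw [Matrix.mul_apply]; rfl
  have hfd : ∀ q k x, pd k (f q) x = (C * Mx (dk k (ef ζ)) x) q.1 q.2 := fun q k x => by
    rw [hf, pd_sum' (f := fun p x => C q.1 p * ef ζ p q.2 x) fun p _ => (c1e p q.2).smul _,
      Matrix.mul_apply]
    refine Finset.sum_congr rfl fun p _ => ?_
    rw [(c1_const _).pd_mul (c1e p q.2), pd_const_c]
    simp only [zero_mul, zero_add]
    rfl
  have hfR : ∀ q x, Rs (f q) x = (C * Mx (Rf (ef ζ)) x) q.1 q.2 := fun q x => by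
    unfold Rs
    have h := Rw_sum Real.continuous_sin sin_b Finset.univ
      (g := fun p x => C q.1 p * ef ζ p q.2 x) (fun p _ => ((c1e p q.2).smul _).cont)
      (fun p _ => ((c1e p q.2).smul _).g) x
    rw [hf, h, Matrix.mul_apply]
    exact Finset.sum_congr rfl fun p _ => Rw_smul _ _ _ _
  have hfRd : ∀ q k x, pd k (Rs (f q)) x = (C * Mx (dk k (Rf (ef ζ))) x) q.1 q.2 := fun q k x => by
    have e : Rs (f q) = fun x => ∑ p, C q.1 p * Rf (ef ζ) p q.2 x := by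
      funext y; rw [hfR q y, Matrix.mul_apply]; rfl
    rw [e, pd_sum' (f := fun p x => C q.1 p * Rf (ef ζ) p q.2 x) fun p _ => (c1r p q.2).smul _,
      Matrix.mul_apply]
    refine Finset.sum_congr rfl fun p _ => ?_
    rw [(c1_const _).pd_mul (c1r p q.2), pd_const_c]
    simp only [zero_mul, zero_add]
    rfl
  have i0 : ∀ q, ∫ x, f q x ∂(gam n) = 0 := fun q => by
    have : EE (f q) = ∑ p, EE (fun x => C q.1 p * ef ζ p q.2 x) :=
      EE_sum' _ fun p => ((c1e p q.2).smul _).cg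
    refine this.trans (Finset.sum_eq_zero fun p _ => ?_)
    rw [EE_smul]
    have : EE (ef ζ p q.2) = 0 := integral_eta (hζ.c p q.2)
    rw [this, mul_zero]
  have i1 : ∀ q k, ∫ x, pd k (f q) x ∂(gam n) = 0 := fun q k => by
    have e : ∀ x, pd k (f q) x = ∑ p, C q.1 p * pd k (ef ζ p q.2) x := fun x => by
      rw [hfd, Matrix.mul_apply]; rfl
    have : EE (pd k (f q)) = ∑ p, EE (fun x => C q.1 p * pd k (ef ζ p q.2) x) := by
      rw [EE_congr e]
      exact EE_sum' _ fun p => ((c1e p q.2).cgp k).smul _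
    refine this.trans (Finset.sum_eq_zero fun p _ => ?_)
    rw [EE_smul]
    have : EE (pd k (ef ζ p q.2)) = 0 := integral_pd_eta (hζ.c p q.2) k
    rw [this, mul_zero]
  have cL : CM (fun x : E n => ∑ k, x k • S k) := fun i j => by
    have e : (fun x : E n => (∑ k, x k • S k) i j) = fun x => ∑ k, x k * S k i j := by
      funext x; rw [Matrix.sum_apply]; rfl
    rw [e]
    exact CG.sum fun k _ => (cg_coord k).mulc (S k i j)
  set A : Fin n × Fin n → Fin n → E n → ℝ := fun q k x =>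
    ((C * Mx (dk k (ef ζ)) x + S k) * _root_.cfc w (Mx ζ x)) q.1 q.2 with hA
  set B : Fin n × Fin n → E n → ℝ := fun q x =>
    ((C * Mx (ef ζ) x + ∑ k, x k • S k) * _root_.cfc w (Mx ζ x) +
      Γ x * _root_.cfc v2 (Mx ζ x)) q.1 q.2 with hB
  have cV2 : CM (fun x => _root_.cfc v2 (Mx ζ x)) := cg_cfc hζ cv2
  have cAm : ∀ k, CM (fun x => (C * Mx (dk k (ef ζ)) x + S k) * _root_.cfc w (Mx ζ x)) :=
    fun k => ((((cp k).cmul C).add (CM.const (S k))).mul cW)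
  have cBm : CM (fun x => (C * Mx (ef ζ) x + ∑ k, x k • S k) * _root_.cfc w (Mx ζ x) +
      Γ x * _root_.cfc v2 (Mx ζ x)) := (((ce.cmul C).add cL).mul cW).add (cΓ.mul cV2)
  have cA : ∀ q k, C0 (A q k) := fun q k => (cAm k q.1 q.2).c0
  have cB : ∀ q, C0 (B q) := fun q => (cBm q.1 q.2).c0
  have h16 : ((1 : ℝ) / 4) ^ 2 = 1 / 16 := by norm_num
  have g1 : (∑ q, ∑ k, ∫ x, pd k (f q) x ^ 2 ∂(gam n)) =
      EE (fun x => ∑ k, hs (C * Mx (dk k (ef ζ)) x)) := by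
    rw [← sum_pair_eq (fun k => (cp k).cmul C)]
    exact Finset.sum_congr rfl fun q _ => Finset.sum_congr rfl fun k _ =>
      EE_congr fun x => by rw [hfd]
  have g2 : (∑ q, ∫ x, f q x ^ 2 ∂(gam n)) = EE (fun x => hs (C * Mx (ef ζ) x)) := by
    rw [← sum_pair_eq1 (ce.cmul C)]
    exact Finset.sum_congr rfl fun q _ => EE_congr fun x => by rw [hfm]
  have z1 : ∀ k i j, EE (fun x => (C * Mx (dk k (ef ζ)) x) i j) = 0 := fun k i j => by
    have := i1 (i, j) k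
    refine Eq.trans ?_ this
    exact EE_congr fun x => (hfd (i, j) k x).symm
  have hAl : ∑ q, ∑ k, ∫ x, A q k x ^ 2 ∂(gam n) ≤
      1 / 16 * (∑ q, ∑ k, ∫ x, pd k (f q) x ^ 2 ∂(gam n)) + 1 / 16 * ∑ k, hs (S k) := by
    have e1 : (∑ q, ∑ k, ∫ x, A q k x ^ 2 ∂(gam n)) =
        EE (fun x => ∑ k, hs ((C * Mx (dk k (ef ζ)) x + S k) * _root_.cfc w (Mx ζ x))) := by
      rw [← sum_pair_eq cAm]
      rfl
    have e2 : EE (fun x => ∑ k, hs (C * Mx (dk k (ef ζ)) x + S k)) =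
        EE (fun x => ∑ k, hs (C * Mx (dk k (ef ζ)) x)) + ∑ k, hs (S k) := by
      rw [EE_sum' _ fun k => (((cp k).cmul C).add (CM.const (S k))).hs,
        EE_sum' _ fun k => ((cp k).cmul C).hs, ← Finset.sum_add_distrib]
      refine Finset.sum_congr rfl fun k _ => ?_
      have := EE_hs_const_add ((cp k).cmul C) (z1 k) (S k)
      rw [← EE_congr (fun x => by rw [add_comm] :
        ∀ x, hs (S k + C * Mx (dk k (ef ζ)) x) = hs (C * Mx (dk k (ef ζ)) x + S k)), this]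
      ring
    rw [e1, g1, ← mul_add, ← e2, ← EE_smul]
    refine EE_mono (CG.sum fun k _ => (cAm k).hs)
      ((CG.sum fun k _ => (((cp k).cmul C).add (CM.const (S k))).hs).smul _) fun x => ?_
    rw [Finset.mul_sum]
    refine Finset.sum_le_sum fun k _ => ?_
    have := hs_mulW hζ bw (C * Mx (dk k (ef ζ)) x + S k) x
    rwa [h16] at this
  have hBl : ∑ q, ∫ x, B q x ^ 2 ∂(gam n) ≤ 1 / 16 * (∑ q, ∫ x, f q x ^ 2 ∂(gam n)) +
      1 / 16 * (∑ k, hs (S k) + lam * EE (fun x => hs (Γ x))) := by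
    have e1 : (∑ q, ∫ x, B q x ^ 2 ∂(gam n)) =
        EE (fun x => hs ((C * Mx (ef ζ) x + ∑ k, x k • S k) * _root_.cfc w (Mx ζ x) +
          Γ x * _root_.cfc v2 (Mx ζ x))) := by
      rw [← sum_pair_eq1 cBm]
      rfl
    have e2 : EE (fun x => hs (C * Mx (ef ζ) x + ∑ k, x k • S k)) =
        EE (fun x => hs (C * Mx (ef ζ) x)) + ∑ k, hs (S k) := by
      have h := EE_hs_lin_add (F := fun i j => f (i, j)) (fun i j => hf1 (i, j))
        (fun i j k => i1 (i, j) k) S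
      have e3 : ∀ x, (Matrix.of fun i j => f (i, j) x) = C * Mx (ef ζ) x := fun x => by
        ext i j
        rw [Matrix.of_apply, hfm]
      simp only [e3] at h
      exact h
    rw [e1, g2]
    have e4 : 1 / 16 * EE (fun x => hs (C * Mx (ef ζ) x)) +
        1 / 16 * (∑ k, hs (S k) + lam * EE (fun x => hs (Γ x))) =
        EE (fun x => 1 / 16 * hs (C * Mx (ef ζ) x + ∑ k, x k • S k)) +
          EE (fun x => 1 / 16 * lam * hs (Γ x)) := by
      rw [EE_smul, EE_smul, e2]; ring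
    have cS := (((ce.cmul C).add cL)).hs
    rw [e4, ← EE_add (cS.smul _) (cΓ.hs.smul _)]
    refine EE_mono cBm.hs ((cS.smul _).add (cΓ.hs.smul _)) fun x => ?_
    have := hs_pair_le (hζ.h x) hlam (c := 1 / 16) (f := w) (g := v2)
      (fun t ht => bwv t (hζ.s x ht)) (C * Mx (ef ζ) x + ∑ k, x k • S k) (Γ x)
    linarith
  have key := cen_le3 hf1 i0 i1 cA cB hAl hBl
  have F1 : ∀ k, CM (fun x => (C * Mx (dk k (ef ζ)) x + S k) * _root_.cfc w (Mx ζ x) +
        (1 / 4 : ℝ) • (C * (Mx (dk k (ef ζ)) x - (2 : ℝ) • Mx (dk k (Rf (ef ζ))) x))) := fun k =>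
    (cAm k).add ((((cp k).sub ((crk k).smul 2)).cmul C).smul _)
  have F2 : CM (fun x => (C * Mx (ef ζ) x + ∑ k, x k • S k) * _root_.cfc w (Mx ζ x) +
        Γ x * _root_.cfc v2 (Mx ζ x) -
        (1 / 4 : ℝ) • (C * (Mx (ef ζ) x - (2 : ℝ) • Mx (Rf (ef ζ)) x))) :=
    cBm.sub (((ce.sub (cr.smul 2)).cmul C).smul _)
  have k1 := sum_pair_eq F1
  have k2 := sum_pair_eq1 F2
  rw [← k1, ← k2, ← g1, ← g2]
  refine le_trans (le_of_eq ?_) (key.trans (le_of_eq (by ring)))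
  congr 1
  · refine Finset.sum_congr rfl fun q _ => Finset.sum_congr rfl fun k _ => ?_
    refine EE_congr fun x => ?_
    rw [Matrix.add_apply, Matrix.smul_apply, Matrix.mul_sub, Matrix.sub_apply,
      Matrix.mul_smul, Matrix.smul_apply, hfd, hfRd]
    rfl
  · refine Finset.sum_congr rfl fun q _ => ?_
    refine EE_congr fun x => ?_
    rw [Matrix.sub_apply, Matrix.smul_apply, Matrix.mul_sub, Matrix.sub_apply,
      Matrix.mul_smul, Matrix.smul_apply, hfm, hfR]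
    rfl

/-- **the weighted dual bound, 230's form with a truncated field**: no cross terms -/
theorem dualR (hζ : MF ζ lo hi) (h0 : ∀ i j, EE (ζ i j) = 0)
    (hv : ∀ x ∈ Icc lo hi, HasDerivAt v (w x + 1 / 4) x)
    (hw : ∀ x ∈ Icc lo hi, HasDerivAt w (v2 x) x) (cw : ContinuousOn w (Icc lo hi))
    (cv2 : ContinuousOn v2 (Icc lo hi)) {lam : ℝ} (hlam : 0 < lam)
    (bwv : ∀ x ∈ Icc lo hi, v2 x ^ 2 ≤ lam * (1 / 16 - w x ^ 2))
    {U : Fld n} (hU : ∀ i j x, U i j x = _root_.cfc v (Mx ζ x) i j) (C b : Mat n)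
    {Pn K1 : ℝ} (hPn : ∀ X : Mat n, hs (C * X) ≤ Pn * hs X) (hPn0 : 0 ≤ Pn) (hK0 : 0 ≤ K1)
    (hK1 : ∀ B : Fin n → Mat n, hs (∑ k, C * b * Tm ζ k * B k) ≤ K1 * ∑ k, hs (B k))
    {Sl : E n → ℝ} (cSl : CG Sl) {al be : ℝ}
    (hal : ∀ x, ∑ k, hs (KR v (fun t => w t + 1 / 4) (Mx ζ x) (Mx (dk k ζ) x)) ≤ al * Sl x)
    (hbe : ∀ x, ∑ k, hs (KR w v2 (Mx ζ x) (Mx (dk k ζ) x)) ≤ be * Sl x)
    {q0 q1 : ℝ} (hq0 : 0 < q0) (hq1 : 0 < q1) (hq : q0 + q1 = 1) :
    EE (fun x => ∑ k, hs (C * (Mx (dk k U) x - Mx (Yf ζ w b k) x))) +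
      EE (fun x => hs (C * Mx (Gf ζ w v2 b) x)) ≤
    1 / q0 * (1 / 3 * (EE (fun x => ∑ k, hs (C * Mx (dk k (ef ζ)) x)) -
        EE (fun x => hs (C * Mx (ef ζ) x))) +
        1 / 6 * ∑ k, hs (C * ((1 - b) * Tm ζ k)) +
        lam / 12 * hs (C * (1 - b * MTm ζ)) +
        lam / 12 * (K1 * EE (fun x => ∑ k, hs (Mx (dk k (ef ζ)) x)))) +
      1 / q1 * ((Pn * al + K1 * be) * EE Sl) := by
  have bw : ∀ x ∈ Icc lo hi, |w x| ≤ 1 / 4 := fun x hx => by
    have h1 := bwv x hx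
    have h2 : 0 ≤ lam * (1 / 16 - w x ^ 2) := (sq_nonneg _).trans h1
    have h3 : 0 ≤ 1 / 16 - w x ^ 2 := (mul_nonneg_iff_of_pos_left hlam).mp h2
    exact abs_le_of_sq_le_sq (by nlinarith) (by norm_num)
  have c1e : ∀ i j, C1 (ef ζ i j) := fun i j => c1_ef hζ i j
  have c1r : ∀ i j, C1 (Rf (ef ζ) i j) := fun i j => c1_Rs (c1e i j)
  have cW : CM (fun x => _root_.cfc w (Mx ζ x)) := cg_cfc hζ cw
  have cV2 : CM (fun x => _root_.cfc v2 (Mx ζ x)) := cg_cfc hζ cv2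
  have cp : ∀ k, CM (fun x => Mx (dk k (ef ζ)) x) := fun k => CM.mx fun i j => (c1e i j).cgp k
  have ce : CM (fun x => Mx (ef ζ) x) := CM.mx fun i j => (c1e i j).cg
  have crk : ∀ k, CM (fun x => Mx (dk k (Rf (ef ζ))) x) := fun k =>
    CM.mx fun i j => (c1r i j).cgp k
  have cr : CM (fun x => Mx (Rf (ef ζ)) x) := CM.mx fun i j => (c1r i j).cg
  have cζk : ∀ k, CM (fun x => Mx (dk k ζ) x) := fun k => CM.mx fun i j => (hζ.c i j).cgp k
  have cv1 : ContinuousOn (fun t => w t + 1 / 4) (Icc lo hi) := cw.add continuousOn_const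
  have c1U : ∀ i j, C1 (U i j) := fun i j => by
    have : U i j = fun x => _root_.cfc v (Mx ζ x) i j := funext (hU i j)
    rw [this]
    exact _root_.Crest.Agent.R253.SpecField321.c1_cfc hζ hv cv1 i j
  have cdU : ∀ k, CM (fun x => Mx (dk k U) x) := fun k => CM.mx fun i j => (c1U i j).cgp k
  have cV1 : CM (fun x => _root_.cfc (fun t => w t + 1 / 4) (Mx ζ x)) := cg_cfc hζ cv1
  have cKR0 : ∀ k, CM (fun x => KR v (fun t => w t + 1 / 4) (Mx ζ x) (Mx (dk k ζ) x)) := by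
    intro k
    have e : (fun x => KR v (fun t => w t + 1 / 4) (Mx ζ x) (Mx (dk k ζ) x)) =
        fun x => Mx (dk k U) x - Mx (dk k ζ) x * _root_.cfc (fun t => w t + 1 / 4) (Mx ζ x) := by
      funext x
      unfold KR
      congr 1
      ext i j
      have hUf : U i j = fun x => _root_.cfc v (Mx ζ x) i j := funext (hU i j)
      simp only [Mx, Matrix.of_apply, dk]
      rw [hUf]
      exact (_root_.Crest.Agent.R253.SpecField321.pd_cfc hζ hv x i j k).symm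
    rw [e]
    exact (cdU k).sub ((cζk k).mul cV1)
  have cKR1 : ∀ k, CM (fun x => KR w v2 (Mx ζ x) (Mx (dk k ζ) x)) := by
    intro k
    have e : (fun x => KR w v2 (Mx ζ x) (Mx (dk k ζ) x)) =
        fun x => Mx (dk k fun i j x => _root_.cfc w (Mx ζ x) i j) x -
          Mx (dk k ζ) x * _root_.cfc v2 (Mx ζ x) := by
      funext x
      unfold KR
      congr 1
      ext i j
      simp only [Mx, Matrix.of_apply, dk]
      exact (_root_.Crest.Agent.R253.SpecField321.pd_cfc hζ hw x i j k).symm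
    rw [e]
    exact (CM.mx fun i j => (_root_.Crest.Agent.R253.SpecField321.c1_cfc hζ hw cv2 i j).cgp k).sub
      ((cζk k).mul cV2)
  -- the pieces
  set P : E n → Mat n := fun x => ∑ k, C * b * Tm ζ k * Mx (dk k (ef ζ)) x with hP
  have cP : CM P := CM.sum fun k _ => (cp k).cmul _
  set S : Fin n → Mat n := fun k => C * ((1 - b) * Tm ζ k) with hS
  set Γ : E n → Mat n := fun x => -(C * (1 - b * MTm ζ)) + P x with hΓ
  have cΓ : CM Γ := (CM.const _).add cP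
  set a1 : Fin n → E n → Mat n := fun k x =>
    (C * Mx (dk k (ef ζ)) x + S k) * _root_.cfc w (Mx ζ x) +
        (1 / 4 : ℝ) • (C * (Mx (dk k (ef ζ)) x - (2 : ℝ) • Mx (dk k (Rf (ef ζ))) x)) with ha1
  set a2 : Fin n → E n → Mat n := fun k x =>
    C * KR v (fun t => w t + 1 / 4) (Mx ζ x) (Mx (dk k ζ) x) with ha2
  set g1 : E n → Mat n := fun x => (C * Mx (ef ζ) x + ∑ k, x k • S k) * _root_.cfc w (Mx ζ x) +
        Γ x * _root_.cfc v2 (Mx ζ x) -
        (1 / 4 : ℝ) • (C * (Mx (ef ζ) x - (2 : ℝ) • Mx (Rf (ef ζ)) x)) with hg1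
  set g2 : E n → Mat n := fun x => ∑ k, C * b * Tm ζ k * KR w v2 (Mx ζ x) (Mx (dk k ζ) x)
    with hg2
  have cL : CM (fun x : E n => ∑ k, x k • S k) := fun i j => by
    have e : (fun x : E n => (∑ k, x k • S k) i j) = fun x => ∑ k, x k * S k i j := by
      funext x; rw [Matrix.sum_apply]; rfl
    rw [e]
    exact CG.sum fun k _ => (cg_coord k).mulc (S k i j)
  have m1 : ∀ k, CM (a1 k) := fun k =>
    (((cp k).cmul C).add (CM.const (S k))).mul cW |>.add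
      ((((cp k).sub ((crk k).smul 2)).cmul C).smul _)
  have m2 : ∀ k, CM (a2 k) := fun k => (cKR0 k).cmul C
  have n1 : CM g1 := ((((ce.cmul C).add cL).mul cW).add (cΓ.mul cV2)).sub
    (((ce.sub (cr.smul 2)).cmul C).smul _)
  have n2 : CM g2 := CM.sum fun k _ => (cKR1 k).cmul _
  -- the splits
  have sL : ∀ x : E n, ∑ k, x k • S k = C * ((1 - b) * Lx ζ x) := fun x => by
    unfold Lx
    rw [Finset.mul_sum, Finset.mul_sum]
    exact Finset.sum_congr rfl fun k _ => by rw [Matrix.mul_smul, Matrix.mul_smul]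
  have sY : ∀ k x, C * (Mx (dk k U) x - Mx (Yf ζ w b k) x) = a1 k x + a2 k x := fun k x => by
    rw [split_Y hζ hv hU, ha1, ha2, hS]
    simp only [Matrix.add_mul, Matrix.mul_assoc]
    abel
  have sG : ∀ x, C * Mx (Gf ζ w v2 b) x = g1 x + g2 x := fun x => by
    rw [split_G, hg1, hg2]
    simp only [sL]
    rw [hΓ, hP]
    simp only [Matrix.add_mul, Matrix.neg_mul, Matrix.mul_assoc]
    abel
  -- two-term inequality
  have two : ∀ X Y : Mat n, hs (X + Y) ≤ 1 / q0 * hs X + 1 / q1 * hs Y := fun X Y => by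
    have h := hs_sum_le (Finset.univ : Finset (Fin 2)) ![q0, q1] (fun i _ => by
      fin_cases i <;> simp [hq0, hq1]) ![X, Y]
    simp only [Fin.sum_univ_two, Matrix.cons_val_zero, Matrix.cons_val_one, hq, one_mul] at h
    refine h.trans (le_of_eq ?_)
    ring
  have cY : ∀ k, CM (fun x => Mx (Yf ζ w b k) x) := fun k => CM.mx fun i j =>
      (c1_Y0 hζ hw cv2 b k i j).cg.add (((c1r i j).cgp k).smul _)
  have d1 : CG (fun x => ∑ k, hs (a1 k x)) := CG.sum fun k _ => (m1 k).hs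
  have d2 : CG (fun x => ∑ k, hs (a2 k x)) := CG.sum fun k _ => (m2 k).hs
  have iY : EE (fun x => ∑ k, hs (C * (Mx (dk k U) x - Mx (Yf ζ w b k) x))) ≤
      1 / q0 * EE (fun x => ∑ k, hs (a1 k x)) + 1 / q1 * EE (fun x => ∑ k, hs (a2 k x)) := by
    rw [← EE_smul, ← EE_smul, ← EE_add (d1.smul _) (d2.smul _)]
    refine EE_mono (CG.sum fun k _ => (((cdU k).sub (cY k)).cmul C).hs)
      ((d1.smul _).add (d2.smul _)) fun x => ?_
    rw [Finset.mul_sum, Finset.mul_sum, ← Finset.sum_add_distrib]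
    refine Finset.sum_le_sum fun k _ => ?_
    rw [sY]
    exact two _ _
  have iG : EE (fun x => hs (C * Mx (Gf ζ w v2 b) x)) ≤ 1 / q0 * EE (fun x => hs (g1 x)) +
      1 / q1 * EE (fun x => hs (g2 x)) := by
    have cG : CM (fun x => C * Mx (Gf ζ w v2 b) x) := by
      have : (fun x => C * Mx (Gf ζ w v2 b) x) = fun x => g1 x + g2 x := funext fun x => sG x
      rw [this]
      exact n1.add n2
    rw [← EE_smul, ← EE_smul, ← EE_add (n1.hs.smul _) (n2.hs.smul _)]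
    refine EE_mono cG.hs ((n1.hs.smul _).add (n2.hs.smul _)) fun x => ?_
    rw [sG]
    exact two _ _
  -- the bounds
  have B1 : EE (fun x => ∑ k, hs (a1 k x)) + EE (fun x => hs (g1 x)) ≤ _ :=
    main_le3 hζ h0 cw cv2 hlam bw bwv C S cΓ
  have B2a : EE (fun x => ∑ k, hs (a2 k x)) ≤ Pn * al * EE Sl := by
    rw [← EE_smul]
    refine EE_mono (CG.sum fun k _ => (m2 k).hs) (cSl.smul _) fun x => ?_
    calc ∑ k, hs (a2 k x) ≤ ∑ k, Pn * hs (KR v (fun t => w t + 1 / 4) (Mx ζ x) (Mx (dk k ζ) x)) :=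
          Finset.sum_le_sum fun k _ => hPn _
      _ = Pn * ∑ k, hs (KR v (fun t => w t + 1 / 4) (Mx ζ x) (Mx (dk k ζ) x)) := by
          rw [Finset.mul_sum]
      _ ≤ Pn * (al * Sl x) := mul_le_mul_of_nonneg_left (hal x) hPn0
      _ = Pn * al * Sl x := by ring
  have B2b : EE (fun x => hs (g2 x)) ≤ K1 * be * EE Sl := by
    rw [← EE_smul]
    refine EE_mono n2.hs (cSl.smul _) fun x => ?_
    calc hs (g2 x) ≤ K1 * ∑ k, hs (KR w v2 (Mx ζ x) (Mx (dk k ζ) x)) := hK1 _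
      _ ≤ K1 * (be * Sl x) := mul_le_mul_of_nonneg_left (hbe x) hK0
      _ = K1 * be * Sl x := by ring
  have B3 : lam * EE (fun x => hs (Γ x)) ≤ lam * (hs (C * (1 - b * MTm ζ)) +
      K1 * EE (fun x => ∑ k, hs (Mx (dk k (ef ζ)) x))) := by
    refine mul_le_mul_of_nonneg_left ?_ hlam.le
    have hP0 : ∀ i j, EE (fun x => P x i j) = 0 := fun i j => by
      have e : ∀ x, P x i j = ∑ k, ∑ q, (C * b * Tm ζ k) i q * pd k (ef ζ q j) x := fun x => by
        show (∑ k, C * b * Tm ζ k * Mx (dk k (ef ζ)) x) i j = _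
        rw [Matrix.sum_apply]
        refine Finset.sum_congr rfl fun k _ => ?_
        rw [Matrix.mul_apply]
        rfl
      rw [EE_congr e, EE_sum' _ fun k => CG.sum fun q _ => ((c1e q j).cgp k).smul _]
      refine Finset.sum_eq_zero fun k _ => ?_
      rw [EE_sum' _ fun q => ((c1e q j).cgp k).smul _]
      refine Finset.sum_eq_zero fun q _ => ?_
      rw [EE_smul]
      have : EE (pd k (ef ζ q j)) = 0 := integral_pd_eta (hζ.c q j) k
      rw [this, mul_zero]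
    have e1 : EE (fun x => hs (Γ x)) = hs (C * (1 - b * MTm ζ)) + EE (fun x => hs (P x)) := by
      rw [EE_hs_const_add cP hP0, hs_neg]
    rw [e1, ← EE_smul]
    refine add_le_add le_rfl (EE_mono cP.hs ((CG.sum fun k _ => (cp k).hs).smul _) fun x => hK1 _)
  have q0' : 0 < 1 / q0 := one_div_pos.mpr hq0
  have q1' : 0 < 1 / q1 := one_div_pos.mpr hq1
  have C2a := mul_le_mul_of_nonneg_left B2a q1'.le
  have C2b := mul_le_mul_of_nonneg_left B2b q1'.le
  have B1' : EE (fun x => ∑ k, hs (a1 k x)) + EE (fun x => hs (g1 x)) ≤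
      1 / 3 * (EE (fun x => ∑ k, hs (C * Mx (dk k (ef ζ)) x)) -
        EE (fun x => hs (C * Mx (ef ζ) x))) +
        1 / 6 * ∑ k, hs (C * ((1 - b) * Tm ζ k)) +
        lam / 12 * hs (C * (1 - b * MTm ζ)) +
        lam / 12 * (K1 * EE (fun x => ∑ k, hs (Mx (dk k (ef ζ)) x))) := by
    refine B1.trans ?_
    linarith
  have C1' := mul_le_mul_of_nonneg_left B1' q0'.le
  refine (add_le_add iY iG).trans ?_
  rw [mul_add (1 / q0) (EE _) (EE _)] at C1'
  linarith [C1', C2a, C2b]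

end field

end Crest.Agent.R253.DualR862
end
end

-- ▼ part R253/V3Tail_37
section

/-! # Row 253, helper37: the tails `|z| ≥ 4` of the barriers -/

open MeasureTheory Set Filter Topology Real

set_option linter.unusedSimpArgs false

namespace Crest.Agent.R253.Mills37
noncomputable section

/-- common structure for `z ≥ 4` -/
lemma rr_tail {z : ℝ} (hz : 4 ≤ z) : ∃ a b : ℝ, 0 ≤ a ∧ 0 ≤ b ∧ a + b = 2 ∧
    rr z * (z * z * (z * z + (4 + a) + 5) + 4 * (z * z + (4 + a))) =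
      3 * z * (z * z + (4 + a) + 5) := by
  have hz0 : 0 < z := by linarith
  have h5 := rn_rec 5 z
  have h4 := rn_rec 4 z
  have h3 := rn_rec 3 z
  have h2 := rn_rec 2 z
  have p6 := rn_pos 6 z
  have p5 := rn_pos 5 z
  have p4 := rn_pos 4 z
  have p3 := rn_pos 3 z
  have u6 := rn_le hz0 6
  have u5 := rn_le hz0 5
  rw [le_div_iff₀ hz0] at u6 u5
  norm_num at h5 h4 h3 h2 u6 u5
  rw [rn_two] at h2
  refine ⟨z * rn 5 z - 4, 6 - z * rn 5 z, ?_, by linarith, by ring, ?_⟩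
  · -- z r5 ≥ 4
    have e1 : z * rn 5 z * (z * z + z * rn 6 z) = 6 * (z * z) := by
      have : z * rn 5 z * (z * z + z * rn 6 z) = z * z * (rn 5 z * (z + rn 6 z)) := by ring
      rw [this, h5]; ring
    by_contra hc
    have hc := not_le.mp hc
    have e2 : z * rn 5 z < 4 := by linarith
    have e3 : 0 < z * z + z * rn 6 z := by positivity
    have e4 : z * rn 5 z * (z * z + z * rn 6 z) < 4 * (z * z + z * rn 6 z) :=
      mul_lt_mul_of_pos_right e2 e3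
    have e5 : z * rn 6 z ≤ 7 := by linarith
    nlinarith
  · set p := z * rn 5 z with hp
    have e1 : rn 4 z * (z * z + p) = 5 * z := by
      have : rn 4 z * (z * z + p) = z * (rn 4 z * (z + rn 5 z)) := by rw [hp]; ring
      rw [this, h4]; ring
    have e2 : rn 3 z * (z * (z * z + p + 5)) = 4 * (z * z + p) := by
      have : rn 3 z * (z * (z * z + p + 5)) = rn 3 z * (z * (z * z + p) + 5 * z) := by ring
      rw [this, ← e1]
      have : rn 3 z * (z * (z * z + p) + rn 4 z * (z * z + p)) =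
        (z * z + p) * (rn 3 z * (z + rn 4 z)) := by ring
      rw [this, h3]; ring
    have e3 : rr z * (z * z * (z * z + p + 5) + 4 * (z * z + p)) = 3 * z * (z * z + p + 5) := by
      rw [← e2]
      have : rr z * (z * z * (z * z + p + 5) + rn 3 z * (z * (z * z + p + 5))) =
        z * (z * z + p + 5) * (rr z * (z + rn 3 z)) := by ring
      rw [this, h2]; ring
    have e4 : (4 + (p - 4)) = p := by ring
    rw [e4]; exact e3

/-- numerator of `q2r` -/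
def nq2 (X N D : ℝ) : ℝ :=
  111 / 100 * (3 * X * N * (D + 3 * N) * (D * (X + 2) + 3 * X * N) - (X + 4) * D ^ 3
    + 9 * X * N ^ 2 * D) - 2 * (D * (X + 2) + 3 * X * N) * D ^ 2
lemma q2r_eq (z N D : ℝ) (hD : D ≠ 0) : q2r z (3 * z * N / D) * D ^ 3 = nq2 (z * z) N D := by
  unfold q2r nq2
  simp only
  field_simp
  ring

/-- the `λ`-part of `q3r` -/
def nL (X N D : ℝ) : ℝ :=
  (D * (X + 2) + 3 * X * N) * ((D + 3 * N) * 3 * (D - X * N) * (D * (X + 2) + 3 * X * N)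
    - ((X + 4) * D ^ 2 - 9 * X * N ^ 2) * 3 * N)
def nB (X N D : ℝ) : ℝ :=
  2 * (3 * X * N * D ^ 2 - 9 * X * N ^ 2 * D - (3 * X * N) ^ 2 * D - 3 * X * N * (9 * X * N ^ 2))
    * (D * (X + 2) + 3 * X * N)
  - 2 * (3 * X * N * (D * (X + 2) + 3 * X * N) + 3 * X * N * D + 9 * X * N ^ 2)
    * (3 * X * N * D + 9 * X * N ^ 2 - 2 * D ^ 2)
  + (D * (X + 2) + 3 * X * N) * ((2 * (D * (X + 2) + 3 * X * N) * D
    + ((X + 4) * D ^ 2 - 9 * X * N ^ 2)) * 3 * (D - X * N)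
    - 2 * (D * (X + 2) + 3 * X * N) * (9 * X * N ^ 2))
lemma q3r_eq_t (z N D : ℝ) (hD : D ≠ 0) :
    q3r true z (3 * z * N / D) * D ^ 4 = z / 20 * nL (z * z) N D - nB (z * z) N D := by
  unfold q3r nL nB
  simp only [if_true]
  field_simp
  ring
lemma q3r_eq_f (z N D : ℝ) (hD : D ≠ 0) :
    q3r false z (3 * z * N / D) * D ^ 4 = z / 20 * nL (z * z) N D + nB (z * z) N D := by
  unfold q3r nL nB
  simp only [Bool.false_eq_true, if_false]
  field_simp
  ring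

set_option maxHeartbeats 4000000 in
lemma nq2_pos (t a b : ℝ) (ht : 0 ≤ t) (ha : 0 ≤ a) (hb : 0 ≤ b) (hab : a + b = 2) :
    0 < nq2 (16+t) (16+t+(4+a)+5) ((16+t)*(16+t+(4+a)+5)+4*(16+t+(4+a))) := by
  have h : 400 * (nq2 (16+t) (16+t+(4+a)+5) ((16+t)*(16+t+(4+a)+5)+4*(16+t+(4+a)))) = 400 +
    (16642799950*b^3 + 52641201450*a^1*b^2 + 55460543850*a^2*b^1 
    + 19461812878*a^3 + 5804929800*t^1*b^3 + 18407407500*t^1*a^1*b^2 
    + 19455103152*t^1*a^2*b^1 + 6853677308*t^1*a^3 + 859551975*t^2*b^3 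
    + 2719022331*t^2*a^1*b^2 + 2867068341*t^2*a^2*b^1 + 1007741481*t^2*a^3 
    + 70228881*t^3*b^3 + 220769355*t^3*a^1*b^2 + 231311991*t^3*a^2*b^1 
    + 80777757*t^3*a^3 + 3424812*t^4*b^3 + 10667988*t^4*a^1*b^2 + 11074200*t^4*a^2*b^1 
    + 3831112*t^4*a^3 + 99732*t^5*b^3 + 307176*t^5*a^1*b^2 + 315288*t^5*a^2*b^1 
    + 107844*t^5*a^3 + 1605*t^6*b^3 + 4881*t^6*a^1*b^2 + 4947*t^6*a^2*b^1 
    + 1671*t^6*a^3 + 11*t^7*b^3 + 33*t^7*a^1*b^2 + 33*t^7*a^2*b^1 + 11*t^7*a^3 ) := by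
    have : b = 2 - a := by linarith
    subst this
    simp only [nq2, nL, nB]
    ring
  have h2 : 0 ≤ 16642799950*b^3 + 52641201450*a^1*b^2 + 55460543850*a^2*b^1 
    + 19461812878*a^3 + 5804929800*t^1*b^3 + 18407407500*t^1*a^1*b^2 
    + 19455103152*t^1*a^2*b^1 + 6853677308*t^1*a^3 + 859551975*t^2*b^3 
    + 2719022331*t^2*a^1*b^2 + 2867068341*t^2*a^2*b^1 + 1007741481*t^2*a^3 
    + 70228881*t^3*b^3 + 220769355*t^3*a^1*b^2 + 231311991*t^3*a^2*b^1 
    + 80777757*t^3*a^3 + 3424812*t^4*b^3 + 10667988*t^4*a^1*b^2 + 11074200*t^4*a^2*b^1 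
    + 3831112*t^4*a^3 + 99732*t^5*b^3 + 307176*t^5*a^1*b^2 + 315288*t^5*a^2*b^1 
    + 107844*t^5*a^3 + 1605*t^6*b^3 + 4881*t^6*a^1*b^2 + 4947*t^6*a^2*b^1 
    + 1671*t^6*a^3 + 11*t^7*b^3 + 33*t^7*a^1*b^2 + 33*t^7*a^2*b^1 + 11*t^7*a^3  := by positivity
  linarith

set_option maxHeartbeats 4000000 in
lemma nL_pos (t a b : ℝ) (ht : 0 ≤ t) (ha : 0 ≤ a) (hb : 0 ≤ b) (hab : a + b = 2) :
    0 < nL (16+t) (16+t+(4+a)+5) ((16+t)*(16+t+(4+a)+5)+4*(16+t+(4+a))) := by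
  have h : 16 * (nL (16+t) (16+t+(4+a)+5) ((16+t)*(16+t+(4+a)+5)+4*(16+t+(4+a)))) = 16 +
    (9562885919999*b^4 + 41649856991996*a^1*b^3 + 68023113350394*a^2*b^2 
    + 49374680613116*a^3*b^1 + 13439119587839*a^4 + 4053924936000*t^1*b^4 
    + 17500598348400*t^1*a^1*b^3 + 28328207284080*t^1*a^2*b^2 + 20377930218960*t^1*a^3*b^1 
    + 5496537264912*t^1*a^4 + 759944292975*t^2*b^4 + 3251136735540*t^2*a^1*b^3 
    + 5214987529290*t^2*a^2*b^2 + 3717246982164*t^2*a^3*b^1 + 993465449727*t^2*a^4 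
    + 82671028515*t^3*b^4 + 350438863140*t^3*a^1*b^3 + 556951702338*t^3*a^2*b^2 
    + 393327912132*t^3*a^3*b^1 + 104144691123*t^3*a^4 + 5750848215*t^4*b^4 
    + 24150751956*t^4*a^1*b^3 + 38024626770*t^4*a^2*b^2 + 26602394820*t^4*a^3*b^1 
    + 6977687103*t^4*a^4 + 265249107*t^5*b^4 + 1103396652*t^5*a^1*b^3 
    + 1720848690*t^5*a^2*b^2 + 1192541196*t^5*a^3*b^1 + 309840195*t^5*a^4 
    + 8110773*t^6*b^4 + 33416604*t^6*a^1*b^3 + 51618222*t^6*a^2*b^2 + 35430012*t^6*a^3*b^1 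
    + 9117621*t^6*a^4 + 158529*t^7*b^4 + 646812*t^7*a^1*b^3 + 989478*t^7*a^2*b^2 
    + 672636*t^7*a^3*b^1 + 171441*t^7*a^4 + 1797*t^8*b^4 + 7260*t^8*a^1*b^3 
    + 10998*t^8*a^2*b^2 + 7404*t^8*a^3*b^1 + 1869*t^8*a^4 + 9*t^9*b^4 + 36*t^9*a^1*b^3 
    + 54*t^9*a^2*b^2 + 36*t^9*a^3*b^1 + 9*t^9*a^4 ) := by
    have : b = 2 - a := by linarith
    subst this
    simp only [nq2, nL, nB]
    ring
  have h2 : 0 ≤ 9562885919999*b^4 + 41649856991996*a^1*b^3 + 68023113350394*a^2*b^2 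
    + 49374680613116*a^3*b^1 + 13439119587839*a^4 + 4053924936000*t^1*b^4 
    + 17500598348400*t^1*a^1*b^3 + 28328207284080*t^1*a^2*b^2 + 20377930218960*t^1*a^3*b^1 
    + 5496537264912*t^1*a^4 + 759944292975*t^2*b^4 + 3251136735540*t^2*a^1*b^3 
    + 5214987529290*t^2*a^2*b^2 + 3717246982164*t^2*a^3*b^1 + 993465449727*t^2*a^4 
    + 82671028515*t^3*b^4 + 350438863140*t^3*a^1*b^3 + 556951702338*t^3*a^2*b^2 
    + 393327912132*t^3*a^3*b^1 + 104144691123*t^3*a^4 + 5750848215*t^4*b^4 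
    + 24150751956*t^4*a^1*b^3 + 38024626770*t^4*a^2*b^2 + 26602394820*t^4*a^3*b^1 
    + 6977687103*t^4*a^4 + 265249107*t^5*b^4 + 1103396652*t^5*a^1*b^3 
    + 1720848690*t^5*a^2*b^2 + 1192541196*t^5*a^3*b^1 + 309840195*t^5*a^4 
    + 8110773*t^6*b^4 + 33416604*t^6*a^1*b^3 + 51618222*t^6*a^2*b^2 + 35430012*t^6*a^3*b^1 
    + 9117621*t^6*a^4 + 158529*t^7*b^4 + 646812*t^7*a^1*b^3 + 989478*t^7*a^2*b^2 
    + 672636*t^7*a^3*b^1 + 171441*t^7*a^4 + 1797*t^8*b^4 + 7260*t^8*a^1*b^3 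
    + 10998*t^8*a^2*b^2 + 7404*t^8*a^3*b^1 + 1869*t^8*a^4 + 9*t^9*b^4 + 36*t^9*a^1*b^3 
    + 54*t^9*a^2*b^2 + 36*t^9*a^3*b^1 + 9*t^9*a^4  := by positivity
  linarith

set_option maxHeartbeats 4000000 in
lemma nt_pos (t a b : ℝ) (ht : 0 ≤ t) (ha : 0 ≤ a) (hb : 0 ≤ b) (hab : a + b = 2) :
    0 < 4/20 * nL (16+t) (16+t+(4+a)+5) ((16+t)*(16+t+(4+a)+5)+4*(16+t+(4+a))) - nB (16+t) (16+t+(4+a)+5) ((16+t)*(16+t+(4+a)+5)+4*(16+t+(4+a))) := by
  have h : 80 * (4/20 * nL (16+t) (16+t+(4+a)+5) ((16+t)*(16+t+(4+a)+5)+4*(16+t+(4+a))) - nB (16+t) (16+t+(4+a)+5) ((16+t)*(16+t+(4+a)+5)+4*(16+t+(4+a)))) = 80 +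
    (13097466719995*b^4 + 52741543391980*a^1*b^3 + 79187655686370*a^2*b^2 
    + 52488174731500*a^3*b^1 + 12942943257595*a^4 + 5508571536000*t^1*b^4 
    + 22353992204400*t^1*a^1*b^3 + 33905744077680*t^1*a^2*b^2 + 22772380201680*t^1*a^3*b^1 
    + 5711752508112*t^1*a^4 + 1014995493225*t^2*b^4 + 4141063172340*t^2*a^1*b^3 
    + 6324757580430*t^2*a^2*b^2 + 4285393464804*t^2*a^3*b^1 + 1086684174897*t^2*a^4 
    + 107614570815*t^3*b^4 + 440493130620*t^3*a^1*b^3 + 675621474498*t^3*a^2*b^2 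
    + 460192722252*t^3*a^3*b^1 + 117449381943*t^3*a^4 + 7241370525*t^4*b^4 
    + 29679521436*t^4*a^1*b^3 + 45604768230*t^4*a^2*b^2 + 31136441100*t^4*a^3*b^1 
    + 7969826133*t^4*a^4 + 321032187*t^5*b^4 + 1314975132*t^5*a^1*b^3 
    + 2019737970*t^5*a^2*b^2 + 1378697916*t^5*a^3*b^1 + 352903035*t^5*a^4 
    + 9388443*t^6*b^4 + 38356524*t^6*a^1*b^3 + 58763322*t^6*a^2*b^2 + 40011132*t^6*a^3*b^1 
    + 10215891*t^6*a^4 + 174909*t^7*b^4 + 711252*t^7*a^1*b^3 + 1084518*t^7*a^2*b^2 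
    + 734916*t^7*a^3*b^1 + 186741*t^7*a^4 + 1887*t^8*b^4 + 7620*t^8*a^1*b^3 
    + 11538*t^8*a^2*b^2 + 7764*t^8*a^3*b^1 + 1959*t^8*a^4 + 9*t^9*b^4 + 36*t^9*a^1*b^3 
    + 54*t^9*a^2*b^2 + 36*t^9*a^3*b^1 + 9*t^9*a^4 ) := by
    have : b = 2 - a := by linarith
    subst this
    simp only [nq2, nL, nB]
    ring
  have h2 : 0 ≤ 13097466719995*b^4 + 52741543391980*a^1*b^3 + 79187655686370*a^2*b^2 
    + 52488174731500*a^3*b^1 + 12942943257595*a^4 + 5508571536000*t^1*b^4 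
    + 22353992204400*t^1*a^1*b^3 + 33905744077680*t^1*a^2*b^2 + 22772380201680*t^1*a^3*b^1 
    + 5711752508112*t^1*a^4 + 1014995493225*t^2*b^4 + 4141063172340*t^2*a^1*b^3 
    + 6324757580430*t^2*a^2*b^2 + 4285393464804*t^2*a^3*b^1 + 1086684174897*t^2*a^4 
    + 107614570815*t^3*b^4 + 440493130620*t^3*a^1*b^3 + 675621474498*t^3*a^2*b^2 
    + 460192722252*t^3*a^3*b^1 + 117449381943*t^3*a^4 + 7241370525*t^4*b^4 
    + 29679521436*t^4*a^1*b^3 + 45604768230*t^4*a^2*b^2 + 31136441100*t^4*a^3*b^1 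
    + 7969826133*t^4*a^4 + 321032187*t^5*b^4 + 1314975132*t^5*a^1*b^3 
    + 2019737970*t^5*a^2*b^2 + 1378697916*t^5*a^3*b^1 + 352903035*t^5*a^4 
    + 9388443*t^6*b^4 + 38356524*t^6*a^1*b^3 + 58763322*t^6*a^2*b^2 + 40011132*t^6*a^3*b^1 
    + 10215891*t^6*a^4 + 174909*t^7*b^4 + 711252*t^7*a^1*b^3 + 1084518*t^7*a^2*b^2 
    + 734916*t^7*a^3*b^1 + 186741*t^7*a^4 + 1887*t^8*b^4 + 7620*t^8*a^1*b^3 
    + 11538*t^8*a^2*b^2 + 7764*t^8*a^3*b^1 + 1959*t^8*a^4 + 9*t^9*b^4 + 36*t^9*a^1*b^3 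
    + 54*t^9*a^2*b^2 + 36*t^9*a^3*b^1 + 9*t^9*a^4  := by positivity
  linarith

set_option maxHeartbeats 4000000 in
lemma nf_pos (t a b : ℝ) (ht : 0 ≤ t) (ha : 0 ≤ a) (hb : 0 ≤ b) (hab : a + b = 2) :
    0 < 4/20 * nL (16+t) (16+t+(4+a)+5) ((16+t)*(16+t+(4+a)+5)+4*(16+t+(4+a))) + nB (16+t) (16+t+(4+a)+5) ((16+t)*(16+t+(4+a)+5)+4*(16+t+(4+a))) := by
  have h : 80 * (4/20 * nL (16+t) (16+t+(4+a)+5) ((16+t)*(16+t+(4+a)+5)+4*(16+t+(4+a))) + nB (16+t) (16+t+(4+a)+5) ((16+t)*(16+t+(4+a)+5)+4*(16+t+(4+a)))) = 80 +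
    (6028305119995*b^4 + 30558170591980*a^1*b^3 + 56858571014370*a^2*b^2 
    + 46261186494700*a^3*b^1 + 13935295918075*a^4 + 2599278336000*t^1*b^4 
    + 12647204492400*t^1*a^1*b^3 + 22750670490480*t^1*a^2*b^2 + 17983480236240*t^1*a^3*b^1 
    + 5281322021712*t^1*a^4 + 504893092725*t^2*b^4 + 2361210298740*t^2*a^1*b^3 
    + 4105217478150*t^2*a^2*b^2 + 3149100499524*t^2*a^3*b^1 + 900246724557*t^2*a^4 
    + 57727486215*t^3*b^4 + 260384595660*t^3*a^1*b^3 + 438281930178*t^3*a^2*b^2 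
    + 326463102012*t^3*a^3*b^1 + 90840000303*t^3*a^4 + 4260325905*t^4*b^4 
    + 18621982476*t^4*a^1*b^3 + 30444485310*t^4*a^2*b^2 + 22068348540*t^4*a^3*b^1 
    + 5985548073*t^4*a^4 + 209466027*t^5*b^4 + 891818172*t^5*a^1*b^3 
    + 1421959410*t^5*a^2*b^2 + 1006384476*t^5*a^3*b^1 + 266777355*t^5*a^4 
    + 6833103*t^6*b^4 + 28476684*t^6*a^1*b^3 + 44473122*t^6*a^2*b^2 + 30848892*t^6*a^3*b^1 
    + 8019351*t^6*a^4 + 142149*t^7*b^4 + 582372*t^7*a^1*b^3 + 894438*t^7*a^2*b^2 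
    + 610356*t^7*a^3*b^1 + 156141*t^7*a^4 + 1707*t^8*b^4 + 6900*t^8*a^1*b^3 
    + 10458*t^8*a^2*b^2 + 7044*t^8*a^3*b^1 + 1779*t^8*a^4 + 9*t^9*b^4 + 36*t^9*a^1*b^3 
    + 54*t^9*a^2*b^2 + 36*t^9*a^3*b^1 + 9*t^9*a^4 ) := by
    have : b = 2 - a := by linarith
    subst this
    simp only [nq2, nL, nB]
    ring
  have h2 : 0 ≤ 6028305119995*b^4 + 30558170591980*a^1*b^3 + 56858571014370*a^2*b^2 
    + 46261186494700*a^3*b^1 + 13935295918075*a^4 + 2599278336000*t^1*b^4 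
    + 12647204492400*t^1*a^1*b^3 + 22750670490480*t^1*a^2*b^2 + 17983480236240*t^1*a^3*b^1 
    + 5281322021712*t^1*a^4 + 504893092725*t^2*b^4 + 2361210298740*t^2*a^1*b^3 
    + 4105217478150*t^2*a^2*b^2 + 3149100499524*t^2*a^3*b^1 + 900246724557*t^2*a^4 
    + 57727486215*t^3*b^4 + 260384595660*t^3*a^1*b^3 + 438281930178*t^3*a^2*b^2 
    + 326463102012*t^3*a^3*b^1 + 90840000303*t^3*a^4 + 4260325905*t^4*b^4 
    + 18621982476*t^4*a^1*b^3 + 30444485310*t^4*a^2*b^2 + 22068348540*t^4*a^3*b^1 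
    + 5985548073*t^4*a^4 + 209466027*t^5*b^4 + 891818172*t^5*a^1*b^3 
    + 1421959410*t^5*a^2*b^2 + 1006384476*t^5*a^3*b^1 + 266777355*t^5*a^4 
    + 6833103*t^6*b^4 + 28476684*t^6*a^1*b^3 + 44473122*t^6*a^2*b^2 + 30848892*t^6*a^3*b^1 
    + 8019351*t^6*a^4 + 142149*t^7*b^4 + 582372*t^7*a^1*b^3 + 894438*t^7*a^2*b^2 
    + 610356*t^7*a^3*b^1 + 156141*t^7*a^4 + 1707*t^8*b^4 + 6900*t^8*a^1*b^3 
    + 10458*t^8*a^2*b^2 + 7044*t^8*a^3*b^1 + 1779*t^8*a^4 + 9*t^9*b^4 + 36*t^9*a^1*b^3 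
    + 54*t^9*a^2*b^2 + 36*t^9*a^3*b^1 + 9*t^9*a^4  := by positivity
  linarith

theorem q_tail_right {z : ℝ} (hz : 4 ≤ z) : 0 < q2r z (rr z) ∧ ∀ sg, 0 < q3r sg z (rr z) := by
  obtain ⟨a, b, ha, hb, hab, h⟩ := rr_tail hz
  have ht : 0 ≤ z * z - 16 := by nlinarith
  have e : z * z = 16 + (z * z - 16) := by ring
  generalize z * z - 16 = t at ht e
  have hN : (z * z + (4 + a) + 5) = (16+t+(4+a)+5) := by rw [e]
  have hDe : z * z * (z * z + (4 + a) + 5) + 4 * (z * z + (4 + a)) =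
    ((16+t)*(16+t+(4+a)+5)+4*(16+t+(4+a))) := by rw [e]
  have hD : 0 < ((16+t)*(16+t+(4+a)+5)+4*(16+t+(4+a))) := by positivity
  rw [hDe, hN] at h
  have hr : rr z = 3 * z * (16+t+(4+a)+5) / ((16+t)*(16+t+(4+a)+5)+4*(16+t+(4+a))) := by
    rw [eq_div_iff hD.ne']; exact h
  have hL := nL_pos t a b ht ha hb hab
  rw [hr]
  refine ⟨?_, ?_⟩
  · refine pos_of_mul_pos' (pow_pos hD 3) ?_
    rw [q2r_eq _ _ _ hD.ne', e]
    exact nq2_pos t a b ht ha hb hab
  · intro sg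
    refine pos_of_mul_pos' (pow_pos hD 4) ?_
    cases sg
    · rw [q3r_eq_f _ _ _ hD.ne', e]
      have := nf_pos t a b ht ha hb hab
      have h4 : 4 / 20 * nL (16+t) (16+t+(4+a)+5) ((16+t)*(16+t+(4+a)+5)+4*(16+t+(4+a))) ≤
        z / 20 * nL (16+t) (16+t+(4+a)+5) ((16+t)*(16+t+(4+a)+5)+4*(16+t+(4+a))) :=
        mul_le_mul_of_nonneg_right (by linarith) hL.le
      linarith
    · rw [q3r_eq_t _ _ _ hD.ne', e]
      have := nt_pos t a b ht ha hb hab
      have h4 : 4 / 20 * nL (16+t) (16+t+(4+a)+5) ((16+t)*(16+t+(4+a)+5)+4*(16+t+(4+a))) ≤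
        z / 20 * nL (16+t) (16+t+(4+a)+5) ((16+t)*(16+t+(4+a)+5)+4*(16+t+(4+a))) :=
        mul_le_mul_of_nonneg_right (by linarith) hL.le
      linarith

/-! ### the left tail -/


lemma q3s_left {y c : ℝ} (hy : 4 ≤ y) (hc : 0 ≤ c) (hc1 : c ≤ 1 / 100) (sg : Bool) :
    0 < q3s sg (-y) (y + c) := by
  have h2 : 16 ≤ y ^ 2 := by nlinarith
  have h3 : 64 ≤ y ^ 3 := by nlinarith
  have h5 : 1024 ≤ y ^ 5 := by nlinarith
  cases sg
  · have h : q3s false (-y) (y + c) = 1 / 20 * (y ^ 5 + 5 * y ^ 3 + (3 * y ^ 4 + 13 * y ^ 2 + 1) * c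
      + (3 * y ^ 3 + 10 * y) * c ^ 2 + (y ^ 2 + 2) * c ^ 3)
      + (6 - (y ^ 5 + 5 * y ^ 3 + 6 * y) * c - (4 * y ^ 4 + 16 * y ^ 2 + 7) * c ^ 2
        - (5 * y ^ 3 + 15 * y) * c ^ 3 - 2 * (y ^ 2 + 2) * c ^ 4) := by
      unfold q3s; simp only [Bool.false_eq_true, if_false]; ring
    rw [h]
    have c2 : c ^ 2 ≤ 1 / 100 * c := by nlinarith
    have c3 : c ^ 3 ≤ 1 / 10000 * c := by nlinarith [mul_nonneg hc hc]
    have c4 : c ^ 4 ≤ 1 / 1000000 * c := by
      have : c ^ 4 = c * c ^ 3 := by ring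
      nlinarith [mul_nonneg hc hc, pow_nonneg hc 3]
    have y0 : 0 < y := by linarith
    have b1 : (y ^ 5 + 5 * y ^ 3 + 6 * y) * c ≤ (y ^ 5 + 5 * y ^ 3 + 6 * y) * (1 / 100) :=
      mul_le_mul_of_nonneg_left hc1 (by positivity)
    have b2 : (4 * y ^ 4 + 16 * y ^ 2 + 7) * c ^ 2 ≤ (4 * y ^ 4 + 16 * y ^ 2 + 7) * (1 / 10000) :=
      mul_le_mul_of_nonneg_left (by nlinarith) (by positivity)
    have b3 : (5 * y ^ 3 + 15 * y) * c ^ 3 ≤ (5 * y ^ 3 + 15 * y) * (1 / 1000000) :=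
      mul_le_mul_of_nonneg_left (by nlinarith) (by positivity)
    have b4 : 2 * (y ^ 2 + 2) * c ^ 4 ≤ 2 * (y ^ 2 + 2) * (1 / 100000000) :=
      mul_le_mul_of_nonneg_left (by nlinarith) (by positivity)
    have g1 : 0 ≤ (3 * y ^ 4 + 13 * y ^ 2 + 1) * c := by positivity
    have g2 : 0 ≤ (3 * y ^ 3 + 10 * y) * c ^ 2 := by positivity
    have g3 : 0 ≤ (y ^ 2 + 2) * c ^ 3 := by positivity
    have k1 : 4 * y ^ 4 ≤ y ^ 5 := by
      have : y ^ 5 = y * y ^ 4 := by ring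
      rw [this]; exact mul_le_mul_of_nonneg_right hy (by positivity)
    have k2 : 4 * y ^ 2 ≤ y ^ 3 := by
      have : y ^ 3 = y * y ^ 2 := by ring
      rw [this]; exact mul_le_mul_of_nonneg_right hy (by positivity)
    have k3 : 16 * y ≤ y ^ 3 := by
      have : y ^ 3 = y ^ 2 * y := by ring
      rw [this]; exact mul_le_mul_of_nonneg_right h2 (by positivity)
    nlinarith
  · have h : q3s true (-y) (y + c) = 1 / 20 * (y ^ 5 + 5 * y ^ 3 + (3 * y ^ 4 + 13 * y ^ 2 + 1) * c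
      + (3 * y ^ 3 + 10 * y) * c ^ 2 + (y ^ 2 + 2) * c ^ 3)
      - (6 - (y ^ 5 + 5 * y ^ 3 + 6 * y) * c - (4 * y ^ 4 + 16 * y ^ 2 + 7) * c ^ 2
        - (5 * y ^ 3 + 15 * y) * c ^ 3 - 2 * (y ^ 2 + 2) * c ^ 4) := by
      unfold q3s; simp only [if_true]; ring
    rw [h]
    have g1 : 0 ≤ (3 * y ^ 4 + 13 * y ^ 2 + 1) * c := by positivity
    have g2 : 0 ≤ (3 * y ^ 3 + 10 * y) * c ^ 2 := by positivity
    have g3 : 0 ≤ (y ^ 2 + 2) * c ^ 3 := by positivity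
    have g4 : 0 ≤ (y ^ 5 + 5 * y ^ 3 + 6 * y) * c := by positivity
    have g5 : 0 ≤ (4 * y ^ 4 + 16 * y ^ 2 + 7) * c ^ 2 := by positivity
    have g6 : 0 ≤ (5 * y ^ 3 + 15 * y) * c ^ 3 := by positivity
    have g7 : 0 ≤ 2 * (y ^ 2 + 2) * c ^ 4 := by positivity
    linarith

end
end Crest.Agent.R253.Mills37
end

-- ▼ part R253/V3_37
section

/-! # Row 253, helper37: `v'' < (11/100) e`, `|v'''| < e/20` (`v = H0`, `e = ee`) -/

open MeasureTheory Set Filter Topology Real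

namespace Crest.Agent.R253.Mills37
open Crest.Agent.R307.IChk
noncomputable section

lemma mu_mono : Monotone mu := by
  refine monotone_of_deriv_nonneg (fun z => (mu_hasDerivAt z).differentiableAt) (fun z => ?_)
  rw [(mu_hasDerivAt z).deriv]
  exact (mul_pos (mu_pos z) (ee_pos z)).le

lemma mu_left {z : ℝ} (hz : z ≤ -4) : mu z ≤ 1 / 100 := by
  have h4 := enc_s3 (-4) (by norm_num) (by norm_num)
  have hq : |ee (-4) - 4| ≤ 1 / 100 := by
    have e1 : |qP css3 (-7) (-4) - 4| ≤ 1 / 200 := by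
      unfold qP css3; simp only [evI]; norm_num [abs_le]
    have hS : ((SC : ℤ) : ℝ) = 1073741824 := by norm_num
    rw [hS] at h4
    rw [abs_le] at *
    push_cast at h4
    constructor <;> linarith [h4.1, h4.2, e1.1, e1.2]
  have h := mu_mono hz
  rw [mu_eq (-4)] at h
  linarith [(abs_le.mp hq).2]


theorem H3_pos (z : ℝ) (sg : Bool) : 0 < (1 / 20) * (ee z * (3 - z * rr z) - cc z * rr z)
    + (if sg then -1 else 1) * Bf z := by
  rcases le_or_gt z 0 with hz | hz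
  · refine pos_of_mul_pos' (ww_pos z) ?_
    rw [H3_s]
    rcases le_or_gt z (-4) with h4 | h4
    · have := q3s_left (y := -z) (c := mu z) (by linarith) (mu_pos z).le (mu_left h4) sg
      have e : -z + mu z = ee z := by rw [mu_eq z]; ring
      rwa [neg_neg, e] at this
    rcases le_or_gt z (-3) with h3 | h3
    · cases sg
      · exact chk1_piece (q3s_mem false) chk_q3sm3 (by push_cast; linarith) (by push_cast; linarith)
          (enc_s3 z h4.le h3)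
      · exact chk1_piece (q3s_mem true) chk_q3sp3 (by push_cast; linarith) (by push_cast; linarith)
          (enc_s3 z h4.le h3)
    rcases le_or_gt z (-2) with h2 | h2
    · cases sg
      · exact chk1_piece (q3s_mem false) chk_q3sm2 (by push_cast; linarith) (by push_cast; linarith)
          (enc_s2 z h3.le h2)
      · exact chk1_piece (q3s_mem true) chk_q3sp2 (by push_cast; linarith) (by push_cast; linarith)
          (enc_s2 z h3.le h2)
    rcases le_or_gt z (-1) with h1 | h1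
    · cases sg
      · exact chk1_piece (q3s_mem false) chk_q3sm1 (by push_cast; linarith) (by push_cast; linarith)
          (enc_s1 z h2.le h1)
      · exact chk1_piece (q3s_mem true) chk_q3sp1 (by push_cast; linarith) (by push_cast; linarith)
          (enc_s1 z h2.le h1)
    · cases sg
      · exact chk1_piece (q3s_mem false) chk_q3sm0 (by push_cast; linarith) (by push_cast; linarith)
          (enc_s0 z h1.le hz)
      · exact chk1_piece (q3s_mem true) chk_q3sp0 (by push_cast; linarith) (by push_cast; linarith)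
          (enc_s0 z h1.le hz)
  · refine pos_of_mul_pos' (pow_pos (GG_pos z) 3) ?_
    rw [H3_r]
    rcases le_or_gt 4 z with h4 | h4
    · exact (q_tail_right h4).2 sg
    rcases le_or_gt 3 z with h3 | h3
    · cases sg
      · exact chk1_piece (q3r_mem false) chk_q3rm0 (by push_cast; linarith) (by push_cast; linarith)
          (enc_r0 z h3 h4.le)
      · exact chk1_piece (q3r_mem true) chk_q3rp0 (by push_cast; linarith) (by push_cast; linarith)
          (enc_r0 z h3 h4.le)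
    rcases le_or_gt 2 z with h2 | h2
    · cases sg
      · exact chk1_piece (q3r_mem false) chk_q3rm1 (by push_cast; linarith) (by push_cast; linarith)
          (enc_r1 z h2 h3.le)
      · exact chk1_piece (q3r_mem true) chk_q3rp1 (by push_cast; linarith) (by push_cast; linarith)
          (enc_r1 z h2 h3.le)
    rcases le_or_gt 1 z with h1 | h1
    · cases sg
      · exact chk1_piece (q3r_mem false) chk_q3rm2 (by push_cast; linarith) (by push_cast; linarith)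
          (enc_r2 z h1 h2.le)
      · exact chk1_piece (q3r_mem true) chk_q3rp2 (by push_cast; linarith) (by push_cast; linarith)
          (enc_r2 z h1 h2.le)
    · cases sg
      · exact chk1_piece (q3r_mem false) chk_q3rm3 (by push_cast; linarith) (by push_cast; linarith)
          (enc_r3 z hz.le h1.le)
      · exact chk1_piece (q3r_mem true) chk_q3rp3 (by push_cast; linarith) (by push_cast; linarith)
          (enc_r3 z hz.le h1.le)

/-- **`v''' < e/20`** -/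
theorem v3_lt (z : ℝ) : v3 z < 1 / 20 * ee z := by
  refine v3_lt_of (by norm_num) (fun z => ?_) z
  have := H3_pos z true
  simp only [if_true] at this
  linarith
theorem v3_gt (z : ℝ) : -(1 / 20 * ee z) < v3 z := by
  refine v3_gt_of (by norm_num) (fun z => ?_) z
  have := H3_pos z false
  simp only [Bool.false_eq_true, if_false] at this
  linarith
theorem abs_v3_lt (z : ℝ) : |v3 z| < 1 / 20 * ee z := abs_lt.mpr ⟨v3_gt z, v3_lt z⟩

end
end Crest.Agent.R253.Mills37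
end

-- ▼ part R253/PairK_37
section

/-! # Row 253, helper37: the kernel constants that follow from `v'' < (11/100) e`, `|v'''| < e/20` -/

set_option autoImplicit false

noncomputable section

namespace Crest.Agent.R253.PairK37

open Crest.Agent.R253.Mills37 Crest.Agent.R253.SpecCalc999 Crest.Agent.R253.Rho195
  Crest.Agent.R253.HFn741 Crest.Agent.R253.Slack688 Crest.Agent.R253.Rho3

/-- `v'''` is the derivative of `v''` -/
theorem bb2_has (z : ℝ) : HasDerivAt bb2 (v3 z) z := v2_hasDerivAt z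
theorem abs_v3_le (z : ℝ) : |v3 z| ≤ 1 / 20 * ee z := (abs_v3_lt z).le

/-- **Cs** : `(v'[a,b] - v''(b))² ≤ (3/400) ρ(a,b)` -/
theorem ks_rho' (a b : ℝ) : (dd1 aa bb2 a b - bb2 b) ^ 2 ≤ 3 / 400 * rho a b := by
  have h := ker3' (f := aa) (f' := bb2) (f'' := v3) (C := 1 / 20) aa_has' bb2_has abs_v3_le a b
  have e : (3 : ℝ) * (1 / 20) ^ 2 = 3 / 400 := by norm_num
  rwa [e] at h


end Crest.Agent.R253.PairK37
end
end

-- ▼ part R253/TabF_167
section

/-!
# Row 253: THE frozen table (helper167)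

42's #32756 with the one `F2`-minorant `(a, e) = (555/1000, 6/1000)` (65's final DECISION 4).
-/

set_option autoImplicit false

noncomputable section

namespace Crest.Agent.R253.TabF167

/-- near weight -/
def b1 (x : ℝ) : ℝ :=
  if x ≤ 1 then -(3 / 50) * (1 - x) else if x ≤ 60 then 3 / 20 * (x - 1) / (x - 3 / 10) else 0
/-- far weight -/
def b2 (x : ℝ) : ℝ :=
  if x ≤ 2 then 0 else if x ≤ 60 then 21 / 25 * (x - 2) / (x + 9) else 21 / 25
/-- dual weight -/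
def A (x : ℝ) : ℝ := 1 - b1 x - b2 x
/-- multiplier of the dual field -/
def r (x : ℝ) : ℝ := 17 / (16 + x)
/-- minorant `al + ga z - ep z² ≤ hh z`, constant coefficient -/
def al (x : ℝ) : ℝ :=
  if x ≤ 5 then 363 / 1000 else if x ≤ 11 then 330 / 1000 else if x ≤ 60 then 295 / 1000 else 0
/-- minorant `al + ga z - ep z² ≤ hh z`, quadratic coefficient -/
def ep (x : ℝ) : ℝ :=
  if x ≤ 5 then 136 / 10000 else if x ≤ 11 then 7 / 1000 else if x ≤ 60 then 4 / 1000 else 0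

/-! the pieces -/

lemma b1_le1 {x : ℝ} (h : x ≤ 1) : b1 x = -(3 / 50) * (1 - x) := by simp [b1, h]
lemma b1_mid {x : ℝ} (h : 1 ≤ x) (h' : x ≤ 60) : b1 x = 3 / 20 * (x - 1) / (x - 3 / 10) := by
  rcases h.eq_or_lt with e | e
  · subst e; norm_num [b1]
  · simp [b1, not_le.2 e, h']
lemma b1_far {x : ℝ} (h : 60 < x) : b1 x = 0 := by
  have : ¬ x ≤ 1 := by linarith
  simp [b1, this, not_le.2 h]
lemma b2_le2 {x : ℝ} (h : x ≤ 2) : b2 x = 0 := by simp [b2, h]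
lemma b2_mid {x : ℝ} (h : 2 ≤ x) (h' : x ≤ 60) : b2 x = 21 / 25 * (x - 2) / (x + 9) := by
  rcases h.eq_or_lt with e | e
  · subst e; norm_num [b2]
  · simp [b2, not_le.2 e, h']
lemma b2_far {x : ℝ} (h : 60 < x) : b2 x = 21 / 25 := by
  have : ¬ x ≤ 2 := by linarith
  simp [b2, this, not_le.2 h]
lemma al_5 {x : ℝ} (h : x ≤ 5) : al x = 363 / 1000 := by simp [al, h]
lemma al_11 {x : ℝ} (h : 5 < x) (h' : x ≤ 11) : al x = 330 / 1000 := by
  simp [al, not_le.2 h, h']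
lemma al_60 {x : ℝ} (h : 11 < x) (h' : x ≤ 60) : al x = 295 / 1000 := by
  have : ¬ x ≤ 5 := by linarith
  simp [al, this, not_le.2 h, h']
lemma al_far {x : ℝ} (h : 60 < x) : al x = 0 := by
  have h1 : ¬ x ≤ 5 := by linarith
  have h2 : ¬ x ≤ 11 := by linarith
  simp [al, h1, h2, not_le.2 h]
lemma ep_5 {x : ℝ} (h : x ≤ 5) : ep x = 136 / 10000 := by simp [ep, h]
lemma ep_11 {x : ℝ} (h : 5 < x) (h' : x ≤ 11) : ep x = 7 / 1000 := by
  simp [ep, not_le.2 h, h']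
lemma ep_60 {x : ℝ} (h : 11 < x) (h' : x ≤ 60) : ep x = 4 / 1000 := by
  have : ¬ x ≤ 5 := by linarith
  simp [ep, this, not_le.2 h, h']
lemma ep_far {x : ℝ} (h : 60 < x) : ep x = 0 := by
  have h1 : ¬ x ≤ 5 := by linarith
  have h2 : ¬ x ≤ 11 := by linarith
  simp [ep, h1, h2, not_le.2 h]

/-- `Φ` of the table: 80's `log A + nf + ff - gf`, all constants put in
(`θ1 = 3/4, θ2 = 3/20, θ4 = 7/2, a5 = 0, e5 = 9/64; a = 555/1000, e = 6/1000, κ = 1/4, ep = 1/5,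
th = 11/25, th1 = 5/16; lam = 1/8, q0 = 20/23`) -/
def Phi (x : ℝ) : ℝ :=
  Real.log (A x) +
    (b1 x + b1 x * (x - 1) * (al x - ep x * x) - (3 / 4 / 2 + 3 / 20 / 2) * (b1 x ^ 2 * x) -
      7 / 2 / 2 * (0 * b1 x ^ 2 + 9 / 64 * (b1 x ^ 2 * x))) +
    (555 / 1000 * b2 x + (5 / 16 - 6 / 1000 - (1 + 1 / 5) * (1 / 4) ^ 2) * (b2 x * x) -
      5 / 16 / 2 * (b2 x ^ 2 * x) - (1 + 1 / 5) * (1 / 4) ^ 2 / (4 * (11 / 25)) * (b2 x ^ 2 * x)) -
    1 / (20 / 23) * (1 / 6 * (A x * (1 - r x) ^ 2 * x) + 1 / 8 / 12 * (A x * (1 - r x * x) ^ 2))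

end Crest.Agent.R253.TabF167
end
end

-- ▼ part R253/Main_321
section

/-!
# R253: MAIN on the data, all numbers as parameters (helper321)
-/

set_option autoImplicit false

open MeasureTheory ProbabilityTheory Real Set Filter Topology Matrix
open scoped ContDiff

noncomputable section

namespace Crest.Agent.R253.Main321

open Crest.Agent.R238.Gap Crest.Agent.R253.SpecCalc999 Crest.Agent.R253.Meh74
  Crest.Agent.R253.SpecField321 Crest.Agent.R253.S3
open Crest.Agent.R253.DualP973 (Tm ef Lx MTm Mx_eq dk_eq c1_ef Yf Gf)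
open Crest.Agent.R253.ErrT378 (Lam lam_ge)
open Crest.Agent.R253.Frame321 (Zf Uf Slk)
open Crest.Agent.R253.Mills37 (mu H0 kk ee)
open Crest.Agent.R253.Slack688 (aa H0_has)
open Crest.Agent.R253.ScalE688 (zf rho)
open Crest.Agent.R253.HFn741 (chi chi' hh bb2 chi_has aa_lt hh_pos)
open Crest.Agent.R253.Inst321
open Crest.Agent.R253.Stein378 (ky)
open Crest.Agent.R253.TrC80

variable {n : ℕ} {G : Fin n → E n → ℝ} {M N : Fld n} {V : E n → ℝ} {lo hi : ℝ}

lemma aa_cont : Continuous aa := Inst321.aa_cont'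

lemma H0_cont : Continuous H0 := continuous_iff_continuousAt.2 fun z => (H0_has z).continuousAt

lemma hh_cont : Continuous hh := by
  unfold hh
  exact aa_cont.add (H0_cont.mul bb2_cont)

lemma chi'_cont : Continuous chi' := by
  unfold chi'
  exact (aa_cont.pow 2).add hh_cont

lemma aa_pos (z : ℝ) : 0 < aa z := Crest.Agent.R253.Slack688.aa_pos z

/-- `|h(b) - v'(b')² - 1/8| ≤ 3/8` -/
lemma rho38 (hh2 : ∀ z, hh z < 1 / 2) (a b : ℝ) :
    |chi' b - aa b ^ 2 - aa a ^ 2 - 1 / 8| ≤ 3 / 8 := by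
  have h1 := hh_pos b
  have h2 := hh2 b
  have h3 := aa_pos a
  have h4 := aa_lt a
  have h5 : aa a ^ 2 ≤ 1 / 4 := by nlinarith
  have h6 : 0 ≤ aa a ^ 2 := sq_nonneg _
  have e : chi' b - aa b ^ 2 = hh b := by unfold chi'; ring
  rw [e, abs_le]
  constructor <;> linarith

/-- the majorant of `χ` : `c₄ = 3/8`, `a₅ = c₅ = 0`, `e₅ = 9/64` -/
lemma chi_maj (hh2 : ∀ z, hh z < 1 / 2) (z : ℝ) :
    (chi z - chi 0 - 3 / 8 * z) ^ 2 ≤ 0 + 0 * z + 9 / 64 * z ^ 2 := by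
  have hd : ∀ t : ℝ, HasDerivAt (fun t => chi t - 3 / 8 * t) (chi' t - 3 / 8) t := fun t => by
    have h1 := (chi_has t).sub ((hasDerivAt_id t).const_mul (3 / 8))
    have h2 : chi' t - 3 / 8 * 1 = chi' t - 3 / 8 := by ring
    rw [h2] at h1
    exact h1
  have hb : ∀ t : ℝ, |chi' t - 3 / 8| ≤ 3 / 8 := fun t => by
    have h1 := hh_pos t
    have h2 := hh2 t
    have h3 := aa_pos t
    have h4 := aa_lt t
    have h5 : aa t ^ 2 ≤ 1 / 4 := by nlinarith
    have h6 : 0 ≤ aa t ^ 2 := sq_nonneg _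
    have e : chi' t = aa t ^ 2 + hh t := rfl
    rw [e, abs_le]
    constructor <;> linarith
  have h := Convex.norm_image_sub_le_of_norm_hasDerivWithin_le
    (f := fun t => chi t - 3 / 8 * t) (f' := fun t => chi' t - 3 / 8) (C := 3 / 8)
    (s := univ) (fun t _ => (hd t).hasDerivWithinAt) (fun t _ => by
      rw [Real.norm_eq_abs]; exact hb t) convex_univ (mem_univ 0) (mem_univ z)
  rw [Real.norm_eq_abs, Real.norm_eq_abs] at h
  have e : chi z - 3 / 8 * z - (chi 0 - 3 / 8 * 0) = chi z - chi 0 - 3 / 8 * z := by ring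
  rw [e] at h
  have h2 : |chi z - chi 0 - 3 / 8 * z| ^ 2 ≤ (3 / 8 * |z - 0|) ^ 2 :=
    pow_le_pow_left₀ (abs_nonneg _) h 2
  rw [sq_abs, mul_pow, sq_abs] at h2
  nlinarith

/-- **near part on the data** -/
theorem nearD (D : Fin505.Dat G M N V lo hi) (hz : Fin505.Nz M) (hh2 : ∀ z, hh z < 1 / 2)
    {Cy bo bn θ1 θ2 θ3 θ4 : ℝ}
    (hy : ∀ a b, ky H0 aa chi chi' a b ^ 2 ≤ Cy * rho a b) (hC0 : 0 ≤ Cy)
    (hθ1 : 0 < θ1) (hθ2 : 0 < θ2) (hθ3 : 0 < θ3) (hθ4 : 0 < θ4) {b α γ ε : ℝ → ℝ}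
    (hbo : ∀ x, 0 ≤ x → b x ^ 2 ≤ bo ^ 2) (hbn : ∀ x, 0 ≤ x → b x ≤ bn) (hbn0 : 0 ≤ bn)
    (hbx : ∀ x, 0 ≤ x → 0 ≤ b x * (x - 1))
    (hm : ∀ x, 0 ≤ x → ∀ z, α x + γ x * z - ε x * z ^ 2 ≤ hh z) :
    TR (nf b α ε θ1 θ2 θ4 0 (9 / 64)) (MTm (Zf M)) - PW (nu b (3 / 8) (1 / 2) bo θ1 θ3) (Zf M) -
      HW (nh b ε θ4 (9 / 64) (3 / 8)) (Zf M) -
      (Cy / (2 * θ2) + 13 / 2000 / θ3 + bn * (13 / 500)) * EE (Slk M N) ≤
      Lam FF H0 aa (Zf M) (_root_.cfc b (MTm (Zf M))) :=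
  nearR (mfZ D) (fun i j => hz i j) (χ := chi) (χ1 := chi') (c := 1 / 8) (c3 := chi 0) (c5 := 0)
    (fun z _ => H0_has z) aa_cont.continuousOn
    (fun z _ => chi_has z) chi'_cont.continuousOn (fun z _ => FF_eq z)
    (fun z _ => by unfold chi'; ring) (cgS D) (hSl D)
    (fun a _ b _ => hy a b) (fun a _ b _ => KI718.kw_num a b) (fun a _ b _ => KI718.ke_num a b)
    (fun a _ b _ => rho38 hh2 a b)
    (fun a _ => by
      rw [abs_of_pos (aa_pos a)]; exact (aa_lt a).le)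
    (fun z _ => chi_maj hh2 z) hC0 (by norm_num) (by norm_num) hθ1 hθ2 hθ3 hθ4
    hbo hbn hbn0 hbx hm

/-- `|v(x) - x/4 - (v(y) - y/4)| ≤ |x - y|/4` -/
lemma lip_v (x y : ℝ) : |(H0 x - 1 / 4 * x) - (H0 y - 1 / 4 * y)| ≤ 1 / 4 * |x - y| := by
  have hd : ∀ t : ℝ, HasDerivAt (fun t => H0 t - 1 / 4 * t) (aa t - 1 / 4) t := fun t => by
    have h1 := (H0_has t).sub ((hasDerivAt_id t).const_mul (1 / 4))
    have h2 : aa t - 1 / 4 * 1 = aa t - 1 / 4 := by ring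
    rw [h2] at h1
    exact h1
  have h := Convex.norm_image_sub_le_of_norm_hasDerivWithin_le
    (f := fun t => H0 t - 1 / 4 * t) (f' := fun t => aa t - 1 / 4) (C := 1 / 4)
    (s := univ) (fun t _ => (hd t).hasDerivWithinAt) (fun t _ => by
      rw [Real.norm_eq_abs]; exact abs_wq_le t) convex_univ (mem_univ y) (mem_univ x)
  rw [Real.norm_eq_abs, Real.norm_eq_abs] at h
  exact h

lemma FF_cont : Continuous FF := cont_F0

/-- **far part on the data** -/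
theorem farD (D : Fin505.Dat G M N V lo hi) (hz : Fin505.Nz M) {a c e bo bn ep th th1 : ℝ}
    (hF2 : ∀ z, a + c * z - e * z ^ 2 ≤ FF z - 3 / 2 * (z * H0 z))
    (hep : 0 < ep) (hth : 0 < th) (hth1 : 0 < th1) {b : ℝ → ℝ}
    (hb0 : ∀ x, 0 ≤ x → 0 ≤ b x) (hbo : ∀ x, 0 ≤ x → b x ^ 2 ≤ bo ^ 2)
    (hbn : ∀ x, 0 ≤ x → b x ≤ bn) (hbn0 : 0 ≤ bn) :
    TR (ff b a e (1 / 4) ep th th1) (MTm (Zf M)) - PW (fu b (1 / 4) ep th) (Zf M) -
      HW (fh b e (1 / 4) th th1) (Zf M) -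
      (1 + 1 / ep) * (13 / 500) * (bn + bo ^ 2 / (4 * th)) * EE (Slk M N) ≤
      Lam FF H0 aa (Zf M) (_root_.cfc b (MTm (Zf M))) := by
  have hZ := mfZ D
  have h0 : ∀ i j, EE (Zf M i j) = 0 := fun i j => hz i j
  have hS := (ts hZ).herm
  have hP := (ts hZ).psd
  have h1 := EO629.eo_ge hZ FF_cont.continuousOn (fun z _ => H0_has z) aa_cont.continuousOn
    (T := Tm (Zf M)) (fun k => LamI301.Tm_t hZ k) (fun k => rfl) (LamI301.EM_ζ h0) (cgS D)
    (hSl D) (κ := 1 / 4) (ε := ep) (θ := th) (θ1 := th1) (bo := bo) (bn := bn)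
    (fun p _ q _ => KI718.ke_num p q) (fun z _ => abs_wq_le z) lip_v
    (fun z => Odd451.go_nonneg z) (fun z _ => hF2 z) (by norm_num) hep hth hth1
    (b := _root_.cfc b (MTm (Zf M))) (psd_cfc hS fun x hx => hb0 x (spec_nonneg hP hx))
    (fun X => hs_cfc_le hS (fun x hx => hbo x (spec_nonneg hP hx)) X)
    (fun X => tr_le_const hP hbn X) hbn0
  refine farR_of hZ h0 (le_trans (le_of_eq ?_) h1)
  have e0 : ∑ k, Tm (Zf M) k * Tm (Zf M) k = MTm (Zf M) := rfl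
  rw [e0]
  ring

/-- **loss on the data** -/
theorem lossD (D : Fin505.Dat G M N V lo hi) (hz : Fin505.Nz M) {A r : ℝ → ℝ} {K1 Am q0 q1 : ℝ}
    (hA : ∀ x, 0 ≤ x → 0 ≤ A x) (hAm : ∀ x, 0 ≤ x → A x ≤ Am) (hAm0 : 0 ≤ Am) (hK0 : 0 ≤ K1)
    (hK : ∀ x, 0 ≤ x → A x * r x ^ 2 * x ≤ K1) (hq0 : 0 < q0) (hq1 : 0 < q1)
    (hq : q0 + q1 = 1) :
    LossF M A r ≤ TR (gf A r (1 / 8) q0) (MTm (Zf M)) + PW (gu A (1 / 8) q0 K1) (Zf M) +
      HW (gh A q0) (Zf M) +
      1 / q1 * (Am * (13 / 500) + K1 * (3 / 400)) * EE (Slk M N) := by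
  have hZ := mfZ D
  have h0 : ∀ i j, EE (Zf M i j) = 0 := fun i j => hz i j
  have hP := (ts hZ).psd
  have hv : ∀ x ∈ Icc (zf lo) (zf hi), HasDerivAt H0 (wq x + 1 / 4) x := fun x _ => by
    have e : wq x + 1 / 4 = aa x := by unfold wq; ring
    rw [e]; exact H0_has x
  have hk1 : ∀ a b : ℝ, (dd1 H0 (fun t => wq t + 1 / 4) a b - (fun t => wq t + 1 / 4) b) ^ 2 ≤
      13 / 500 * rho a b := fun a b => by
    rw [wq_add]; exact KI718.ke_num a b
  have hk2 : ∀ a b : ℝ, (dd1 wq bb2 a b - bb2 b) ^ 2 ≤ 3 / 400 * rho a b := fun a b => by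
    have e : dd1 wq bb2 a b = dd1 aa bb2 a b := by
      unfold dd1 wq
      split_ifs
      · rfl
      · congr 1; ring
    rw [e]; exact PairK37.ks_rho' a b
  have h1 := DualR862.dualR hZ h0 hv (fun x _ => wq_has x) wq_cont.continuousOn
    bb2_cont.continuousOn (lam := 1 / 8) (by norm_num)
    (fun x _ => by
      have := HSc741.bb2_sq_le x
      have e : aa x * (1 / 2 - aa x) = 1 / 16 - wq x ^ 2 := by unfold wq; ring
      rwa [e] at this)
    (U := Uf M) (fun i j x => congrFun (congrFun (LamI301.Mx_U D.mf x) i) j)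
    (CC A (MTm (Zf M))) (_root_.cfc r (MTm (Zf M))) (Pn := Am) (K1 := K1)
    (hs_CC_le hP hA hAm) hAm0 hK0 ((ts hZ).lossK hA hK0 hK) (cgS D)
    (sum_KR_le D (by norm_num) hk1) (sum_KR_le D (by norm_num) hk2) hq0 hq1 hq
  refine lossR_of hZ hA (k := 1 / q1 * (Am * (13 / 500) + K1 * (3 / 400))) ?_
  refine le_trans h1 (le_of_eq ?_)
  ring

end Crest.Agent.R253.Main321
end
end

-- ▼ part R253/Bud_321
section

/-!
# R253: the budget lines of the frozen table (helper321)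
-/

set_option autoImplicit false

noncomputable section

namespace Crest.Agent.R253.Bud321

open Crest.Agent.R253.TabF167 Crest.Agent.R253.TrC80

/-- the bounds of `b₁` -/
lemma b1_bd {x : ℝ} (h : 0 ≤ x) : -(3 / 50) ≤ b1 x ∧ b1 x ≤ 3 / 20 := by
  rcases le_total x 1 with h1 | h1
  · rw [b1_le1 h1]; constructor <;> linarith
  · rcases le_or_gt x 60 with h2 | h2
    · have e : 0 < x - 3 / 10 := by linarith
      rw [b1_mid h1 h2]
      constructor
      · exact le_trans (by norm_num) (div_nonneg (by linarith) e.le)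
      · rw [div_le_iff₀ e]; linarith
    · rw [b1_far h2]; constructor <;> norm_num

lemma b1_sign {x : ℝ} (h : 0 ≤ x) : 0 ≤ b1 x * (x - 1) := by
  rcases le_total x 1 with h1 | h1
  · rw [b1_le1 h1]; nlinarith [sq_nonneg (1 - x)]
  · rcases le_or_gt x 60 with h2 | h2
    · have e : 0 < x - 3 / 10 := by linarith
      rw [b1_mid h1 h2]
      exact mul_nonneg (div_nonneg (by linarith) e.le) (by linarith)
    · rw [b1_far h2]; simp

lemma b1_nonneg {x : ℝ} (h : 1 ≤ x) : 0 ≤ b1 x := by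
  rcases h.eq_or_lt with h1 | h1
  · rw [← h1, b1_le1 le_rfl]; norm_num
  · have := b1_sign (x := x) (by linarith)
    exact nonneg_of_mul_nonneg_left this (by linarith)

lemma b2_bd {x : ℝ} (_ : 0 ≤ x) : 0 ≤ b2 x ∧ b2 x ≤ 21 / 25 := by
  rcases le_total x 2 with h1 | h1
  · rw [b2_le2 h1]; constructor <;> norm_num
  · rcases le_or_gt x 60 with h2 | h2
    · have e : 0 < x + 9 := by linarith
      rw [b2_mid h1 h2]
      constructor
      · exact div_nonneg (by linarith) e.le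
      · rw [div_le_iff₀ e]; linarith
    · rw [b2_far h2]; constructor <;> norm_num

lemma A_eq (x : ℝ) : A x = 1 - b1 x - b2 x := rfl

lemma A_pos {x : ℝ} (h : 0 ≤ x) : 0 < A x := by
  have h1 := b1_bd h
  have h2 := b2_bd h
  rw [A_eq]; linarith

lemma A_le {x : ℝ} (h : 0 ≤ x) : A x ≤ 53 / 50 := by
  have h1 := b1_bd h
  have h2 := b2_bd h
  rw [A_eq]; linarith

/-- `K₁ = 12/5` -/
lemma hK {x : ℝ} (h : 0 ≤ x) : A x * r x ^ 2 * x ≤ 12 / 5 := by
  have e16 : 0 < 16 + x := by linarith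
  have er : A x * r x ^ 2 * x = A x * (289 * x) / (16 + x) ^ 2 := by
    unfold r; field_simp; norm_num; ring
  rw [er, div_le_iff₀ (by positivity)]
  rcases le_total x 2 with h2 | h2
  · have h3 : A x * (289 * x) ≤ 53 / 50 * (289 * x) :=
      mul_le_mul_of_nonneg_right (A_le h) (by linarith)
    nlinarith
  · rcases le_or_gt x 60 with h4 | h4
    · have e1 : 0 < x - 3 / 10 := by linarith
      have e2 : 0 < x + 9 := by linarith
      have eA : A x = ((x - 3 / 10) * (x + 9) - 3 / 20 * (x - 1) * (x + 9) -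
          21 / 25 * (x - 2) * (x - 3 / 10)) / ((x - 3 / 10) * (x + 9)) := by
        rw [A_eq, b1_mid (by linarith) h4, b2_mid h2 h4, eq_div_iff (mul_pos e1 e2).ne']
        have f1 : 3 / 20 * (x - 1) / (x - 3 / 10) * (x - 3 / 10) = 3 / 20 * (x - 1) :=
          div_mul_cancel₀ _ e1.ne'
        have f2 : 21 / 25 * (x - 2) / (x + 9) * (x + 9) = 21 / 25 * (x - 2) :=
          div_mul_cancel₀ _ e2.ne'
        linear_combination (-(x + 9)) * f1 + (-(x - 3 / 10)) * f2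
      rw [eA, div_mul_eq_mul_div, div_le_iff₀ (by positivity)]
      obtain ⟨t, rfl⟩ : ∃ t, x = 2 + t := ⟨x - 2, by ring⟩
      have ht : 0 ≤ t := by linarith
      nlinarith [mul_nonneg ht (sq_nonneg (t - 3)), sq_nonneg (t ^ 2 - 29), ht, sq_nonneg t]
    · have eA : A x = 1 - 0 - 21 / 25 := by rw [A_eq, b1_far h4, b2_far h4]
      rw [eA]
      nlinarith [sq_nonneg (x - 16)]

/-- (P) -/
lemma hP {x : ℝ} (h : 0 ≤ x) : 1 / 200 ≤ 1 - nu b1 (3 / 8) (1 / 2) (3 / 20) (3 / 4) (3 / 20) x -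
    fu b2 (1 / 4) (1 / 5) (11 / 25) x - gu A (1 / 8) (20 / 23) (12 / 5) x := by
  have h1 := b1_bd h
  have h2 := b2_bd h
  unfold nu fu gu
  rw [A_eq]
  rcases le_total (b1 x) 0 with h3 | h3
  · rw [max_eq_right h3]; nlinarith
  · rw [max_eq_left h3]; nlinarith

/-- the price of the slope -/
lemma ep_bd {x : ℝ} (h : 0 ≤ x) : b1 x * (x - 1) * ep x ≤ 816 / 1000000 ∨
    (1 ≤ x ∧ b1 x * (x - 1) * ep x ≤ 3 / 200) ∨
    (1 ≤ x ∧ 1 / 2 * b2 x ≥ 21 / 200 ∧ b1 x * (x - 1) * ep x ≤ 9 / 250) := by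
  have hb := b1_bd h
  have hs := b1_sign h
  rcases le_total x 1 with h1 | h1
  · left
    rw [b1_le1 h1, ep_5 (by linarith)]
    nlinarith
  · have hx : b1 x * (x - 1) ≤ 3 / 20 * (x - 1) :=
      mul_le_mul_of_nonneg_right hb.2 (by linarith)
    rcases le_or_gt x 5 with h2 | h2
    · right; left
      refine ⟨h1, ?_⟩
      rw [ep_5 h2]; nlinarith
    · rcases le_or_gt x 11 with h3 | h3
      · right; left
        refine ⟨h1, ?_⟩
        rw [ep_11 h2 h3]; nlinarith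
      · rcases le_or_gt x 60 with h4 | h4
        · right; right
          refine ⟨h1, ?_, ?_⟩
          · rw [b2_mid (by linarith) h4, ge_iff_le]
            have e : 0 < x + 9 := by linarith
            rw [← mul_div_assoc, le_div_iff₀ e]
            linarith
          · rw [ep_60 h3 h4]; nlinarith
        · left
          rw [b1_far h4]; norm_num

/-- (H) -/
lemma hH {x : ℝ} (h : 0 ≤ x) : 2 * (1 / 200) ≤
    2 * (1 - nu b1 (3 / 8) (1 / 2) (3 / 20) (3 / 4) (3 / 20) x -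
      fu b2 (1 / 4) (1 / 5) (11 / 25) x - gu A (1 / 8) (20 / 23) (12 / 5) x) -
    (1 + nh b1 ep (7 / 2) (9 / 64) (3 / 8) x + fh b2 (6 / 1000) (1 / 4) (11 / 25) (5 / 16) x +
      gh A (20 / 23) x) := by
  have h1 := b1_bd h
  have h2 := b2_bd h
  have h3 := ep_bd h
  unfold nu fu gu nh fh gh
  rw [A_eq]
  have h22 : b2 x ^ 2 ≤ 21 / 25 * b2 x := by nlinarith
  rcases le_total x 1 with h0 | h0
  · have h4 : b1 x ≤ 0 := by rw [b1_le1 h0]; linarith
    have h5 : b1 x * (x - 1) * ep x ≤ 816 / 1000000 := by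
      rw [b1_le1 h0, ep_5 (by linarith)]
      nlinarith
    have h11 : b1 x ^ 2 ≤ 9 / 2500 := by nlinarith
    rw [max_eq_right h4]
    nlinarith
  · have h4 : 0 ≤ b1 x := b1_nonneg h0
    have h11 : b1 x ^ 2 ≤ 3 / 20 * b1 x := by nlinarith
    rw [max_eq_left h4]
    rcases h3 with h5 | ⟨-, h5⟩ | ⟨-, h6, h5⟩
    · nlinarith
    · nlinarith
    · nlinarith

/-- (S) -/
lemma hS : (1 / 25 / (2 * (3 / 20)) + 13 / 2000 / (3 / 20) + 3 / 20 * (13 / 500)) +
    (1 + 1 / (1 / 5)) * (13 / 500) * (21 / 25 + (21 / 25) ^ 2 / (4 * (11 / 25))) +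
    1 / (3 / 23) * (53 / 50 * (13 / 500) + 12 / 5 * (3 / 400)) ≤ (1 : ℝ) := by norm_num

/-- `Φ` is 80's combination -/
lemma Phi_eq (x : ℝ) : Phi x = Real.log (A x) +
    nf b1 al ep (3 / 4) (3 / 20) (7 / 2) 0 (9 / 64) x +
    ff b2 (555 / 1000) (6 / 1000) (1 / 4) (1 / 5) (11 / 25) (5 / 16) x -
    gf A r (1 / 8) (20 / 23) x := by
  unfold Phi nf ff gf
  ring

end Crest.Agent.R253.Bud321
end
end

-- ▼ part R253/MainT_321
section

/-!
# R253: MAIN with the frozen table (helper321)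
-/

set_option autoImplicit false

open MeasureTheory ProbabilityTheory Real Set Filter Topology Matrix
open scoped ContDiff

noncomputable section

namespace Crest.Agent.R253.Main321

open Crest.Agent.R238.Gap Crest.Agent.R253.SpecCalc999 Crest.Agent.R253.Meh74
  Crest.Agent.R253.SpecField321 Crest.Agent.R253.S3
open Crest.Agent.R253.Frame321 (Zf Uf Slk)
open Crest.Agent.R253.DualP973 (MTm)
open Crest.Agent.R253.Mills37 (H0)
open Crest.Agent.R253.HFn741 (hh)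
open Crest.Agent.R253.Inst321 (FF)
open Crest.Agent.R253.TrC80
open Crest.Agent.R253.TabF167 (b1 b2 A r al ep Phi)

variable {n : ℕ} {G : Fin n → E n → ℝ} {M N : Fld n} {V : E n → ℝ} {lo hi : ℝ}

/-- the three parabolas below `h`, chosen row by row -/
theorem par_rows
    (p1 : ∃ g : ℝ, ∀ z, 363 / 1000 + g * z - 136 / 10000 * z ^ 2 ≤ hh z)
    (p2 : ∃ g : ℝ, ∀ z, 330 / 1000 + g * z - 7 / 1000 * z ^ 2 ≤ hh z)
    (p3 : ∃ g : ℝ, ∀ z, 295 / 1000 + g * z - 4 / 1000 * z ^ 2 ≤ hh z) :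
    ∃ γ : ℝ → ℝ, ∀ x, 0 ≤ x → ∀ z, al x + γ x * z - ep x * z ^ 2 ≤ hh z := by
  have key : ∀ x : ℝ, ∃ g : ℝ, ∀ z, al x + g * z - ep x * z ^ 2 ≤ hh z := by
    intro x
    rcases le_or_gt x 5 with h | h
    · rw [TabF167.al_5 h, TabF167.ep_5 h]; exact p1
    · rcases le_or_gt x 11 with h2 | h2
      · rw [TabF167.al_11 h h2, TabF167.ep_11 h h2]; exact p2
      · rcases le_or_gt x 60 with h3 | h3
        · rw [TabF167.al_60 h2 h3, TabF167.ep_60 h2 h3]; exact p3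
        · rw [TabF167.al_far h3, TabF167.ep_far h3]
          exact ⟨0, fun z => by have := HFn741.hh_pos z; linarith⟩
  choose γ hγ using key
  exact ⟨γ, fun x _ => hγ x⟩

/-- **the combination with the frozen table** -/
theorem main_le (D : Fin505.Dat G M N V lo hi) (hz : Fin505.Nz M)
    (p1 : ∃ g : ℝ, ∀ z, 363 / 1000 + g * z - 136 / 10000 * z ^ 2 ≤ hh z)
    (p2 : ∃ g : ℝ, ∀ z, 330 / 1000 + g * z - 7 / 1000 * z ^ 2 ≤ hh z)
    (p3 : ∃ g : ℝ, ∀ z, 295 / 1000 + g * z - 4 / 1000 * z ^ 2 ≤ hh z)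
    (hF2 : ∃ c : ℝ, ∀ z, 555 / 1000 + c * z - 6 / 1000 * z ^ 2 ≤ FF z - 3 / 2 * (z * H0 z)) :
    1 / 200 * FinQ214.p2 M + TR Phi (MTm (Zf M)) ≤ DFun G M := by
  obtain ⟨γ, hγ⟩ := par_rows p1 p2 p3
  obtain ⟨c, hc⟩ := hF2
  exact comb D hz (A := A) (b1 := b1) (b2 := b2) (r := r)
    (fun x hx => Bud321.A_pos hx) (fun x _ => by rw [Bud321.A_eq]; ring)
    (nearD D hz HL718.hh_lt (Cy := 1 / 25) (bo := 3 / 20) (bn := 3 / 20) (θ1 := 3 / 4)
      (θ2 := 3 / 20) (θ3 := 3 / 20) (θ4 := 7 / 2) KY688.ky_rho (by norm_num) (by norm_num)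
      (by norm_num) (by norm_num) (by norm_num) (b := b1) (α := al) (γ := γ) (ε := ep)
      (fun x hx => by
        have := Bud321.b1_bd hx
        nlinarith [this.1, this.2])
      (fun x hx => (Bud321.b1_bd hx).2) (by norm_num) (fun x hx => Bud321.b1_sign hx) hγ)
    (farD D hz (bo := 21 / 25) (bn := 21 / 25) (ep := 1 / 5) (th := 11 / 25) (th1 := 5 / 16) hc
      (by norm_num) (by norm_num) (by norm_num) (b := b2) (fun x hx => (Bud321.b2_bd hx).1)
      (fun x hx => by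
        have := Bud321.b2_bd hx
        nlinarith [this.1, this.2])
      (fun x hx => (Bud321.b2_bd hx).2) (by norm_num))
    (lossD D hz (A := A) (r := r) (K1 := 12 / 5) (Am := 53 / 50) (q0 := 20 / 23) (q1 := 3 / 23)
      (fun x hx => (Bud321.A_pos hx).le) (fun x hx => Bud321.A_le hx) (by norm_num) (by norm_num)
      (fun x hx => Bud321.hK hx) (by norm_num) (by norm_num) (by norm_num))
    Bud321.hS (fun x _ => (Bud321.Phi_eq x).le) (fun x hx => Bud321.hP hx)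
    (fun x hx => Bud321.hH hx)

/-- **MAIN** -/
theorem mainN {c : ℝ} (hc : 0 < c) (hc2 : c ≤ 1 / 200)
    (p1 : ∃ g : ℝ, ∀ z, 363 / 1000 + g * z - 136 / 10000 * z ^ 2 ≤ hh z)
    (p2 : ∃ g : ℝ, ∀ z, 330 / 1000 + g * z - 7 / 1000 * z ^ 2 ≤ hh z)
    (p3 : ∃ g : ℝ, ∀ z, 295 / 1000 + g * z - 4 / 1000 * z ^ 2 ≤ hh z)
    (hF2 : ∃ c : ℝ, ∀ z, 555 / 1000 + c * z - 6 / 1000 * z ^ 2 ≤ FF z - 3 / 2 * (z * H0 z))
    (hPhi : ∀ x : ℝ, 0 ≤ x → c * ((1 - x) ^ 2 / (1 + x)) ≤ Phi x) (n : ℕ) :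
    Fin505.MainN n :=
  FinQ214.mainN_of_fun hc hPhi fun G M N V lo hi D hz => by
    have h1 := main_le D hz p1 p2 p3 hF2
    have h2 : c * FinQ214.p2 M ≤ 1 / 200 * FinQ214.p2 M :=
      mul_le_mul_of_nonneg_right hc2 FinQ214.p2_nonneg
    linarith

theorem mainQ {c : ℝ} (hc : 0 < c) (hc2 : c ≤ 1 / 200)
    (p1 : ∃ g : ℝ, ∀ z, 363 / 1000 + g * z - 136 / 10000 * z ^ 2 ≤ hh z)
    (p2 : ∃ g : ℝ, ∀ z, 330 / 1000 + g * z - 7 / 1000 * z ^ 2 ≤ hh z)
    (p3 : ∃ g : ℝ, ∀ z, 295 / 1000 + g * z - 4 / 1000 * z ^ 2 ≤ hh z)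
    (hF2 : ∃ c : ℝ, ∀ z, 555 / 1000 + c * z - 6 / 1000 * z ^ 2 ≤ FF z - 3 / 2 * (z * H0 z))
    (hPhi : ∀ x : ℝ, 0 ≤ x → c * ((1 - x) ^ 2 / (1 + x)) ≤ Phi x) (n : ℕ) :
    Fin505.MainQ n :=
  (mainN hc hc2 p1 p2 p3 hF2 hPhi n).toW.toQ

end Crest.Agent.R253.Main321
end
end

-- ▼ part R253/L7_167
section

/-!
# Row 253, (L7): the final one-variable inequality of the frozen table (helper167)
-/

set_option autoImplicit false

noncomputable section

namespace Crest.Agent.R253.L7x167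

open Crest.Agent.R253.TabF167 Crest.Agent.R253.L7P167

lemma loss_eq {x : ℝ} (hx : 0 ≤ x) (a : ℝ) :
    1 / (20 / 23) * (1 / 6 * (a * (1 - r x) ^ 2 * x) + 1 / 8 / 12 * (a * (1 - r x * x) ^ 2)) =
      23 / 20 * (a * (x - 1) ^ 2 / (6 * (16 + x))) := by
  unfold r
  have h : 16 + x ≠ 0 := by positivity
  field_simp
  ring

lemma b1_mid' {x : ℝ} (h : 1 ≤ x) (h' : x ≤ 60) : b1 x = 3 * (x - 1) / (2 * (10 * x - 3)) := by
  rw [b1_mid h h', div_eq_div_iff (by linarith) (by linarith)]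
  ring

lemma b2_mid' {x : ℝ} (h : 2 ≤ x) (h' : x ≤ 60) : b2 x = 21 * (x - 2) / (25 * (x + 9)) := by
  rw [b2_mid h h', div_eq_div_iff (by linarith) (by linarith)]
  ring

/-- **(L7)** -/
theorem L7 (x : ℝ) (hx : 0 ≤ x) : 1 / 200 * ((1 - x) ^ 2 / (1 + x)) ≤ Phi x := by
  have e0 : (1 - x) ^ 2 = (x - 1) ^ 2 := by ring
  rw [e0]
  unfold Phi
  rw [loss_eq hx]
  unfold A
  rcases le_or_gt x 1 with h1 | h1
  · have h := row0 x hx h1
    rw [b1_le1 h1, b2_le2 (by linarith), al_5 (by linarith), ep_5 (by linarith)]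
    refine h.trans (le_of_eq ?_)
    ring
  rcases le_or_gt x 2 with h2 | h2
  · have h := row1 x h1.le h2
    rw [b1_mid' h1.le (by linarith), b2_le2 h2, al_5 (by linarith), ep_5 (by linarith)]
    refine h.trans (le_of_eq ?_)
    ring
  rcases le_or_gt x 5 with h5 | h5
  · have h := row2 x h2.le h5
    rw [b1_mid' h1.le (by linarith), b2_mid' h2.le (by linarith), al_5 h5, ep_5 h5]
    refine h.trans (le_of_eq ?_)
    ring
  rcases le_or_gt x 11 with h6 | h6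
  · have h := row5 x h5.le h6
    rw [b1_mid' h1.le (by linarith), b2_mid' h2.le (by linarith), al_11 h5 h6, ep_11 h5 h6]
    refine h.trans (le_of_eq ?_)
    ring
  rcases le_or_gt x 60 with h7 | h7
  · have h := row11 x h6.le h7
    rw [b1_mid' h1.le h7, b2_mid' h2.le h7, al_60 h6 h7, ep_60 h6 h7]
    refine h.trans (le_of_eq ?_)
    ring
  · have h := row60 x h7.le
    rw [b1_far h7, b2_far h7, al_far h7, ep_far h7]
    refine h.trans (le_of_eq ?_)
    ring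

end Crest.Agent.R253.L7x167
end
end

-- ▼ part R253/MainF_321

/-!
# R253: MAIN (helper321): the frozen table with L7 (167), the parabolas of `h` (741), `F2` (711)
-/

set_option autoImplicit false

namespace Crest.Agent.R253.MainF321

open Crest.Agent.R253

/-- **MAIN** -/
theorem mainQ (n : ℕ) : Fin505.MainQ n :=
  Main321.mainQ (c := 1 / 200) (by norm_num) le_rfl
    ⟨720 / 10000, fun z => by have := HPar741.par_a z; linarith⟩
    ⟨650 / 10000, fun z => by have := HPar741.par_d z; linarith⟩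
    ⟨560 / 10000, fun z => by have := HPar741.par_f z; linarith⟩
    ⟨-(147 / 1000), fun z => F2n711.hF2_555b z⟩
    L7x167.L7 n

end Crest.Agent.R253.MainF321
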