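import Mathlib
import Crest.Agent.R253.Mills_37
import Crest.Agent.R253.SpecCalc_999

-- ▼ part R253/Rho_195
section

/-!
# Row 253, E-route (S1): the pair slack `ρ` and the two-index kernels (helper195)

`ρ x y = (k[x,y])² / (μ x μ y) - 1`, `k[x,y] = dd1 kk mu x y` = mean of `μ` over `[x,y]`.

* `rho_ge`  : `(log μ y - log μ x)² / 12 ≤ ρ x y`
* `kap1`    : `|v[x,y] - (v'x + v'y)/2| ≤ C/2 |log μ y - log μ x|` if `0 ≤ v'' ≤ C ee`
* `kap2`    : `|v'[x,y] - v'' x| ≤ C |log μ y - log μ x|` if `|v'''| ≤ C ee`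
* `kap1_sq`, `kap2_sq` : the same against `ρ`.
-/

set_option autoImplicit false

open Set

noncomputable section

namespace Crest.Agent.R253.Rho195

open Crest.Agent.R253.Mills37 Crest.Agent.R253.SpecCalc999

/-- the logarithm of the hazard -/
def lm (z : ℝ) : ℝ := Real.log (mu z)

lemma lm_hasDerivAt (z : ℝ) : HasDerivAt lm (ee z) z := by
  have h := (mu_hasDerivAt z).log (mu_pos z).ne'
  have e : mu z * ee z / mu z = ee z := by field_simp [(mu_pos z).ne']
  rw [e] at h
  exact h

lemma lm_strictMono : StrictMono lm :=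
  strictMono_of_hasDerivAt_pos lm_hasDerivAt ee_pos

lemma exp_lm (z : ℝ) : Real.exp (lm z) = mu z := Real.exp_log (mu_pos z)

lemma ee_antitone : Antitone ee := by
  apply antitone_of_hasDerivAt_nonpos (f' := fun z => mu z * ee z - 1) ee_hasDerivAt
  intro z
  have := mu_ee_lt_one z
  simp only [Pi.zero_apply]
  linarith

lemma deriv_lm : deriv lm = ee := funext fun z => (lm_hasDerivAt z).deriv

lemma lm_concave : ConcaveOn ℝ univ lm := by
  apply Antitone.concaveOn_univ_of_deriv (fun z => (lm_hasDerivAt z).differentiableAt)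
  rw [deriv_lm]; exact ee_antitone

/-- chord below `log μ` -/
lemma chord_le {x y t : ℝ} (hxy : x < y) (h1 : x ≤ t) (h2 : t ≤ y) :
    lm x + (t - x) / (y - x) * (lm y - lm x) ≤ lm t := by
  have hd : 0 < y - x := sub_pos.2 hxy
  have ha : (0:ℝ) ≤ (y - t) / (y - x) := div_nonneg (by linarith) hd.le
  have hb : (0:ℝ) ≤ (t - x) / (y - x) := div_nonneg (by linarith) hd.le
  have hab : (y - t) / (y - x) + (t - x) / (y - x) = 1 := by field_simp; ring
  have h := lm_concave.2 (mem_univ x) (mem_univ y) ha hb hab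
  simp only [smul_eq_mul] at h
  have e : (y - t) / (y - x) * x + (t - x) / (y - x) * y = t := by field_simp; ring
  rw [e] at h
  have e2 : lm x + (t - x) / (y - x) * (lm y - lm x)
      = (y - t) / (y - x) * lm x + (t - x) / (y - x) * lm y := by field_simp; ring
  rw [e2]; exact h

/-- mean of `μ` over `[x,y]` is at least the logarithmic mean of the end values -/
lemma kk_sub_ge {x y : ℝ} (hxy : x < y) :
    (y - x) * (mu y - mu x) / (lm y - lm x) ≤ kk y - kk x := by
  have hd : 0 < y - x := sub_pos.2 hxy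
  have hH : 0 < lm y - lm x := sub_pos.2 (lm_strictMono hxy)
  set H := lm y - lm x with hHdef
  let E : ℝ → ℝ := fun t => (y - x) / H * Real.exp (lm x + (t - x) / (y - x) * H)
  have hE : ∀ t, HasDerivAt E (Real.exp (lm x + (t - x) / (y - x) * H)) t := by
    intro t
    have h1 : HasDerivAt (fun t : ℝ => lm x + (t - x) / (y - x) * H) (1 / (y - x) * H) t := by
      have := ((((hasDerivAt_id t).sub_const x).div_const (y - x)).mul_const H).const_add (lm x)
      simpa using this
    have h2 := (h1.exp).const_mul ((y - x) / H)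
    have e4 : (y - x) / H * (Real.exp (lm x + (t - x) / (y - x) * H) * (1 / (y - x) * H))
        = Real.exp (lm x + (t - x) / (y - x) * H) := by
      have : (y - x) / H * (1 / (y - x) * H) = 1 := by field_simp
      calc _ = Real.exp (lm x + (t - x) / (y - x) * H) * ((y - x) / H * (1 / (y - x) * H)) := by ring
        _ = _ := by rw [this, mul_one]
    rw [e4] at h2
    exact h2
  have hmono : MonotoneOn (fun t => kk t - E t) (Icc x y) := by
    apply monotoneOn_of_hasDerivWithinAt_nonneg (f' := fun t => mu t -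
      Real.exp (lm x + (t - x) / (y - x) * H)) (convex_Icc x y)
    · exact fun t _ => ((kk_hasDerivAt t).sub (hE t)).continuousAt.continuousWithinAt
    · intro t ht
      exact ((kk_hasDerivAt t).sub (hE t)).hasDerivWithinAt
    · intro t ht
      rw [interior_Icc] at ht
      have := chord_le hxy ht.1.le ht.2.le
      have h3 := Real.exp_le_exp.2 this
      rw [exp_lm] at h3
      exact sub_nonneg.2 h3
  have h := hmono (left_mem_Icc.2 hxy.le) (right_mem_Icc.2 hxy.le) hxy.le
  have e1 : E x = (y - x) / H * mu x := by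
    simp only [E, sub_self, zero_div, zero_mul, add_zero, exp_lm]
  have e2 : E y = (y - x) / H * mu y := by
    have : lm x + (y - x) / (y - x) * H = lm y := by
      rw [div_self hd.ne', hHdef]; ring
    simp only [E, this, exp_lm]
  simp only [e1, e2] at h
  have e3 : (y - x) * (mu y - mu x) / H = (y - x) / H * mu y - (y - x) / H * mu x := by
    field_simp
  rw [e3]; linarith

lemma cosh_ge (u : ℝ) : 1 + u ^ 2 / 2 ≤ Real.cosh u := by
  have h1 : Real.cosh u = 1 + 2 * Real.sinh (u / 2) ^ 2 := by
    have h := Real.cosh_two_mul (u / 2)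
    have h2 := Real.cosh_sq (u / 2)
    have e : 2 * (u / 2) = u := by ring
    rw [e] at h
    rw [h, h2]; ring
  have h3 : (u / 2) ^ 2 ≤ Real.sinh (u / 2) ^ 2 := by
    rcases le_total 0 (u / 2) with h | h
    · exact pow_le_pow_left₀ h (Real.self_le_sinh_iff.2 h) 2
    · have h4 : 0 ≤ -(u / 2) := by linarith
      have h5 := Real.self_le_sinh_iff.2 h4
      rw [Real.sinh_neg] at h5
      have := pow_le_pow_left₀ h4 h5 2
      nlinarith
  rw [h1]; nlinarith

lemma sinh_ge {u : ℝ} (hu : 0 ≤ u) : u + u ^ 3 / 6 ≤ Real.sinh u := by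
  have hm : Monotone (fun t => Real.sinh t - (t + t ^ 3 / 6)) := by
    apply monotone_of_hasDerivAt_nonneg (f' := fun t => Real.cosh t - (1 + t ^ 2 / 2))
    · intro t
      have h1 : HasDerivAt (fun t : ℝ => t + t ^ 3 / 6) (1 + t ^ 2 / 2) t := by
        have := (hasDerivAt_id' t).add ((hasDerivAt_pow 3 t).div_const 6)
        have e : (1 + t ^ 2 / 2 : ℝ) = 1 + ((3 : ℕ) : ℝ) * t ^ (3 - 1) / 6 := by
          push_cast
          ring
        rw [e]
        exact this
      exact (Real.hasDerivAt_sinh t).sub h1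
    · intro t
      exact sub_nonneg.2 (cosh_ge t)
  have := hm hu
  simp at this
  linarith

/-- the pair slack -/
def rho (x y : ℝ) : ℝ := (dd1 kk mu x y) ^ 2 / (mu x * mu y) - 1

lemma rho_comm (x y : ℝ) : rho x y = rho y x := by
  unfold rho; rw [dd1_comm, mul_comm]

lemma rho_self (x : ℝ) : rho x x = 0 := by
  unfold rho dd1
  have := (mu_pos x).ne'
  simp only [if_true]
  field_simp
  ring

lemma rho_ge_lt {x y : ℝ} (hxy : x < y) : (lm y - lm x) ^ 2 / 12 ≤ rho x y := by
  have hd : 0 < y - x := sub_pos.2 hxy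
  have hH : 0 < lm y - lm x := sub_pos.2 (lm_strictMono hxy)
  set H := lm y - lm x with hHdef
  have hk := kk_sub_ge hxy
  rw [← hHdef] at hk
  have hmx := mu_pos x
  have hmy := mu_pos y
  -- the logarithmic mean against the geometric mean
  have hs : H / 2 + (H / 2) ^ 3 / 6 ≤ Real.sinh (H / 2) := sinh_ge (by linarith)
  set g := Real.exp ((lm x + lm y) / 2) with hg
  have hgp : 0 < g := Real.exp_pos _
  have hg2 : g ^ 2 = mu x * mu y := by
    rw [hg, ← Real.exp_nat_mul, ← exp_lm x, ← exp_lm y, ← Real.exp_add]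
    congr 1; push_cast; ring
  have hdiff : mu y - mu x = 2 * g * Real.sinh (H / 2) := by
    rw [Real.sinh_eq, hg, ← exp_lm x, ← exp_lm y]
    have e1 : Real.exp ((lm x + lm y) / 2) * Real.exp (H / 2) = Real.exp (lm y) := by
      rw [← Real.exp_add, hHdef]; congr 1; ring
    have e2 : Real.exp ((lm x + lm y) / 2) * Real.exp (-(H / 2)) = Real.exp (lm x) := by
      rw [← Real.exp_add, hHdef]; congr 1; ring
    rw [← e1, ← e2]; ring
  have hL : g * (1 + H ^ 2 / 24) ≤ (kk y - kk x) / (y - x) := by
    rw [le_div_iff₀ hd]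
    refine le_trans ?_ hk
    rw [hdiff, le_div_iff₀ hH]
    have : g * (H / 2 + (H / 2) ^ 3 / 6) ≤ g * Real.sinh (H / 2) :=
      mul_le_mul_of_nonneg_left hs hgp.le
    have h2 : (y - x) * (2 * (g * (H / 2 + (H / 2) ^ 3 / 6)))
        ≤ (y - x) * (2 * (g * Real.sinh (H / 2))) := by
      apply mul_le_mul_of_nonneg_left _ hd.le; linarith
    calc g * (1 + H ^ 2 / 24) * (y - x) * H
        = (y - x) * (2 * (g * (H / 2 + (H / 2) ^ 3 / 6))) := by ring
      _ ≤ _ := h2
      _ = _ := by ring
  have hdd : dd1 kk mu x y = (kk y - kk x) / (y - x) := by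
    unfold dd1
    rw [if_neg hxy.ne]
    have : x - y ≠ 0 := sub_ne_zero.2 hxy.ne
    have h3 : y - x ≠ 0 := hd.ne'
    field_simp
    ring
  unfold rho
  rw [hdd, ← hg2]
  have h0 : 0 ≤ g * (1 + H ^ 2 / 24) := by positivity
  have h1 := pow_le_pow_left₀ h0 hL 2
  have h2 : (1 + H ^ 2 / 24) ^ 2 ≤ ((kk y - kk x) / (y - x)) ^ 2 / g ^ 2 := by
    rw [le_div_iff₀ (by positivity)]
    calc (1 + H ^ 2 / 24) ^ 2 * g ^ 2 = (g * (1 + H ^ 2 / 24)) ^ 2 := by ring
      _ ≤ _ := h1
  nlinarith [sq_nonneg H, sq_nonneg (H ^ 2)]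

theorem rho_ge (x y : ℝ) : (lm y - lm x) ^ 2 / 12 ≤ rho x y := by
  rcases lt_trichotomy x y with h | h | h
  · exact rho_ge_lt h
  · subst h; rw [rho_self]; simp
  · rw [rho_comm]
    have := rho_ge_lt h
    calc (lm y - lm x) ^ 2 / 12 = (lm x - lm y) ^ 2 / 12 := by ring
      _ ≤ _ := this

theorem rho_nonneg (x y : ℝ) : 0 ≤ rho x y := le_trans (by positivity) (rho_ge x y)







end Crest.Agent.R253.Rho195
end
end

-- ▼ part R253/Rho3_718

/-!
# Row 253, E-route: one-sided two-index kernels cost `3 C² ρ` (helper718)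

`ker3` : `|f''| ≤ C ee  ⟹  (dd1 f f' x y - f' x)² ≤ 3 C² ρ x y` for all `x y`
(`kap2_sq` of `Rho_195` has `12 C²`).

With `A` = the mean of `lm = log μ` over `[x,y]`, `a = A - lm x`, `b = lm y - A` (`x < y`, `a ≥ b > 0`):
`rho_ge_a : a² ≤ 3 ρ x y`.
-/

set_option autoImplicit false

open Set

noncomputable section

namespace Crest.Agent.R253.Rho3

open Crest.Agent.R253.Mills37 Crest.Agent.R253.SpecCalc999 Crest.Agent.R253.Rho195

lemma lm_continuous : Continuous lm :=
  continuous_iff_continuousAt.2 fun z => (lm_hasDerivAt z).continuousAt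

/-- a primitive of `log μ` -/
def Pl (t : ℝ) : ℝ := ∫ s in (0:ℝ)..t, lm s

lemma Pl_hasDerivAt (t : ℝ) : HasDerivAt Pl (lm t) t :=
  (lm_continuous.integral_hasStrictDerivAt 0 t).hasDerivAt

/-- mean of `log μ` -/
def av (x y : ℝ) : ℝ := (Pl y - Pl x) / (y - x)

lemma av_mem {x y : ℝ} (hxy : x < y) : lm x < av x y ∧ av x y < lm y := by
  obtain ⟨c, hc, he⟩ := exists_hasDerivAt_eq_slope Pl lm hxy
    (fun z _ => (Pl_hasDerivAt z).continuousAt.continuousWithinAt) (fun z _ => Pl_hasDerivAt z)
  have h : av x y = lm c := he.symm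
  rw [h]
  exact ⟨lm_strictMono hc.1, lm_strictMono hc.2⟩

lemma av_ge {x y : ℝ} (hxy : x < y) : (lm x + lm y) / 2 ≤ av x y := by
  have hd : 0 < y - x := sub_pos.2 hxy
  set H := lm y - lm x with hH
  have hder : ∀ t, HasDerivAt (fun t => Pl t - (lm x * (t - x) + (t - x) ^ 2 / (2 * (y - x)) * H))
      (lm t - (lm x + (t - x) / (y - x) * H)) t := by
    intro t
    have h1 : HasDerivAt (fun t : ℝ => lm x * (t - x) + (t - x) ^ 2 / (2 * (y - x)) * H)
        (lm x + (t - x) / (y - x) * H) t := by
      have e1 := ((hasDerivAt_id' t).sub_const x)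
      have e2 := e1.const_mul (lm x)
      have e3 := ((e1.pow 2).div_const (2 * (y - x))).mul_const H
      have e4 := e2.add e3
      refine e4.congr_deriv ?_
      field_simp
      push_cast
      ring
    exact (Pl_hasDerivAt t).sub h1
  have hmono : MonotoneOn (fun t => Pl t - (lm x * (t - x) + (t - x) ^ 2 / (2 * (y - x)) * H))
      (Icc x y) := by
    apply monotoneOn_of_hasDerivWithinAt_nonneg
      (f' := fun t => lm t - (lm x + (t - x) / (y - x) * H)) (convex_Icc x y)
    · exact fun t _ => (hder t).continuousAt.continuousWithinAt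
    · intro t _
      exact (hder t).hasDerivWithinAt
    · intro t ht
      rw [interior_Icc] at ht
      exact sub_nonneg.2 (chord_le hxy ht.1.le ht.2.le)
  have h := hmono (left_mem_Icc.2 hxy.le) (right_mem_Icc.2 hxy.le) hxy.le
  simp only [sub_self, mul_zero] at h
  have e : lm x * (y - x) + (y - x) ^ 2 / (2 * (y - x)) * H = (y - x) * ((lm x + lm y) / 2) := by
    rw [hH]; field_simp; ring
  rw [e] at h
  unfold av
  rw [le_div_iff₀ hd]
  have e0 : (0:ℝ) ^ 2 / (2 * (y - x)) * H = 0 := by simp
  rw [e0] at h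
  linarith

/-- the mean of `μ` is at least the mean of `exp` of the linear function through the right end
value with the same mean -/
lemma kk_sub_ge' {x y : ℝ} (hxy : x < y) :
    (y - x) * (Real.exp (av x y) * (Real.sinh (lm y - av x y) / (lm y - av x y)))
      ≤ kk y - kk x := by
  have hd : 0 < y - x := sub_pos.2 hxy
  obtain ⟨hA1, hA2⟩ := av_mem hxy
  have hA3 := av_ge hxy
  set A := av x y with hA
  set b := lm y - A with hb
  have hbp : 0 < b := sub_pos.2 hA2
  -- the comparison line
  let l : ℝ → ℝ := fun t => lm y - 2 * b * ((y - t) / (y - x))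
  let L : ℝ → ℝ := fun t => lm y * t + b * (y - t) ^ 2 / (y - x)
  let E : ℝ → ℝ := fun t => (y - x) / (2 * b) * Real.exp (l t)
  have hl : ∀ t, HasDerivAt l (2 * b / (y - x)) t := by
    intro t
    have h1 := ((((hasDerivAt_id' t).const_sub y).div_const (y - x)).const_mul (2 * b)).const_sub
      (lm y)
    refine h1.congr_deriv ?_
    ring
  have hL : ∀ t, HasDerivAt L (l t) t := by
    intro t
    have h1 := (hasDerivAt_id' t).const_mul (lm y)
    have h2 := ((((hasDerivAt_id' t).const_sub y).pow 2).const_mul b).div_const (y - x)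
    have h3 := h1.add h2
    refine h3.congr_deriv ?_
    simp only [l]
    push_cast
    ring
  have hE : ∀ t, HasDerivAt E (Real.exp (l t)) t := by
    intro t
    have h2 := ((hl t).exp).const_mul ((y - x) / (2 * b))
    have e4 : (y - x) / (2 * b) * (Real.exp (l t) * (2 * b / (y - x))) = Real.exp (l t) := by
      field_simp
    rw [e4] at h2
    exact h2
  have hlmono : ∀ s t, s ≤ t → l s ≤ l t := by
    intro s t hst
    have : (y - t) / (y - x) ≤ (y - s) / (y - x) := div_le_div_of_nonneg_right (by linarith) hd.le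
    simp only [l]
    nlinarith
  have hly : l y = lm y := by simp [l]
  have hlx : l x = A - b := by
    simp only [l]
    rw [div_self hd.ne', hb]; ring
  -- `g = lm - l`
  have hconc : ∀ s t u, s < t → t < u → lm t - l t ≥
      (u - t) / (u - s) * (lm s - l s) + (t - s) / (u - s) * (lm u - l u) := by
    intro s t u hst htu
    have hsu : 0 < u - s := by linarith
    have h := lm_concave.2 (mem_univ s) (mem_univ u)
      (div_nonneg (by linarith : (0:ℝ) ≤ u - t) hsu.le)
      (div_nonneg (by linarith : (0:ℝ) ≤ t - s) hsu.le)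
      (by field_simp; ring)
    simp only [smul_eq_mul] at h
    have e : (u - t) / (u - s) * s + (t - s) / (u - s) * u = t := by field_simp; ring
    rw [e] at h
    have e2 : l t = (u - t) / (u - s) * l s + (t - s) / (u - s) * l u := by
      simp only [l]; field_simp; ring
    rw [e2]; linarith
  -- crossing point
  obtain ⟨ts, hts1, hts2, hneg, hpos⟩ : ∃ ts, x ≤ ts ∧ ts ≤ y ∧
      (∀ t, x ≤ t → t ≤ ts → lm t - l t ≤ 0) ∧ (∀ t, ts ≤ t → t ≤ y → 0 ≤ lm t - l t) := by
    by_cases hex : ∃ t, x ≤ t ∧ t ≤ y ∧ 0 < lm t - l t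
    · obtain ⟨t1, h1, h2, h3⟩ := hex
      have hgx : lm x - l x ≤ 0 := by rw [hlx, hb]; linarith
      have hcont : ContinuousOn (fun t => lm t - l t) (Icc x t1) :=
        fun t _ => ((lm_hasDerivAt t).sub (hl t)).continuousAt.continuousWithinAt
      obtain ⟨ts, hts, hz⟩ := intermediate_value_Icc h1 hcont
        (show (0:ℝ) ∈ Icc (lm x - l x) (lm t1 - l t1) from ⟨hgx, h3.le⟩)
      simp only at hz
      have hlt : ts < t1 := by
        rcases lt_or_eq_of_le hts.2 with h | h
        · exact h
        · rw [h] at hz; linarith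
      refine ⟨ts, hts.1, hts.2.trans h2, ?_, ?_⟩
      · intro t htx htt
        rcases lt_or_eq_of_le htt with h | h
        · have hc := hconc t ts t1 h hlt
          rw [hz] at hc
          have hp : 0 < t1 - t := by linarith
          have c1 : 0 < (t1 - ts) / (t1 - t) := div_pos (by linarith) hp
          have c2 : 0 ≤ (ts - t) / (t1 - t) := div_nonneg (by linarith) hp.le
          by_contra hcon
          push Not at hcon
          have := mul_pos c1 hcon
          have := mul_nonneg c2 h3.le
          linarith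
        · rw [h, hz]
      · intro t htt hty
        rcases lt_or_eq_of_le htt with h | h
        · rcases lt_or_eq_of_le hty with h' | h'
          · have hc := hconc ts t y h h'
            rw [hz, hly, sub_self, mul_zero, mul_zero, add_zero] at hc
            exact hc
          · rw [h', hly, sub_self]
        · rw [← h, hz]
    · push Not at hex
      refine ⟨y, hxy.le, le_refl _, fun t h1 h2 => hex t h1 h2, ?_⟩
      intro t h1 h2
      have : t = y := le_antisymm h2 h1
      rw [this, hly, sub_self]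
  set es := Real.exp (l ts) with hes
  have hder : ∀ t, HasDerivAt (fun t => kk t - E t - es * (Pl t - L t))
      (mu t - Real.exp (l t) - es * (lm t - l t)) t := fun t =>
    ((kk_hasDerivAt t).sub (hE t)).sub (((Pl_hasDerivAt t).sub (hL t)).const_mul es)
  have hmono : MonotoneOn (fun t => kk t - E t - es * (Pl t - L t)) (Icc x y) := by
    apply monotoneOn_of_hasDerivWithinAt_nonneg
      (f' := fun t => mu t - Real.exp (l t) - es * (lm t - l t)) (convex_Icc x y)
    · exact fun t _ => (hder t).continuousAt.continuousWithinAt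
    · intro t _
      exact (hder t).hasDerivWithinAt
    · intro t ht
      rw [interior_Icc] at ht
      have h1 : Real.exp (l t) * (1 + (lm t - l t)) ≤ mu t := by
        have h2 := Real.add_one_le_exp (lm t - l t)
        have h3 : mu t = Real.exp (l t) * Real.exp (lm t - l t) := by
          rw [← Real.exp_add, ← exp_lm]; congr 1; ring
        rw [h3]
        exact mul_le_mul_of_nonneg_left (by linarith) (Real.exp_pos _).le
      have h4 : 0 ≤ (lm t - l t) * (Real.exp (l t) - es) := by
        rcases le_total t ts with h | h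
        · have h5 := hneg t ht.1.le h
          have h6 : Real.exp (l t) ≤ es := Real.exp_le_exp.2 (hlmono _ _ h)
          exact mul_nonneg_of_nonpos_of_nonpos h5 (by linarith)
        · have h5 := hpos t h ht.2.le
          have h6 : es ≤ Real.exp (l t) := Real.exp_le_exp.2 (hlmono _ _ h)
          exact mul_nonneg h5 (by linarith)
      nlinarith
  have h := hmono (left_mem_Icc.2 hxy.le) (right_mem_Icc.2 hxy.le) hxy.le
  simp only at h
  have e1 : Pl y - Pl x = (y - x) * A := by
    rw [hA]; unfold av; field_simp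
  have e2 : L y - L x = (y - x) * A := by
    simp only [L]
    rw [hb]; field_simp; ring
  have e3 : E y - E x = (y - x) * (Real.exp A * (Real.sinh b / b)) := by
    simp only [E]
    rw [hly, hlx, Real.sinh_eq]
    have h1 : Real.exp (lm y) = Real.exp A * Real.exp b := by
      rw [← Real.exp_add, hb]; congr 1; ring
    have h2 : Real.exp (A - b) = Real.exp A * Real.exp (-b) := by
      rw [← Real.exp_add]; congr 1
    rw [h1, h2]
    field_simp
  have e4 : es * (Pl y - L y) - es * (Pl x - L x) = 0 := by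
    have : (Pl y - L y) - (Pl x - L x) = 0 := by linarith
    rw [← mul_sub, this, mul_zero]
  linarith

/-- `a² ≤ 3 ρ` for `a = mean of log μ - log μ x`, `x < y` -/
theorem rho_ge_a {x y : ℝ} (hxy : x < y) : (av x y - lm x) ^ 2 ≤ 3 * rho x y := by
  have hd : 0 < y - x := sub_pos.2 hxy
  obtain ⟨hA1, hA2⟩ := av_mem hxy
  have hA3 := av_ge hxy
  have hk := kk_sub_ge' hxy
  set A := av x y with hA
  set b := lm y - A with hb
  set a := A - lm x with ha
  have hbp : 0 < b := sub_pos.2 hA2
  have hab : b ≤ a := by rw [hb, ha]; linarith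
  have hmx := mu_pos x
  have hmy := mu_pos y
  have hs : b + b ^ 3 / 6 ≤ Real.sinh b := sinh_ge hbp.le
  have hs2 : 1 + b ^ 2 / 6 ≤ Real.sinh b / b := by
    rw [le_div_iff₀ hbp]; nlinarith
  have hm : Real.exp A * (1 + b ^ 2 / 6) ≤ (kk y - kk x) / (y - x) := by
    rw [le_div_iff₀ hd]
    have := mul_le_mul_of_nonneg_left hs2 (mul_nonneg hd.le (Real.exp_pos A).le)
    calc Real.exp A * (1 + b ^ 2 / 6) * (y - x) = (y - x) * Real.exp A * (1 + b ^ 2 / 6) := by ring
      _ ≤ (y - x) * Real.exp A * (Real.sinh b / b) := this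
      _ = (y - x) * (Real.exp A * (Real.sinh b / b)) := by ring
      _ ≤ _ := hk
  have hdd : dd1 kk mu x y = (kk y - kk x) / (y - x) := by
    unfold dd1
    rw [if_neg hxy.ne]
    have : x - y ≠ 0 := sub_ne_zero.2 hxy.ne
    have h3 : y - x ≠ 0 := hd.ne'
    field_simp
    ring
  have hprod : mu x * mu y = Real.exp A ^ 2 * Real.exp (-(a - b)) := by
    rw [← exp_lm x, ← exp_lm y, ← Real.exp_nat_mul, ← Real.exp_add, ← Real.exp_add]
    congr 1
    rw [ha, hb]; push_cast; ring
  have h0 : 0 ≤ Real.exp A * (1 + b ^ 2 / 6) := by positivity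
  have h1 := pow_le_pow_left₀ h0 hm 2
  have h2 : Real.exp (a - b) * (1 + b ^ 2 / 6) ^ 2
      ≤ (dd1 kk mu x y) ^ 2 / (mu x * mu y) := by
    rw [hdd, hprod, le_div_iff₀ (by positivity)]
    have e : Real.exp (a - b) * Real.exp (-(a - b)) = 1 := by
      rw [← Real.exp_add]; simp
    calc Real.exp (a - b) * (1 + b ^ 2 / 6) ^ 2 * (Real.exp A ^ 2 * Real.exp (-(a - b)))
        = (Real.exp A * (1 + b ^ 2 / 6)) ^ 2 * (Real.exp (a - b) * Real.exp (-(a - b))) := by ring
      _ = (Real.exp A * (1 + b ^ 2 / 6)) ^ 2 := by rw [e, mul_one]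
      _ ≤ _ := h1
  have hdn : 0 ≤ a - b := by linarith
  have h3 : 1 + (a - b) + (a - b) ^ 2 / 2 ≤ Real.exp (a - b) :=
    Real.quadratic_le_exp_of_nonneg hdn
  have h4 : (1 + (a - b) + (a - b) ^ 2 / 2) * (1 + b ^ 2 / 3)
      ≤ Real.exp (a - b) * (1 + b ^ 2 / 6) ^ 2 := by
    apply mul_le_mul h3 _ (by positivity) (Real.exp_pos _).le
    nlinarith [sq_nonneg (b ^ 2)]
  have h5 : 1 + a ^ 2 / 3 ≤ (1 + (a - b) + (a - b) ^ 2 / 2) * (1 + b ^ 2 / 3) := by
    obtain ⟨d, hd'⟩ : ∃ d, d = a - b := ⟨_, rfl⟩
    have ea : a = b + d := by rw [hd']; ring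
    rw [← hd'] at hdn ⊢
    rw [ea]
    nlinarith [mul_nonneg hdn (sq_nonneg (b - 1)), mul_nonneg hdn hdn,
      mul_nonneg (mul_nonneg hdn hdn) (sq_nonneg b), mul_nonneg hdn (sq_nonneg b)]
  unfold rho
  linarith

/-- left base point -/
lemma ker_left {f f' f'' : ℝ → ℝ} {C : ℝ} (hf : ∀ z, HasDerivAt f (f' z) z)
    (hf' : ∀ z, HasDerivAt f' (f'' z) z) (h : ∀ z, |f'' z| ≤ C * ee z) {x y : ℝ} (hxy : x < y) :
    |(f y - f x) / (y - x) - f' x| ≤ C * (av x y - lm x) := by
  have hd : 0 < y - x := sub_pos.2 hxy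
  have m1 : Monotone (fun z => C * lm z - f' z) := by
    apply monotone_of_hasDerivAt_nonneg (f' := fun z => C * ee z - f'' z)
    · exact fun z => ((lm_hasDerivAt z).const_mul C).sub (hf' z)
    · intro z
      have := abs_le.1 (h z)
      simp only [Pi.zero_apply]; linarith [this.2]
  have m2 : Monotone (fun z => C * lm z + f' z) := by
    apply monotone_of_hasDerivAt_nonneg (f' := fun z => C * ee z + f'' z)
    · exact fun z => ((lm_hasDerivAt z).const_mul C).add (hf' z)
    · intro z
      have := abs_le.1 (h z)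
      simp only [Pi.zero_apply]; linarith [this.1]
  have key : ∀ σ : ℝ, (Monotone fun z => C * lm z - σ * f' z) →
      σ * (f y - f x - (y - x) * f' x) ≤ C * (Pl y - Pl x - (y - x) * lm x) := by
    intro σ hσ
    have hder : ∀ t, HasDerivAt (fun t => C * (Pl t - (t - x) * lm x) - σ * (f t - (t - x) * f' x))
        (C * (lm t - lm x) - σ * (f' t - f' x)) t := by
      intro t
      have e1 := ((hasDerivAt_id' t).sub_const x).mul_const (lm x)
      have e2 := ((hasDerivAt_id' t).sub_const x).mul_const (f' x)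
      have e3 := (((Pl_hasDerivAt t).sub e1).const_mul C).sub (((hf t).sub e2).const_mul σ)
      refine e3.congr_deriv ?_
      ring
    have hmono : MonotoneOn
        (fun t => C * (Pl t - (t - x) * lm x) - σ * (f t - (t - x) * f' x)) (Icc x y) := by
      apply monotoneOn_of_hasDerivWithinAt_nonneg
        (f' := fun t => C * (lm t - lm x) - σ * (f' t - f' x)) (convex_Icc x y)
      · exact fun t _ => (hder t).continuousAt.continuousWithinAt
      · intro t _
        exact (hder t).hasDerivWithinAt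
      · intro t ht
        rw [interior_Icc] at ht
        have := hσ ht.1.le
        simp only at this
        linarith
    have h := hmono (left_mem_Icc.2 hxy.le) (right_mem_Icc.2 hxy.le) hxy.le
    simp only [sub_self, zero_mul, sub_zero] at h
    linarith
  have k1 := key 1 (by simpa using m1)
  have k2 := key (-1) (by
    have : (fun z => C * lm z - (-1) * f' z) = fun z => C * lm z + f' z := by
      funext z; ring
    rw [this]; exact m2)
  have eA : Pl y - Pl x - (y - x) * lm x = (y - x) * (av x y - lm x) := by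
    unfold av; field_simp
  have ef : (f y - f x) / (y - x) - f' x = (f y - f x - (y - x) * f' x) / (y - x) := by
    field_simp
  rw [eA] at k1 k2
  rw [ef, abs_le]
  constructor
  · rw [le_div_iff₀ hd]; linarith
  · rw [div_le_iff₀ hd]; linarith

/-- right base point -/
lemma ker_right {f f' f'' : ℝ → ℝ} {C : ℝ} (hf : ∀ z, HasDerivAt f (f' z) z)
    (hf' : ∀ z, HasDerivAt f' (f'' z) z) (h : ∀ z, |f'' z| ≤ C * ee z) {x y : ℝ} (hxy : x < y) :
    |(f y - f x) / (y - x) - f' y| ≤ C * (lm y - av x y) := by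
  have hd : 0 < y - x := sub_pos.2 hxy
  have m1 : Monotone (fun z => C * lm z - f' z) := by
    apply monotone_of_hasDerivAt_nonneg (f' := fun z => C * ee z - f'' z)
    · exact fun z => ((lm_hasDerivAt z).const_mul C).sub (hf' z)
    · intro z
      have := abs_le.1 (h z)
      simp only [Pi.zero_apply]; linarith [this.2]
  have m2 : Monotone (fun z => C * lm z + f' z) := by
    apply monotone_of_hasDerivAt_nonneg (f' := fun z => C * ee z + f'' z)
    · exact fun z => ((lm_hasDerivAt z).const_mul C).add (hf' z)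
    · intro z
      have := abs_le.1 (h z)
      simp only [Pi.zero_apply]; linarith [this.1]
  have key : ∀ σ : ℝ, (Monotone fun z => C * lm z - σ * f' z) →
      σ * ((y - x) * f' y - (f y - f x)) ≤ C * ((y - x) * lm y - (Pl y - Pl x)) := by
    intro σ hσ
    have hder : ∀ t, HasDerivAt (fun t => C * (Pl t - (t - y) * lm y) - σ * (f t - (t - y) * f' y))
        (C * (lm t - lm y) - σ * (f' t - f' y)) t := by
      intro t
      have e1 := ((hasDerivAt_id' t).sub_const y).mul_const (lm y)
      have e2 := ((hasDerivAt_id' t).sub_const y).mul_const (f' y)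
      have e3 := (((Pl_hasDerivAt t).sub e1).const_mul C).sub (((hf t).sub e2).const_mul σ)
      refine e3.congr_deriv ?_
      ring
    have hmono : AntitoneOn
        (fun t => C * (Pl t - (t - y) * lm y) - σ * (f t - (t - y) * f' y)) (Icc x y) := by
      apply antitoneOn_of_hasDerivWithinAt_nonpos
        (f' := fun t => C * (lm t - lm y) - σ * (f' t - f' y)) (convex_Icc x y)
      · exact fun t _ => (hder t).continuousAt.continuousWithinAt
      · intro t _
        exact (hder t).hasDerivWithinAt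
      · intro t ht
        rw [interior_Icc] at ht
        have := hσ ht.2.le
        simp only at this
        linarith
    have h := hmono (left_mem_Icc.2 hxy.le) (right_mem_Icc.2 hxy.le) hxy.le
    simp only [sub_self, zero_mul, sub_zero] at h
    linarith
  have k1 := key 1 (by simpa using m1)
  have k2 := key (-1) (by
    have : (fun z => C * lm z - (-1) * f' z) = fun z => C * lm z + f' z := by
      funext z; ring
    rw [this]; exact m2)
  have eA : (y - x) * lm y - (Pl y - Pl x) = (y - x) * (lm y - av x y) := by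
    unfold av; field_simp
  have ef : (f y - f x) / (y - x) - f' y = -((y - x) * f' y - (f y - f x)) / (y - x) := by
    field_simp; ring
  rw [eA] at k1 k2
  rw [ef, abs_le]
  constructor
  · rw [le_div_iff₀ hd]; linarith
  · rw [div_le_iff₀ hd]; linarith

/-- **one-sided kernel** : `(f[x,y] - f' x)² ≤ 3 C² ρ x y` if `|f''| ≤ C ee` -/
theorem ker3 {f f' f'' : ℝ → ℝ} {C : ℝ} (hf : ∀ z, HasDerivAt f (f' z) z)
    (hf' : ∀ z, HasDerivAt f' (f'' z) z) (h : ∀ z, |f'' z| ≤ C * ee z) (x y : ℝ) :
    (dd1 f f' x y - f' x) ^ 2 ≤ 3 * C ^ 2 * rho x y := by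
  have hC : 0 ≤ C := by
    have h1 := h 0
    have h2 := ee_pos 0
    by_contra hc
    push Not at hc
    have : C * ee 0 < 0 := mul_neg_of_neg_of_pos hc h2
    linarith [abs_nonneg (f'' 0)]
  rcases lt_trichotomy x y with hxy | hxy | hxy
  · have hdd : dd1 f f' x y = (f y - f x) / (y - x) := by
      unfold dd1
      rw [if_neg hxy.ne]
      have : x - y ≠ 0 := sub_ne_zero.2 hxy.ne
      have h3 : y - x ≠ 0 := (sub_pos.2 hxy).ne'
      field_simp
      ring
    rw [hdd]
    have h1 := pow_le_pow_left₀ (abs_nonneg _) (ker_left hf hf' h hxy) 2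
    rw [sq_abs, mul_pow] at h1
    have h2 := mul_le_mul_of_nonneg_left (rho_ge_a hxy) (sq_nonneg C)
    linarith
  · subst hxy
    rw [rho_self]; unfold dd1; simp
  · have hdd : dd1 f f' x y = (f x - f y) / (x - y) := by
      unfold dd1
      rw [if_neg hxy.ne']
    rw [hdd, rho_comm]
    have h1 := pow_le_pow_left₀ (abs_nonneg _) (ker_right hf hf' h hxy) 2
    rw [sq_abs, mul_pow] at h1
    obtain ⟨hA1, hA2⟩ := av_mem hxy
    have hA3 := av_ge hxy
    have h3 : (lm x - av y x) ^ 2 ≤ (av y x - lm y) ^ 2 :=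
      pow_le_pow_left₀ (sub_nonneg.2 hA2.le) (by linarith) 2
    have h2 := mul_le_mul_of_nonneg_left (h3.trans (rho_ge_a hxy)) (sq_nonneg C)
    linarith

/-- the same with the base point on the right -/
theorem ker3' {f f' f'' : ℝ → ℝ} {C : ℝ} (hf : ∀ z, HasDerivAt f (f' z) z)
    (hf' : ∀ z, HasDerivAt f' (f'' z) z) (h : ∀ z, |f'' z| ≤ C * ee z) (x y : ℝ) :
    (dd1 f f' x y - f' y) ^ 2 ≤ 3 * C ^ 2 * rho x y := by
  rw [dd1_comm, rho_comm]
  exact ker3 hf hf' h y x

end Crest.Agent.R253.Rho3
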